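import Vale.Agent.P353.AN.E.Stmt
import Vale.Agent.P353.AN.B.Poi

/-! # P353, all `N`, block E: the normalised slice Gaussian near a ray (E-Bz, helper348)

`∫ exp(-⟨w, M w⟩) = det(M)^{-1/2} ∫ exp(-|w|²)` (`M = BᵀB`), hence the normalisation is smooth in the central point; the bounds are
proved near `y₀` and transported to scale `R` by `b(Ry, w) = R^{2 dm} b(y, √R w)`. -/

open MeasureTheory Filter Topology Matrix
open scoped ContDiff

namespace Vale.Agent.P353.Z.AE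

variable {d dh dm r ds : ℕ} {F : Type*} [NormedAddCommGroup F] [InnerProductSpace ℂ F]

section Bz1

/-- matrix of a linear map of the fibre -/
private noncomputable def ebzA (M : Wsp dm →L[ℝ] Wsp dm) : Matrix (Fin 8 × Fin dm) (Fin 8 × Fin dm) ℝ :=
  Matrix.of fun p q => M (EuclideanSpace.single q 1) p

private theorem ebz_mulVec (M : Wsp dm →L[ℝ] Wsp dm) (w : Wsp dm) (p : Fin 8 × Fin dm) :
    M w p = (ebzA M *ᵥ (w : Fin 8 × Fin dm → ℝ)) p := by
  have hv : w = ∑ q, w q • (EuclideanSpace.single q (1 : ℝ) : Wsp dm) := by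
    ext p
    simp [Pi.single_apply]
  conv_lhs => rw [hv]
  rw [map_sum, WithLp.ofLp_sum, Finset.sum_apply]
  simp only [map_smul, PiLp.smul_apply, smul_eq_mul, Matrix.mulVec, dotProduct, ebzA, Matrix.of_apply]
  exact Finset.sum_congr rfl fun q _ => mul_comm _ _

private theorem ebz_inner (M : Wsp dm →L[ℝ] Wsp dm) (w v : Wsp dm) :
    inner ℝ w (M v) = (w : Fin 8 × Fin dm → ℝ) ⬝ᵥ (ebzA M *ᵥ (v : Fin 8 × Fin dm → ℝ)) := by
  rw [PiLp.inner_apply]
  simp only [RCLike.inner_apply, conj_trivial, dotProduct, ebz_mulVec]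
  exact Finset.sum_congr rfl fun q _ => mul_comm _ _

private theorem ebz_gint (M : Wsp dm →L[ℝ] Wsp dm) (hs : ∀ v w, inner ℝ (M v) w = inner ℝ v (M w))
    {c : ℝ} (hc : 0 < c) (hM : ∀ w, c * ‖w‖ ^ 2 ≤ inner ℝ w (M w)) :
    0 < (ebzA M).det ∧ ∫ w : Wsp dm, Real.exp (-inner ℝ w (M w)) =
      (Real.sqrt (ebzA M).det)⁻¹ * ∫ w : Wsp dm, Real.exp (-‖w‖ ^ 2) := by
  have hps : (ebzA M).PosSemidef := by
    refine Matrix.PosSemidef.of_dotProduct_mulVec_nonneg ?_ fun x => ?_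
    · ext p q
      simp only [Matrix.conjTranspose_apply, ebzA, Matrix.of_apply, star_trivial]
      have h := hs (EuclideanSpace.single p 1) (EuclideanSpace.single q 1)
      rw [EuclideanSpace.inner_single_right, EuclideanSpace.inner_single_left] at h
      simpa using h
    · have h := hM (WithLp.toLp 2 x)
      rw [ebz_inner] at h
      simp only [star_trivial]
      exact le_trans (by positivity) h
  open scoped MatrixOrder in
  obtain ⟨B, hB⟩ := CStarAlgebra.nonneg_iff_eq_star_mul_self.mp hps.nonneg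
  have hB' : ebzA M = Bᵀ * B := by
    rw [hB, Matrix.star_eq_conjTranspose]
    congr 1
  have hdet : (ebzA M).det = B.det ^ 2 := by
    rw [hB', Matrix.det_mul, Matrix.det_transpose, sq]
  have hinj : ∀ v : Fin 8 × Fin dm → ℝ, ebzA M *ᵥ v = 0 → v = 0 := by
    intro v hv
    have h := hM (WithLp.toLp 2 v)
    rw [ebz_inner] at h
    change c * ‖WithLp.toLp 2 v‖ ^ 2 ≤ v ⬝ᵥ (ebzA M *ᵥ v) at h
    rw [hv, dotProduct_zero] at h
    have h2 : ‖(WithLp.toLp 2 v : Wsp dm)‖ ^ 2 ≤ 0 := by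
      by_contra h3
      have := mul_pos hc (not_le.1 h3)
      linarith
    have h3 : (WithLp.toLp 2 v : Wsp dm) = 0 := by
      have : ‖(WithLp.toLp 2 v : Wsp dm)‖ = 0 := by
        have := sq_nonneg ‖(WithLp.toLp 2 v : Wsp dm)‖
        exact pow_eq_zero_iff (two_ne_zero) |>.1 (le_antisymm h2 this)
      exact norm_eq_zero.1 this
    have h4 := congrArg (WithLp.ofLp) h3
    simpa using h4
  have hdne : (ebzA M).det ≠ 0 := by
    intro h0
    obtain ⟨v, hv0, hv⟩ := Matrix.exists_mulVec_eq_zero_iff.2 h0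
    exact hv0 (hinj v hv)
  have hBne : B.det ≠ 0 := by
    intro h0
    exact hdne (by rw [hdet, h0]; ring)
  have hdpos : 0 < (ebzA M).det := by
    rw [hdet]
    positivity
  refine ⟨hdpos, ?_⟩
  let T : Wsp dm →ₗ[ℝ] Wsp dm := Matrix.toEuclideanLin B
  have hTdet : LinearMap.det T = B.det := by
    simp only [T]
    rw [Matrix.toEuclideanLin_eq_toLin_orthonormal, LinearMap.det_toLin]
  have hT : ∀ w : Wsp dm, inner ℝ w (M w) = ‖T w‖ ^ 2 := by
    intro w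
    rw [ebz_inner, hB', ← Matrix.mulVec_mulVec, Matrix.dotProduct_mulVec, Matrix.vecMul_transpose,
      ← real_inner_self_eq_norm_sq, PiLp.inner_apply]
    simp only [T, dotProduct, Matrix.ofLp_toLpLin, Matrix.toLin'_apply, RCLike.inner_apply, conj_trivial]
  have hm : Measure.map T (volume : Measure (Wsp dm)) = ENNReal.ofReal |(LinearMap.det T)⁻¹| • volume :=
    Measure.map_linearMap_addHaar_eq_smul_addHaar volume (by rw [hTdet]; exact hBne)
  have hTc : Continuous T := T.continuous_of_finiteDimensional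
  calc ∫ w : Wsp dm, Real.exp (-inner ℝ w (M w)) = ∫ w : Wsp dm, Real.exp (-‖T w‖ ^ 2) := by
        simp only [hT]
    _ = ∫ w, Real.exp (-‖w‖ ^ 2) ∂(Measure.map T (volume : Measure (Wsp dm))) := by
        rw [integral_map hTc.aemeasurable]
        exact (Continuous.aestronglyMeasurable (by fun_prop))
    _ = _ := by
        rw [hm, integral_smul_measure, ENNReal.toReal_ofReal (abs_nonneg _), hTdet, hdet, Real.sqrt_sq_eq_abs,
          abs_inv, smul_eq_mul]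

private theorem ebz_iexp {c : ℝ} (hc : 0 < c) : Integrable fun w : Wsp dm => Real.exp (-c * ‖w‖ ^ 2) := by
  have h := GaussianFourier.integrable_cexp_neg_mul_sq_norm_add (V := Wsp dm) (b := (c : ℂ))
    (by simpa using hc) 0 (0 : Wsp dm)
  have h2 := h.re
  refine h2.congr (ae_of_all _ fun w => ?_)
  simp only [zero_mul, add_zero]
  have : (-(c : ℂ) * (‖w‖ : ℂ) ^ 2) = ((-c * ‖w‖ ^ 2 : ℝ) : ℂ) := by push_cast; ring
  rw [this, ← Complex.ofReal_exp, RCLike.re_to_complex, Complex.ofReal_re]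

/-- polynomial times Gaussian -/
private theorem ebz_ipow {c : ℝ} (hc : 0 < c) (k : ℕ) :
    Integrable fun w : Wsp dm => ‖w‖ ^ (2 * k) * Real.exp (-c * ‖w‖ ^ 2) := by
  refine ((ebz_iexp (dm := dm) (half_pos hc)).const_mul ((2 / c) ^ k * (k.factorial : ℝ))).mono'
    (Continuous.aestronglyMeasurable (by fun_prop)) (ae_of_all _ fun w => ?_)
  rw [Real.norm_of_nonneg (by positivity)]
  have h1 := Real.pow_div_factorial_le_exp (x := c / 2 * ‖w‖ ^ 2) (by positivity) k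
  have hk : (0 : ℝ) < k.factorial := by exact_mod_cast Nat.factorial_pos k
  rw [div_le_iff₀ hk, mul_pow, ← pow_mul] at h1
  have h2 : ‖w‖ ^ (2 * k) ≤ (2 / c) ^ k * (Real.exp (c / 2 * ‖w‖ ^ 2) * (k.factorial : ℝ)) := by
    have h3 := mul_le_mul_of_nonneg_left h1 (by positivity : (0 : ℝ) ≤ (2 / c) ^ k)
    rw [← mul_assoc, ← mul_pow] at h3
    have h4 : 2 / c * (c / 2) = 1 := by field_simp
    rwa [h4, one_pow, one_mul] at h3
  calc ‖w‖ ^ (2 * k) * Real.exp (-c * ‖w‖ ^ 2)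
      ≤ ((2 / c) ^ k * (Real.exp (c / 2 * ‖w‖ ^ 2) * (k.factorial : ℝ))) * Real.exp (-c * ‖w‖ ^ 2) :=
        mul_le_mul_of_nonneg_right h2 (Real.exp_pos _).le
    _ = (2 / c) ^ k * (k.factorial : ℝ) * (Real.exp (c / 2 * ‖w‖ ^ 2) * Real.exp (-c * ‖w‖ ^ 2)) := by ring
    _ = _ := by
        rw [← Real.exp_add]
        congr 2
        ring

end Bz1

section Bz2

variable {Y : Type*} [NormedAddCommGroup Y] [NormedSpace ℝ Y]

/-- smooth family of positive forms -/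
private structure EbzH (U : Set Y) (M : Y → (Wsp dm →L[ℝ] Wsp dm)) : Prop where
  opn : IsOpen U
  sm : ContDiffOn ℝ ∞ M U
  sy : ∀ y ∈ U, ∀ v w, inner ℝ (M y v) w = inner ℝ v (M y w)
  co : ∀ y ∈ U, ∃ c : ℝ, 0 < c ∧ ∀ w, c * ‖w‖ ^ 2 ≤ inner ℝ w (M y w)

/-- normalisation -/
private noncomputable def ebzN (M : Y → (Wsp dm →L[ℝ] Wsp dm)) (y : Y) : ℝ :=
  (Real.sqrt (∫ w : Wsp dm, Real.exp (-inner ℝ w (M y w))))⁻¹

/-- normalised Gaussian -/
private noncomputable def ebzG (M : Y → (Wsp dm →L[ℝ] Wsp dm)) (y : Y) (w : Wsp dm) : ℝ :=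
  ebzN M y * Real.exp (-(1 / 2) * inner ℝ w (M y w))

variable {U : Set Y} {M : Y → (Wsp dm →L[ℝ] Wsp dm)}

private theorem ebz_zpos (H : EbzH U M) {y : Y} (hy : y ∈ U) :
    0 < ∫ w : Wsp dm, Real.exp (-inner ℝ w (M y w)) := by
  obtain ⟨c, hc, h⟩ := H.co y hy
  exact (Poi.gauss_facts (M y) hc h).2.2.1

private theorem ebz_npos (H : EbzH U M) {y : Y} (hy : y ∈ U) : 0 < ebzN M y :=
  inv_pos.2 (Real.sqrt_pos.2 (ebz_zpos H hy))

private theorem ebz_det_sm (h : ContDiffOn ℝ ∞ M U) : ContDiffOn ℝ ∞ (fun y => (ebzA (M y)).det) U := by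
  simp only [Matrix.det_apply']
  refine ContDiffOn.sum fun σ _ => ?_
  refine contDiffOn_const.mul ?_
  refine contDiffOn_prod fun i _ => ?_
  exact (EuclideanSpace.proj (𝕜 := ℝ) (σ i)).contDiff.comp_contDiffOn (h.clm_apply contDiffOn_const)

private theorem ebz_n_sm (H : EbzH U M) : ContDiffOn ℝ ∞ (ebzN M) U := by
  have e : ∀ y ∈ U, ebzN M y = (Real.sqrt ((Real.sqrt (ebzA (M y)).det)⁻¹ *
      ∫ w : Wsp dm, Real.exp (-‖w‖ ^ 2)))⁻¹ := by
    intro y hy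
    obtain ⟨c, hc, h⟩ := H.co y hy
    unfold ebzN
    rw [(ebz_gint (M y) (H.sy y hy) hc h).2]
  have hd : ∀ y ∈ U, 0 < (ebzA (M y)).det := by
    intro y hy
    obtain ⟨c, hc, h⟩ := H.co y hy
    exact (ebz_gint (M y) (H.sy y hy) hc h).1
  have hK : 0 < ∫ w : Wsp dm, Real.exp (-‖w‖ ^ 2) := by
    have h := ebz_iexp (dm := dm) one_pos
    have h2 : (fun w : Wsp dm => Real.exp (-1 * ‖w‖ ^ 2)) = fun w => Real.exp (-‖w‖ ^ 2) := by
      funext w
      rw [neg_one_mul]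
    rw [h2] at h
    exact integral_exp_pos h
  refine ContDiffOn.congr ?_ e
  have h1 : ContDiffOn ℝ ∞ (fun y => (Real.sqrt (ebzA (M y)).det)⁻¹) U :=
    ((ebz_det_sm H.sm).sqrt fun y hy => (hd y hy).ne').inv fun y hy => (Real.sqrt_pos.2 (hd y hy)).ne'
  refine ((h1.mul contDiffOn_const).sqrt fun y hy => ?_).inv fun y hy => ?_
  · exact (mul_pos (inv_pos.2 (Real.sqrt_pos.2 (hd y hy))) hK).ne'
  · exact (Real.sqrt_pos.2 (mul_pos (inv_pos.2 (Real.sqrt_pos.2 (hd y hy))) hK)).ne'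

private theorem ebz_g_sm (H : EbzH U M) :
    ContDiffOn ℝ ∞ (fun p : Y × Wsp dm => ebzG M p.1 p.2) (U ×ˢ Set.univ) := by
  have h1 : ContDiffOn ℝ ∞ (fun p : Y × Wsp dm => ebzN M p.1) (U ×ˢ Set.univ) :=
    (ebz_n_sm H).comp contDiffOn_fst fun p hp => hp.1
  have h2 : ContDiffOn ℝ ∞ (fun p : Y × Wsp dm => M p.1) (U ×ˢ Set.univ) :=
    H.sm.comp contDiffOn_fst fun p hp => hp.1
  have h3 : ContDiffOn ℝ ∞ (fun p : Y × Wsp dm => M p.1 p.2) (U ×ˢ Set.univ) := h2.clm_apply contDiffOn_snd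
  exact h1.mul ((contDiffOn_const.mul (contDiffOn_snd.inner ℝ h3)).exp)

private theorem ebz_g_pos (H : EbzH U M) {y : Y} (hy : y ∈ U) (w : Wsp dm) : 0 < ebzG M y w :=
  mul_pos (ebz_npos H hy) (Real.exp_pos _)

omit [NormedAddCommGroup Y] [NormedSpace ℝ Y] in
private theorem ebz_g_sq (y : Y) (w : Wsp dm) :
    ebzG M y w ^ 2 = ebzN M y ^ 2 * Real.exp (-inner ℝ w (M y w)) := by
  unfold ebzG
  rw [mul_pow, ← Real.exp_nat_mul]
  congr 2
  push_cast
  ring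

private theorem ebz_norm (H : EbzH U M) {y : Y} (hy : y ∈ U) : ∫ w, ebzG M y w ^ 2 = 1 := by
  simp only [ebz_g_sq]
  rw [integral_const_mul]
  unfold ebzN
  rw [inv_pow, Real.sq_sqrt (ebz_zpos H hy).le]
  exact inv_mul_cancel₀ (ebz_zpos H hy).ne'

/-- local bounds -/
private structure EbzL (U : Set Y) (M : Y → (Wsp dm →L[ℝ] Wsp dm)) (y : Y) (c C : ℝ) : Prop where
  mem : y ∈ U
  low : ∀ w, c * ‖w‖ ^ 2 ≤ inner ℝ w (M y w)
  up : ‖M y‖ ≤ C
  dup : ‖fderiv ℝ M y‖ ≤ C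
  nup : ebzN M y ≤ C
  dn : ‖fderiv ℝ (ebzN M) y‖ ≤ C * ebzN M y

private theorem ebz_loc (H : EbzH U M) {y₀ : Y} (hy : y₀ ∈ U) : ∃ ε c C : ℝ, 0 < ε ∧ 0 < c ∧ 0 < C ∧
    ∀ y, ‖y - y₀‖ ≤ ε → EbzL U M y c C := by
  obtain ⟨c, hc, hlow⟩ := H.co y₀ hy
  have hn : U ∈ 𝓝 y₀ := H.opn.mem_nhds hy
  have cM : ContinuousAt M y₀ := H.sm.continuousOn.continuousAt hn
  have cdM : ContinuousAt (fderiv ℝ M) y₀ :=
    (H.sm.continuousOn_fderiv_of_isOpen H.opn (by simp)).continuousAt hn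
  have cN : ContinuousAt (ebzN M) y₀ := (ebz_n_sm H).continuousOn.continuousAt hn
  have cdN : ContinuousAt (fderiv ℝ (ebzN M)) y₀ :=
    ((ebz_n_sm H).continuousOn_fderiv_of_isOpen H.opn (by simp)).continuousAt hn
  have cq : ContinuousAt (fun y => ‖fderiv ℝ (ebzN M) y‖ / ebzN M y) y₀ :=
    cdN.norm.div cN (ebz_npos H hy).ne'
  have e1 : ∀ᶠ y in 𝓝 y₀, ‖M y - M y₀‖ < c / 2 := by
    have := Metric.continuousAt_iff'.1 cM (c / 2) (half_pos hc)
    simpa only [dist_eq_norm] using this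
  have cdM' : ContinuousAt (fun y => ‖fderiv ℝ M y‖) y₀ :=
    ContinuousAt.comp (g := fun z : Y →L[ℝ] (Wsp dm →L[ℝ] Wsp dm) => ‖z‖)
      (continuous_norm (E := Y →L[ℝ] (Wsp dm →L[ℝ] Wsp dm))).continuousAt cdM
  have e2 : ∀ᶠ y in 𝓝 y₀, ‖fderiv ℝ M y‖ < ‖fderiv ℝ M y₀‖ + 1 :=
    cdM'.eventually_lt continuousAt_const (lt_add_one _)
  have e3 : ∀ᶠ y in 𝓝 y₀, ebzN M y < ebzN M y₀ + 1 := cN.eventually_lt continuousAt_const (lt_add_one _)
  have e4 : ∀ᶠ y in 𝓝 y₀, ‖fderiv ℝ (ebzN M) y‖ / ebzN M y < ‖fderiv ℝ (ebzN M) y₀‖ / ebzN M y₀ + 1 :=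
    cq.eventually_lt continuousAt_const (lt_add_one _)
  have e5 : ∀ᶠ y in 𝓝 y₀, y ∈ U := hn
  obtain ⟨ε, hε, hb⟩ := Metric.nhds_basis_closedBall.eventually_iff.1 (e1.and (e2.and (e3.and (e4.and e5))))
  have p1 : 0 ≤ ‖M y₀‖ := norm_nonneg _
  have p2 : 0 ≤ ‖fderiv ℝ M y₀‖ := norm_nonneg (E := Y →L[ℝ] (Wsp dm →L[ℝ] Wsp dm)) _
  have p3 : 0 < ebzN M y₀ := ebz_npos H hy
  have p4 : 0 ≤ ‖fderiv ℝ (ebzN M) y₀‖ / ebzN M y₀ := by positivity
  refine ⟨ε, c / 2, ‖M y₀‖ + c / 2 + (‖fderiv ℝ M y₀‖ + 1) + (ebzN M y₀ + 1) +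
    (‖fderiv ℝ (ebzN M) y₀‖ / ebzN M y₀ + 1), hε, half_pos hc, by positivity, fun y hy' => ?_⟩
  obtain ⟨b1, b2, b3, b4, b5⟩ := hb (by rw [Metric.mem_closedBall, dist_eq_norm]; exact hy')
  have pN : 0 < ebzN M y := ebz_npos H b5
  refine ⟨b5, fun w => ?_, ?_, by linarith, by linarith, ?_⟩
  · have h1 := hlow w
    have h2 : inner ℝ w (M y w) = inner ℝ w (M y₀ w) + inner ℝ w ((M y - M y₀) w) := by
      rw [_root_.sub_apply, inner_sub_right]
      ring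
    have h3 : |inner ℝ w ((M y - M y₀) w)| ≤ c / 2 * ‖w‖ ^ 2 := by
      calc |inner ℝ w ((M y - M y₀) w)| ≤ ‖w‖ * ‖(M y - M y₀) w‖ := abs_real_inner_le_norm _ _
        _ ≤ ‖w‖ * (‖M y - M y₀‖ * ‖w‖) :=
            mul_le_mul_of_nonneg_left ((M y - M y₀).le_opNorm w) (norm_nonneg _)
        _ ≤ ‖w‖ * (c / 2 * ‖w‖) := by gcongr
        _ = _ := by ring
    have h4 := (abs_le.1 h3).1
    rw [h2]
    nlinarith
  · have h1 : ‖M y‖ ≤ ‖M y₀‖ + ‖M y - M y₀‖ := by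
      have := norm_add_le (M y₀) (M y - M y₀)
      rwa [add_sub_cancel] at this
    linarith
  · rw [div_lt_iff₀ pN] at b4
    refine b4.le.trans (mul_le_mul_of_nonneg_right ?_ pN.le)
    linarith

private theorem ebz_up {y : Y} {c C : ℝ} (L : EbzL U M y c C) (w : Wsp dm) (hC : 0 ≤ C) :
    ebzG M y w ≤ C * Real.exp (-(c / 2) * ‖w‖ ^ 2) := by
  unfold ebzG
  refine mul_le_mul L.nup (Real.exp_le_exp.2 ?_) (Real.exp_pos _).le hC
  have := L.low w
  linarith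

private theorem ebz_sq_up (H : EbzH U M) {y : Y} {c C : ℝ} (L : EbzL U M y c C) (hC : 0 ≤ C) (k : ℕ) (w : Wsp dm) :
    (‖w‖ ^ k * ebzG M y w) ^ 2 ≤ C ^ 2 * (‖w‖ ^ (2 * k) * Real.exp (-c * ‖w‖ ^ 2)) := by
  have h1 := ebz_up L w hC
  have h2 := (ebz_g_pos H L.mem w).le
  have h3 : ebzG M y w ^ 2 ≤ (C * Real.exp (-(c / 2) * ‖w‖ ^ 2)) ^ 2 := pow_le_pow_left₀ h2 h1 2
  have h4 : (C * Real.exp (-(c / 2) * ‖w‖ ^ 2)) ^ 2 = C ^ 2 * Real.exp (-c * ‖w‖ ^ 2) := by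
    rw [mul_pow, ← Real.exp_nat_mul]
    congr 2
    push_cast
    ring
  rw [h4] at h3
  calc (‖w‖ ^ k * ebzG M y w) ^ 2 = ‖w‖ ^ (2 * k) * ebzG M y w ^ 2 := by
        rw [mul_pow, ← pow_mul, mul_comm k 2]
    _ ≤ ‖w‖ ^ (2 * k) * (C ^ 2 * Real.exp (-c * ‖w‖ ^ 2)) := mul_le_mul_of_nonneg_left h3 (by positivity)
    _ = _ := by ring

omit [NormedAddCommGroup Y] [NormedSpace ℝ Y] in
private theorem ebz_g_cont (y : Y) : Continuous (ebzG M y) := by
  unfold ebzG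
  fun_prop

private theorem ebz_int (H : EbzH U M) {y : Y} {c C : ℝ} (L : EbzL U M y c C) (hc : 0 < c) (hC : 0 ≤ C) (k : ℕ) :
    Integrable fun w : Wsp dm => (‖w‖ ^ k * ebzG M y w) ^ 2 := by
  refine ((ebz_ipow (dm := dm) hc k).const_mul (C ^ 2)).mono' ?_ (ae_of_all _ fun w => ?_)
  · have := ebz_g_cont (M := M) y
    exact Continuous.aestronglyMeasurable (by fun_prop)
  · rw [Real.norm_of_nonneg (sq_nonneg _)]
    exact ebz_sq_up H L hC k w

private theorem ebz_mom (H : EbzH U M) {y : Y} {c C : ℝ} (L : EbzL U M y c C) (hc : 0 < c) (hC : 0 ≤ C) (k : ℕ) :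
    ∫ w : Wsp dm, (‖w‖ ^ k * ebzG M y w) ^ 2 ≤
      C ^ 2 * ∫ w : Wsp dm, ‖w‖ ^ (2 * k) * Real.exp (-c * ‖w‖ ^ 2) := by
  rw [← integral_const_mul]
  exact integral_mono (ebz_int H L hc hC k) ((ebz_ipow hc k).const_mul _) fun w => ebz_sq_up H L hC k w

/-- fibre derivative -/
private theorem ebz_dw (H : EbzH U M) {y : Y} (hy : y ∈ U) (w e : Wsp dm) :
    fderiv ℝ (ebzG M y) w e = -inner ℝ e (M y w) * ebzG M y w := by
  have h1 : HasFDerivAt (fun w : Wsp dm => inner ℝ w (M y w))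
      ((fderivInnerCLM ℝ (w, M y w)).comp ((ContinuousLinearMap.id ℝ (Wsp dm)).prod (M y))) w :=
    (hasFDerivAt_id w).inner ℝ (M y).hasFDerivAt
  have h2 : HasFDerivAt (ebzG M y) _ w := ((h1.const_mul (-(1 / 2))).exp).const_mul (ebzN M y)
  rw [h2.fderiv]
  have h3 : inner ℝ w (M y e) = inner ℝ e (M y w) := by
    rw [← H.sy y hy w e, real_inner_comm]
  simp only [_root_.smul_apply, ContinuousLinearMap.comp_apply, ContinuousLinearMap.prod_apply,
    ContinuousLinearMap.id_apply, fderivInnerCLM_apply, smul_eq_mul, h3, ebzG]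
  ring

/-- base derivative -/
private theorem ebz_dy (H : EbzH U M) {y : Y} (hy : y ∈ U) (w : Wsp dm) :
    DifferentiableAt ℝ (fun y' => ebzG M y' w) y ∧ ∀ e, fderiv ℝ (fun y' => ebzG M y' w) y e =
      fderiv ℝ (ebzN M) y e * Real.exp (-(1 / 2) * inner ℝ w (M y w)) -
        1 / 2 * inner ℝ w (fderiv ℝ M y e w) * ebzG M y w := by
  have hn : U ∈ 𝓝 y := H.opn.mem_nhds hy
  have dM : HasFDerivAt M (fderiv ℝ M y) y :=
    ((H.sm.contDiffAt hn).differentiableAt (by simp)).hasFDerivAt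
  have dN : HasFDerivAt (ebzN M) (fderiv ℝ (ebzN M) y) y :=
    (((ebz_n_sm H).contDiffAt hn).differentiableAt (by simp)).hasFDerivAt
  have h1 : HasFDerivAt (fun y' => M y' w) ((ContinuousLinearMap.apply ℝ (Wsp dm) w).comp (fderiv ℝ M y)) y :=
    (ContinuousLinearMap.apply ℝ (Wsp dm) w).hasFDerivAt.comp y dM
  have h2 : HasFDerivAt (fun y' => inner ℝ w (M y' w))
      ((innerSL ℝ w).comp ((ContinuousLinearMap.apply ℝ (Wsp dm) w).comp (fderiv ℝ M y))) y :=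
    (innerSL ℝ w).hasFDerivAt.comp y h1
  have h3 : HasFDerivAt (fun y' => ebzG M y' w) _ y := dN.mul ((h2.const_mul (-(1 / 2))).exp)
  refine ⟨h3.differentiableAt, fun e => ?_⟩
  rw [h3.fderiv]
  simp only [_root_.smul_apply, _root_.add_apply, ContinuousLinearMap.comp_apply,
    ContinuousLinearMap.apply_apply, innerSL_apply_apply, smul_eq_mul, ebzG]
  ring

private theorem ebz_dy_le (H : EbzH U M) {y : Y} {c C : ℝ} (L : EbzL U M y c C) (w : Wsp dm) (e : Y) :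
    |fderiv ℝ (fun y' => ebzG M y' w) y e| ≤ C * (1 + ‖w‖ ^ 2) * ‖e‖ * ebzG M y w := by
  rw [(ebz_dy H L.mem w).2 e]
  have pN := ebz_npos H L.mem
  have pG := ebz_g_pos H L.mem w
  have h1 : |fderiv ℝ (ebzN M) y e * Real.exp (-(1 / 2) * inner ℝ w (M y w))| ≤ C * ‖e‖ * ebzG M y w := by
    rw [abs_mul, abs_of_pos (Real.exp_pos _)]
    unfold ebzG
    have h2 : |fderiv ℝ (ebzN M) y e| ≤ C * ebzN M y * ‖e‖ :=
      ((fderiv ℝ (ebzN M) y).le_opNorm e).trans (mul_le_mul_of_nonneg_right L.dn (norm_nonneg _))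
    calc _ ≤ (C * ebzN M y * ‖e‖) * Real.exp (-(1 / 2) * inner ℝ w (M y w)) :=
          mul_le_mul_of_nonneg_right h2 (Real.exp_pos _).le
      _ = _ := by ring
  have h2 : |1 / 2 * inner ℝ w (fderiv ℝ M y e w) * ebzG M y w| ≤ C * ‖w‖ ^ 2 * ‖e‖ * ebzG M y w := by
    rw [abs_mul, abs_of_pos pG, abs_mul]
    refine mul_le_mul_of_nonneg_right ?_ pG.le
    have h3 : |inner ℝ w (fderiv ℝ M y e w)| ≤ C * ‖w‖ ^ 2 * ‖e‖ := by
      calc |inner ℝ w (fderiv ℝ M y e w)| ≤ ‖w‖ * ‖fderiv ℝ M y e w‖ := abs_real_inner_le_norm _ _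
        _ ≤ ‖w‖ * (‖fderiv ℝ M y e‖ * ‖w‖) :=
            mul_le_mul_of_nonneg_left ((fderiv ℝ M y e).le_opNorm w) (norm_nonneg _)
        _ ≤ ‖w‖ * ((C * ‖e‖) * ‖w‖) := by
            have := ((fderiv ℝ M y).le_opNorm e).trans (mul_le_mul_of_nonneg_right L.dup (norm_nonneg _))
            gcongr
        _ = _ := by ring
    have h4 : |(1 / 2 : ℝ)| = 1 / 2 := abs_of_pos (by norm_num)
    rw [h4]
    have := abs_nonneg (inner ℝ w (fderiv ℝ M y e w))
    linarith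
  calc _ ≤ |fderiv ℝ (ebzN M) y e * Real.exp (-(1 / 2) * inner ℝ w (M y w))| +
        |1 / 2 * inner ℝ w (fderiv ℝ M y e w) * ebzG M y w| := abs_sub _ _
    _ ≤ C * ‖e‖ * ebzG M y w + C * ‖w‖ ^ 2 * ‖e‖ * ebzG M y w := add_le_add h1 h2
    _ = _ := by ring

/-- orthogonality -/
private theorem ebz_orth (H : EbzH U M) {y : Y} (hy : y ∈ U) (e : Y) :
    ∫ w, ebzG M y w * fderiv ℝ (fun y' => ebzG M y' w) y e = 0 := by
  obtain ⟨ε, c, C, hε, hc, hC, hl⟩ := ebz_loc H hy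
  have hst : ∀ t ∈ Metric.ball (0 : ℝ) (ε / (‖e‖ + 1)), EbzL U M (y + t • e) c C := by
    intro t ht
    refine hl _ ?_
    rw [add_sub_cancel_left, norm_smul]
    rw [mem_ball_zero_iff, lt_div_iff₀ (by positivity)] at ht
    nlinarith [norm_nonneg t, norm_nonneg e]
  have hpos : 0 < ε / (‖e‖ + 1) := by positivity
  have h0 : y + (0 : ℝ) • e = y := by rw [zero_smul, add_zero]
  have key := hasDerivAt_integral_of_dominated_loc_of_deriv_le (μ := (volume : Measure (Wsp dm)))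
    (F := fun (t : ℝ) w => ebzG M (y + t • e) w ^ 2)
    (F' := fun (t : ℝ) w => 2 * (ebzG M (y + t • e) w * fderiv ℝ (fun y' => ebzG M y' w) (y + t • e) e))
    (x₀ := (0 : ℝ)) (s := Metric.ball (0 : ℝ) (ε / (‖e‖ + 1)))
    (bound := fun w => 2 * C * ‖e‖ * C ^ 2 * (‖w‖ ^ (2 * 0) * Real.exp (-c * ‖w‖ ^ 2)) +
      2 * C * ‖e‖ * C ^ 2 * (‖w‖ ^ (2 * 1) * Real.exp (-c * ‖w‖ ^ 2)))
    (Metric.ball_mem_nhds _ hpos) ?_ ?_ ?_ ?_ ?_ ?_
  · have h1 : (fun t : ℝ => ∫ w, ebzG M (y + t • e) w ^ 2) =ᶠ[𝓝 0] fun _ => 1 := by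
      filter_upwards [Metric.ball_mem_nhds (0 : ℝ) hpos] with t ht
      exact ebz_norm H (hst t ht).mem
    have h2 := h1.hasDerivAt_iff.1 key.2
    have h3 := h2.unique (hasDerivAt_const (0 : ℝ) (1 : ℝ))
    simp only [h0] at h3
    rw [integral_const_mul] at h3
    linarith
  · refine Eventually.of_forall fun t => ?_
    have := ebz_g_cont (M := M) (y + t • e)
    exact Continuous.aestronglyMeasurable (by fun_prop)
  · have := ebz_int H (hst 0 (Metric.mem_ball_self hpos)) hc hC.le 0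
    simpa using this
  · simp only [h0]
    have h1 : (fun w => 2 * (ebzG M y w * fderiv ℝ (fun y' => ebzG M y' w) y e)) = fun w =>
        2 * (ebzG M y w * (fderiv ℝ (ebzN M) y e * Real.exp (-(1 / 2) * inner ℝ w (M y w)) -
        1 / 2 * inner ℝ w (fderiv ℝ M y e w) * ebzG M y w)) := by
      funext w
      rw [(ebz_dy H hy w).2 e]
    rw [h1]
    have := ebz_g_cont (M := M) y
    exact Continuous.aestronglyMeasurable (by fun_prop)
  · refine ae_of_all _ fun w t ht => ?_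
    have L := hst t ht
    have pG := ebz_g_pos H L.mem w
    rw [Real.norm_eq_abs, abs_mul, abs_mul, abs_of_pos pG, abs_two]
    have h1 := ebz_dy_le H L w e
    have h2 := ebz_sq_up H L hC.le 0 w
    simp only [pow_zero, one_mul, mul_zero] at h2
    simp only [pow_zero, one_mul, mul_zero, mul_one]
    calc 2 * (ebzG M (y + t • e) w * |fderiv ℝ (fun y' => ebzG M y' w) (y + t • e) e|)
        ≤ 2 * (ebzG M (y + t • e) w * (C * (1 + ‖w‖ ^ 2) * ‖e‖ * ebzG M (y + t • e) w)) := by gcongr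
      _ = 2 * C * ‖e‖ * (1 + ‖w‖ ^ 2) * ebzG M (y + t • e) w ^ 2 := by ring
      _ ≤ 2 * C * ‖e‖ * (1 + ‖w‖ ^ 2) * (C ^ 2 * Real.exp (-c * ‖w‖ ^ 2)) := by gcongr
      _ = _ := by ring
  · exact ((ebz_ipow hc 0).const_mul _).add ((ebz_ipow hc 1).const_mul _)
  · refine ae_of_all _ fun w t ht => ?_
    have L := hst t ht
    have h1 : HasDerivAt (fun t : ℝ => y + t • e) e t := by
      simpa using ((hasDerivAt_id t).smul_const e).const_add y
    have h2' : HasFDerivAt (fun y' => ebzG M y' w) (fderiv ℝ (fun y' => ebzG M y' w) (y + t • e)) (y + t • e) :=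
      (ebz_dy H L.mem w).1.hasFDerivAt
    have h2 : HasDerivAt (fun t : ℝ => ebzG M (y + t • e) w)
        (fderiv ℝ (fun y' => ebzG M y' w) (y + t • e) e) t :=
      HasFDerivAt.comp_hasDerivAt (l := fun y' => ebzG M y' w) (f := fun t : ℝ => y + t • e) t h2' h1
    have h3 := h2.pow 2
    refine h3.congr_deriv ?_
    push_cast
    ring

/-- scaling -/
private theorem ebz_sc (hh : ∀ y ∈ U, ∀ t : ℝ, 0 < t → M (t • y) = t • M y) {y : Y} (hy : y ∈ U)
    {R : ℝ} (hR : 0 < R) (w : Wsp dm) :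
    ebzG M (R • y) w = Real.sqrt R ^ (4 * dm) * ebzG M y (Real.sqrt R • w) := by
  have hsR : 0 < Real.sqrt R := Real.sqrt_pos.2 hR
  have e : ∀ w : Wsp dm, inner ℝ w (M (R • y) w) = inner ℝ (Real.sqrt R • w) (M y (Real.sqrt R • w)) := by
    intro w
    rw [hh y hy R hR, _root_.smul_apply, map_smul, inner_smul_left, inner_smul_right, inner_smul_right,
      conj_trivial, ← mul_assoc, Real.mul_self_sqrt hR.le]
  have hfr : Module.finrank ℝ (Wsp dm) = 8 * dm := by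
    rw [finrank_euclideanSpace, Fintype.card_prod, Fintype.card_fin, Fintype.card_fin]
  have h1 : ebzN M (R • y) = Real.sqrt R ^ (4 * dm) * ebzN M y := by
    unfold ebzN
    simp only [e]
    rw [Measure.integral_comp_smul (volume : Measure (Wsp dm)) (fun w => Real.exp (-inner ℝ w (M y w))), hfr,
      smul_eq_mul, abs_of_pos (inv_pos.2 (pow_pos hsR _)),
      Real.sqrt_mul (inv_pos.2 (pow_pos hsR _)).le, mul_inv, Real.sqrt_inv, inv_inv]
    congr 1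
    have h2 : Real.sqrt R ^ (8 * dm) = (Real.sqrt R ^ (4 * dm)) ^ 2 := by
      rw [← pow_mul]
      congr 1
      ring
    rw [h2, Real.sqrt_sq (pow_pos hsR _).le]
  unfold ebzG
  rw [h1, e w, mul_assoc]

private theorem ebz_msc (hh : ∀ y ∈ U, ∀ t : ℝ, 0 < t → M (t • y) = t • M y) {y : Y} (hy : y ∈ U)
    {R : ℝ} (hR : 0 < R) (k : ℕ) :
    ∫ w, (‖w‖ ^ k * ebzG M (R • y) w) ^ 2 = (1 / R) ^ k * ∫ w, (‖w‖ ^ k * ebzG M y w) ^ 2 := by
  have hsR : 0 < Real.sqrt R := Real.sqrt_pos.2 hR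
  have hfr : Module.finrank ℝ (Wsp dm) = 8 * dm := by
    rw [finrank_euclideanSpace, Fintype.card_prod, Fintype.card_fin, Fintype.card_fin]
  have e : ∀ w : Wsp dm, (‖w‖ ^ k * ebzG M (R • y) w) ^ 2 = (Real.sqrt R ^ (8 * dm) * (1 / R) ^ k) *
      (‖Real.sqrt R • w‖ ^ k * ebzG M y (Real.sqrt R • w)) ^ 2 := by
    intro w
    rw [ebz_sc hh hy hR, norm_smul, Real.norm_of_nonneg hsR.le]
    have h2 : Real.sqrt R ^ (8 * dm) = (Real.sqrt R ^ (4 * dm)) ^ 2 := by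
      rw [← pow_mul]
      congr 1
      ring
    have h3 : (1 / R) ^ k * (Real.sqrt R ^ k) ^ 2 = 1 := by
      rw [← pow_mul, mul_comm k 2, pow_mul, Real.sq_sqrt hR.le, ← mul_pow, one_div_mul_cancel hR.ne', one_pow]
    rw [h2]
    calc _ = (Real.sqrt R ^ (4 * dm)) ^ 2 * ((‖w‖ ^ k) ^ 2 * ebzG M y (Real.sqrt R • w) ^ 2) * 1 := by ring
      _ = (Real.sqrt R ^ (4 * dm)) ^ 2 * ((‖w‖ ^ k) ^ 2 * ebzG M y (Real.sqrt R • w) ^ 2) *
          ((1 / R) ^ k * (Real.sqrt R ^ k) ^ 2) := by rw [h3]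
      _ = _ := by ring
  simp only [e]
  rw [integral_const_mul, Measure.integral_comp_smul (volume : Measure (Wsp dm))
    (fun w => (‖w‖ ^ k * ebzG M y w) ^ 2), hfr, smul_eq_mul, abs_of_pos (inv_pos.2 (pow_pos hsR _))]
  have : Real.sqrt R ^ (8 * dm) * (Real.sqrt R ^ (8 * dm))⁻¹ = 1 := mul_inv_cancel₀ (pow_pos hsR _).ne'
  calc _ = (Real.sqrt R ^ (8 * dm) * (Real.sqrt R ^ (8 * dm))⁻¹) *
        ((1 / R) ^ k * ∫ w, (‖w‖ ^ k * ebzG M y w) ^ 2) := by ring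
    _ = _ := by rw [this, one_mul]

/-- all facts at scale `R` for the model Gaussian -/
private theorem ebz_all (H : EbzH U M) (hh : ∀ y ∈ U, ∀ t : ℝ, 0 < t → M (t • y) = t • M y)
    (hcone : ∀ y ∈ U, ∀ t : ℝ, 0 < t → t • y ∈ U) {y₀ : Y} (hy₀ : y₀ ∈ U) : ∃ ε C : ℝ, 0 < ε ∧ 0 < C ∧
    (∀ R : ℝ, 0 < R → ∀ y : Y, ‖y - R • y₀‖ ≤ ε * R → y ∈ U ∧
      (∀ w, ebzG M y w ≤ C * Real.sqrt R ^ (4 * dm) * Real.exp (-(R * ‖w‖ ^ 2 / C))) ∧
      (∀ (w e : Wsp dm), ‖e‖ ≤ 1 → |fderiv ℝ (ebzG M y) w e| ≤ C * R * ‖w‖ * ebzG M y w) ∧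
      (∀ (w : Wsp dm) (e : Y), ‖e‖ ≤ 1 →
        |fderiv ℝ (fun y' => ebzG M y' w) y e| ≤ C * (1 / R + ‖w‖ ^ 2) * ebzG M y w) ∧
      (∀ k : ℕ, k ≤ 12 → ∫ w, (‖w‖ ^ k * ebzG M y w) ^ 2 ≤ C * (1 / R) ^ k)) := by
  obtain ⟨ε, c, C, hε, hc, hC, hl⟩ := ebz_loc H hy₀
  let J : ℕ → ℝ := fun k => ∫ w : Wsp dm, ‖w‖ ^ (2 * k) * Real.exp (-c * ‖w‖ ^ 2)
  have hJ : ∀ k, 0 ≤ J k := fun k => integral_nonneg fun w => by positivity
  have hJs : ∀ k, k ≤ 12 → J k ≤ ∑ k ∈ Finset.range 13, J k := fun k hk =>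
    Finset.single_le_sum (fun i _ => hJ i) (Finset.mem_range.2 (by omega))
  have hJt : 0 ≤ ∑ k ∈ Finset.range 13, J k := Finset.sum_nonneg fun i _ => hJ i
  let Ct : ℝ := C + 2 / c + C ^ 2 * ∑ k ∈ Finset.range 13, J k
  have hCC : C ≤ Ct := by
    have : 0 < 2 / c := by positivity
    have h2 : 0 ≤ C ^ 2 * ∑ k ∈ Finset.range 13, J k := by positivity
    simp only [Ct]
    linarith
  have hCt : 0 < Ct := hC.trans_le hCC
  have hc2 : 1 / Ct ≤ c / 2 := by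
    rw [div_le_div_iff₀ hCt two_pos, one_mul]
    have h2 : 0 ≤ C ^ 2 * ∑ k ∈ Finset.range 13, J k := by positivity
    have h3 : 2 / c ≤ Ct := by
      simp only [Ct]
      linarith
    rw [div_le_iff₀ hc] at h3
    linarith
  refine ⟨ε, Ct, hε, hCt, fun R hR y hyR => ?_⟩
  have hsR : 0 < Real.sqrt R := Real.sqrt_pos.2 hR
  obtain ⟨y', hy'⟩ : ∃ y', y' = R⁻¹ • y := ⟨_, rfl⟩
  have hyy : y = R • y' := by rw [hy', smul_smul, mul_inv_cancel₀ hR.ne', one_smul]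
  have L : EbzL U M y' c C := by
    refine hl y' ?_
    have h1 : y' - y₀ = R⁻¹ • (y - R • y₀) := by
      rw [smul_sub, smul_smul, inv_mul_cancel₀ hR.ne', one_smul, hy']
    rw [h1, norm_smul, norm_inv, Real.norm_of_nonneg hR.le, inv_mul_le_iff₀ hR]
    linarith
  have hyU : y ∈ U := by
    rw [hyy]
    exact hcone _ L.mem R hR
  refine ⟨hyU, fun w => ?_, fun w e he => ?_, fun w e he => ?_, fun k hk => ?_⟩
  · rw [hyy, ebz_sc hh L.mem hR]
    have h1 := ebz_up L (Real.sqrt R • w) hC.le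
    rw [norm_smul, Real.norm_of_nonneg hsR.le, mul_pow, Real.sq_sqrt hR.le] at h1
    have h2 : Real.exp (-(c / 2) * (R * ‖w‖ ^ 2)) ≤ Real.exp (-(R * ‖w‖ ^ 2 / Ct)) := by
      refine Real.exp_le_exp.2 ?_
      have h3 : 0 ≤ R * ‖w‖ ^ 2 := by positivity
      have h4 := mul_le_mul_of_nonneg_right hc2 h3
      have h5 : R * ‖w‖ ^ 2 / Ct = 1 / Ct * (R * ‖w‖ ^ 2) := by ring
      rw [h5]
      linarith
    calc Real.sqrt R ^ (4 * dm) * ebzG M y' (Real.sqrt R • w)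
        ≤ Real.sqrt R ^ (4 * dm) * (C * Real.exp (-(c / 2) * (R * ‖w‖ ^ 2))) :=
          mul_le_mul_of_nonneg_left h1 (pow_pos hsR _).le
      _ ≤ Real.sqrt R ^ (4 * dm) * (Ct * Real.exp (-(R * ‖w‖ ^ 2 / Ct))) := by gcongr
      _ = _ := by ring
  · rw [ebz_dw H hyU, abs_mul, abs_neg, abs_of_pos (ebz_g_pos H hyU w)]
    refine mul_le_mul_of_nonneg_right ?_ (ebz_g_pos H hyU w).le
    have h1 : ‖M y‖ ≤ Ct * R := by
      rw [hyy, hh y' L.mem R hR, norm_smul, Real.norm_of_nonneg hR.le, mul_comm]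
      exact mul_le_mul_of_nonneg_right (L.up.trans hCC) hR.le
    calc |inner ℝ e (M y w)| ≤ ‖e‖ * ‖M y w‖ := abs_real_inner_le_norm _ _
      _ ≤ 1 * (‖M y‖ * ‖w‖) := mul_le_mul he ((M y).le_opNorm w) (norm_nonneg _) zero_le_one
      _ ≤ 1 * (Ct * R * ‖w‖) := by gcongr
      _ = _ := one_mul _
  · have h1 : (fun y'' => ebzG M y'' w) =ᶠ[𝓝 y]
        fun y'' => Real.sqrt R ^ (4 * dm) * ebzG M (R⁻¹ • y'') (Real.sqrt R • w) := by
      filter_upwards [H.opn.mem_nhds hyU] with z hz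
      have hz' : R⁻¹ • z ∈ U := hcone z hz _ (inv_pos.2 hR)
      have h2 := ebz_sc hh hz' hR w
      rwa [smul_smul, mul_inv_cancel₀ hR.ne', one_smul] at h2
    have h2 : HasFDerivAt (fun y'' : Y => R⁻¹ • y'') (R⁻¹ • ContinuousLinearMap.id ℝ Y) y :=
      (hasFDerivAt_id y).const_smul R⁻¹
    have h3 : HasFDerivAt (fun z => ebzG M z (Real.sqrt R • w))
        (fderiv ℝ (fun z => ebzG M z (Real.sqrt R • w)) y') (R⁻¹ • y) := by
      rw [← hy']
      exact (ebz_dy H L.mem (Real.sqrt R • w)).1.hasFDerivAt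
    have h4 := (h3.comp y h2).const_mul (Real.sqrt R ^ (4 * dm))
    have h5 : fderiv ℝ (fun y'' => ebzG M y'' w) y e = Real.sqrt R ^ (4 * dm) *
        (R⁻¹ * fderiv ℝ (fun z => ebzG M z (Real.sqrt R • w)) y' e) := by
      rw [h1.fderiv_eq]
      have h6 : fderiv ℝ (fun y'' => Real.sqrt R ^ (4 * dm) * ebzG M (R⁻¹ • y'') (Real.sqrt R • w)) y =
        Real.sqrt R ^ (4 * dm) • ((fderiv ℝ (fun z => ebzG M z (Real.sqrt R • w)) y').comp
          (R⁻¹ • ContinuousLinearMap.id ℝ Y)) := h4.fderiv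
      rw [h6]
      simp only [_root_.smul_apply, ContinuousLinearMap.comp_apply, ContinuousLinearMap.id_apply,
        map_smul, smul_eq_mul]
    rw [h5, abs_mul, abs_mul, abs_of_pos (pow_pos hsR _), abs_of_pos (inv_pos.2 hR)]
    have h6 := ebz_dy_le H L (Real.sqrt R • w) e
    rw [norm_smul, Real.norm_of_nonneg hsR.le, mul_pow, Real.sq_sqrt hR.le] at h6
    have pG := ebz_g_pos H L.mem (Real.sqrt R • w)
    have h7 : C * (1 + R * ‖w‖ ^ 2) * ‖e‖ * ebzG M y' (Real.sqrt R • w) ≤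
        Ct * (1 + R * ‖w‖ ^ 2) * 1 * ebzG M y' (Real.sqrt R • w) := by gcongr
    calc Real.sqrt R ^ (4 * dm) * (R⁻¹ * |fderiv ℝ (fun z => ebzG M z (Real.sqrt R • w)) y' e|)
        ≤ Real.sqrt R ^ (4 * dm) * (R⁻¹ * (Ct * (1 + R * ‖w‖ ^ 2) * 1 * ebzG M y' (Real.sqrt R • w))) := by
          have := h6.trans h7
          gcongr
      _ = Ct * (1 / R + ‖w‖ ^ 2) * (Real.sqrt R ^ (4 * dm) * ebzG M y' (Real.sqrt R • w)) := by
          field_simp
      _ = _ := by rw [hyy, ebz_sc hh L.mem hR]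
  · rw [hyy, ebz_msc hh L.mem hR, mul_comm]
    refine mul_le_mul_of_nonneg_right ?_ (by positivity)
    refine (ebz_mom H L hc hC.le k).trans ?_
    have h1 : C ^ 2 * J k ≤ C ^ 2 * ∑ k ∈ Finset.range 13, J k :=
      mul_le_mul_of_nonneg_left (hJs k hk) (by positivity)
    have : 0 < 2 / c := by positivity
    simp only [Ct]
    change C ^ 2 * J k ≤ _
    linarith

end Bz2

section Bz3

variable {D : Fin 9 → Matrix (Fin dm) (Fin dm) ℝ} {Om : Matrix (Fin dm) (Fin dm) ℝ}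

private theorem ebz_wt_neg (w : Wsp dm) (i : Fin 9) : wt (-w) i = -wt w i := by
  funext B
  unfold wt
  refine Fin.lastCases ?_ (fun j => ?_) i
  · rw [Fin.lastCases_last, Pi.neg_apply, Fin.lastCases_last, neg_zero]
  · rw [Fin.lastCases_castSucc, Pi.neg_apply, Fin.lastCases_castSucc, PiLp.neg_apply]

private theorem ebz_VV_neg (w : Wsp dm) (i : Fin 9) : VV D (-w) i = -VV D w i := by
  have h1 : sV D (-w) = -sV D w := by
    unfold sV
    simp only [ebz_wt_neg, Matrix.mulVec_neg, Finset.sum_neg_distrib]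
  unfold VV
  rw [h1, ebz_wt_neg, Matrix.mulVec_neg]
  abel

private theorem ebz_gR_neg (w : Wsp dm) : gR D Om 1 (-w) = gR D Om 1 w := by
  unfold gR qf
  simp only [ebz_VV_neg, Matrix.mulVec_neg, neg_dotProduct_neg]

end Bz3

/-- **E-Bz** -/
theorem bzf (S : Setup d F) (φ : Spl dh dm d) (ψ : Spl r ds dh) : MzStmt S φ ψ → BzStmt S φ ψ := by
  intro hMz hφ hc U Om V K hV y₀ hy₀
  obtain ⟨-, M, hMc, hMs, hMq, hMh, -, hMp⟩ := hMz hφ hc U Om V K hV
  have H : EbzH U M := ⟨hV.opn, hMc, hMs, hMp⟩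
  have hbz : ∀ y ∈ U, ∀ w, S.bz φ ψ Om y w = ebzG M y w := by
    intro y hy w
    unfold Setup.bz ebzG ebzN gR
    simp only [hMq y hy]
    rw [div_eq_mul_inv, mul_comm]
    have h1 : ∀ w' : Wsp dm, Real.exp (-(1 / 2) * inner ℝ w' (M y w')) ^ 2 =
        Real.exp (-inner ℝ w' (M y w')) := by
      intro w'
      rw [← Real.exp_nat_mul]
      congr 1
      push_cast
      ring
    simp only [h1]
  have hbzf : ∀ y ∈ U, (fun w => S.bz φ ψ Om y w) = ebzG M y := fun y hy => funext fun w => hbz y hy w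
  have hbzd : ∀ y ∈ U, ∀ w, fderiv ℝ (fun y' => S.bz φ ψ Om y' w) y = fderiv ℝ (fun y' => ebzG M y' w) y := by
    intro y hy w
    refine Filter.EventuallyEq.fderiv_eq ?_
    filter_upwards [hV.opn.mem_nhds hy] with z hz
    exact hbz z hz w
  obtain ⟨ε, C, hε, hC, hall⟩ := ebz_all H hMh hV.cone hy₀
  refine ⟨ε, C, hε, hC, ?_⟩
  have hsgl : ∀ (j : Fin 8) (B : Fin dm), ‖(EuclideanSpace.single (j, B) (1 : ℝ) : Wsp dm)‖ ≤ 1 := by
    intro j B
    rw [PiLp.norm_single, norm_one]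
  have hsgl' : ∀ (i : Fin 9) (A : Fin r), ‖(EuclideanSpace.single (i, A) (1 : ℝ) : Cfg r)‖ ≤ 1 := by
    intro i A
    rw [PiLp.norm_single, norm_one]
  refine ⟨fun R hR y hy => (hall R hR y hy).1, (ebz_g_sm H).congr fun p hp => hbz p.1 hp.1 p.2, ?_, ?_, ?_, ?_,
    ?_, ?_, ?_, ?_, ?_, ?_⟩
  · intro y hy w
    rw [hbz y hy]
    exact ebz_g_pos H hy w
  · intro y w
    unfold Setup.bz
    rw [ebz_gR_neg]
  · intro y hy k
    obtain ⟨ε', c', C', hε', hc', hC', hl⟩ := ebz_loc H hy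
    simp only [hbz y hy]
    exact ebz_int H (hl y (by rw [sub_self, norm_zero]; linarith)) hc' hC'.le k
  · intro y hy
    simp only [hbz y hy]
    exact ebz_norm H hy
  · intro R hR y hy w
    rw [hbz y (hall R hR y hy).1]
    exact (hall R hR y hy).2.1 w
  · intro R hR y hy w j B
    rw [hbzf y (hall R hR y hy).1, hbz y (hall R hR y hy).1]
    exact (hall R hR y hy).2.2.1 w _ (hsgl j B)
  · intro R hR y hy w i A
    rw [hbzd y (hall R hR y hy).1, hbz y (hall R hR y hy).1]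
    exact (hall R hR y hy).2.2.2.1 w _ (hsgl' i A)
  · intro R hR y hy k hk
    simp only [hbz y (hall R hR y hy).1]
    exact (hall R hR y hy).2.2.2.2 k (by omega)
  · intro δ hδ
    refine ⟨(δ ^ 8)⁻¹ * C, fun R hR1 y hy k hk => ?_⟩
    have hR : 0 < R := by linarith
    have hyU := (hall R hR y hy).1
    obtain ⟨ε', c', C', hε', hc', hC', hl⟩ := ebz_loc H hyU
    have hint := ebz_int H (hl y (by rw [sub_self, norm_zero]; linarith)) hc' hC'.le (k + 4)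
    simp only [hbz y hyU]
    have hδR : 0 < δ * R := mul_pos hδ hR
    calc ∫ w, (if δ * R ≤ ‖w‖ then (‖w‖ ^ k * ebzG M y w) ^ 2 else 0)
        ≤ ∫ w, ((δ * R) ^ 8)⁻¹ * (‖w‖ ^ (k + 4) * ebzG M y w) ^ 2 := by
          refine integral_mono_of_nonneg (ae_of_all _ fun w => ?_) (hint.const_mul _) (ae_of_all _ fun w => ?_)
          · simp only [Pi.zero_apply]
            split_ifs
            · positivity
            · exact le_rfl
          · simp only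
            split_ifs with h
            · have h1 : (δ * R) ^ 8 ≤ ‖w‖ ^ 8 := pow_le_pow_left₀ hδR.le h 8
              rw [inv_mul_eq_div, le_div_iff₀ (pow_pos hδR 8)]
              calc (‖w‖ ^ k * ebzG M y w) ^ 2 * (δ * R) ^ 8 ≤ (‖w‖ ^ k * ebzG M y w) ^ 2 * ‖w‖ ^ 8 :=
                    mul_le_mul_of_nonneg_left h1 (sq_nonneg _)
                _ = _ := by ring
            · positivity
      _ = ((δ * R) ^ 8)⁻¹ * ∫ w, (‖w‖ ^ (k + 4) * ebzG M y w) ^ 2 := integral_const_mul _ _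
      _ ≤ ((δ * R) ^ 8)⁻¹ * (C * (1 / R) ^ (k + 4)) :=
          mul_le_mul_of_nonneg_left ((hall R hR y hy).2.2.2.2 (k + 4) (by omega)) (by positivity)
      _ ≤ ((δ * R) ^ 8)⁻¹ * (C * 1) := by
          have h1 : (1 / R) ^ (k + 4) ≤ 1 := pow_le_one₀ (by positivity) (by rw [div_le_one hR]; exact hR1)
          gcongr
      _ = (δ ^ 8)⁻¹ * C * (1 / R) ^ 8 := by
          rw [mul_pow, mul_inv, one_div, inv_pow]
          ring
  · intro y hy i A
    simp only [hbz y hy, hbzd y hy]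
    exact ebz_orth H hy _

end Vale.Agent.P353.Z.AE
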