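import Vale.Agent.P353.AN.E.StmtL

/-! # P353, all `N`, block E: the sharp cutoffs of block L are admissible (helper249) -/

open MeasureTheory Filter Topology

namespace Vale.Agent.P353.Z.AE

/-- **EG-Chi** -/
theorem chiS : ChiStmt := by
  intro r ds dm
  refine ⟨fun R => ?_, fun R q => ?_, fun q => ?_, fun δ hδ => ?_⟩
  · unfold AL.chi
    refine Measurable.ite ?_ measurable_const measurable_const
    exact (measurableSet_le (measurable_norm.comp (measurable_fst.comp measurable_snd))
      measurable_const).inter (measurableSet_le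
        (measurable_norm.comp (measurable_snd.comp measurable_snd)) measurable_const)
  · unfold AL.chi
    split_ifs <;> simp
  · have h1 : ∀ᶠ R : ℝ in atTop, AL.chi R q = 1 := by
      have ha : Tendsto (fun R : ℝ => Real.sqrt R) atTop atTop := Real.tendsto_sqrt_atTop
      filter_upwards [ha.eventually_ge_atTop ‖q.2.1‖, eventually_ge_atTop ‖q.2.2‖] with R h2 h3
      unfold AL.chi
      rw [if_pos ⟨h2, h3⟩]
    exact tendsto_const_nhds.congr' (h1.mono fun R h => h.symm)
  · have ha : Tendsto (fun R : ℝ => Real.sqrt R) atTop atTop := Real.tendsto_sqrt_atTop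
    filter_upwards [ha.eventually_ge_atTop (1 / δ), eventually_gt_atTop (0 : ℝ)] with R h1 h2 q hq
    have h3 : ‖q.2.1‖ ≤ Real.sqrt R ∧ ‖q.2.2‖ ≤ R := by
      by_contra h
      exact hq (if_neg h)
    have h4 : 1 ≤ δ * Real.sqrt R := by
      rw [div_le_iff₀ hδ] at h1
      linarith
    have h5 : Real.sqrt R * Real.sqrt R = R := Real.mul_self_sqrt h2.le
    have h6 : 0 ≤ Real.sqrt R := Real.sqrt_nonneg R
    refine ⟨h3.1.trans ?_, h3.2.trans ?_⟩
    · calc Real.sqrt R = 1 * Real.sqrt R := by ring
        _ ≤ (δ * Real.sqrt R) * Real.sqrt R := mul_le_mul_of_nonneg_right h4 h6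
        _ = δ * R := by rw [mul_assoc, h5]
    · calc R = 1 * R := by ring
        _ ≤ (δ * Real.sqrt R) * R := mul_le_mul_of_nonneg_right h4 h2.le
        _ = δ * (R * Real.sqrt R) := by ring

end Vale.Agent.P353.Z.AE
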