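import Vale.Agent.P353.AN.E.Stmt
import Vale.Agent.P353.AN.B.Poi

/-! # P353, all `N`, block E: second moments of the slice Gaussian (E-Cov, helper803) -/

open MeasureTheory Filter Topology Matrix
open scoped ContDiff

namespace Vale.Agent.P353.Z.AE

variable {d dh dm r ds : ℕ} {F : Type*} [NormedAddCommGroup F] [InnerProductSpace ℂ F]

section Cv

variable {κ : ℝ} {D : Fin 9 → Matrix (Fin dm) (Fin dm) ℝ} {Om : Matrix (Fin dm) (Fin dm) ℝ}

private theorem cv_wt_cast (w : Wsp dm) (j : Fin 8) (B : Fin dm) : wt w j.castSucc B = w (j, B) := by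
  unfold wt
  rw [Fin.lastCases_castSucc]

private theorem cv_wt_last (w : Wsp dm) (B : Fin dm) : wt w 8 B = 0 := by
  show wt w (Fin.last 8) B = 0
  unfold wt
  rw [Fin.lastCases_last]

/-- recognise `VV` -/
private theorem cv_VV (ht : (t2 D).det ≠ 0) (w : Wsp dm) (V : Fin 9 → Fin dm → ℝ) (b : Fin dm → ℝ)
    (hV : ∑ k, tI D k *ᵥ V k = 0) (hw : ∀ k, wt w k = V k + tI D k *ᵥ b) (k : Fin 9) :
    VV D w k = V k := by
  have h1 : sV D w = b := by
    unfold sV
    have h2 : ∑ i, tI D i *ᵥ wt w i = t2 D *ᵥ b := by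
      simp only [hw, Matrix.mulVec_add, Finset.sum_add_distrib, hV, zero_add, Matrix.mulVec_mulVec]
      rw [← Matrix.sum_mulVec]
      rfl
    rw [h2, Matrix.mulVec_mulVec, Matrix.nonsing_inv_mul _ (isUnit_iff_ne_zero.2 ht),
      Matrix.one_mulVec]
  unfold VV
  rw [h1, hw, add_sub_cancel_right]

/-- the column of the inverse matrix -/
private noncomputable def cvN (D : Fin 9 → Matrix (Fin dm) (Fin dm) ℝ)
    (Oi : Matrix (Fin dm) (Fin dm) ℝ) (i : Fin 8) (B : Fin dm) : Wsp dm :=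
  WithLp.toLp 2 fun p => (if p.1 = i then Oi p.2 B else 0) +
    (tI D p.1.castSucc * (tI D i.castSucc * Oi)) p.2 B

private theorem cv_N_VV (ht : (t2 D).det ≠ 0) (h8 : tI D 8 = 1) (Oi : Matrix (Fin dm) (Fin dm) ℝ)
    (i : Fin 8) (B : Fin dm) (j : Fin 8) :
    VV D (cvN D Oi i B) j.castSucc = if j = i then Oi *ᵥ Pi.single B 1 else 0 := by
  have key := cv_VV ht (cvN D Oi i B)
    (fun k => (if k = i.castSucc then Oi *ᵥ Pi.single B 1 else 0) -
      (if k = 8 then tI D i.castSucc *ᵥ (Oi *ᵥ Pi.single B 1) else 0))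
    (tI D i.castSucc *ᵥ (Oi *ᵥ Pi.single B 1)) ?_ ?_ j.castSucc
  · rw [key]
    have h1 : j.castSucc ≠ (8 : Fin 9) := by
      intro h
      have := congrArg Fin.val h
      simp at this
      omega
    simp only [if_neg h1, sub_zero, Fin.castSucc_inj]
  · simp only [Matrix.mulVec_sub, Finset.sum_sub_distrib]
    have e1 : ∀ (k k' : Fin 9) (v : Fin dm → ℝ), tI D k *ᵥ (if k = k' then v else 0) =
        if k = k' then tI D k *ᵥ v else 0 := by
      intro k k' v
      split_ifs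
      · rfl
      · exact Matrix.mulVec_zero _
    simp only [e1, Finset.sum_ite_eq', Finset.mem_univ, if_true, h8, Matrix.one_mulVec, sub_self]
  · intro k
    refine Fin.lastCases ?_ (fun l => ?_) k
    · funext C
      have h0 : wt (cvN D Oi i B) (Fin.last 8) C = 0 := cv_wt_last _ _
      rw [h0]
      have h1 : (8 : Fin 9) ≠ i.castSucc := fun h => (Fin.castSucc_lt_last i).ne h.symm
      have h2 : (Fin.last 8 : Fin 9) = 8 := rfl
      simp only [h2, if_neg h1, if_true, h8, Matrix.one_mulVec, zero_sub, Pi.add_apply,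
        Pi.neg_apply, neg_add_cancel]
    · funext C
      rw [cv_wt_cast]
      have h1 : l.castSucc ≠ (8 : Fin 9) := fun h => (Fin.castSucc_lt_last l).ne h
      simp only [if_neg h1, sub_zero, Fin.castSucc_inj, Pi.add_apply, cvN, Matrix.mulVec_mulVec,
        ← mul_assoc, Matrix.mulVec_single_one]
      congr 1
      split_ifs <;> rfl

/-- integration by parts -/
private theorem cv_ibp (M : Wsp dm →L[ℝ] Wsp dm) (hs : ∀ v w, inner ℝ (M v) w = inner ℝ v (M w))
    {c : ℝ} (hc : 0 < c) (hM : ∀ w, c * ‖w‖ ^ 2 ≤ inner ℝ w (M w)) (a b : Wsp dm) :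
    ∫ w, inner ℝ b w * (inner ℝ (M a) w * Real.exp (-inner ℝ w (M w))) =
      (1 / 2) * inner ℝ b a * ∫ w : Wsp dm, Real.exp (-inner ℝ w (M w)) := by
  obtain ⟨i1, i2, -, -⟩ := Poi.gauss_facts M hc hM
  have hq : Continuous fun w : Wsp dm => inner ℝ w (M w) := by fun_prop
  have hG : Continuous fun w : Wsp dm => Real.exp (-inner ℝ w (M w)) := hq.neg.rexp
  have hd : ∀ w : Wsp dm, HasFDerivAt (fun w : Wsp dm => Real.exp (-inner ℝ w (M w)))
      (Real.exp (-inner ℝ w (M w)) • -((fderivInnerCLM ℝ (w, M w)).comp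
        ((ContinuousLinearMap.id ℝ (Wsp dm)).prod M))) w := by
    intro w
    exact (((hasFDerivAt_id w).inner ℝ M.hasFDerivAt).neg).exp
  have hda : ∀ w : Wsp dm, fderiv ℝ (fun w : Wsp dm => Real.exp (-inner ℝ w (M w))) w a =
      (-2) * (inner ℝ (M a) w * Real.exp (-inner ℝ w (M w))) := by
    intro w
    rw [(hd w).fderiv]
    have h1 : inner ℝ w (M a) = inner ℝ (M a) w := real_inner_comm _ _
    have h2 : inner ℝ a (M w) = inner ℝ (M a) w := (hs a w).symm
    simp only [_root_.smul_apply, _root_.neg_apply,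
      ContinuousLinearMap.comp_apply, ContinuousLinearMap.prod_apply,
      ContinuousLinearMap.id_apply, fderivInnerCLM_apply, smul_eq_mul, h1, h2]
    ring
  have hbb : ∀ w : Wsp dm, fderiv ℝ (fun w : Wsp dm => inner ℝ b w) w a = inner ℝ b a := by
    intro w
    have : HasFDerivAt (fun w : Wsp dm => inner ℝ b w) (innerSL ℝ b) w :=
      (innerSL ℝ b).hasFDerivAt
    rw [this.fderiv]
    rfl
  have i3 : Integrable fun w : Wsp dm => inner ℝ b w * (inner ℝ (M a) w *
      Real.exp (-inner ℝ w (M w))) := by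
    refine (i2.const_mul (‖b‖ * ‖M a‖)).mono' ?_ (Eventually.of_forall fun w => ?_)
    · exact (Continuous.mul (by fun_prop) (Continuous.mul (by fun_prop) hG)).aestronglyMeasurable
    · rw [norm_mul, norm_mul, Real.norm_of_nonneg (Real.exp_pos _).le]
      have h1 := norm_inner_le_norm (𝕜 := ℝ) b w
      have h2 := norm_inner_le_norm (𝕜 := ℝ) (M a) w
      calc ‖inner ℝ b w‖ * (‖inner ℝ (M a) w‖ * Real.exp (-inner ℝ w (M w)))
          ≤ (‖b‖ * ‖w‖) * ((‖M a‖ * ‖w‖) * Real.exp (-inner ℝ w (M w))) := by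
            gcongr
        _ = ‖b‖ * ‖M a‖ * (Real.exp (-inner ℝ w (M w)) * ‖w‖ ^ 2) := by ring
  have i4 : Integrable fun w : Wsp dm => inner ℝ b w * Real.exp (-inner ℝ w (M w)) := by
    refine ((i1.add i2).const_mul ‖b‖).mono' ?_ (Eventually.of_forall fun w => ?_)
    · exact (Continuous.mul (by fun_prop) hG).aestronglyMeasurable
    · rw [norm_mul, Real.norm_of_nonneg (Real.exp_pos _).le]
      have h1 := norm_inner_le_norm (𝕜 := ℝ) b w
      have h2 : ‖w‖ ≤ 1 + ‖w‖ ^ 2 := by nlinarith [sq_nonneg (‖w‖ - 1), norm_nonneg w]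
      calc ‖inner ℝ b w‖ * Real.exp (-inner ℝ w (M w))
          ≤ (‖b‖ * (1 + ‖w‖ ^ 2)) * Real.exp (-inner ℝ w (M w)) := by
            have := h1.trans (mul_le_mul_of_nonneg_left h2 (norm_nonneg b))
            gcongr
        _ = ‖b‖ * ((Real.exp (-inner ℝ w (M w))) + Real.exp (-inner ℝ w (M w)) * ‖w‖ ^ 2) := by
            ring
  have h := integral_mul_fderiv_eq_neg_fderiv_mul_of_integrable (μ := volume)
    (f := fun w : Wsp dm => inner ℝ b w) (g := fun w : Wsp dm => Real.exp (-inner ℝ w (M w)))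
    (v := a) ?_ ?_ i4 ?_ ?_
  · simp only [hda, hbb] at h
    rw [integral_const_mul] at h
    have h3 : ∀ w : Wsp dm, inner ℝ b w * ((-2) * (inner ℝ (M a) w *
        Real.exp (-inner ℝ w (M w)))) = (-2) * (inner ℝ b w * (inner ℝ (M a) w *
        Real.exp (-inner ℝ w (M w)))) := fun w => by ring
    simp only [h3] at h
    rw [integral_const_mul] at h
    linarith
  · simp only [hbb]
    exact i1.const_mul _
  · simp only [hda]
    refine (i3.const_mul (-2)).congr (Eventually.of_forall fun w => ?_)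
    simp only []
    ring
  · exact fun w _ => ((innerSL ℝ b).hasFDerivAt (x := w)).differentiableAt
  · exact fun w _ => (hd w).differentiableAt

private theorem cv_main (hκ : 0 < κ) (hA : AlgStmt) (hQ : QFStmt) (hD : Frz D) (hO : IsOm κ D Om)
    (i j : Fin 8) (B C : Fin dm) :
    ∫ w : Wsp dm, w (i, B) * w (j, C) * gR D Om 1 w ^ 2 =
      (1 / 2) * ((if j = i then Om⁻¹ C B else 0) +
        (tI D j.castSucc * (tI D i.castSucc * Om⁻¹)) C B) * ∫ w : Wsp dm, gR D Om 1 w ^ 2 := by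
  obtain ⟨-, -, h8, -, -, ht, -⟩ := hA dm κ D Om hκ hD hO
  obtain ⟨M, hs, hq, hM, c, hc, hc2⟩ := hQ dm κ D Om hκ hD hO
  have hG : ∀ w : Wsp dm, gR D Om 1 w ^ 2 = Real.exp (-inner ℝ w (M w)) := by
    intro w
    unfold gR
    rw [← Real.exp_nat_mul, hq]
    congr 1
    push_cast
    ring
  have hdet : Om.det ≠ 0 := by
    intro h0
    obtain ⟨v, hv, h1⟩ := Matrix.exists_mulVec_eq_zero_iff.2 h0
    have := hO.pos v hv
    rw [h1, dotProduct_zero] at this
    exact lt_irrefl _ this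
  have hMN : M (cvN D Om⁻¹ i B) = EuclideanSpace.single (i, B) 1 := by
    ext ⟨l, E⟩
    rw [hM, cv_N_VV ht h8]
    by_cases hl : l = i
    · subst hl
      rw [if_pos rfl, Matrix.mulVec_mulVec, Matrix.mul_nonsing_inv _ (isUnit_iff_ne_zero.2 hdet),
        Matrix.one_mulVec]
      simp [Pi.single_apply]
    · rw [if_neg hl, Matrix.mulVec_zero]
      simp [hl]
  have key := cv_ibp M hs hc hc2 (cvN D Om⁻¹ i B) (EuclideanSpace.single (j, C) 1)
  rw [hMN] at key
  simp only [hG]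
  have e1 : ∀ (p : Fin 8 × Fin dm) (w : Wsp dm),
      inner ℝ (EuclideanSpace.single p (1 : ℝ)) w = w p := by
    intro p w
    rw [EuclideanSpace.inner_single_left]
    simp
  simp only [e1] at key
  have e2 : ∀ w : Wsp dm, w (i, B) * w (j, C) * Real.exp (-inner ℝ w (M w)) =
      w (j, C) * (w (i, B) * Real.exp (-inner ℝ w (M w))) := fun w => by ring
  simp only [e2]
  rw [key]
  rfl

end Cv

/-- **E-Cov** -/
theorem cov (S : Setup d F) (φ : Spl dh dm d) : AlgStmt → QFStmt → CovStmt S φ := by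
  intro hA hQ D Om hD hO i j B C
  obtain ⟨hsy, hcm, h8, hTO, -, ht, -⟩ := hA dm S.κ D Om S.κ_pos hD hO
  have hdet : Om.det ≠ 0 := by
    intro h0
    obtain ⟨v, hv, h1⟩ := Matrix.exists_mulVec_eq_zero_iff.2 h0
    have := hO.pos v hv
    rw [h1, dotProduct_zero] at this
    exact lt_irrefl _ this
  have hu := isUnit_iff_ne_zero.2 hdet
  have hOi : (Om⁻¹)ᵀ = Om⁻¹ := by
    rw [Matrix.transpose_nonsing_inv, hO.symm]
  have hTOi : ∀ i, tI D i * Om⁻¹ = Om⁻¹ * tI D i := by
    intro i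
    calc tI D i * Om⁻¹ = (Om⁻¹ * Om) * tI D i * Om⁻¹ := by
          rw [Matrix.nonsing_inv_mul _ hu, one_mul]
      _ = Om⁻¹ * (Om * tI D i) * Om⁻¹ := by simp only [mul_assoc]
      _ = Om⁻¹ * tI D i * (Om * Om⁻¹) := by rw [← hTO i]; simp only [mul_assoc]
      _ = Om⁻¹ * tI D i := by rw [Matrix.mul_nonsing_inv _ hu, mul_one]
  refine Fin.lastCases ?_ (fun j' => ?_) j
  · have h0 : ∀ (w : Wsp dm) (E : Fin dm), wt w (Fin.last 8) E = 0 := fun w E => cv_wt_last w E
    simp only [h0, mul_zero, zero_mul]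
  · refine Fin.lastCases ?_ (fun i' => ?_) i
    · have h0 : ∀ (w : Wsp dm) (E : Fin dm), wt w (Fin.last 8) E = 0 := fun w E => cv_wt_last w E
      simp only [h0, zero_mul]
    · simp only [cv_wt_cast]
      rw [cv_main S.κ_pos hA hQ hD hO, cv_main S.κ_pos hA hQ hD hO]
      have e1 : Om⁻¹ C B = Om⁻¹ B C := by
        conv_lhs => rw [← hOi]
        rfl
      have e2 : (tI D j'.castSucc * (tI D i'.castSucc * Om⁻¹))ᵀ =
          tI D j'.castSucc * (tI D i'.castSucc * Om⁻¹) := by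
        rw [Matrix.transpose_mul, Matrix.transpose_mul, hOi, hsy, hsy, ← hTOi, mul_assoc,
          ← hTOi, ← mul_assoc, ← mul_assoc, hcm]
      have e3 : (tI D j'.castSucc * (tI D i'.castSucc * Om⁻¹)) C B =
          (tI D j'.castSucc * (tI D i'.castSucc * Om⁻¹)) B C := by
        conv_lhs => rw [← e2]
        rfl
      rw [e1, e3]

end Vale.Agent.P353.Z.AE
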