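import Vale.Agent.P353.AN.E.StmtG

/-! # P353, all `N`, block E: EG-Cut, cut-off of `res u` near `R Y`, with mass -/

open MeasureTheory Filter Topology Matrix
open scoped ContDiff

namespace Vale.Agent.P353.Z.AE

variable {d dh dm : ℕ} {F : Type*} [NormedAddCommGroup F] [InnerProductSpace ℂ F]

/-! ### the cut-off function -/

/-- `1` for `t ≤ 9/16`, `0` for `15/16 ≤ t` -/
noncomputable def cg399t (t : ℝ) : ℝ := Real.smoothTransition ((15 / 16 - t) * (16 / 6))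

lemma cg399t_smooth : ContDiff ℝ ∞ cg399t :=
  Real.smoothTransition.contDiff.comp ((contDiff_const.sub contDiff_id).mul contDiff_const)

lemma cg399t_bd (t : ℝ) : 0 ≤ cg399t t ∧ cg399t t ≤ 1 :=
  ⟨Real.smoothTransition.nonneg _, Real.smoothTransition.le_one _⟩

lemma cg399t_one {t : ℝ} (h : t ≤ 9 / 16) : cg399t t = 1 :=
  Real.smoothTransition.one_of_one_le (by linarith)

lemma cg399t_zero {t : ℝ} (h : 15 / 16 ≤ t) : cg399t t = 0 :=
  Real.smoothTransition.zero_of_nonpos (by linarith)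

/-- cut-off at scale one -/
noncomputable def cg399b (Y : Cfg dh) (ε : ℝ) (p : Cfg dh × Wsp dm) : ℝ :=
  cg399t (‖p.1 - Y‖ ^ 2 / ε ^ 2) * cg399t (‖p.2‖ ^ 2 / ε ^ 2)

lemma cg399b_smooth (Y : Cfg dh) (ε : ℝ) : ContDiff ℝ ∞ (cg399b (dm := dm) Y ε) := by
  unfold cg399b
  refine (cg399t_smooth.comp ?_).mul (cg399t_smooth.comp ?_)
  · exact ((contDiff_norm_sq ℝ).comp (contDiff_fst.sub contDiff_const)).div_const _
  · exact ((contDiff_norm_sq ℝ).comp contDiff_snd).div_const _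

lemma cg399b_bd (Y : Cfg dh) (ε : ℝ) (p : Cfg dh × Wsp dm) :
    0 ≤ cg399b Y ε p ∧ cg399b Y ε p ≤ 1 := by
  have h1 := cg399t_bd (‖p.1 - Y‖ ^ 2 / ε ^ 2)
  have h2 := cg399t_bd (‖p.2‖ ^ 2 / ε ^ 2)
  exact ⟨mul_nonneg h1.1 h2.1, mul_le_one₀ h1.2 h2.1 h2.2⟩

lemma cg399_lt {a ε : ℝ} (hε : 0 < ε) (h : cg399t (a ^ 2 / ε ^ 2) ≠ 0) :
    a < 31 / 32 * ε := by
  by_contra hc
  push Not at hc
  apply h
  apply cg399t_zero
  rw [le_div_iff₀ (by positivity)]
  have h1 : (31 / 32 * ε) ^ 2 ≤ a ^ 2 := pow_le_pow_left₀ (by positivity) hc 2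
  nlinarith [sq_nonneg ε]

lemma cg399b_ne {Y : Cfg dh} {ε : ℝ} (hε : 0 < ε) {p : Cfg dh × Wsp dm} (h : cg399b Y ε p ≠ 0) :
    ‖p.1 - Y‖ < 31 / 32 * ε ∧ ‖p.2‖ < 31 / 32 * ε := by
  unfold cg399b at h
  exact ⟨cg399_lt hε (left_ne_zero_of_mul h),
    cg399_lt hε (right_ne_zero_of_mul h)⟩

lemma cg399b_one {Y : Cfg dh} {ε : ℝ} (hε : 0 < ε) {p : Cfg dh × Wsp dm}
    (h1 : ‖p.1 - Y‖ < 3 / 4 * ε) (h2 : ‖p.2‖ < 3 / 4 * ε) : cg399b Y ε p = 1 := by
  have key : ∀ a : ℝ, 0 ≤ a → a < 3 / 4 * ε → cg399t (a ^ 2 / ε ^ 2) = 1 := by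
    intro a ha h
    apply cg399t_one
    rw [div_le_iff₀ (by positivity)]
    have h3 : a ^ 2 ≤ (3 / 4 * ε) ^ 2 := pow_le_pow_left₀ ha h.le 2
    nlinarith
  unfold cg399b
  rw [key _ (norm_nonneg _) h1, key _ (norm_nonneg _) h2, one_mul]

lemma cg399b_supp (Y : Cfg dh) {ε : ℝ} (hε : 0 < ε) :
    HasCompactSupport (cg399b (dm := dm) Y ε) := by
  refine HasCompactSupport.intro (K := Metric.closedBall Y ε ×ˢ Metric.closedBall (0 : Wsp dm) ε)
    ((isCompact_closedBall _ _).prod (isCompact_closedBall _ _)) fun p hp => ?_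
  by_contra h
  apply hp
  obtain ⟨h1, h2⟩ := cg399b_ne hε h
  refine ⟨?_, ?_⟩
  · rw [mem_closedBall_iff_norm]
    linarith
  · rw [mem_closedBall_zero_iff]
    linarith

lemma cg399b_grad (Y : Cfg dh) {ε : ℝ} (hε : 0 < ε) :
    ∃ K : ℝ, 0 ≤ K ∧ ∀ p : Cfg dh × Wsp dm, ‖fderiv ℝ (cg399b (dm := dm) Y ε) p‖ ≤ K := by
  have h1 : Continuous (fderiv ℝ (cg399b (dm := dm) Y ε)) :=
    (cg399b_smooth Y ε).continuous_fderiv (by simp)
  obtain ⟨K, hK⟩ := h1.bounded_above_of_compact_support ((cg399b_supp Y hε).fderiv ℝ)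
  exact ⟨max K 0, le_max_right _ _, fun p => (hK p).trans (le_max_left _ _)⟩

/-- cut-off at scale `R` -/
noncomputable def cg399 (Y : Cfg dh) (ε R : ℝ) (y : Cfg dh) (w : Wsp dm) : ℝ :=
  cg399b Y ε (R⁻¹ • y, R⁻¹ • w)

lemma cg399_scale {R : ℝ} (hR : 0 < R) {V : Type*} [NormedAddCommGroup V] [NormedSpace ℝ V]
    (y Y : V) : ‖R⁻¹ • y - Y‖ = R⁻¹ * ‖y - R • Y‖ := by
  have h : R⁻¹ • y - Y = R⁻¹ • (y - R • Y) := by
    rw [smul_sub, smul_smul, inv_mul_cancel₀ hR.ne', one_smul]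
  rw [h, norm_smul, Real.norm_eq_abs, abs_of_pos (inv_pos.2 hR)]

lemma cg399_ne {Y : Cfg dh} {ε R : ℝ} (hε : 0 < ε) (hR : 0 < R) {y : Cfg dh} {w : Wsp dm}
    (h : cg399 Y ε R y w ≠ 0) : ‖y - R • Y‖ < 31 / 32 * ε * R ∧ ‖w‖ < 31 / 32 * ε * R := by
  obtain ⟨h1, h2⟩ := cg399b_ne hε h
  simp only at h1 h2
  rw [cg399_scale hR] at h1
  have h3 := cg399_scale hR w (0 : Wsp dm)
  rw [smul_zero, sub_zero, sub_zero] at h3
  rw [h3] at h2
  rw [inv_mul_lt_iff₀ hR] at h1 h2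
  constructor <;> linarith

lemma cg399_one {Y : Cfg dh} {ε R : ℝ} (hε : 0 < ε) (hR : 0 < R) {y : Cfg dh} {w : Wsp dm}
    (h1 : ‖y - R • Y‖ < 3 / 4 * ε * R) (h2 : ‖w‖ < 3 / 4 * ε * R) : cg399 Y ε R y w = 1 := by
  apply cg399b_one hε
  · show ‖R⁻¹ • y - Y‖ < _
    rw [cg399_scale hR, inv_mul_lt_iff₀ hR]
    linarith
  · show ‖R⁻¹ • w‖ < _
    have h3 := cg399_scale hR w (0 : Wsp dm)
    rw [smul_zero, sub_zero, sub_zero] at h3
    rw [h3, inv_mul_lt_iff₀ hR]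
    linarith

lemma cg399_comp (Y : Cfg dh) (ε R : ℝ) : (fun p : Cfg dh × Wsp dm => cg399 Y ε R p.1 p.2) =
    cg399b (dm := dm) Y ε ∘ (R⁻¹ • ContinuousLinearMap.id ℝ (Cfg dh × Wsp dm)) := rfl

lemma cg399_smooth (Y : Cfg dh) (ε R : ℝ) :
    ContDiff ℝ ∞ (fun p : Cfg dh × Wsp dm => cg399 Y ε R p.1 p.2) := by
  rw [cg399_comp]
  exact (cg399b_smooth Y ε).comp (ContinuousLinearMap.contDiff _)

lemma cg399_grad {Y : Cfg dh} {ε R K : ℝ} (hR : 0 < R)
    (hK : ∀ p : Cfg dh × Wsp dm, ‖fderiv ℝ (cg399b (dm := dm) Y ε) p‖ ≤ K) (p : Cfg dh × Wsp dm) :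
    ‖fderiv ℝ (fun p : Cfg dh × Wsp dm => cg399 Y ε R p.1 p.2) p‖ ≤ K / R := by
  rw [cg399_comp]
  have h1 : HasFDerivAt (cg399b (dm := dm) Y ε ∘
      (R⁻¹ • ContinuousLinearMap.id ℝ (Cfg dh × Wsp dm))) _ p :=
    (((cg399b_smooth (dm := dm) Y ε).differentiable (by simp)
      ((R⁻¹ • ContinuousLinearMap.id ℝ (Cfg dh × Wsp dm)) p)).hasFDerivAt).comp p
      (ContinuousLinearMap.hasFDerivAt _)
  rw [h1.fderiv]
  have h2 : ‖(R⁻¹ • ContinuousLinearMap.id ℝ (Cfg dh × Wsp dm))‖ ≤ R⁻¹ := by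
    rw [norm_smul, Real.norm_eq_abs, abs_of_pos (inv_pos.2 hR)]
    exact mul_le_of_le_one_right (inv_pos.2 hR).le ContinuousLinearMap.norm_id_le
  have hK0 : 0 ≤ K := (norm_nonneg _).trans (hK 0)
  calc _ ≤ ‖fderiv ℝ (cg399b (dm := dm) Y ε)
        ((R⁻¹ • ContinuousLinearMap.id ℝ (Cfg dh × Wsp dm)) p)‖ *
        ‖(R⁻¹ • ContinuousLinearMap.id ℝ (Cfg dh × Wsp dm))‖ := ContinuousLinearMap.opNorm_comp_le _ _
    _ ≤ K * R⁻¹ := mul_le_mul (hK _) h2 (norm_nonneg _) hK0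
    _ = K / R := rfl

/-! ### locality of the operators -/

section loc

variable (S : Setup d F) (φ : Spl dh dm d) (N : Fin 9 → Matrix (Fin 16) (Fin 16) ℂ) (m : ℝ)
  (β : Fin 16)

lemma cg399_QS_eq (v : Cfg dh → Wsp dm → F) (y : Cfg dh) (w : Wsp dm) :
    S.QS φ N m β v y w = AN.Qs S φ β v y w +
      (m : ℂ) • (S.Mh φ N β y (v y w) + S.Mw φ N β w (v y w)) := by
  unfold Setup.QS Setup.Qhm AN.Qs
  rw [smul_add]
  abel

lemma cg399_py {v v' : Cfg dh → Wsp dm → F} {y : Cfg dh} {w : Wsp dm}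
    (h : (fun p : Cfg dh × Wsp dm => v p.1 p.2) =ᶠ[𝓝 (y, w)] fun p => v' p.1 p.2) (i : Fin 9)
    (A : Fin dh) : py i A v y w = py i A v' y w := by
  have h1 : (fun y' => v y' w) =ᶠ[𝓝 y] fun y' => v' y' w :=
    (Continuous.prodMk_left w).continuousAt.eventually h
  unfold py pd
  rw [h1.fderiv_eq]

lemma cg399_pw {v v' : Cfg dh → Wsp dm → F} {y : Cfg dh} {w : Wsp dm}
    (h : (fun p : Cfg dh × Wsp dm => v p.1 p.2) =ᶠ[𝓝 (y, w)] fun p => v' p.1 p.2) (j : Fin 8)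
    (B : Fin dm) : pw j B v y w = pw j B v' y w := by
  have h1 : v y =ᶠ[𝓝 w] v' y :=
    (Continuous.prodMk_right y).continuousAt.eventually h
  unfold pw
  rw [h1.fderiv_eq]

lemma cg399_QS_congr {v v' : Cfg dh → Wsp dm → F} {y : Cfg dh} {w : Wsp dm}
    (h : (fun p : Cfg dh × Wsp dm => v p.1 p.2) =ᶠ[𝓝 (y, w)] fun p => v' p.1 p.2) :
    S.QS φ N m β v y w = S.QS φ N m β v' y w := by
  have h0 : v y w = v' y w := h.self_of_nhds
  have h1 := cg399_py h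
  have h2 := cg399_pw h
  rw [cg399_QS_eq, cg399_QS_eq]
  unfold AN.Qs Setup.Qh Setup.Q1 Setup.Qr
  simp only [h0, h1, h2]

lemma cg399_QS_zero {v : Cfg dh → Wsp dm → F} {y : Cfg dh} {w : Wsp dm}
    (h : ∀ᶠ p in 𝓝 (y, w), (fun p : Cfg dh × Wsp dm => v p.1 p.2) p = 0) :
    S.QS φ N m β v y w = 0 := by
  have h3 : (fun p : Cfg dh × Wsp dm => v p.1 p.2) =ᶠ[𝓝 (y, w)]
      fun p => (fun (_ : Cfg dh) (_ : Wsp dm) => (0 : F)) p.1 p.2 := h
  rw [cg399_QS_congr S φ N m β (v' := fun (_ : Cfg dh) (_ : Wsp dm) => (0 : F)) h3, cg399_QS_eq]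
  have h1 : ∀ i A, py i A (fun (_ : Cfg dh) (_ : Wsp dm) => (0 : F)) y w = 0 := by
    intro i A
    unfold py pd
    simp
  have h2 : ∀ j B, pw j B (fun (_ : Cfg dh) (_ : Wsp dm) => (0 : F)) y w = 0 := by
    intro j B
    unfold pw
    simp
  unfold AN.Qs Setup.Qh Setup.Q1 Setup.Qr
  simp only [h1, h2, map_zero, smul_zero, Finset.sum_const_zero, add_zero]

lemma cg399_comm (Θ : Cfg dh → Wsp dm → ℝ) (v : Cfg dh → Wsp dm → F) (y : Cfg dh) (w : Wsp dm) :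
    S.QS φ N m β (mul2 Θ v) y w - ((Θ y w : ℝ) : ℂ) • S.QS φ N m β v y w =
      AN.Qs S φ β (mul2 Θ v) y w - ((Θ y w : ℝ) : ℂ) • AN.Qs S φ β v y w := by
  rw [cg399_QS_eq, cg399_QS_eq]
  have h : mul2 Θ v y w = ((Θ y w : ℝ) : ℂ) • v y w := rfl
  rw [h, map_smul, map_smul]
  module

end loc

/-! ### integrals -/

lemma cg399_int {X : Type*} [MeasurableSpace X] {μ : Measure X} {s : Set X} (hs : MeasurableSet s)
    {f g : X → ℝ} (hf : ∀ x, 0 ≤ f x) (hg : IntegrableOn g s μ) (h0 : ∀ x, x ∉ s → f x = 0)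
    (hle : ∀ x ∈ s, f x ≤ g x) : ∫ x, f x ∂μ ≤ ∫ x in s, g x ∂μ := by
  rw [← integral_indicator hs]
  refine integral_mono_of_nonneg (Filter.Eventually.of_forall hf) (hg.integrable_indicator hs)
    (Filter.Eventually.of_forall fun x => ?_)
  by_cases hx : x ∈ s
  · simp only [Set.indicator_of_mem hx]
    exact hle x hx
  · simp only [Set.indicator_of_notMem hx]
    exact (h0 x hx).le

lemma cg399_cDy (S : Setup d F) (φ : Spl dh dm d) (i : Fin 9) :
    Continuous fun y : Cfg dh => S.Dy φ i y := by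
  refine continuous_matrix fun B C => ?_
  unfold Setup.Dy Setup.Dm
  simp only [Matrix.of_apply]
  exact continuous_finsetSum _ fun A _ => continuous_const.mul (by fun_prop)

lemma cg399_open (S : Setup d F) (φ : Spl dh dm d) :
    IsOpen {p : Cfg dh × Wsp dm | (S.Dy φ 8 p.1).det ≠ 0} :=
  isOpen_ne_fun ((cg399_cDy S φ 8).matrix_det.comp continuous_fst) continuous_const

lemma cg399_Nb (Y : Cfg dh) (dm : ℕ) (R ε : ℝ) : MeasurableSet (AN.Nb Y dm R ε) := by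
  have h : IsOpen (AN.Nb Y dm R ε) := by
    have h1 : Continuous fun p : Cfg dh × Wsp dm => ‖p.1 - R • Y‖ := by fun_prop
    have h2 : Continuous fun p : Cfg dh × Wsp dm => ‖p.2‖ := by fun_prop
    exact (isOpen_lt h1 continuous_const).inter (isOpen_lt h2 continuous_const)
  exact h.measurableSet

/-- **EG-Cut** -/
theorem cutG (S : Setup d F) (φ : Spl dh dm d) (hNorm : AN.NormStmt S) (hGh : AN.GhStmt S)
    (hCut : AN.CutStmt S) (hBd : AN.BdStmt S) (hFrame : AN.FrameStmt S) (hDec : AN.DecStmt S)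
    (hQ : QInvStmt S) : CutGStmt S φ := by
  intro _ N _ Y hY
  obtain ⟨ε1, C1, hε1, hC1, hb⟩ := hBd dh dm φ Y hY
  obtain ⟨ε2, ρ, hε2, hρ, hn⟩ := hNorm dh dm φ Y hY
  obtain ⟨ε3, C3, hε3, hC3, hc⟩ := hCut dh dm φ Y hY
  have hfr := (hFrame.2.2 N).2 dh dm φ
  refine ⟨min ε1 (min ε2 ε3), by positivity, fun ε hε hεle => ?_⟩
  have he1 : ε ≤ ε1 := hεle.trans (min_le_left _ _)
  have he2 : ε ≤ ε2 := hεle.trans ((min_le_right _ _).trans (min_le_left _ _))
  have he3 : ε ≤ ε3 := hεle.trans ((min_le_right _ _).trans (min_le_right _ _))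
  obtain ⟨c, δ, hc0, -, hn'⟩ := hn ε ρ hε he2 hρ le_rfl
  obtain ⟨K, hK0, hK⟩ := cg399b_grad (dm := dm) Y hε
  set D : ℝ := C3 * K with hD
  have hD0 : 0 ≤ D := mul_nonneg hC3.le hK0
  refine ⟨2 / c + 32 * D ^ 2 / c + D, by positivity, fun R hR => ?_⟩
  have hRp : 0 < R := by linarith
  -- norm bound
  have hnb : ∀ v, GI S v → ∫ p in AN.Nb Y dm R ε, ‖S.res φ v p.1 p.2‖ ^ 2
      ∂((volume : Measure (Cfg dh)).prod (volume : Measure (Wsp dm))) ≤ 1 / c * nsq v := by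
    intro v hv
    have h1 := ((hn' R hRp).2 v hv.tst hv.inv).1
    have h2 : ∫ x in AN.Tube S φ Y R ε ρ, ‖v x‖ ^ 2 ≤ nsq v :=
      setIntegral_le_integral (Setup.Tst.norm_sq_int hv.tst)
        (Filter.Eventually.of_forall fun x => by positivity)
    rw [h1] at h2
    rw [one_div, ← div_eq_inv_mul, le_div_iff₀ hc0, mul_comm]
    exact h2
  have hdet : ∀ y : Cfg dh, ‖y - R • Y‖ ≤ ε * R → (S.Dy φ 8 y).det ≠ 0 := fun y hy =>
    (hb R y hRp (hy.trans (mul_le_mul_of_nonneg_right he1 hRp.le))).1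
  have hsm : ∀ v, GI S v → AN.Sm S φ (S.res φ v) := fun v hv => (hGh dh dm φ hY.sub v hv.tst.1).1
  have hcat : ∀ v, GI S v → ∀ p : Cfg dh × Wsp dm, ‖p.1 - R • Y‖ ≤ ε * R →
      ContDiffAt ℝ ∞ (fun p : Cfg dh × Wsp dm => S.res φ v p.1 p.2) p := fun v hv p hp =>
    (hsm v hv).contDiffAt ((cg399_open S φ).mem_nhds (hdet p.1 hp))
  have hion : ∀ v, GI S v → IntegrableOn (fun p : Cfg dh × Wsp dm => ‖S.res φ v p.1 p.2‖ ^ 2)
      (AN.Nb Y dm R ε) ((volume : Measure (Cfg dh)).prod (volume : Measure (Wsp dm))) := by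
    intro v hv
    have h1 : IntegrableOn (fun p : Cfg dh × Wsp dm => ‖S.res φ v p.1 p.2‖ ^ 2)
        (Metric.closedBall (R • Y) (ε * R) ×ˢ Metric.closedBall (0 : Wsp dm) (ε * R))
        ((volume : Measure (Cfg dh)).prod (volume : Measure (Wsp dm))) := by
      apply ContinuousOn.integrableOn_compact
      · exact (isCompact_closedBall _ _).prod (isCompact_closedBall _ _)
      · intro p hp
        have h2 := (hcat v hv p (by
          have := hp.1
          rwa [mem_closedBall_iff_norm] at this)).continuousAt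
        exact (h2.norm.pow 2).continuousWithinAt
    refine h1.mono_set fun p hp => ⟨?_, ?_⟩
    · rw [mem_closedBall_iff_norm]
      exact hp.1.le
    · rw [mem_closedBall_zero_iff]
      exact hp.2.le
  refine ⟨fun v hv => ?_, cg399 Y ε R, cg399_smooth Y ε R, fun y w => cg399b_bd Y ε _,
    fun y w h => ?_, fun y w h1 h2 => cg399_one hε hRp h1 h2, fun m u hu => ?_⟩
  · refine (hnb v hv).trans (mul_le_mul_of_nonneg_right ?_ (nsq_nonneg v))
    have h1 : 1 / c ≤ 2 / c := by gcongr; norm_num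
    have h2 : 0 ≤ 32 * D ^ 2 / c := by positivity
    linarith
  · have h1 := cg399_ne hε hRp h
    have h2 : 0 < ε * R := by positivity
    constructor <;> linarith [h1.1, h1.2]
  -- the cut-off function of `u`
  have hQu : ∀ β, GI S (QN S N m β u) := fun β => hQ N m β u hu
  have hpt : ∀ β (y : Cfg dh) (w : Wsp dm), ‖y - R • Y‖ ≤ ε * R →
      S.QS φ N m β (S.res φ u) y w = S.res φ (QN S N m β u) y w := fun β y w hy =>
    (hfr.2 hY.sub hDec u hu.tst.1 hu.inv m β y w (hdet y hy)).symm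
  have hout : ∀ p : Cfg dh × Wsp dm, p ∉ AN.Nb Y dm R ε →
      ∀ᶠ q in 𝓝 p, mul2 (cg399 Y ε R) (S.res φ u) q.1 q.2 = 0 := by
    intro p hp
    have hεR : 0 < ε * R := by positivity
    have h1 : ¬ (‖p.1 - R • Y‖ < ε * R ∧ ‖p.2‖ < ε * R) := hp
    rw [not_and_or, not_lt, not_lt] at h1
    rcases h1 with h1 | h1
    · have h2 : ∀ᶠ q : Cfg dh × Wsp dm in 𝓝 p, 31 / 32 * ε * R < ‖q.1 - R • Y‖ := by
        apply (Continuous.continuousAt (by fun_prop)).eventually_const_lt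
        linarith
      filter_upwards [h2] with q hq
      have h3 : cg399 Y ε R q.1 q.2 = 0 := by
        by_contra h4
        exact absurd (cg399_ne hε hRp h4).1 (not_lt.2 hq.le)
      show ((cg399 Y ε R q.1 q.2 : ℝ) : ℂ) • _ = 0
      rw [h3, Complex.ofReal_zero, zero_smul]
    · have h2 : ∀ᶠ q : Cfg dh × Wsp dm in 𝓝 p, 31 / 32 * ε * R < ‖q.2‖ := by
        apply (Continuous.continuousAt (by fun_prop)).eventually_const_lt
        linarith
      filter_upwards [h2] with q hq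
      have h3 : cg399 Y ε R q.1 q.2 = 0 := by
        by_contra h4
        exact absurd (cg399_ne hε hRp h4).2 (not_lt.2 hq.le)
      show ((cg399 Y ε R q.1 q.2 : ℝ) : ℂ) • _ = 0
      rw [h3, Complex.ofReal_zero, zero_smul]
  have hlast : ∀ β (y : Cfg dh) (w : Wsp dm), ‖y - R • Y‖ < ε * R → ‖w‖ < ε * R →
      ‖S.QS φ N m β (mul2 (cg399 Y ε R) (S.res φ u)) y w‖ ≤
        ‖S.res φ (QN S N m β u) y w‖ + D / R * ‖S.res φ u y w‖ := by
    intro β y w hy hw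
    have h1 := cg399_comm S φ N m β (cg399 Y ε R) (S.res φ u) y w
    have h2 := hc R y w hRp (lt_of_lt_of_le hy (mul_le_mul_of_nonneg_right he3 hRp.le))
      (lt_of_lt_of_le hw (mul_le_mul_of_nonneg_right he3 hRp.le))
      (fun p => cg399 Y ε R p.1 p.2) (S.res φ u) (cg399_smooth Y ε R) (hsm u hu) β
    have h3 : ‖AN.Qs S φ β (mul2 (cg399 Y ε R) (S.res φ u)) y w -
        ((cg399 Y ε R y w : ℝ) : ℂ) • AN.Qs S φ β (S.res φ u) y w‖ ≤
        C3 * ‖fderiv ℝ (fun p : Cfg dh × Wsp dm => cg399 Y ε R p.1 p.2) (y, w)‖ *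
          ‖S.res φ u y w‖ := h2
    have h4 : C3 * ‖fderiv ℝ (fun p : Cfg dh × Wsp dm => cg399 Y ε R p.1 p.2) (y, w)‖ ≤ D / R := by
      rw [hD, mul_div_assoc]
      exact mul_le_mul_of_nonneg_left (cg399_grad hRp hK (y, w)) hC3.le
    have h5 : 0 ≤ cg399 Y ε R y w ∧ cg399 Y ε R y w ≤ 1 := cg399b_bd Y ε (R⁻¹ • y, R⁻¹ • w)
    have h6 : ‖((cg399 Y ε R y w : ℝ) : ℂ) • S.QS φ N m β (S.res φ u) y w‖ ≤
        ‖S.res φ (QN S N m β u) y w‖ := by
      rw [norm_smul, hpt β y w hy.le, Complex.norm_real, Real.norm_eq_abs, abs_of_nonneg h5.1]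
      exact mul_le_of_le_one_left (norm_nonneg _) h5.2
    have h7 : S.QS φ N m β (mul2 (cg399 Y ε R) (S.res φ u)) y w =
        ((cg399 Y ε R y w : ℝ) : ℂ) • S.QS φ N m β (S.res φ u) y w +
        (AN.Qs S φ β (mul2 (cg399 Y ε R) (S.res φ u)) y w -
          ((cg399 Y ε R y w : ℝ) : ℂ) • AN.Qs S φ β (S.res φ u) y w) := by
      rw [← h1]
      abel
    rw [h7]
    refine (norm_add_le _ _).trans (add_le_add h6 (h3.trans ?_))
    exact mul_le_mul_of_nonneg_right h4 (norm_nonneg _)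
  refine ⟨⟨?_, ?_⟩, ?_, ?_, ?_, ?_, ?_⟩
  · -- smooth
    rw [contDiff_iff_contDiffAt]
    intro p
    rcases le_or_gt ‖p.1 - R • Y‖ (ε * R) with hp | hp
    · have h1 := (cg399_smooth (dm := dm) Y ε R).contDiffAt (x := p)
      have h2 : ContDiffAt ℝ ∞ (fun q : Cfg dh × Wsp dm => ((cg399 Y ε R q.1 q.2 : ℝ) : ℂ)) p :=
        Complex.ofRealCLM.contDiff.contDiffAt.comp p h1
      exact h2.smul (hcat u hu p hp)
    · have h1 : p ∉ AN.Nb Y dm R ε := fun h => absurd h.1 (not_lt.2 hp.le)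
      have h2 : (fun q : Cfg dh × Wsp dm => mul2 (cg399 Y ε R) (S.res φ u) q.1 q.2) =ᶠ[𝓝 p]
          fun _ => (0 : F) := hout p h1
      exact contDiffAt_const.congr_of_eventuallyEq h2
  · -- compact support
    refine HasCompactSupport.intro
      (K := Metric.closedBall (R • Y) (ε * R) ×ˢ Metric.closedBall (0 : Wsp dm) (ε * R))
      ((isCompact_closedBall _ _).prod (isCompact_closedBall _ _)) fun p hp => ?_
    have h1 : p ∉ AN.Nb Y dm R ε := by
      intro h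
      apply hp
      refine ⟨?_, ?_⟩
      · rw [mem_closedBall_iff_norm]
        exact h.1.le
      · rw [mem_closedBall_zero_iff]
        exact h.2.le
    exact (hout p h1).self_of_nhds
  · -- support
    intro y w h
    by_contra hn2
    apply h
    have h1 : (y, w) ∉ AN.Nb Y dm R ε := fun h2 => hn2 ⟨h2.1.le, h2.2.le⟩
    exact (hout (y, w) h1).self_of_nhds
  · -- norm
    have h1 : ns2 (mul2 (cg399 Y ε R) (S.res φ u)) ≤ ∫ p in AN.Nb Y dm R ε,
        ‖S.res φ u p.1 p.2‖ ^ 2 ∂((volume : Measure (Cfg dh)).prod (volume : Measure (Wsp dm))) := by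
      apply cg399_int (cg399_Nb Y dm R ε) (fun p => by positivity) (hion u hu)
      · intro p hp
        rw [(hout p hp).self_of_nhds, norm_zero]
        norm_num
      · intro p _
        have h5 : 0 ≤ cg399 Y ε R p.1 p.2 ∧ cg399 Y ε R p.1 p.2 ≤ 1 :=
          cg399b_bd Y ε (R⁻¹ • p.1, R⁻¹ • p.2)
        have h6 : ‖mul2 (cg399 Y ε R) (S.res φ u) p.1 p.2‖ ≤ ‖S.res φ u p.1 p.2‖ := by
          show ‖((cg399 Y ε R p.1 p.2 : ℝ) : ℂ) • S.res φ u p.1 p.2‖ ≤ _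
          rw [norm_smul, Complex.norm_real, Real.norm_eq_abs, abs_of_nonneg h5.1]
          exact mul_le_of_le_one_left (norm_nonneg _) h5.2
        exact pow_le_pow_left₀ (norm_nonneg _) h6 2
    refine (h1.trans (hnb u hu)).trans (mul_le_mul_of_nonneg_right ?_ (nsq_nonneg u))
    have h1 : 1 / c ≤ 2 / c := by gcongr; norm_num
    have h2 : 0 ≤ 32 * D ^ 2 / c := by positivity
    linarith
  · -- energy
    have h1 : ∀ β, ns2 (S.QS φ N m β (mul2 (cg399 Y ε R) (S.res φ u))) ≤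
        2 / c * nsq (QN S N m β u) + 2 * (D / R) ^ 2 / c * nsq u := by
      intro β
      have h2 : ns2 (S.QS φ N m β (mul2 (cg399 Y ε R) (S.res φ u))) ≤
          ∫ p in AN.Nb Y dm R ε, (2 * ‖S.res φ (QN S N m β u) p.1 p.2‖ ^ 2 +
            2 * (D / R) ^ 2 * ‖S.res φ u p.1 p.2‖ ^ 2)
            ∂((volume : Measure (Cfg dh)).prod (volume : Measure (Wsp dm))) := by
        apply cg399_int (cg399_Nb Y dm R ε) (fun p => by positivity)
          (((hion _ (hQu β)).const_mul 2).add ((hion u hu).const_mul _))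
        · intro p hp
          rw [cg399_QS_zero S φ N m β (hout p hp), norm_zero]
          norm_num
        · intro p hp
          have h3 := hlast β p.1 p.2 hp.1 hp.2
          have h4 : 0 ≤ D / R * ‖S.res φ u p.1 p.2‖ := by positivity
          have h5 := pow_le_pow_left₀ (norm_nonneg _) h3 2
          have h6 : (‖S.res φ (QN S N m β u) p.1 p.2‖ + D / R * ‖S.res φ u p.1 p.2‖) ^ 2 ≤
              2 * ‖S.res φ (QN S N m β u) p.1 p.2‖ ^ 2 +
                2 * (D / R) ^ 2 * ‖S.res φ u p.1 p.2‖ ^ 2 := by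
            nlinarith [sq_nonneg (‖S.res φ (QN S N m β u) p.1 p.2‖ - D / R * ‖S.res φ u p.1 p.2‖)]
          exact h5.trans h6
      have h3 : ∫ p in AN.Nb Y dm R ε, (2 * ‖S.res φ (QN S N m β u) p.1 p.2‖ ^ 2 +
            2 * (D / R) ^ 2 * ‖S.res φ u p.1 p.2‖ ^ 2)
            ∂((volume : Measure (Cfg dh)).prod (volume : Measure (Wsp dm))) =
          2 * (∫ p in AN.Nb Y dm R ε, ‖S.res φ (QN S N m β u) p.1 p.2‖ ^ 2
            ∂((volume : Measure (Cfg dh)).prod (volume : Measure (Wsp dm)))) +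
          2 * (D / R) ^ 2 * ∫ p in AN.Nb Y dm R ε, ‖S.res φ u p.1 p.2‖ ^ 2
            ∂((volume : Measure (Cfg dh)).prod (volume : Measure (Wsp dm))) := by
        rw [integral_add ((hion _ (hQu β)).const_mul 2) ((hion u hu).const_mul _),
          integral_const_mul, integral_const_mul]
      have h4 := mul_le_mul_of_nonneg_left (hnb _ (hQu β)) (show (0 : ℝ) ≤ 2 by norm_num)
      have h5 := mul_le_mul_of_nonneg_left (hnb u hu) (show 0 ≤ 2 * (D / R) ^ 2 by positivity)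
      rw [h3] at h2
      calc _ ≤ _ := h2
        _ ≤ 2 * (1 / c * nsq (QN S N m β u)) + 2 * (D / R) ^ 2 * (1 / c * nsq u) :=
            add_le_add h4 h5
        _ = _ := by ring
    have h2 : S.ES φ N m (mul2 (cg399 Y ε R) (S.res φ u)) ≤
        ∑ β, (2 / c * nsq (QN S N m β u) + 2 * (D / R) ^ 2 / c * nsq u) :=
      Finset.sum_le_sum fun β _ => h1 β
    rw [Finset.sum_add_distrib, ← Finset.mul_sum, Finset.sum_const, Finset.card_univ,
      Fintype.card_fin, nsmul_eq_mul] at h2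
    have h3 : 0 ≤ ∑ β, nsq (QN S N m β u) := Finset.sum_nonneg fun β _ => nsq_nonneg _
    have h4 := nsq_nonneg u
    have h5 : ((16 : ℕ) : ℝ) * (2 * (D / R) ^ 2 / c * nsq u) = 32 * D ^ 2 / c * (1 / R ^ 2 * nsq u) := by
      rw [div_pow]
      push_cast
      field_simp
      ring
    rw [h5] at h2
    have h6 : 0 ≤ 1 / R ^ 2 * nsq u := by positivity
    have h7 : 0 ≤ 32 * D ^ 2 / c := by positivity
    have h8 : 0 ≤ 2 / c := by positivity
    nlinarith [mul_nonneg h7 h3, mul_nonneg h8 h6, mul_nonneg hD0 h3, mul_nonneg hD0 h6]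
  · -- near the centre
    intro β y w hy hw
    rw [← hpt β y w (by
      have : 0 < ε * R := by positivity
      linarith)]
    apply cg399_QS_congr
    have h1 : ∀ᶠ q : Cfg dh × Wsp dm in 𝓝 (y, w), ‖q.1 - R • Y‖ < 3 / 4 * ε * R :=
      (Continuous.continuousAt (by fun_prop)).eventually_lt_const hy
    have h2 : ∀ᶠ q : Cfg dh × Wsp dm in 𝓝 (y, w), ‖q.2‖ < 3 / 4 * ε * R :=
      (Continuous.continuousAt (by fun_prop)).eventually_lt_const hw
    filter_upwards [h1, h2] with q hq1 hq2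
    show ((cg399 Y ε R q.1 q.2 : ℝ) : ℂ) • S.res φ u q.1 q.2 = S.res φ u q.1 q.2
    rw [cg399_one hε hRp hq1 hq2, Complex.ofReal_one, one_smul]
  · intro β y w hy hw
    refine (hlast β y w hy hw).trans (add_le_add le_rfl ?_)
    apply mul_le_mul_of_nonneg_right _ (norm_nonneg _)
    apply div_le_div_of_nonneg_right _ hRp.le
    have h1 : 0 ≤ 2 / c := by positivity
    have h2 : 0 ≤ 32 * D ^ 2 / c := by positivity
    linarith

end Vale.Agent.P353.Z.AE
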