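import Vale.Agent.P353.AN.E.Stmt
import Vale.Agent.P353.AN.C.CalcA
import Vale.Agent.P353.AN.C.CalcB
import Vale.Agent.P353.AN.C.Op
import Vale.Agent.P353.AN.C.Fib

/-! # P353, all `N`, block E, E-Dec1: the off-diagonal supercharge applied to the trial function -/

open MeasureTheory Filter Topology Matrix
open scoped ContDiff

namespace Vale.Agent.P353.Z.AE.D1p

open Vale.Agent.P353.Z.AN Vale.Agent.P353.Z.AN.Sy Vale.Agent.P353.Z.AN.Op687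

variable {d dh dm r ds : ℕ} {F : Type*} [NormedAddCommGroup F] [InnerProductSpace ℂ F]

/-! ### coordinates -/

lemma zpt_sub_smul (ψ : Spl r ds dh) (x : Cfg dh) (R : ℝ) (y₀ : Cfg r) :
    zpt ψ (x - R • cmb ψ y₀ 0) = zpt ψ x - R • y₀ := by
  ext p
  simp [zpt, cmb]

lemma norm_zpt_le (ψ : Spl r ds dh) (x : Cfg dh) : ‖zpt ψ x‖ ≤ ‖x‖ := by
  rw [EuclideanSpace.norm_eq, EuclideanSpace.norm_eq]
  apply Real.sqrt_le_sqrt
  simp only [Fintype.sum_prod_type]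
  refine Finset.sum_le_sum fun i _ => ?_
  rw [← ψ.sum_comp (fun A => ‖x (i, A)‖ ^ 2), Fintype.sum_sum_type]
  simp only [zpt]
  exact le_add_of_nonneg_right (Finset.sum_nonneg fun b _ => by positivity)

lemma norm_cmb0 (ψ : Spl r ds dh) (y : Cfg r) : ‖cmb ψ y (0 : Cfg ds)‖ = ‖y‖ := by
  rw [EuclideanSpace.norm_eq, EuclideanSpace.norm_eq]
  congr 1
  simp only [Fintype.sum_prod_type]
  refine Finset.sum_congr rfl fun i _ => ?_
  rw [← ψ.sum_comp (fun A => ‖cmb ψ y (0 : Cfg ds) (i, A)‖ ^ 2), Fintype.sum_sum_type]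
  simp [cmb]

lemma cmb0_sub (ψ : Spl r ds dh) (y y₀ : Cfg r) (R : ℝ) :
    cmb ψ y (0 : Cfg ds) - R • cmb ψ y₀ 0 = cmb ψ (y - R • y₀) 0 := by
  ext p
  rcases h : ψ.symm p.2 with a | b <;> simp [cmb, h]

lemma contDiff_P (ψ : Spl r ds dh) : ContDiff ℝ ∞ (fun x : Cfg dh => cmb ψ (zpt ψ x) (0 : Cfg ds)) := by
  refine contDiff_euclidean.2 fun p => ?_
  rcases h : ψ.symm p.2 with a | b
  · have : (fun x : Cfg dh => cmb ψ (zpt ψ x) (0 : Cfg ds) p) = fun x => x (p.1, ψ (Sum.inl a)) := by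
      funext x
      simp [cmb, zpt, h]
    rw [this]
    exact Setup.contDiff_coord _
  · have : (fun x : Cfg dh => cmb ψ (zpt ψ x) (0 : Cfg ds) p) = fun _ => 0 := by
      funext x
      simp [cmb, h]
    rw [this]
    exact contDiff_const

/-- index equivalence -/
def zsEquiv (ψ : Spl r ds dh) : (Fin 9 × Fin r) ⊕ (Fin 9 × Fin ds) ≃ Fin 9 × Fin dh :=
  (Equiv.prodSumDistrib (Fin 9) (Fin r) (Fin ds)).symm.trans (Equiv.prodCongr (Equiv.refl _) ψ)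

theorem zs_mp (ψ : Spl r ds dh) :
    MeasurePreserving (fun x : Cfg dh => (zpt ψ x, spt ψ x)) volume (volume.prod volume) := by
  have m1 := PiLp.volume_preserving_ofLp (Fin 9 × Fin dh)
  have m2 := (volume_measurePreserving_piCongrLeft (fun _ : Fin 9 × Fin dh => ℝ)
    (zsEquiv ψ)).symm
  have m3 := volume_measurePreserving_sumPiEquivProdPi
    (fun _ : (Fin 9 × Fin r) ⊕ (Fin 9 × Fin ds) => ℝ)
  have n1 := PiLp.volume_preserving_toLp (Fin 9 × Fin r)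
  have n2 := PiLp.volume_preserving_toLp (Fin 9 × Fin ds)
  exact (n1.prod n2).comp (m3.comp (m2.comp m1))

lemma int_zs (ψ : Spl r ds dh) {G : Cfg r → ℝ} {H : Cfg ds → ℝ} (hG : Integrable G) (hH : Integrable H) :
    Integrable (fun x : Cfg dh => G (zpt ψ x) * H (spt ψ x)) ∧
      ∫ x : Cfg dh, G (zpt ψ x) * H (spt ψ x) = (∫ y, G y) * ∫ s, H s := by
  have h1 : Integrable (fun p : Cfg r × Cfg ds => G p.1 * H p.2) (volume.prod volume) := hG.mul_prod hH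
  have h2 := zs_mp (dh := dh) ψ
  refine ⟨(h2.integrable_comp h1.aestronglyMeasurable).2 h1, ?_⟩
  have h3 : ∫ p, G p.1 * H p.2 ∂((volume : Measure (Cfg r)).prod (volume : Measure (Cfg ds))) =
      (∫ y, G y) * ∫ s, H s := integral_prod_mul G H
  rw [← h3, ← h2.map_eq, integral_map h2.measurable.aemeasurable]
  rw [h2.map_eq]
  exact h1.aestronglyMeasurable

/-! ### the frozen matrices -/

lemma std_cmb (S : Setup d F) (φ : Spl dh dm d) (ψ : Spl r ds dh) (hs : S.IsSub φ) (hc : S.IsCen φ ψ)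
    (y : Cfg r) (hy : (S.Dz φ ψ y 8).det ≠ 0) : Std S φ (cmb ψ y 0) := by
  refine ⟨hs, ?_, hy⟩
  intro i B C
  rw [← ψ.sum_comp, Fintype.sum_sum_type]
  have h1 : ∀ a, S.f (φ (Sum.inl (ψ (Sum.inl a)))) (φ (Sum.inl B)) (φ (Sum.inl C)) = 0 := fun a => hc a B C
  simp [h1, cmb]

lemma frz_Dz (S : Setup d F) (φ : Spl dh dm d) (ψ : Spl r ds dh) (hs : S.IsSub φ) (hc : S.IsCen φ ψ)
    (y : Cfg r) (hy : (S.Dz φ ψ y 8).det ≠ 0) : Frz (S.Dz φ ψ y) :=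
  fo_frz S φ (cmb ψ y 0) (std_cmb S φ ψ hs hc y hy)

/-! ### the fibre operator on real multiples of a vector -/

/-- the derivative part of `q1` with prescribed derivatives -/
noncomputable def XX (S : Setup d F) (φ : Spl dh dm d) (D : Fin 9 → Matrix (Fin dm) (Fin dm) ℝ) (β : Fin 16)
    (κ : Fin 8 → Fin dm → ℝ) (v : F) : F :=
  (-Complex.I) • (∑ j : Fin 8, ∑ B, S.vec (S.g j.castSucc) (φ (Sum.inr B)) β (((κ j B : ℝ) : ℂ) • v)) +
    Complex.I • (∑ B, S.vec (S.g 8) (φ (Sum.inr B)) β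
      (∑ C, (((D 8)⁻¹ B C : ℝ) : ℂ) • ∑ j : Fin 8, ∑ E, ((D j.castSucc C E : ℝ) : ℂ) • (((κ j E : ℝ) : ℂ) • v)))

/-- the potential part of `q1` -/
noncomputable def PT (S : Setup d F) (φ : Spl dh dm d) (D : Fin 9 → Matrix (Fin dm) (Fin dm) ℝ) (β : Fin 16)
    (w : Wsp dm) (v : F) : F :=
  (1 / 2 : ℂ) • ∑ B, ∑ i, ∑ j, ((S.κ * ((∑ C, D i B C * wt w j C) - ∑ C, D j B C * wt w i C) : ℝ) : ℂ) •
      S.vec (S.g2 i j) (φ (Sum.inr B)) β v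

lemma XX_add (S : Setup d F) (φ : Spl dh dm d) (D : Fin 9 → Matrix (Fin dm) (Fin dm) ℝ) (β : Fin 16)
    (κ κ' : Fin 8 → Fin dm → ℝ) (v : F) :
    XX S φ D β (fun j B => κ j B + κ' j B) v = XX S φ D β κ v + XX S φ D β κ' v := by
  unfold XX
  simp only [Complex.ofReal_add, add_smul, map_add, smul_add, Finset.sum_add_distrib]
  abel

lemma XX_smul (S : Setup d F) (φ : Spl dh dm d) (D : Fin 9 → Matrix (Fin dm) (Fin dm) ℝ) (β : Fin 16)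
    (κ : Fin 8 → Fin dm → ℝ) (t : ℝ) (v : F) :
    XX S φ D β (fun j B => t * κ j B) v = (t : ℂ) • XX S φ D β κ v := by
  unfold XX
  have h1 : ∀ j B, ((t * κ j B : ℝ) : ℂ) • v = (t : ℂ) • (((κ j B : ℝ) : ℂ) • v) := by
    intro j B
    rw [Complex.ofReal_mul, mul_smul]
  have h2 : ∀ (C : Fin dm) (j : Fin 8) (E : Fin dm), ((D j.castSucc C E : ℝ) : ℂ) • ((t : ℂ) • (((κ j E : ℝ) : ℂ) • v)) =
      (t : ℂ) • (((D j.castSucc C E : ℝ) : ℂ) • (((κ j E : ℝ) : ℂ) • v)) := fun C j E => smul_comm _ _ _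
  have h3 : ∀ (B C : Fin dm) (u : F), (((D 8)⁻¹ B C : ℝ) : ℂ) • ((t : ℂ) • u) = (t : ℂ) • ((((D 8)⁻¹ B C : ℝ) : ℂ) • u) :=
    fun B C u => smul_comm _ _ _
  simp only [h1, h2, ← Finset.smul_sum, h3, map_smul]
  rw [smul_comm (-Complex.I) (t : ℂ), smul_comm Complex.I (t : ℂ), ← smul_add]

lemma XX_vsmul (S : Setup d F) (φ : Spl dh dm d) (D : Fin 9 → Matrix (Fin dm) (Fin dm) ℝ) (β : Fin 16)
    (κ : Fin 8 → Fin dm → ℝ) : XX S φ D β κ 0 = 0 := by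
  unfold XX
  simp

lemma PT_smul (S : Setup d F) (φ : Spl dh dm d) (D : Fin 9 → Matrix (Fin dm) (Fin dm) ℝ) (β : Fin 16)
    (w : Wsp dm) (t : ℂ) (v : F) : PT S φ D β w (t • v) = t • PT S φ D β w v := by
  unfold PT
  have h1 : ∀ (B : Fin dm) (i j : Fin 9) (z : ℂ), z • S.vec (S.g2 i j) (φ (Sum.inr B)) β (t • v) =
      t • (z • S.vec (S.g2 i j) (φ (Sum.inr B)) β v) := by
    intro B i j z
    rw [map_smul, smul_comm]
  simp only [h1, ← Finset.smul_sum]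
  rw [smul_comm]

lemma pf_real (h : Wsp dm → ℝ) (a : F) (w : Wsp dm) (hh : DifferentiableAt ℝ h w) (j : Fin 8) (B : Fin dm) :
    pf j B (fun w => ((h w : ℝ) : ℂ) • a) w =
      ((fderiv ℝ h w (EuclideanSpace.single (j, B) 1) : ℝ) : ℂ) • a := by
  unfold pf
  have h2 : (fun w => ((h w : ℝ) : ℂ) • a) = fun w => h w • a := by
    funext w
    rw [Complex.coe_smul]
  rw [h2]
  have h4 : fderiv ℝ (fun x => h x • a) w = (fderiv ℝ h w).smulRight a := (hh.hasFDerivAt.smul_const a).fderiv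
  rw [h4]
  simp [Complex.coe_smul]

lemma q1_real (S : Setup d F) (φ : Spl dh dm d) (D : Fin 9 → Matrix (Fin dm) (Fin dm) ℝ) (β : Fin 16)
    (h : Wsp dm → ℝ) (a : F) (w : Wsp dm) (hh : DifferentiableAt ℝ h w) :
    S.q1 φ D β (fun w => ((h w : ℝ) : ℂ) • a) w =
      XX S φ D β (fun j B => fderiv ℝ h w (EuclideanSpace.single (j, B) 1)) a +
        PT S φ D β w (((h w : ℝ) : ℂ) • a) := by
  unfold Setup.q1 XX PT
  simp only [pf_real h a w hh]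

/-- product rule at a zero of `q1` -/
lemma q1_cut (S : Setup d F) (φ : Spl dh dm d) (D : Fin 9 → Matrix (Fin dm) (Fin dm) ℝ) (β : Fin 16)
    (c b : Wsp dm → ℝ) (a : F) (w : Wsp dm) (hc : DifferentiableAt ℝ c w) (hb : DifferentiableAt ℝ b w)
    (h0 : S.q1 φ D β (fun w => ((b w : ℝ) : ℂ) • a) w = 0) :
    S.q1 φ D β (fun w => ((c w * b w : ℝ) : ℂ) • a) w =
      XX S φ D β (fun j B => b w * fderiv ℝ c w (EuclideanSpace.single (j, B) 1)) a := by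
  rw [q1_real S φ D β b a w hb] at h0
  rw [q1_real S φ D β (fun w => c w * b w) a w (hc.mul hb)]
  have h1 : ∀ j B, fderiv ℝ (fun w => c w * b w) w (EuclideanSpace.single (j, B) 1) =
      b w * fderiv ℝ c w (EuclideanSpace.single (j, B) 1) + c w * fderiv ℝ b w (EuclideanSpace.single (j, B) 1) := by
    intro j B
    have h2 : fderiv ℝ (fun w => c w * b w) w = c w • fderiv ℝ b w + b w • fderiv ℝ c w :=
      (hc.hasFDerivAt.mul hb.hasFDerivAt).fderiv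
    rw [h2]
    simp [add_comm]
  simp only [h1]
  rw [XX_add, XX_smul (t := c w), Complex.ofReal_mul, mul_smul, PT_smul, add_assoc, ← smul_add, h0, smul_zero,
    add_zero]

/-- bound for the coefficients -/
noncomputable def MV (S : Setup d F) (φ : Spl dh dm d) : ℝ :=
  ∑ i : Fin 9, ∑ B : Fin dm, ∑ β : Fin 16, ‖S.vec (S.g i) (φ (Sum.inr B)) β‖

lemma MV_nonneg (S : Setup d F) (φ : Spl dh dm d) : 0 ≤ MV S φ :=
  Finset.sum_nonneg fun _ _ => Finset.sum_nonneg fun _ _ => Finset.sum_nonneg fun _ _ => norm_nonneg _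

lemma vec_le (S : Setup d F) (φ : Spl dh dm d) (i : Fin 9) (B : Fin dm) (β : Fin 16) (u : F) :
    ‖S.vec (S.g i) (φ (Sum.inr B)) β u‖ ≤ MV S φ * ‖u‖ := by
  refine (ContinuousLinearMap.le_opNorm _ _).trans (mul_le_mul_of_nonneg_right ?_ (norm_nonneg _))
  have h1 : ‖S.vec (S.g i) (φ (Sum.inr B)) β‖ ≤ ∑ β : Fin 16, ‖S.vec (S.g i) (φ (Sum.inr B)) β‖ :=
    Finset.single_le_sum (f := fun β => ‖S.vec (S.g i) (φ (Sum.inr B)) β‖) (fun β _ => norm_nonneg _) (Finset.mem_univ β)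
  have h2 : ∑ β : Fin 16, ‖S.vec (S.g i) (φ (Sum.inr B)) β‖ ≤ ∑ B : Fin dm, ∑ β : Fin 16, ‖S.vec (S.g i) (φ (Sum.inr B)) β‖ :=
    Finset.single_le_sum (f := fun B => ∑ β : Fin 16, ‖S.vec (S.g i) (φ (Sum.inr B)) β‖)
      (fun B _ => Finset.sum_nonneg fun β _ => norm_nonneg _) (Finset.mem_univ B)
  have h3 : ∑ B : Fin dm, ∑ β : Fin 16, ‖S.vec (S.g i) (φ (Sum.inr B)) β‖ ≤ MV S φ :=
    Finset.single_le_sum (f := fun i => ∑ B : Fin dm, ∑ β : Fin 16, ‖S.vec (S.g i) (φ (Sum.inr B)) β‖)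
      (fun i _ => Finset.sum_nonneg fun B _ => Finset.sum_nonneg fun β _ => norm_nonneg _) (Finset.mem_univ i)
  linarith

lemma XX_le (S : Setup d F) (φ : Spl dh dm d) (D : Fin 9 → Matrix (Fin dm) (Fin dm) ℝ) (β : Fin 16)
    (κ : Fin 8 → Fin dm → ℝ) (v : F) {C R : ℝ} (hC : 0 ≤ C) (hR : 0 < R) (hD : ∀ i B E, |D i B E| ≤ C * R)
    (hI : ∀ B E, |(D 8)⁻¹ B E| ≤ C / R) :
    ‖XX S φ D β κ v‖ ≤ MV S φ * (1 + (dm : ℝ) ^ 2 * C ^ 2) * (∑ j, ∑ B, |κ j B|) * ‖v‖ := by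
  have hM := MV_nonneg S φ
  set s := ∑ j, ∑ B, |κ j B| with hs
  have hs0 : 0 ≤ s := Finset.sum_nonneg fun j _ => Finset.sum_nonneg fun B _ => abs_nonneg _
  have e1 : ‖∑ j : Fin 8, ∑ B, S.vec (S.g j.castSucc) (φ (Sum.inr B)) β (((κ j B : ℝ) : ℂ) • v)‖ ≤ MV S φ * s * ‖v‖ := by
    calc ‖∑ j : Fin 8, ∑ B, S.vec (S.g j.castSucc) (φ (Sum.inr B)) β (((κ j B : ℝ) : ℂ) • v)‖
        ≤ ∑ j : Fin 8, ∑ B, MV S φ * (|κ j B| * ‖v‖) := by
          refine (norm_sum_le _ _).trans (Finset.sum_le_sum fun j _ => (norm_sum_le _ _).trans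
            (Finset.sum_le_sum fun B _ => (vec_le S φ _ B β _).trans ?_))
          rw [norm_smul, Complex.norm_real, Real.norm_eq_abs]
      _ = MV S φ * s * ‖v‖ := by
          rw [hs]
          simp only [← Finset.mul_sum, ← Finset.sum_mul]
          ring
  have e2 : ∀ C' : Fin dm, ‖∑ j : Fin 8, ∑ E, ((D j.castSucc C' E : ℝ) : ℂ) • (((κ j E : ℝ) : ℂ) • v)‖ ≤
      C * R * (s * ‖v‖) := by
    intro C'
    calc ‖∑ j : Fin 8, ∑ E, ((D j.castSucc C' E : ℝ) : ℂ) • (((κ j E : ℝ) : ℂ) • v)‖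
        ≤ ∑ j : Fin 8, ∑ E, (C * R) * (|κ j E| * ‖v‖) := by
          refine (norm_sum_le _ _).trans (Finset.sum_le_sum fun j _ => (norm_sum_le _ _).trans
            (Finset.sum_le_sum fun E _ => ?_))
          rw [norm_smul, norm_smul, Complex.norm_real, Real.norm_eq_abs, Complex.norm_real, Real.norm_eq_abs]
          exact mul_le_mul_of_nonneg_right (hD _ _ _) (by positivity)
      _ = C * R * (s * ‖v‖) := by
          rw [hs]
          simp only [← Finset.mul_sum, ← Finset.sum_mul]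
  have e3 : ‖∑ B, S.vec (S.g 8) (φ (Sum.inr B)) β (∑ C', (((D 8)⁻¹ B C' : ℝ) : ℂ) •
      ∑ j : Fin 8, ∑ E, ((D j.castSucc C' E : ℝ) : ℂ) • (((κ j E : ℝ) : ℂ) • v))‖ ≤
      MV S φ * ((dm : ℝ) ^ 2 * C ^ 2) * s * ‖v‖ := by
    calc _ ≤ ∑ _B : Fin dm, MV S φ * (∑ _C' : Fin dm, (C / R) * (C * R * (s * ‖v‖))) := by
          refine (norm_sum_le _ _).trans (Finset.sum_le_sum fun B _ => (vec_le S φ _ B β _).trans
            (mul_le_mul_of_nonneg_left ((norm_sum_le _ _).trans (Finset.sum_le_sum fun C' _ => ?_)) hM))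
          rw [norm_smul, Complex.norm_real, Real.norm_eq_abs]
          exact mul_le_mul (hI _ _) (e2 C') (norm_nonneg _) (by positivity)
      _ = MV S φ * ((dm : ℝ) ^ 2 * C ^ 2) * s * ‖v‖ := by
          simp only [Finset.sum_const, Finset.card_univ, Fintype.card_fin, nsmul_eq_mul]
          field_simp
  unfold XX
  refine (norm_add_le _ _).trans ?_
  rw [norm_smul, norm_smul, norm_neg, Complex.norm_I, one_mul, one_mul]
  calc _ ≤ MV S φ * s * ‖v‖ + MV S φ * ((dm : ℝ) ^ 2 * C ^ 2) * s * ‖v‖ := add_le_add e1 e3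
    _ = _ := by ring

/-! ### the cutoff -/

/-- the derivative of a cutoff is bounded -/
lemma ct_bd {c : ℝ → ℝ} (hc : IsCt c) : ∃ M : ℝ, 0 ≤ M ∧ ∀ t, |deriv c t| ≤ M := by
  have hcont : Continuous (deriv c) := hc.sm.continuous_deriv (by simp)
  obtain ⟨M, hM⟩ := (isCompact_Icc (a := (1 / 4 : ℝ)) (b := 1)).exists_bound_of_continuousOn hcont.continuousOn
  refine ⟨max M 0, le_max_right _ _, fun t => ?_⟩
  by_cases h1 : t < 1 / 4
  · have : c =ᶠ[𝓝 t] fun _ => 1 := by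
      filter_upwards [Iio_mem_nhds h1] with s hs using hc.one s (le_of_lt hs)
    rw [this.deriv_eq]
    simp
  · by_cases h2 : 1 < t
    · have : c =ᶠ[𝓝 t] fun _ => 0 := by
        filter_upwards [Ioi_mem_nhds h2] with s hs using hc.zero s (le_of_lt hs)
      rw [this.deriv_eq]
      simp
    · exact (hM t ⟨not_lt.1 h1, not_lt.1 h2⟩).trans (le_max_left _ _)

lemma ct_zero {c : ℝ → ℝ} (hc : IsCt c) {t : ℝ} (h : t < 1 / 4 ∨ 1 < t) : deriv c t = 0 := by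
  rcases h with h1 | h2
  · have : c =ᶠ[𝓝 t] fun _ => 1 := by
      filter_upwards [Iio_mem_nhds h1] with s hs using hc.one s (le_of_lt hs)
    rw [this.deriv_eq]
    simp
  · have : c =ᶠ[𝓝 t] fun _ => 0 := by
      filter_upwards [Ioi_mem_nhds h2] with s hs using hc.zero s (le_of_lt hs)
    rw [this.deriv_eq]
    simp

lemma ct_diff {c : ℝ → ℝ} (hc : IsCt c) (ρ : ℝ) (w : Wsp dm) :
    DifferentiableAt ℝ (fun w : Wsp dm => c (‖w‖ ^ 2 / ρ ^ 2)) w ∧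
    ∀ j B, fderiv ℝ (fun w : Wsp dm => c (‖w‖ ^ 2 / ρ ^ 2)) w (EuclideanSpace.single (j, B) 1) =
      deriv c (‖w‖ ^ 2 / ρ ^ 2) * (2 * w (j, B) / ρ ^ 2) := by
  have h1 : HasFDerivAt (fun w : Wsp dm => ‖w‖ ^ 2) (2 • innerSL ℝ w) w := (hasStrictFDerivAt_norm_sq w).hasFDerivAt
  have h2 : HasFDerivAt (fun w : Wsp dm => ‖w‖ ^ 2 / ρ ^ 2) ((ρ ^ 2)⁻¹ • (2 • innerSL ℝ w)) w := by
    simpa [div_eq_mul_inv] using h1.mul_const ((ρ ^ 2)⁻¹)
  have h3 : HasDerivAt c (deriv c (‖w‖ ^ 2 / ρ ^ 2)) (‖w‖ ^ 2 / ρ ^ 2) :=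
    ((hc.sm.differentiable (by simp)) _).hasDerivAt
  have h4 := h3.comp_hasFDerivAt w h2
  refine ⟨h4.differentiableAt, fun j B => ?_⟩
  have h5 : fderiv ℝ (fun w : Wsp dm => c (‖w‖ ^ 2 / ρ ^ 2)) w =
      deriv c (‖w‖ ^ 2 / ρ ^ 2) • ((ρ ^ 2)⁻¹ • (2 • innerSL ℝ w)) := h4.fderiv
  rw [h5]
  simp only [ContinuousLinearMap.smul_apply, innerSL_apply_apply, smul_eq_mul, nsmul_eq_mul, Nat.cast_ofNat]
  have h6 : inner ℝ w (EuclideanSpace.single (j, B) (1 : ℝ)) = w (j, B) := by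
    rw [EuclideanSpace.inner_single_right]
    simp
  rw [h6]
  ring

lemma coord_le (w : Wsp dm) (k : Fin 8 × Fin dm) : |w k| ≤ ‖w‖ := by
  rw [← Real.norm_eq_abs]
  exact PiLp.norm_apply_le w k

lemma ct_le {c : ℝ → ℝ} (hc : IsCt c) {M : ℝ} (hM : ∀ t, |deriv c t| ≤ M) {ρ : ℝ} (hρ : 0 < ρ) (w : Wsp dm)
    (j : Fin 8) (B : Fin dm) :
    |fderiv ℝ (fun w : Wsp dm => c (‖w‖ ^ 2 / ρ ^ 2)) w (EuclideanSpace.single (j, B) 1)| ≤
      if ρ / 2 ≤ ‖w‖ then 2 * M / ρ else 0 := by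
  have hM0 : 0 ≤ M := (abs_nonneg _).trans (hM 0)
  rw [(ct_diff hc ρ w).2 j B]
  by_cases h : ‖w‖ ^ 2 / ρ ^ 2 < 1 / 4 ∨ 1 < ‖w‖ ^ 2 / ρ ^ 2
  · rw [ct_zero hc h, zero_mul, abs_zero]
    split_ifs <;> positivity
  · push Not at h
    obtain ⟨h1, h2⟩ := h
    have hρ2 : 0 < ρ ^ 2 := by positivity
    have h3 : ρ / 2 ≤ ‖w‖ := by
      rw [le_div_iff₀ hρ2] at h1
      nlinarith [norm_nonneg w]
    have h4 : ‖w‖ ≤ ρ := by
      rw [div_le_one hρ2] at h2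
      exact abs_le_of_sq_le_sq' h2 hρ.le |>.2
    rw [if_pos h3, abs_mul]
    have h5 : |2 * w (j, B) / ρ ^ 2| ≤ 2 / ρ := by
      rw [abs_div, abs_mul, abs_of_pos hρ2, abs_two, div_le_div_iff₀ hρ2 hρ]
      have := coord_le w (j, B)
      nlinarith [abs_nonneg (w (j, B))]
    calc |deriv c (‖w‖ ^ 2 / ρ ^ 2)| * |2 * w (j, B) / ρ ^ 2| ≤ M * (2 / ρ) :=
          mul_le_mul (hM _) h5 (abs_nonneg _) hM0
      _ = 2 * M / ρ := by ring

/-! ### oddness -/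

lemma wt_neg (w : Wsp dm) (i : Fin 9) (B : Fin dm) : wt (-w) i B = -wt w i B := by
  induction i using Fin.lastCases with
  | last => simp only [wt, Fin.lastCases_last, neg_zero]
  | cast j => simp only [wt, Fin.lastCases_castSucc, PiLp.neg_apply]

lemma q1_odd (S : Setup d F) (φ : Spl dh dm d) (D : Fin 9 → Matrix (Fin dm) (Fin dm) ℝ) (β : Fin 16)
    (f : Wsp dm → F) (w : Wsp dm) (h1 : f (-w) = f w) (h2 : ∀ j B, pf j B f (-w) = -pf j B f w) :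
    S.q1 φ D β f (-w) = -S.q1 φ D β f w := by
  unfold Setup.q1
  have h3 : ∀ (B : Fin dm) (i j : Fin 9), (S.κ * ((∑ C, D i B C * wt (-w) j C) - ∑ C, D j B C * wt (-w) i C) : ℝ) =
      -(S.κ * ((∑ C, D i B C * wt w j C) - ∑ C, D j B C * wt w i C)) := by
    intro B i j
    simp only [wt_neg, mul_neg, Finset.sum_neg_distrib]
    ring
  simp only [h1, h2, h3, map_neg, smul_neg, Finset.sum_neg_distrib, Complex.ofReal_neg, neg_smul, neg_add_rev, neg_neg]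
  abel

/-! ### the off-diagonal supercharge with coefficients at the central part -/

/-- `q1` with the matrices at `zpt x` -/
noncomputable def QZ (S : Setup d F) (φ : Spl dh dm d) (ψ : Spl r ds dh) (β : Fin 16) (v : Cfg dh → Wsp dm → F)
    (x : Cfg dh) (w : Wsp dm) : F := S.q1 φ (S.Dz φ ψ (zpt ψ x)) β (v x) w

lemma cz_Dy (S : Setup d F) (φ : Spl dh dm d) (ψ : Spl r ds dh) (i : Fin 9) (B C : Fin dm) :
    ContDiff ℝ ∞ (fun x : Cfg dh => S.Dz φ ψ (zpt ψ x) i B C) :=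
  (contDiff_Dy S φ i B C).comp (contDiff_P ψ)

lemma cz_inv (S : Setup d F) (φ : Spl dh dm d) (ψ : Spl r ds dh) (B C : Fin dm) :
    ContDiffOn ℝ ∞ (fun x : Cfg dh => (S.Dz φ ψ (zpt ψ x) 8)⁻¹ B C) {x | (S.Dz φ ψ (zpt ψ x) 8).det ≠ 0} :=
  contDiffOn_inv (M := fun x : Cfg dh => S.Dz φ ψ (zpt ψ x) 8) (fun i j => cz_Dy S φ ψ 8 i j) B C

lemma cz_open (S : Setup d F) (φ : Spl dh dm d) (ψ : Spl r ds dh) :
    IsOpen {x : Cfg dh | (S.Dz φ ψ (zpt ψ x) 8).det ≠ 0} := by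
  have h : Continuous fun x : Cfg dh => (S.Dz φ ψ (zpt ψ x) 8).det :=
    (contDiff_det (M := fun x : Cfg dh => S.Dz φ ψ (zpt ψ x) 8) (fun i j => cz_Dy S φ ψ 8 i j)).continuous
  exact isOpen_ne_fun h continuous_const

lemma near_P (ψ : Spl r ds dh) {y₀ : Cfg r} {ρ R : ℝ} {x : Cfg dh} (h : ‖x - R • cmb ψ y₀ 0‖ ≤ ρ) :
    ‖cmb ψ (zpt ψ x) (0 : Cfg ds) - R • cmb ψ y₀ 0‖ ≤ ρ := by
  rw [cmb0_sub, norm_cmb0, ← zpt_sub_smul]
  exact (norm_zpt_le ψ _).trans h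

lemma tz_loc (S : Setup d F) (φ : Spl dh dm d) (ψ : Spl r ds dh) {y₀ : Cfg r} {ε0 C0 R : ℝ}
    (hbd : S.CoefBd φ (cmb ψ y₀ 0) ε0 C0) (hR : 0 < R)
    {c : Cfg dh → ℝ} (hc : ContDiffOn ℝ ∞ c {x | (S.Dz φ ψ (zpt ψ x) 8).det ≠ 0}) {v : Cfg dh → Wsp dm → F}
    (hv : Tst2 v) (hs : ∀ y w, v y w ≠ 0 → ‖y - R • cmb ψ y₀ 0‖ ≤ ε0 * R) :
    Tst2 (fun y w => ((c y : ℝ) : ℂ) • v y w) := by
  refine (calcA dh dm F).mulOn c v {y | ‖y - R • cmb ψ y₀ 0‖ ≤ ε0 * R} _ ?_ (cz_open S φ ψ) ?_ hc hs hv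
  · exact isClosed_le (by fun_prop) continuous_const
  · intro x hx
    exact hbd.det R hR _ (near_P ψ hx)

lemma t_QZ (S : Setup d F) (φ : Spl dh dm d) (ψ : Spl r ds dh) {y₀ : Cfg r} {ε0 C0 R : ℝ}
    (hbd : S.CoefBd φ (cmb ψ y₀ 0) ε0 C0) (hR : 0 < R) (v : Cfg dh → Wsp dm → F) (hv : Tst2 v)
    (hs : Sup2 (cmb ψ y₀ 0) ε0 R v) (β : Fin 16) : Tst2 (QZ S φ ψ β v) := by
  have hA := calcA dh dm F
  have h1 : Tst2 (fun y w => (-Complex.I) • (∑ j : Fin 8, ∑ B,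
      S.vec (S.g j.castSucc) (φ (Sum.inr B)) β (pw j B v y w))) :=
    hA.smul _ _ (t_sum hA _ _ fun j _ => t_sum hA _ _ fun B _ => hA.clm _ _ (hA.pw j B v hv))
  have h2 : ∀ C : Fin dm, Tst2 (fun y w => ∑ j : Fin 8, ∑ E,
      ((S.Dz φ ψ (zpt ψ y) j.castSucc C E : ℝ) : ℂ) • pw j E v y w) := fun C =>
    t_sum hA _ _ fun j _ => t_sum hA _ _ fun E _ =>
      t_mulc hA (fun y _ => S.Dz φ ψ (zpt ψ y) j.castSucc C E) ((cz_Dy S φ ψ _ C E).comp contDiff_fst) _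
        (hA.pw j E v hv)
  have h3 : ∀ (C : Fin dm) (y : Cfg dh) (w : Wsp dm), (∑ j : Fin 8, ∑ E,
      ((S.Dz φ ψ (zpt ψ y) j.castSucc C E : ℝ) : ℂ) • pw j E v y w) ≠ 0 → ‖y - R • cmb ψ y₀ 0‖ ≤ ε0 * R := by
    intro C y w h
    by_contra hn
    obtain ⟨_, _, h0⟩ := van hA hv hs (y := y) (w := w) fun h' => hn h'.1
    apply h
    simp [h0]
  have h4 : Tst2 (fun y w => Complex.I • (∑ B, S.vec (S.g 8) (φ (Sum.inr B)) β
      (∑ C, (((S.Dz φ ψ (zpt ψ y) 8)⁻¹ B C : ℝ) : ℂ) • ∑ j : Fin 8, ∑ E,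
        ((S.Dz φ ψ (zpt ψ y) j.castSucc C E : ℝ) : ℂ) • pw j E v y w))) :=
    hA.smul _ _ (t_sum hA _ _ fun B _ => hA.clm _ _ (t_sum hA _ _ fun C _ =>
      tz_loc S φ ψ hbd hR (cz_inv S φ ψ B C) (h2 C) (h3 C)))
  have h6 : ∀ (B : Fin dm) (i j : Fin 9), ContDiff ℝ ∞ (fun p : Cfg dh × Wsp dm =>
      S.κ * ((∑ C, S.Dz φ ψ (zpt ψ p.1) i B C * wt p.2 j C) - ∑ C, S.Dz φ ψ (zpt ψ p.1) j B C * wt p.2 i C)) := by
    intro B i j
    refine contDiff_const.mul (ContDiff.sub (ContDiff.sum fun C _ => ?_) (ContDiff.sum fun C _ => ?_))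
    · exact ((cz_Dy S φ ψ i B C).comp contDiff_fst).mul (contDiff_wt j C)
    · exact ((cz_Dy S φ ψ j B C).comp contDiff_fst).mul (contDiff_wt i C)
  have h5 : Tst2 (fun y w => (1 / 2 : ℂ) • ∑ B, ∑ i, ∑ j, ((S.κ * ((∑ C, S.Dz φ ψ (zpt ψ y) i B C * wt w j C) -
      ∑ C, S.Dz φ ψ (zpt ψ y) j B C * wt w i C) : ℝ) : ℂ) • S.vec (S.g2 i j) (φ (Sum.inr B)) β (v y w)) :=
    hA.smul _ _ (t_sum hA _ _ fun B _ => t_sum hA _ _ fun i _ => t_sum hA _ _ fun j _ =>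
      t_mulT hA (fun y w => S.κ * ((∑ C, S.Dz φ ψ (zpt ψ y) i B C * wt w j C) -
        ∑ C, S.Dz φ ψ (zpt ψ y) j B C * wt w i C)) (h6 B i j) _ v hv)
  exact hA.add _ _ (hA.add _ _ h1 h4) h5

lemma sup_QZ (S : Setup d F) (φ : Spl dh dm d) (ψ : Spl r ds dh) {Y : Cfg dh} {ε R : ℝ} (v : Cfg dh → Wsp dm → F)
    (hv : Tst2 v) (hs : Sup2 Y ε R v) (β : Fin 16) : Sup2 Y ε R (QZ S φ ψ β v) := by
  intro y w h
  by_contra hn
  obtain ⟨h0, _, h2⟩ := van (calcA dh dm F) hv hs hn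
  apply h
  have h3 : ∀ j B, pf j B (v y) w = 0 := h2
  unfold QZ Setup.q1
  simp [h0, h3]

/-! ### the profile integral -/

lemma int_prof (ψ : Spl r ds dh) {ζ : Cfg r → ℂ} (hζ : ContDiff ℝ ∞ ζ) (hζc : HasCompactSupport ζ)
    {Φ : Cfg ds → F} (hΦ : Setup.Tst Φ) {R : ℝ} (hR : 0 < R) :
    Integrable (fun x : Cfg dh => ((Real.sqrt R ^ (9 * r))⁻¹) ^ 2 *
      (‖ζ (R⁻¹ • zpt ψ x)‖ ^ 2 * ‖Φ (spt ψ x)‖ ^ 2)) ∧
    ∫ x : Cfg dh, ((Real.sqrt R ^ (9 * r))⁻¹) ^ 2 * (‖ζ (R⁻¹ • zpt ψ x)‖ ^ 2 * ‖Φ (spt ψ x)‖ ^ 2) =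
      (∫ y, ‖ζ y‖ ^ 2) * nsq Φ := by
  have i1 : Integrable (fun y : Cfg r => ‖ζ y‖ ^ 2) := by
    refine Continuous.integrable_of_hasCompactSupport (by have := hζ.continuous; fun_prop) ?_
    refine hζc.mono fun y hy => ?_
    simp only [Function.mem_support] at hy ⊢
    intro h0
    exact hy (by simp [h0])
  have i2 : Integrable (fun y : Cfg r => ‖ζ (R⁻¹ • y)‖ ^ 2) := i1.comp_smul (inv_ne_zero hR.ne')
  have i3 : Integrable (fun s : Cfg ds => ‖Φ s‖ ^ 2) := by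
    refine Continuous.integrable_of_hasCompactSupport (by have := hΦ.1.continuous; fun_prop) ?_
    refine hΦ.2.mono fun y hy => ?_
    simp only [Function.mem_support] at hy ⊢
    intro h0
    exact hy (by simp [h0])
  obtain ⟨h1, h2⟩ := int_zs (dh := dh) ψ i2 i3
  refine ⟨h1.const_mul _, ?_⟩
  rw [integral_const_mul, h2]
  have h3 : ∫ y : Cfg r, ‖ζ (R⁻¹ • y)‖ ^ 2 = R ^ (9 * r) * ∫ y, ‖ζ y‖ ^ 2 := by
    have := MeasureTheory.Measure.integral_comp_inv_smul_of_nonneg (μ := (volume : Measure (Cfg r)))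
      (fun y : Cfg r => ‖ζ y‖ ^ 2) hR.le
    rw [this, smul_eq_mul]
    congr 2
    simp
  rw [h3]
  have h4 : (Real.sqrt R ^ (9 * r)) ^ 2 = R ^ (9 * r) := by
    rw [← pow_mul, mul_comm, pow_mul, Real.sq_sqrt hR.le]
  have h5 : R ^ (9 * r) ≠ 0 := pow_ne_zero _ hR.ne'
  rw [inv_pow, h4]
  unfold nsq
  field_simp

/-! ### pointwise bounds -/

lemma x1_pt (S : Setup d F) (φ : Spl dh dm d) (D : Fin 9 → Matrix (Fin dm) (Fin dm) ℝ) (β : Fin 16)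
    {C R : ℝ} (hC : 0 ≤ C) (hR : 0 < R) (hD : ∀ i B E, |D i B E| ≤ C * R) (hI : ∀ B E, |(D 8)⁻¹ B E| ≤ C / R)
    {c : ℝ → ℝ} (hc : IsCt c) {M : ℝ} (hM : ∀ t, |deriv c t| ≤ M) {ε : ℝ} (hε : 0 < ε) {N : ℝ} (hN : 0 ≤ N)
    (b : Wsp dm → ℝ) (a : F) (w : Wsp dm) (hb : DifferentiableAt ℝ b w) (hb0 : 0 ≤ b w)
    (h0 : S.q1 φ D β (fun w => ((N * b w : ℝ) : ℂ) • a) w = 0) :
    ‖S.q1 φ D β (fun w => ((N * c (‖w‖ ^ 2 / (ε * R) ^ 2) * b w : ℝ) : ℂ) • a) w‖ ^ 2 ≤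
      (MV S φ * (1 + (dm : ℝ) ^ 2 * C ^ 2) * (8 * dm * (2 * M / ε))) ^ 2 * (1 / R) ^ 2 * (N ^ 2 * ‖a‖ ^ 2) *
        (if ε / 2 * R ≤ ‖w‖ then (‖w‖ ^ 0 * b w) ^ 2 else 0) := by
  have hM0 : 0 ≤ M := (abs_nonneg _).trans (hM 0)
  have hMV := MV_nonneg S φ
  have hρ : 0 < ε * R := by positivity
  have e1 : (fun w : Wsp dm => ((N * c (‖w‖ ^ 2 / (ε * R) ^ 2) * b w : ℝ) : ℂ) • a) =
      fun w => ((c (‖w‖ ^ 2 / (ε * R) ^ 2) * (N * b w) : ℝ) : ℂ) • a := by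
    funext w
    congr 2
    ring
  rw [e1, q1_cut S φ D β (fun w => c (‖w‖ ^ 2 / (ε * R) ^ 2)) (fun w => N * b w) a w (ct_diff hc _ w).1
    (hb.const_mul N) h0]
  have e2 := XX_le S φ D β (fun j B => N * b w * fderiv ℝ (fun w : Wsp dm => c (‖w‖ ^ 2 / (ε * R) ^ 2)) w
    (EuclideanSpace.single (j, B) 1)) a hC hR hD hI
  have e3 : (∑ j : Fin 8, ∑ B : Fin dm, |N * b w * fderiv ℝ (fun w : Wsp dm => c (‖w‖ ^ 2 / (ε * R) ^ 2)) w
      (EuclideanSpace.single (j, B) 1)|) ≤ 8 * dm * (N * b w * if ε * R / 2 ≤ ‖w‖ then 2 * M / (ε * R) else 0) := by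
    calc _ ≤ ∑ _j : Fin 8, ∑ _B : Fin dm, (N * b w * if ε * R / 2 ≤ ‖w‖ then 2 * M / (ε * R) else 0) := by
          refine Finset.sum_le_sum fun j _ => Finset.sum_le_sum fun B _ => ?_
          rw [abs_mul, abs_of_nonneg (mul_nonneg hN hb0)]
          exact mul_le_mul_of_nonneg_left (ct_le hc hM hρ w j B) (mul_nonneg hN hb0)
      _ = _ := by
          simp only [Finset.sum_const, Finset.card_univ, Fintype.card_fin, nsmul_eq_mul]
          push_cast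
          ring
  have e4 : ‖XX S φ D β (fun j B => N * b w * fderiv ℝ (fun w : Wsp dm => c (‖w‖ ^ 2 / (ε * R) ^ 2)) w
    (EuclideanSpace.single (j, B) 1)) a‖ ≤ MV S φ * (1 + (dm : ℝ) ^ 2 * C ^ 2) *
      (8 * dm * (N * b w * if ε * R / 2 ≤ ‖w‖ then 2 * M / (ε * R) else 0)) * ‖a‖ :=
    e2.trans (mul_le_mul_of_nonneg_right (mul_le_mul_of_nonneg_left e3 (by positivity)) (norm_nonneg _))
  have e5 : ε * R / 2 = ε / 2 * R := by ring
  rw [e5] at e4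
  refine (pow_le_pow_left₀ (norm_nonneg _) e4 2).trans (le_of_eq ?_)
  split_ifs with h
  · field_simp
  · simp

lemma x3_pt {c : ℝ → ℝ} (hc : IsCt c) {M : ℝ} (hM : ∀ t, |deriv c t| ≤ M) {ε : ℝ} (hε : 0 < ε) {N C R : ℝ}
    (hC : 0 ≤ C) (hR : 0 < R) (hN : 0 ≤ N) (b : Wsp dm → ℝ) (a : F) (w : Wsp dm) (hb : DifferentiableAt ℝ b w)
    (hb0 : 0 ≤ b w) (hdb : ∀ j B, |fderiv ℝ b w (EuclideanSpace.single (j, B) 1)| ≤ C * R * ‖w‖ * b w) :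
    (∑ j, ∑ B, ‖pf j B (fun w => ((N * c (‖w‖ ^ 2 / (ε * R) ^ 2) * b w : ℝ) : ℂ) • a) w‖) +
      R * ‖w‖ * ‖((N * c (‖w‖ ^ 2 / (ε * R) ^ 2) * b w : ℝ) : ℂ) • a‖ ≤
    (8 * dm * (2 * M / ε) + 8 * dm * C + 1) * (N * ‖a‖) * ((1 / R) * (‖w‖ ^ 0 * b w) + R * (‖w‖ ^ 1 * b w)) := by
  have hM0 : 0 ≤ M := (abs_nonneg _).trans (hM 0)
  have hρ : 0 < ε * R := by positivity
  obtain ⟨d1, _⟩ := ct_diff hc (ε * R) w
  have d2 : DifferentiableAt ℝ (fun w : Wsp dm => N * c (‖w‖ ^ 2 / (ε * R) ^ 2) * b w) w :=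
    (d1.const_mul N).mul hb
  have hcb := hc.bd (‖w‖ ^ 2 / (ε * R) ^ 2)
  have e1 : ∀ j B, ‖pf j B (fun w => ((N * c (‖w‖ ^ 2 / (ε * R) ^ 2) * b w : ℝ) : ℂ) • a) w‖ ≤
      (N * ‖a‖) * ((2 * M / ε) * ((1 / R) * b w) + C * (R * (‖w‖ * b w))) := by
    intro j B
    rw [pf_real _ a w d2, norm_smul, Complex.norm_real, Real.norm_eq_abs]
    have h1 : fderiv ℝ (fun w : Wsp dm => N * c (‖w‖ ^ 2 / (ε * R) ^ 2) * b w) w =
        (N * c (‖w‖ ^ 2 / (ε * R) ^ 2)) • fderiv ℝ b w +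
          b w • (N • fderiv ℝ (fun w : Wsp dm => c (‖w‖ ^ 2 / (ε * R) ^ 2)) w) :=
      ((d1.hasFDerivAt.const_mul N).mul hb.hasFDerivAt).fderiv
    rw [h1]
    simp only [ContinuousLinearMap.add_apply, ContinuousLinearMap.smul_apply, smul_eq_mul]
    have h2 := ct_le hc hM hρ w j B
    have h3 : |fderiv ℝ (fun w : Wsp dm => c (‖w‖ ^ 2 / (ε * R) ^ 2)) w (EuclideanSpace.single (j, B) 1)| ≤
        2 * M / (ε * R) := by
      refine h2.trans ?_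
      split_ifs
      · exact le_rfl
      · positivity
    have h4 := hdb j B
    calc |N * c (‖w‖ ^ 2 / (ε * R) ^ 2) * fderiv ℝ b w (EuclideanSpace.single (j, B) 1) +
          b w * (N * fderiv ℝ (fun w : Wsp dm => c (‖w‖ ^ 2 / (ε * R) ^ 2)) w (EuclideanSpace.single (j, B) 1))| * ‖a‖
        ≤ (N * 1 * (C * R * ‖w‖ * b w) + b w * (N * (2 * M / (ε * R)))) * ‖a‖ := by
          refine mul_le_mul_of_nonneg_right ((abs_add_le _ _).trans (add_le_add ?_ ?_)) (norm_nonneg _)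
          · rw [abs_mul, abs_mul, abs_of_nonneg hN, abs_of_nonneg hcb.1]
            exact mul_le_mul (mul_le_mul_of_nonneg_left hcb.2 hN) h4 (abs_nonneg _) (by positivity)
          · rw [abs_mul, abs_mul, abs_of_nonneg hN, abs_of_nonneg hb0]
            exact mul_le_mul_of_nonneg_left (mul_le_mul_of_nonneg_left h3 hN) hb0
      _ = _ := by
          field_simp
          ring
  have e2 : ‖((N * c (‖w‖ ^ 2 / (ε * R) ^ 2) * b w : ℝ) : ℂ) • a‖ ≤ (N * ‖a‖) * b w := by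
    rw [norm_smul, Complex.norm_real, Real.norm_eq_abs, abs_of_nonneg (mul_nonneg (mul_nonneg hN hcb.1) hb0)]
    have : N * c (‖w‖ ^ 2 / (ε * R) ^ 2) * b w ≤ N * 1 * b w :=
      mul_le_mul_of_nonneg_right (mul_le_mul_of_nonneg_left hcb.2 hN) hb0
    calc N * c (‖w‖ ^ 2 / (ε * R) ^ 2) * b w * ‖a‖ ≤ N * 1 * b w * ‖a‖ :=
          mul_le_mul_of_nonneg_right this (norm_nonneg _)
      _ = _ := by ring
  have e3 : (∑ j : Fin 8, ∑ B : Fin dm, ‖pf j B (fun w => ((N * c (‖w‖ ^ 2 / (ε * R) ^ 2) * b w : ℝ) : ℂ) • a) w‖) ≤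
      8 * dm * ((N * ‖a‖) * ((2 * M / ε) * ((1 / R) * b w) + C * (R * (‖w‖ * b w)))) := by
    calc _ ≤ ∑ _j : Fin 8, ∑ _B : Fin dm, ((N * ‖a‖) * ((2 * M / ε) * ((1 / R) * b w) + C * (R * (‖w‖ * b w)))) :=
          Finset.sum_le_sum fun j _ => Finset.sum_le_sum fun B _ => e1 j B
      _ = _ := by
          simp only [Finset.sum_const, Finset.card_univ, Fintype.card_fin, nsmul_eq_mul]
          push_cast
          ring
  have e4 : R * ‖w‖ * ‖((N * c (‖w‖ ^ 2 / (ε * R) ^ 2) * b w : ℝ) : ℂ) • a‖ ≤ R * ‖w‖ * ((N * ‖a‖) * b w) :=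
    mul_le_mul_of_nonneg_left e2 (by positivity)
  refine (add_le_add e3 e4).trans ?_
  have q1 : 0 ≤ (1 / R) * b w := by positivity
  have q2 : 0 ≤ R * (‖w‖ * b w) := by positivity
  have q3 : 0 ≤ N * ‖a‖ := by positivity
  have q4 : 0 ≤ 8 * (dm : ℝ) * (2 * M / ε) := by positivity
  have q5 : 0 ≤ 8 * (dm : ℝ) * C := by positivity
  rw [pow_zero, one_mul, pow_one]
  have key : 8 * (dm : ℝ) * ((2 * M / ε) * ((1 / R) * b w) + C * (R * (‖w‖ * b w))) + R * (‖w‖ * b w) ≤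
      (8 * dm * (2 * M / ε) + 8 * dm * C + 1) * ((1 / R) * b w + R * (‖w‖ * b w)) := by
    nlinarith [mul_nonneg q4 q2, mul_nonneg q5 q1, mul_nonneg q4 q1, mul_nonneg q5 q2]
  calc 8 * dm * ((N * ‖a‖) * ((2 * M / ε) * ((1 / R) * b w) + C * (R * (‖w‖ * b w)))) + R * ‖w‖ * ((N * ‖a‖) * b w)
      = (N * ‖a‖) * (8 * (dm : ℝ) * ((2 * M / ε) * ((1 / R) * b w) + C * (R * (‖w‖ * b w))) + R * (‖w‖ * b w)) := by ring
    _ ≤ (N * ‖a‖) * ((8 * dm * (2 * M / ε) + 8 * dm * C + 1) * ((1 / R) * b w + R * (‖w‖ * b w))) :=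
        mul_le_mul_of_nonneg_left key q3
    _ = _ := by ring

omit [InnerProductSpace ℂ F] in
lemma nsf3_le (X : Wsp dm → F) (b : Wsp dm → ℝ) {P C R : ℝ} (hR : 1 ≤ R) (hC : 0 ≤ C)
    (hX : ∀ w, ‖X w‖ ≤ P * ((1 / R) * (‖w‖ ^ 0 * b w) + R * (‖w‖ ^ 1 * b w)))
    (i0 : Integrable fun w : Wsp dm => (‖w‖ ^ 0 * b w) ^ 2) (i1 : Integrable fun w : Wsp dm => (‖w‖ ^ 1 * b w) ^ 2)
    (m0 : ∫ w, (‖w‖ ^ 0 * b w) ^ 2 ≤ C * (1 / R) ^ 0) (m1 : ∫ w, (‖w‖ ^ 1 * b w) ^ 2 ≤ C * (1 / R) ^ 1) :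
    nsf X ≤ 4 * P ^ 2 * C * R := by
  have hR0 : 0 < R := by linarith
  have hpt : ∀ w, ‖X w‖ ^ 2 ≤ 2 * P ^ 2 * ((1 / R) ^ 2 * (‖w‖ ^ 0 * b w) ^ 2 + R ^ 2 * (‖w‖ ^ 1 * b w) ^ 2) := by
    intro w
    have h13 := pow_le_pow_left₀ (norm_nonneg _) (hX w) 2
    refine h13.trans ?_
    generalize ‖w‖ ^ 0 * b w = u
    generalize ‖w‖ ^ 1 * b w = u'
    have h15 : ((1 / R) * u + R * u') ^ 2 ≤ 2 * (((1 / R) * u) ^ 2 + (R * u') ^ 2) := by
      nlinarith [sq_nonneg ((1 / R) * u - R * u')]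
    calc (P * ((1 / R) * u + R * u')) ^ 2 = P ^ 2 * ((1 / R) * u + R * u') ^ 2 := by ring
      _ ≤ P ^ 2 * (2 * (((1 / R) * u) ^ 2 + (R * u') ^ 2)) := mul_le_mul_of_nonneg_left h15 (by positivity)
      _ = _ := by ring
  calc nsf X ≤ ∫ w, 2 * P ^ 2 * ((1 / R) ^ 2 * (‖w‖ ^ 0 * b w) ^ 2 + R ^ 2 * (‖w‖ ^ 1 * b w) ^ 2) := by
        refine integral_mono_of_nonneg (Filter.Eventually.of_forall fun w => by positivity)
          (((i0.const_mul _).add (i1.const_mul _)).const_mul _) (Filter.Eventually.of_forall fun w => hpt w)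
    _ = 2 * P ^ 2 * ((1 / R) ^ 2 * (∫ w, (‖w‖ ^ 0 * b w) ^ 2) + R ^ 2 * ∫ w, (‖w‖ ^ 1 * b w) ^ 2) := by
        rw [integral_const_mul, integral_add (i0.const_mul _) (i1.const_mul _), integral_const_mul, integral_const_mul]
    _ ≤ 2 * P ^ 2 * (C * (2 * R)) := by
        refine mul_le_mul_of_nonneg_left ?_ (by positivity)
        have e1 : (1 / R) ^ 2 * (∫ w, (‖w‖ ^ 0 * b w) ^ 2) ≤ (1 / R) ^ 2 * (C * (1 / R) ^ 0) :=
          mul_le_mul_of_nonneg_left m0 (by positivity)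
        have e2 : R ^ 2 * (∫ w, (‖w‖ ^ 1 * b w) ^ 2) ≤ R ^ 2 * (C * (1 / R) ^ 1) :=
          mul_le_mul_of_nonneg_left m1 (by positivity)
        have e3 : R ^ 2 * (C * (1 / R) ^ 1) = C * R := by field_simp
        have e4 : (1 / R) ^ 2 ≤ R := by
          have : 1 / R ≤ 1 := by rw [div_le_one hR0]; exact hR
          have h0 : 0 ≤ 1 / R := by positivity
          nlinarith
        have e5 : (1 / R) ^ 2 * (C * (1 / R) ^ 0) ≤ C * R := by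
          rw [pow_zero, mul_one, mul_comm]
          exact mul_le_mul_of_nonneg_left e4 hC
        rw [e3] at e2
        linarith
    _ = _ := by ring

omit [InnerProductSpace ℂ F] in
lemma nsf1_le (X : Wsp dm → F) (b : Wsp dm → ℝ) {P δ R C : ℝ} (hP : 0 ≤ P)
    (hX : ∀ w, ‖X w‖ ^ 2 ≤ P * (if δ * R ≤ ‖w‖ then (‖w‖ ^ 0 * b w) ^ 2 else 0))
    (i0 : Integrable fun w : Wsp dm => (‖w‖ ^ 0 * b w) ^ 2)
    (ht : ∫ w, (if δ * R ≤ ‖w‖ then (‖w‖ ^ 0 * b w) ^ 2 else 0) ≤ C) : nsf X ≤ P * C := by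
  have hint : Integrable (fun w : Wsp dm => if δ * R ≤ ‖w‖ then (‖w‖ ^ 0 * b w) ^ 2 else 0) := by
    have h9 := i0.indicator (s := {w : Wsp dm | δ * R ≤ ‖w‖}) (measurableSet_le measurable_const measurable_norm)
    refine h9.congr (Filter.Eventually.of_forall fun w => ?_)
    by_cases h : δ * R ≤ ‖w‖ <;> simp [Set.indicator, h]
  calc nsf X ≤ ∫ w, P * (if δ * R ≤ ‖w‖ then (‖w‖ ^ 0 * b w) ^ 2 else 0) :=
        integral_mono_of_nonneg (Filter.Eventually.of_forall fun w => by positivity) (hint.const_mul _)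
          (Filter.Eventually.of_forall fun w => hX w)
    _ = P * ∫ w, (if δ * R ≤ ‖w‖ then (‖w‖ ^ 0 * b w) ^ 2 else 0) := integral_const_mul _ _
    _ ≤ P * C := mul_le_mul_of_nonneg_left ht hP

lemma q1_const0 (S : Setup d F) (φ : Spl dh dm d) (D : Fin 9 → Matrix (Fin dm) (Fin dm) ℝ) (β : Fin 16)
    (w : Wsp dm) : S.q1 φ D β (fun _ => (0 : F)) w = 0 := by
  unfold Setup.q1 pf
  simp

lemma odd_QZ (S : Setup d F) (φ : Spl dh dm d) (ψ : Spl r ds dh) (β : Fin 16) (T : Cfg dh → Wsp dm → F)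
    (tT : Tst2 T) (hev : ∀ x w, T x (-w) = T x w) (x : Cfg dh) (w : Wsp dm) :
    S.Q1 φ β T x (-w) - QZ S φ ψ β T x (-w) = -(S.Q1 φ β T x w - QZ S φ ψ β T x w) := by
  have h1 : ∀ (j : Fin 8) (B : Fin dm), pf j B (T x) (-w) = -pf j B (T x) w := by
    intro j B
    have h2 := (calcA dh dm F).pw_neg j B T tT x (-w)
    have h3 : (fun y w => T y (-w)) = T := by
      funext y w
      exact hev y w
    rw [h3, neg_neg] at h2
    exact h2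
  change S.q1 φ (S.DY φ x) β (T x) (-w) - S.q1 φ (S.Dz φ ψ (zpt ψ x)) β (T x) (-w) =
    -(S.q1 φ (S.DY φ x) β (T x) w - S.q1 φ (S.Dz φ ψ (zpt ψ x)) β (T x) w)
  rw [q1_odd S φ _ β (T x) w (hev x w) h1, q1_odd S φ _ β (T x) w (hev x w) h1]
  abel

lemma pack [FiniteDimensional ℂ F] (S : Setup d F) (φ : Spl dh dm d) (ψ : Spl r ds dh)
    (Om : Cfg r → Matrix (Fin dm) (Fin dm) ℝ) (y₀ : Cfg r) {ε η R C1 C3 : ℝ} (Φ : Cfg ds → F)
    (Q X : Cfg dh → Wsp dm → F) (hR1 : 1 ≤ R) (hC1 : 0 ≤ C1) (hC3 : 0 ≤ C3) (tX : Tst2 X)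
    (tX3 : Tst2 (fun x w => Q x w - X x w)) (sQ : Sup2 (cmb ψ y₀ 0) ε R Q) (sX : Sup2 (cmb ψ y₀ 0) ε R X)
    (n1 : ns2 X ≤ C1 * (1 / R) ^ 10 * nsq Φ) (n3 : ns2 (fun x w => Q x w - X x w) ≤ C3 * η ^ 2 * R * nsq Φ)
    (ho : ∀ x w, Q x (-w) - X x (-w) = -(Q x w - X x w)) :
    DecE S φ ψ Om y₀ ε Q (fun _ _ => 0) (C1 + C3) η R Φ := by
  have hR : 0 < R := lt_of_lt_of_le one_pos hR1
  have hq0 : 0 ≤ nsq Φ := nsq_nonneg _
  have hq1 : 0 ≤ ∑ i, ∑ A, nsq (pd i A Φ) := Finset.sum_nonneg fun i _ => Finset.sum_nonneg fun A _ => nsq_nonneg _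
  refine ⟨X, fun _ _ => 0, fun x w => Q x w - X x w, tX, (calcA dh dm F).zero, tX3,
    sX, fun y w h => absurd rfl h, ?_, ?_, ?_, ?_, fun x w h => absurd rfl h, ?_, ho, ?_⟩
  · intro y w h
    by_contra hn
    have h1 : Q y w = 0 := by
      by_contra h'
      exact hn (sQ y w h')
    have h2 : X y w = 0 := by
      by_contra h'
      exact hn (sX y w h')
    refine h ?_
    show Q y w - X y w = 0
    rw [h1, h2, sub_zero]
  · intro x w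
    simp
  · have e1 : (1 / R) ^ 8 ≤ 1 / R := by
      have h0 : 0 ≤ 1 / R := by positivity
      have h1 : 1 / R ≤ 1 := by rw [div_le_one hR]; exact hR1
      calc (1 / R) ^ 8 ≤ (1 / R) ^ 1 := pow_le_pow_of_le_one h0 h1 (by norm_num)
        _ = 1 / R := pow_one _
    calc R ^ 2 * ns2 X ≤ R ^ 2 * (C1 * (1 / R) ^ 10 * nsq Φ) :=
          mul_le_mul_of_nonneg_left n1 (by positivity)
      _ = C1 * (1 / R) ^ 8 * nsq Φ := by field_simp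
      _ ≤ C1 * (1 / R) * nsq Φ :=
          mul_le_mul_of_nonneg_right (mul_le_mul_of_nonneg_left e1 hC1) hq0
      _ ≤ (C1 + C3) * ((η ^ 2 + 1 / R) * nsq Φ + 1 / R * ∑ i, ∑ A, nsq (pd i A Φ)) := by
          have g1 : C1 * (1 / R) * nsq Φ ≤ (C1 + C3) * ((η ^ 2 + 1 / R) * nsq Φ) := by
            rw [← mul_assoc]
            refine mul_le_mul_of_nonneg_right (mul_le_mul ?_ ?_ (by positivity) (by positivity)) hq0
            · linarith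
            · have : 0 ≤ η ^ 2 := by positivity
              linarith
          have g2 : 0 ≤ (C1 + C3) * (1 / R * ∑ i, ∑ A, nsq (pd i A Φ)) := by positivity
          rw [mul_add]
          linarith
  · have : ns2 (fun (_ : Cfg dh) (_ : Wsp dm) => (0 : F)) = 0 := by simp [ns2]
    rw [this, mul_zero]
    positivity
  · have : ∀ x : Cfg dh, vc S φ ψ Om (fun (_ : Cfg dh) (_ : Wsp dm) => (0 : F)) x = 0 := by
      intro x
      simp [vc]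
    simp only [this]
    simp
    positivity
  · refine n3.trans ?_
    have h1 : 0 ≤ C1 * (η ^ 2 * R * nsq Φ) := by positivity
    nlinarith

end Vale.Agent.P353.Z.AE.D1p

namespace Vale.Agent.P353.Z.AE

open D1p Vale.Agent.P353.Z.AN Vale.Agent.P353.Z.AN.Sy Vale.Agent.P353.Z.AN.Op687

variable {d dh dm r ds : ℕ} {F : Type*} [NormedAddCommGroup F] [InnerProductSpace ℂ F]

/-- **E-Dec1** -/
theorem dec1 (S : Setup d F) (φ : Spl dh dm d) (ψ : Spl r ds dh) : TRStmt S φ ψ → VacQ1Stmt S φ →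
    Pert2Stmt S φ ψ → Dec1Stmt S φ ψ := by
  intro hTR hVac hPert hF hφ hc U Om V K hV y₀ ε0 C0 hy₀ hε0 hC0 hbz hbd c hct ε hε hεε ζ hζ hζs
  obtain ⟨M, hM0, hM⟩ := ct_bd hct
  obtain ⟨C2, hC2, hP⟩ := hPert hφ hc y₀ ε0 C0 hε0 hC0.le hbd
  obtain ⟨C', hC'⟩ := hbz.tail (ε / 2) (by positivity)
  have hζc : HasCompactSupport ζ := IsCompact.of_isClosed_subset (isCompact_closedBall y₀ (ε / 2))
    (isClosed_tsupport ζ) (hζs.trans Metric.ball_subset_closedBall)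
  have hMV := MV_nonneg S φ
  set K1 := MV S φ * (1 + (dm : ℝ) ^ 2 * C0 ^ 2) * (8 * dm * (2 * M / ε)) with hK1
  set A := 8 * (dm : ℝ) * (2 * M / ε) + 8 * dm * C0 + 1 with hA
  set Z := ∫ y, ‖ζ y‖ ^ 2 with hZ
  have hZ0 : 0 ≤ Z := integral_nonneg fun _ => by positivity
  have hK10 : 0 ≤ K1 := by positivity
  have hA0 : 0 ≤ A := by positivity
  refine ⟨K1 ^ 2 * |C'| * Z + 4 * (C2 * A) ^ 2 * C0 * Z, by positivity, ?_⟩
  intro R η hR1 hη0 hη Φ hΦ β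
  have hR : 0 < R := lt_of_lt_of_le one_pos hR1
  obtain ⟨tT, sT, _, _⟩ := hTR hφ hc U Om V K hV y₀ ε0 C0 hε0 hbz c hct ε hε hεε ζ hζ hζs R η hR1 hη0 hη Φ hΦ
  set T := S.TR φ ψ Om V c ε R (pp ζ Φ) with hT
  set N := (Real.sqrt R ^ (9 * r))⁻¹ with hN
  have hN0 : 0 < N := by positivity
  let a : Cfg dh → F := fun x => V (zpt ψ x) (pp ζ Φ (R⁻¹ • zpt ψ x) (spt ψ x))
  have eT : ∀ x, T x = fun w => ((N * c (‖w‖ ^ 2 / (ε * R) ^ 2) * S.bz φ ψ Om (zpt ψ x) w : ℝ) : ℂ) • a x :=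
    fun x => rfl
  have sT0 : Sup2 (cmb ψ y₀ 0) ε0 R T := by
    intro x w h
    obtain ⟨h1, h2⟩ := sT x w h
    have : ε * R ≤ ε0 * R := mul_le_mul_of_nonneg_right hεε hR.le
    exact ⟨h1.trans this, h2.trans this⟩
  -- the support
  have hsup : ∀ x, a x ≠ 0 → ‖zpt ψ x - R • y₀‖ ≤ ε0 * R ∧ zpt ψ x ∈ U ∧ ‖spt ψ x‖ ≤ η * R ∧
      ‖x - R • cmb ψ y₀ 0‖ ≤ ε0 * R := by
    intro x hx
    have h1 : ζ (R⁻¹ • zpt ψ x) ≠ 0 := by
      intro h0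
      apply hx
      change V (zpt ψ x) (ζ (R⁻¹ • zpt ψ x) • Φ (spt ψ x)) = 0
      rw [h0, zero_smul, map_zero]
    have h2 : Φ (spt ψ x) ≠ 0 := by
      intro h0
      apply hx
      change V (zpt ψ x) (ζ (R⁻¹ • zpt ψ x) • Φ (spt ψ x)) = 0
      rw [h0, smul_zero, map_zero]
    have h3 : R⁻¹ • zpt ψ x ∈ Metric.ball y₀ (ε / 2) := hζs (subset_tsupport _ h1)
    rw [mem_ball_iff_norm] at h3
    have h4 : zpt ψ x - R • y₀ = R • (R⁻¹ • zpt ψ x - y₀) := by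
      rw [smul_sub, smul_smul, mul_inv_cancel₀ hR.ne', one_smul]
    have h5 : ‖zpt ψ x - R • y₀‖ ≤ ε0 * R := by
      rw [h4, norm_smul, Real.norm_eq_abs, abs_of_pos hR]
      nlinarith
    have h6 : zpt ψ x ∈ U := hbz.inU R hR _ h5
    refine ⟨h5, h6, hΦ.sup _ h2, (sT0 x 0 ?_).1⟩
    rw [eT]
    have h7 : c (‖(0 : Wsp dm)‖ ^ 2 / (ε * R) ^ 2) = 1 := hct.one _ (by simp)
    have h8 := hbz.pos _ h6 (0 : Wsp dm)
    show ((N * c (‖(0 : Wsp dm)‖ ^ 2 / (ε * R) ^ 2) * S.bz φ ψ Om (zpt ψ x) 0 : ℝ) : ℂ) • a x ≠ 0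
    rw [h7]
    refine smul_ne_zero ?_ hx
    have : N * 1 * S.bz φ ψ Om (zpt ψ x) 0 ≠ 0 := by positivity
    exact_mod_cast this
  have hna : ∀ x, zpt ψ x ∈ U → ‖a x‖ ^ 2 = ‖ζ (R⁻¹ • zpt ψ x)‖ ^ 2 * ‖Φ (spt ψ x)‖ ^ 2 := by
    intro x hx
    change ‖V (zpt ψ x) (ζ (R⁻¹ • zpt ψ x) • Φ (spt ψ x))‖ ^ 2 = _
    rw [hV.v_n _ hx, norm_smul, mul_pow]
  have hDb : ∀ y : Cfg r, ‖y - R • y₀‖ ≤ ε0 * R → ∀ i B E, |S.Dz φ ψ y i B E| ≤ C0 * R := by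
    intro y hy i B E
    refine hbd.dy R hR (cmb ψ y 0) ?_ i B E
    rw [cmb0_sub, norm_cmb0]
    exact hy
  have hIb : ∀ y : Cfg r, ‖y - R • y₀‖ ≤ ε0 * R → ∀ B E, |(S.Dz φ ψ y 8)⁻¹ B E| ≤ C0 / R := by
    intro y hy B E
    refine hbd.inv R hR (cmb ψ y 0) ?_ B E
    rw [cmb0_sub, norm_cmb0]
    exact hy
  have hbd' : ∀ y ∈ U, ∀ w, DifferentiableAt ℝ (fun w => S.bz φ ψ Om y w) w := by
    intro y hy w
    have h1 : ContDiffOn ℝ ∞ (fun w : Wsp dm => S.bz φ ψ Om y w) Set.univ := by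
      have := hbz.sm.comp (s := (Set.univ : Set (Wsp dm))) (f := fun w : Wsp dm => (y, w))
        (contDiff_const.prodMk contDiff_id).contDiffOn (fun w _ => ⟨hy, trivial⟩)
      exact this
    exact (contDiffOn_univ.1 h1).differentiable (by simp) w
  -- the vacuum equation
  have hv0 : ∀ x, zpt ψ x ∈ U → ∀ w, S.q1 φ (S.Dz φ ψ (zpt ψ x)) β
      (fun w => ((N * S.bz φ ψ Om (zpt ψ x) w : ℝ) : ℂ) • a x) w = 0 := by
    intro x hx w
    have h1 := hVac (S.Dz φ ψ (zpt ψ x)) (Om (zpt ψ x)) (frz_Dz S φ ψ hφ hc _ (hV.det _ hx)) (hV.om _ hx) (a x)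
      ((hV.v_m _ hx _).1 (K.smul_mem _ (hΦ.val _)))
      (N / Real.sqrt (∫ w', gR (S.Dz φ ψ (zpt ψ x)) (Om (zpt ψ x)) 1 w' ^ 2)) β w
    have h2 : (fun w => ((N * S.bz φ ψ Om (zpt ψ x) w : ℝ) : ℂ) • a x) = fun w =>
        ((N / Real.sqrt (∫ w', gR (S.Dz φ ψ (zpt ψ x)) (Om (zpt ψ x)) 1 w' ^ 2) *
          gR (S.Dz φ ψ (zpt ψ x)) (Om (zpt ψ x)) 1 w : ℝ) : ℂ) • a x := by
      funext w
      unfold Setup.bz
      congr 2
      ring
    rw [h2]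
    exact h1
  have hz : ∀ x, a x = 0 → T x = fun _ => 0 := by
    intro x hx
    rw [eT]
    funext w
    rw [hx, smul_zero]
  have tQ := t_Q1 S φ (calcA dh dm F) hbd hR T tT sT0 β
  have tX := t_QZ S φ ψ hbd hR T tT sT0 β
  have sQ := sup_Q1 S φ (calcA dh dm F) (cmb ψ y₀ 0) ε R T tT sT β
  have sX := sup_QZ S φ ψ T tT sT β
  have tX3 : Tst2 (fun x w => S.Q1 φ β T x w - QZ S φ ψ β T x w) := (calcA dh dm F).sub _ _ tQ tX
  have hB := calcB dh dm F (calcA dh dm F)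
  obtain ⟨iP, eP⟩ := int_prof (F := F) ψ hζ hζc hΦ.tst hR
  -- first error term
  have b1 : ∀ x, nsf (QZ S φ ψ β T x) ≤ K1 ^ 2 * (1 / R) ^ 2 * (|C'| * (1 / R) ^ 8) *
      (N ^ 2 * (‖ζ (R⁻¹ • zpt ψ x)‖ ^ 2 * ‖Φ (spt ψ x)‖ ^ 2)) := by
    intro x
    by_cases hx : a x = 0
    · have h1 : nsf (QZ S φ ψ β T x) = 0 := by
        unfold nsf QZ
        rw [hz x hx]
        simp [q1_const0]
      rw [h1]
      positivity
    · obtain ⟨h5, h6, h7, h8⟩ := hsup x hx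
      have h9 : nsf (QZ S φ ψ β T x) ≤ (K1 ^ 2 * (1 / R) ^ 2 * (N ^ 2 * ‖a x‖ ^ 2)) * (|C'| * (1 / R) ^ 8) :=
        nsf1_le (QZ S φ ψ β T x) (fun w => S.bz φ ψ Om (zpt ψ x) w) (by positivity)
          (fun w => x1_pt S φ (S.Dz φ ψ (zpt ψ x)) β hC0.le hR (hDb _ h5) (hIb _ h5) hct hM hε hN0.le
              (fun w => S.bz φ ψ Om (zpt ψ x) w) (a x) w (hbd' _ h6 w) (hbz.pos _ h6 w).le (hv0 x h6 w))
          (hbz.int _ h6 0) ((hC' R hR1 _ h5 0 (by norm_num)).trans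
            (mul_le_mul_of_nonneg_right (le_abs_self _) (by positivity)))
      refine h9.trans (le_of_eq ?_)
      rw [hna x h6]
      ring
  -- third error term
  have b3 : ∀ x, nsf (fun w => S.Q1 φ β T x w - QZ S φ ψ β T x w) ≤ 4 * (C2 * A) ^ 2 * C0 * η ^ 2 * R *
      (N ^ 2 * (‖ζ (R⁻¹ • zpt ψ x)‖ ^ 2 * ‖Φ (spt ψ x)‖ ^ 2)) := by
    intro x
    by_cases hx : a x = 0
    · have h1 : nsf (fun w => S.Q1 φ β T x w - QZ S φ ψ β T x w) = 0 := by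
        unfold nsf QZ
        simp only [Setup.Q1_eq]
        rw [hz x hx]
        simp [q1_const0]
      rw [h1]
      positivity
    · obtain ⟨h5, h6, h7, h8⟩ := hsup x hx
      have h9 : nsf (fun w => S.Q1 φ β T x w - QZ S φ ψ β T x w) ≤ 4 * (C2 * η * (A * (N * ‖a x‖))) ^ 2 * C0 * R := by
        refine nsf3_le _ (fun w => S.bz φ ψ Om (zpt ψ x) w) hR1 hC0.le (fun w => ?_) (hbz.int _ h6 0) (hbz.int _ h6 1)
          (hbz.mom R hR _ h5 0 (by norm_num)) (hbz.mom R hR _ h5 1 (by norm_num))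
        have h10 := x3_pt hct hM hε hC0.le hR hN0.le (fun w => S.bz φ ψ Om (zpt ψ x) w) (a x) w (hbd' _ h6 w)
          (hbz.pos _ h6 w).le (fun j B => hbz.dw R hR _ h5 w j B)
        have h12 : C2 * (‖spt ψ x‖ / R) ≤ C2 * η :=
          mul_le_mul_of_nonneg_left ((div_le_iff₀ hR).2 h7) hC2
        rw [mul_assoc (C2 * η)]
        exact (hP R hR x h8 (T x) β w).trans (mul_le_mul h12 h10
          (add_nonneg (Finset.sum_nonneg fun j _ => Finset.sum_nonneg fun B _ => norm_nonneg _)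
            (mul_nonneg (mul_nonneg hR.le (norm_nonneg _)) (norm_nonneg _))) (mul_nonneg hC2 hη0))
      refine h9.trans (le_of_eq ?_)
      rw [← hna x h6]
      ring
  -- integration
  have n1 : ns2 (QZ S φ ψ β T) ≤ K1 ^ 2 * |C'| * Z * (1 / R) ^ 10 * nsq Φ := by
    obtain ⟨j1, j2⟩ := hB.yw _ tX
    have h1 : ns2 (QZ S φ ψ β T) ≤ K1 ^ 2 * (1 / R) ^ 2 * (|C'| * (1 / R) ^ 8) * (Z * nsq Φ) := by
      rw [j2, ← eP, ← integral_const_mul]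
      exact integral_mono j1 (iP.const_mul _) b1
    refine h1.trans (le_of_eq ?_)
    ring
  have n3 : ns2 (fun x w => S.Q1 φ β T x w - QZ S φ ψ β T x w) ≤ 4 * (C2 * A) ^ 2 * C0 * Z * η ^ 2 * R * nsq Φ := by
    obtain ⟨j1, j2⟩ := hB.yw _ tX3
    have h1 : ns2 (fun x w => S.Q1 φ β T x w - QZ S φ ψ β T x w) ≤
        4 * (C2 * A) ^ 2 * C0 * η ^ 2 * R * (Z * nsq Φ) := by
      rw [j2, ← eP, ← integral_const_mul]
      exact integral_mono j1 (iP.const_mul _) b3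
    refine h1.trans (le_of_eq ?_)
    ring
  have hev : ∀ x w, T x (-w) = T x w := by
    intro x w
    rw [eT]
    simp only [norm_neg, hbz.ev]
  exact pack S φ ψ Om y₀ Φ (S.Q1 φ β T) (QZ S φ ψ β T) hR1 (by positivity) (by positivity) tX tX3 sQ sX n1 n3
    (odd_QZ S φ ψ β T tT hev)

end Vale.Agent.P353.Z.AE
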