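import Vale.Agent.P353.AN.E.Tool2
import Vale.Agent.P353.AN.B.FZero

/-! # P353, all `N`, block E: E-DecH, the block diagonal supercharge applied to the trial function (helper213) -/

open MeasureTheory Filter Topology Matrix
open scoped ContDiff

namespace Vale.Agent.P353.Z.AE.DecH213

variable {d dh dm r ds : ℕ} {F : Type*} [NormedAddCommGroup F] [InnerProductSpace ℂ F]

section Alg

variable (S : Setup d F) (φ : Spl dh dm d) (ψ : Spl r ds dh)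

/-- commutation of the frame with the block diagonal fermions -/
lemma vec_V (A : Fin dh) (N : Matrix (Fin 16) (Fin 16) ℂ) (β : Fin 16) (B : F →L[ℂ] F)
    (h : ∀ α A v, B (S.th α (φ (Sum.inl A)) v) = S.th α (φ (Sum.inl A)) (B v)) (v : F) :
    B (S.vec N (φ (Sum.inl A)) β v) = S.vec N (φ (Sum.inl A)) β (B v) := by
  simp [CS.vec, h]

/-- potential of `h` -/
noncomputable def Wh (β : Fin 16) (x : Cfg dh) (v : F) : F :=
  (1 / 2 : ℂ) • ∑ A, ∑ i, ∑ j,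
    ((S.κ * ∑ B, ∑ C, S.f (φ (Sum.inl A)) (φ (Sum.inl B)) (φ (Sum.inl C)) * x (i, B) * x (j, C) : ℝ) : ℂ) •
      S.vec (S.g2 i j) (φ (Sum.inl A)) β v

lemma f_cen1 (hc : S.IsCen φ ψ) (a : Fin r) (B C : Fin dh) :
    S.f (φ (Sum.inl (ψ (Sum.inl a)))) (φ (Sum.inl B)) (φ (Sum.inl C)) = 0 := hc a B C

lemma f_cen2 (hc : S.IsCen φ ψ) (a : Fin r) (A C : Fin dh) :
    S.f (φ (Sum.inl A)) (φ (Sum.inl (ψ (Sum.inl a)))) (φ (Sum.inl C)) = 0 := by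
  rw [S.f_cyc]
  exact hc a C A

lemma f_cen3 (hc : S.IsCen φ ψ) (a : Fin r) (A B : Fin dh) :
    S.f (φ (Sum.inl A)) (φ (Sum.inl B)) (φ (Sum.inl (ψ (Sum.inl a)))) = 0 := by
  rw [S.f_cyc, S.f_cyc]
  exact hc a A B

/-- the potential only sees the internal part -/
lemma Wh_eq (hφ : S.IsSub φ) (hc : S.IsCen φ ψ) (β : Fin 16) (x : Cfg dh) (v : F) :
    Wh S φ β x v = (S.int φ ψ hφ hc).W β (spt ψ x) v := by
  have h1 : (S.int φ ψ hφ hc).W β (spt ψ x) v = (1 / 2 : ℂ) • ∑ A : Fin ds, ∑ i, ∑ j,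
      ((S.κ * ∑ B : Fin ds, ∑ C : Fin ds, S.f (φ (Sum.inl (ψ (Sum.inr A)))) (φ (Sum.inl (ψ (Sum.inr B))))
        (φ (Sum.inl (ψ (Sum.inr C)))) * x (i, ψ (Sum.inr B)) * x (j, ψ (Sum.inr C)) : ℝ) : ℂ) •
        S.vec (S.g2 i j) (φ (Sum.inl (ψ (Sum.inr A)))) β v := by
    simp only [Setup.W, _root_.smul_apply, _root_.sum_apply]
    rfl
  rw [h1, Wh, ← ψ.sum_comp, Fintype.sum_sum_type]
  congr 1
  have h2 : ∑ a : Fin r, ∑ i, ∑ j, ((S.κ * ∑ B, ∑ C, S.f (φ (Sum.inl (ψ (Sum.inl a)))) (φ (Sum.inl B)) (φ (Sum.inl C)) *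
      x (i, B) * x (j, C) : ℝ) : ℂ) • S.vec (S.g2 i j) (φ (Sum.inl (ψ (Sum.inl a)))) β v = 0 := by
    simp only [f_cen1 S φ ψ hc, zero_mul, Finset.sum_const_zero, mul_zero, Complex.ofReal_zero, zero_smul]
  rw [h2, zero_add]
  refine Finset.sum_congr rfl fun A _ => Finset.sum_congr rfl fun i _ => Finset.sum_congr rfl fun j _ => ?_
  congr 3
  rw [← ψ.sum_comp, Fintype.sum_sum_type]
  simp only [f_cen2 S φ ψ hc, zero_mul, Finset.sum_const_zero, zero_add]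
  refine Finset.sum_congr rfl fun B _ => ?_
  rw [← ψ.sum_comp, Fintype.sum_sum_type]
  simp only [f_cen3 S φ ψ hc, zero_mul, Finset.sum_const_zero, zero_add]

lemma Wh_V (β : Fin 16) (x : Cfg dh) (B : F →L[ℂ] F)
    (h : ∀ α A v, B (S.th α (φ (Sum.inl A)) v) = S.th α (φ (Sum.inl A)) (B v)) (v : F) :
    B (Wh S φ β x v) = Wh S φ β x (B v) := by
  unfold Wh
  simp only [map_smul, map_sum, vec_V S φ _ _ β B h]

lemma Wh_smul (β : Fin 16) (x : Cfg dh) (k : ℂ) (v : F) : Wh S φ β x (k • v) = k • Wh S φ β x v := by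
  unfold Wh
  simp only [map_smul, Finset.smul_sum]
  refine Finset.sum_congr rfl fun A _ => Finset.sum_congr rfl fun i _ => Finset.sum_congr rfl fun j _ => ?_
  rw [smul_comm k, smul_comm k]

lemma Wh_zero (β : Fin 16) (x : Cfg dh) : Wh S φ β x 0 = 0 := by
  unfold Wh
  simp only [map_zero, smul_zero, Finset.sum_const_zero]

/-- `Q^h` with the colour sum split -/
lemma Qh_eq (β : Fin 16) (T : Cfg dh → Wsp dm → F) (x : Cfg dh) (w : Wsp dm) :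
    S.Qh φ β T x w = (∑ i, ∑ a, (-Complex.I) • S.vec (S.g i) (φ (Sum.inl (ψ (Sum.inl a)))) β (py i (ψ (Sum.inl a)) T x w)) +
      (∑ i, ∑ b, (-Complex.I) • S.vec (S.g i) (φ (Sum.inl (ψ (Sum.inr b)))) β (py i (ψ (Sum.inr b)) T x w)) +
      Wh S φ β x (T x w) := by
  unfold Setup.Qh Wh
  congr 1
  rw [Finset.smul_sum, ← Finset.sum_add_distrib]
  refine Finset.sum_congr rfl fun i _ => ?_
  rw [← ψ.sum_comp, Fintype.sum_sum_type, smul_add, Finset.smul_sum, Finset.smul_sum]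

/-- `Q` of the internal setup -/
lemma intQ_eq (hφ : S.IsSub φ) (hc : S.IsCen φ ψ) (β : Fin 16) (Φ : Cfg ds → F) (x : Cfg dh) :
    (S.int φ ψ hφ hc).Q β Φ (spt ψ x) = (∑ i, ∑ b, (-Complex.I) •
      S.vec (S.g i) (φ (Sum.inl (ψ (Sum.inr b)))) β (pd i b Φ (spt ψ x))) + Wh S φ β x (Φ (spt ψ x)) := by
  rw [Wh_eq S φ ψ hφ hc]
  unfold Setup.Q
  rw [Finset.smul_sum]
  congr 1
  refine Finset.sum_congr rfl fun i _ => ?_
  rw [Finset.smul_sum]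
  rfl

end Alg

section Main

variable (S : Setup d F) (φ : Spl dh dm d) (ψ : Spl r ds dh)
  (Om : Cfg r → Matrix (Fin dm) (Fin dm) ℝ) (V : Cfg r → F →L[ℂ] F) (c : ℝ → ℝ) (ε R : ℝ) (ζ : Cfg r → ℂ) (Φ : Cfg ds → F)

/-- coefficient `κ_R χ b` -/
noncomputable def cb (x : Cfg dh) (w : Wsp dm) : ℝ :=
  (Real.sqrt R ^ (9 * r))⁻¹ * c (‖w‖ ^ 2 / (ε * R) ^ 2) * S.bz φ ψ Om (zpt ψ x) w

/-- coefficient `κ_R χ ∂b` -/
noncomputable def cd (e : Cfg r) (x : Cfg dh) (w : Wsp dm) : ℝ :=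
  (Real.sqrt R ^ (9 * r))⁻¹ * c (‖w‖ ^ 2 / (ε * R) ^ 2) * fderiv ℝ (fun y' => S.bz φ ψ Om y' w) (zpt ψ x) e

/-- profile at `x` -/
noncomputable def uu (x : Cfg dh) : F := ζ (R⁻¹ • zpt ψ x) • Φ (spt ψ x)

/-- `-i(γ^iθ^a)_β V u` -/
noncomputable def v1 (β : Fin 16) (i : Fin 9) (a : Fin r) (x : Cfg dh) : F :=
  (-Complex.I) • S.vec (S.g i) (φ (Sum.inl (ψ (Sum.inl a)))) β (V (zpt ψ x) (uu ψ R ζ Φ x))

/-- `-i(γ^iθ^a)_β (∂V) u` -/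
noncomputable def v2 (β : Fin 16) (i : Fin 9) (a : Fin r) (x : Cfg dh) : F :=
  (-Complex.I) • S.vec (S.g i) (φ (Sum.inl (ψ (Sum.inl a)))) β
    ((fderiv ℝ V (zpt ψ x) (EuclideanSpace.single (i, a) 1)) (uu ψ R ζ Φ x))

/-- the excited error term -/
noncomputable def X2 (β : Fin 16) (x : Cfg dh) (w : Wsp dm) : F :=
  ∑ i, ∑ a, (((cd S φ ψ Om c ε R (EuclideanSpace.single (i, a) 1) x w : ℝ) : ℂ) • v1 S φ ψ V R ζ Φ β i a x +
    ((cb S φ ψ Om c ε R x w : ℝ) : ℂ) • v2 S φ ψ V R ζ Φ β i a x)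

variable {S φ ψ Om V c ε R ζ Φ} {U : Set (Cfg r)} {K : Submodule ℂ F} {y₀ : Cfg r} {ε0 C0 : ℝ}

lemma py_inl (hV : S.VFr φ ψ U Om V K) (bf : BzFacts S φ ψ U Om y₀ ε0 C0) (hε : 0 < ε) (hε0 : ε ≤ ε0)
    (hζ : ContDiff ℝ ∞ ζ) (hζs : tsupport ζ ⊆ Metric.ball y₀ (ε / 2)) (hΦ : ContDiff ℝ ∞ Φ) (hR : 1 ≤ R)
    (i : Fin 9) (a : Fin r) (x : Cfg dh) (w : Wsp dm) :
    py i (ψ (Sum.inl a)) (S.TR φ ψ Om V c ε R (pp ζ Φ)) x w =
      (((cd S φ ψ Om c ε R (EuclideanSpace.single (i, a) 1) x w : ℝ) : ℂ) • V (zpt ψ x) (uu ψ R ζ Φ x) +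
      ((cb S φ ψ Om c ε R x w : ℝ) : ℂ) • (fderiv ℝ V (zpt ψ x) (EuclideanSpace.single (i, a) 1)) (uu ψ R ζ Φ x)) +
      ((cb S φ ψ Om c ε R x w : ℝ) : ℂ) • V (zpt ψ x) (((R⁻¹ : ℝ) : ℂ) •
        fderiv ℝ ζ (R⁻¹ • zpt ψ x) (EuclideanSpace.single (i, a) 1) • Φ (spt ψ x)) := by
  have h := TR_fderiv hV bf hε hε0 hζ hζs hΦ hR c x w (EuclideanSpace.single (i, ψ (Sum.inl a)) 1)
  rw [zpt_single_inl, spt_single_inl] at h
  rw [py, pd, h]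
  simp only [map_zero, smul_zero, add_zero, smul_add]
  rw [← add_assoc]
  rfl

lemma py_inr (hV : S.VFr φ ψ U Om V K) (bf : BzFacts S φ ψ U Om y₀ ε0 C0) (hε : 0 < ε) (hε0 : ε ≤ ε0)
    (hζ : ContDiff ℝ ∞ ζ) (hζs : tsupport ζ ⊆ Metric.ball y₀ (ε / 2)) (hΦ : ContDiff ℝ ∞ Φ) (hR : 1 ≤ R)
    (i : Fin 9) (b : Fin ds) (x : Cfg dh) (w : Wsp dm) :
    py i (ψ (Sum.inr b)) (S.TR φ ψ Om V c ε R (pp ζ Φ)) x w =
      ((cb S φ ψ Om c ε R x w : ℝ) : ℂ) • V (zpt ψ x) (ζ (R⁻¹ • zpt ψ x) • pd i b Φ (spt ψ x)) := by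
  have h := TR_fderiv hV bf hε hε0 hζ hζs hΦ hR c x w (EuclideanSpace.single (i, ψ (Sum.inr b)) 1)
  rw [zpt_single_inr, spt_single_inr] at h
  rw [py, pd, h]
  simp only [map_zero, mul_zero, Complex.ofReal_zero, zero_smul, smul_zero, zero_add, _root_.zero_apply]
  rfl

/-- the decomposition -/
lemma dec_eq (hφ : S.IsSub φ) (hc : S.IsCen φ ψ) (hV : S.VFr φ ψ U Om V K) (bf : BzFacts S φ ψ U Om y₀ ε0 C0)
    (hε : 0 < ε) (hε0 : ε ≤ ε0)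
    (hζ : ContDiff ℝ ∞ ζ) (hζs : tsupport ζ ⊆ Metric.ball y₀ (ε / 2)) (hΦ : ContDiff ℝ ∞ Φ) (hR : 1 ≤ R)
    (β : Fin 16) (x : Cfg dh) (w : Wsp dm) :
    S.Qh φ β (S.TR φ ψ Om V c ε R (pp ζ Φ)) x w =
      (((R⁻¹ : ℝ) : ℂ) • S.TR φ ψ Om V c ε R (S.DF φ ψ (fun _ => 0) 0 β (pp ζ Φ)) x w +
        S.TR φ ψ Om V c ε R (pp ζ ((S.int φ ψ hφ hc).Q β Φ)) x w) + X2 S φ ψ Om V c ε R ζ Φ β x w := by
  have hTR : ∀ a : Cfg r → Cfg ds → F, S.TR φ ψ Om V c ε R a x w =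
      ((cb S φ ψ Om c ε R x w : ℝ) : ℂ) • V (zpt ψ x) (a (R⁻¹ • zpt ψ x) (spt ψ x)) := fun a => rfl
  have hDF : S.DF φ ψ (fun _ => 0) 0 β (pp ζ Φ) (R⁻¹ • zpt ψ x) (spt ψ x) =
      ∑ i, ∑ a, (-Complex.I) • S.vec (S.g i) (φ (Sum.inl (ψ (Sum.inl a)))) β
        (fderiv ℝ ζ (R⁻¹ • zpt ψ x) (EuclideanSpace.single (i, a) 1) • Φ (spt ψ x)) := by
    unfold Setup.DF
    rw [Complex.ofReal_zero, zero_smul, add_zero, Finset.smul_sum]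
    refine Finset.sum_congr rfl fun i _ => ?_
    rw [Finset.smul_sum]
    refine Finset.sum_congr rfl fun a _ => ?_
    congr 2
    unfold pd pp
    have h1 := ((hζ.differentiable (by simp)) (R⁻¹ • zpt ψ x)).hasFDerivAt.smul_const (Φ (spt ψ x))
    rw [h1.fderiv]
    rfl
  rw [Qh_eq S φ ψ]
  simp only [py_inl hV bf hε hε0 hζ hζs hΦ hR, py_inr hV bf hε hε0 hζ hζs hΦ hR, hTR, hDF]
  have hpp : ∀ Ψ : Cfg ds → F, pp ζ Ψ (R⁻¹ • zpt ψ x) (spt ψ x) = ζ (R⁻¹ • zpt ψ x) • Ψ (spt ψ x) := fun _ => rfl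
  simp only [hpp, intQ_eq S φ ψ hφ hc]
  by_cases hp : R⁻¹ • zpt ψ x ∈ tsupport ζ
  · have hyU : zpt ψ x ∈ U := trf_inU S φ ψ U Om y₀ ε0 C0 bf ε hε hε0 R hR _ (hζs hp)
    have hcm := hV.v_th _ hyU
    have e1 : ((R⁻¹ : ℝ) : ℂ) • ((cb S φ ψ Om c ε R x w : ℝ) : ℂ) • V (zpt ψ x)
        (∑ i, ∑ a, (-Complex.I) • S.vec (S.g i) (φ (Sum.inl (ψ (Sum.inl a)))) β
          (fderiv ℝ ζ (R⁻¹ • zpt ψ x) (EuclideanSpace.single (i, a) 1) • Φ (spt ψ x))) =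
        ∑ i, ∑ a, (-Complex.I) • S.vec (S.g i) (φ (Sum.inl (ψ (Sum.inl a)))) β
          (((cb S φ ψ Om c ε R x w : ℝ) : ℂ) • V (zpt ψ x) (((R⁻¹ : ℝ) : ℂ) •
            fderiv ℝ ζ (R⁻¹ • zpt ψ x) (EuclideanSpace.single (i, a) 1) • Φ (spt ψ x))) := by
      rw [map_sum, Finset.smul_sum, Finset.smul_sum]
      refine Finset.sum_congr rfl fun i _ => ?_
      rw [map_sum, Finset.smul_sum, Finset.smul_sum]
      refine Finset.sum_congr rfl fun a _ => ?_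
      simp only [map_smul, vec_V S φ _ _ β _ hcm, smul_smul]
      congr 1
      ring
    have e2 : ((cb S φ ψ Om c ε R x w : ℝ) : ℂ) • V (zpt ψ x) (ζ (R⁻¹ • zpt ψ x) •
        ((∑ i, ∑ b, (-Complex.I) • S.vec (S.g i) (φ (Sum.inl (ψ (Sum.inr b)))) β (pd i b Φ (spt ψ x))) +
          Wh S φ β x (Φ (spt ψ x)))) =
        (∑ i, ∑ b, (-Complex.I) • S.vec (S.g i) (φ (Sum.inl (ψ (Sum.inr b)))) β
          (((cb S φ ψ Om c ε R x w : ℝ) : ℂ) • V (zpt ψ x) (ζ (R⁻¹ • zpt ψ x) • pd i b Φ (spt ψ x)))) +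
        Wh S φ β x (((cb S φ ψ Om c ε R x w : ℝ) : ℂ) • V (zpt ψ x) (ζ (R⁻¹ • zpt ψ x) • Φ (spt ψ x))) := by
      rw [smul_add, map_add, smul_add]
      congr 1
      · rw [Finset.smul_sum, map_sum, Finset.smul_sum]
        refine Finset.sum_congr rfl fun i _ => ?_
        rw [Finset.smul_sum, map_sum, Finset.smul_sum]
        refine Finset.sum_congr rfl fun b _ => ?_
        simp only [map_smul, vec_V S φ _ _ β _ hcm, smul_smul]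
        congr 1
        ring
      · rw [map_smul, Wh_V S φ β x _ hcm, map_smul, Wh_smul, Wh_smul]
    rw [e1, e2]
    unfold X2 v1 v2
    simp only [map_add, smul_add, Finset.sum_add_distrib, map_smul]
    have e3 : ∀ (k : ℂ) (t : F), (-Complex.I) • k • t = k • (-Complex.I) • t := fun k t => smul_comm _ _ _
    simp only [e3]
    abel
  · have h0 : ζ (R⁻¹ • zpt ψ x) = 0 := image_eq_zero_of_notMem_tsupport hp
    have h1 : fderiv ℝ ζ (R⁻¹ • zpt ψ x) = 0 := fderiv_of_notMem_tsupport (𝕜 := ℝ) hp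
    have h2 : uu ψ R ζ Φ x = 0 := by
      unfold uu
      rw [h0, zero_smul]
    unfold X2 v1 v2
    simp [h0, h1, h2, Wh_zero]

end Main

section Smooth

variable {S : Setup d F} {φ : Spl dh dm d} {ψ : Spl r ds dh}
  {Om : Cfg r → Matrix (Fin dm) (Fin dm) ℝ} {V : Cfg r → F →L[ℂ] F} {c : ℝ → ℝ} {ε R : ℝ} {ζ : Cfg r → ℂ} {Φ : Cfg ds → F}
  {U : Set (Cfg r)} {K : Submodule ℂ F} {y₀ : Cfg r} {ε0 C0 : ℝ}

lemma bz_at (hU : IsOpen U) (bf : BzFacts S φ ψ U Om y₀ ε0 C0) {q : Cfg r × Wsp dm} (hq : q.1 ∈ U) :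
    ContDiffAt ℝ ∞ (fun q : Cfg r × Wsp dm => S.bz φ ψ Om q.1 q.2) q :=
  bf.sm.contDiffAt ((hU.prod isOpen_univ).mem_nhds ⟨hq, Set.mem_univ _⟩)

lemma dbz_at (hU : IsOpen U) (bf : BzFacts S φ ψ U Om y₀ ε0 C0) (e : Cfg r) {q : Cfg r × Wsp dm} (hq : q.1 ∈ U) :
    ContDiffAt ℝ ∞ (fun q : Cfg r × Wsp dm => fderiv ℝ (fun y' => S.bz φ ψ Om y' q.2) q.1 e) q := by
  have hO : IsOpen (U ×ˢ (Set.univ : Set (Wsp dm))) := hU.prod isOpen_univ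
  have h1 : ContDiffOn ℝ ∞ (fderiv ℝ fun p : Cfg r × Wsp dm => S.bz φ ψ Om p.1 p.2) (U ×ˢ (Set.univ : Set (Wsp dm))) :=
    bf.sm.fderiv_of_isOpen hO (by simp)
  have h2 : ContDiffOn ℝ ∞ (fun q : Cfg r × Wsp dm =>
      fderiv ℝ (fun p : Cfg r × Wsp dm => S.bz φ ψ Om p.1 p.2) q (e, 0)) (U ×ˢ (Set.univ : Set (Wsp dm))) :=
    h1.clm_apply contDiffOn_const
  have h3 : ∀ q ∈ U ×ˢ (Set.univ : Set (Wsp dm)), fderiv ℝ (fun y' => S.bz φ ψ Om y' q.2) q.1 e =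
      fderiv ℝ (fun p : Cfg r × Wsp dm => S.bz φ ψ Om p.1 p.2) q (e, 0) := by
    intro q hq
    have hd : DifferentiableAt ℝ (fun p : Cfg r × Wsp dm => S.bz φ ψ Om p.1 p.2) (q.1, q.2) :=
      (bz_at hU bf (q := q) hq.1).differentiableAt (by simp)
    have h5 : HasFDerivAt (fun y' => S.bz φ ψ Om y' q.2) _ q.1 :=
      HasFDerivAt.comp (f := fun y' : Cfg r => (y', q.2)) (g := fun p : Cfg r × Wsp dm => S.bz φ ψ Om p.1 p.2) q.1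
        hd.hasFDerivAt (hasFDerivAt_prodMk_left (𝕜 := ℝ) q.1 q.2)
    rw [h5.fderiv]
    rfl
  exact (h2.congr h3).contDiffAt (hO.mem_nhds ⟨hq, Set.mem_univ _⟩)

lemma ct_at (hct : IsCt c) (q : Cfg dh × Wsp dm) :
    ContDiffAt ℝ ∞ (fun q : Cfg dh × Wsp dm => c (‖q.2‖ ^ 2 / (ε * R) ^ 2)) q := by
  have h1 : ContDiff ℝ ∞ (fun q : Cfg dh × Wsp dm => c (‖q.2‖ ^ 2 / (ε * R) ^ 2)) :=
    hct.sm.comp (((contDiff_norm_sq ℝ).comp contDiff_snd).div_const _)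
  exact h1.contDiffAt

lemma zp_at (q : Cfg dh × Wsp dm) : ContDiffAt ℝ ∞ (fun q : Cfg dh × Wsp dm => (zpt ψ q.1, q.2)) q :=
  (((zpt_smooth ψ).comp contDiff_fst).prodMk contDiff_snd).contDiffAt

lemma cb_at (hU : IsOpen U) (bf : BzFacts S φ ψ U Om y₀ ε0 C0) (hct : IsCt c) {q : Cfg dh × Wsp dm}
    (hq : zpt ψ q.1 ∈ U) : ContDiffAt ℝ ∞ (fun q : Cfg dh × Wsp dm => ((cb S φ ψ Om c ε R q.1 q.2 : ℝ) : ℂ)) q := by
  have h3 : ContDiffAt ℝ ∞ (fun q : Cfg dh × Wsp dm => S.bz φ ψ Om (zpt ψ q.1) q.2) q :=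
    ContDiffAt.comp (g := fun q : Cfg r × Wsp dm => S.bz φ ψ Om q.1 q.2)
      (f := fun q : Cfg dh × Wsp dm => (zpt ψ q.1, q.2)) q (bz_at hU bf hq) (zp_at q)
  have h4 : ContDiffAt ℝ ∞ (fun q : Cfg dh × Wsp dm => cb S φ ψ Om c ε R q.1 q.2) q :=
    (contDiffAt_const.mul (ct_at hct q)).mul h3
  exact Complex.ofRealCLM.contDiff.contDiffAt.comp q h4

lemma cd_at (hU : IsOpen U) (bf : BzFacts S φ ψ U Om y₀ ε0 C0) (hct : IsCt c) (e : Cfg r) {q : Cfg dh × Wsp dm}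
    (hq : zpt ψ q.1 ∈ U) : ContDiffAt ℝ ∞ (fun q : Cfg dh × Wsp dm => ((cd S φ ψ Om c ε R e q.1 q.2 : ℝ) : ℂ)) q := by
  have h3 : ContDiffAt ℝ ∞ (fun q : Cfg dh × Wsp dm => fderiv ℝ (fun y' => S.bz φ ψ Om y' q.2) (zpt ψ q.1) e) q :=
    ContDiffAt.comp (g := fun q : Cfg r × Wsp dm => fderiv ℝ (fun y' => S.bz φ ψ Om y' q.2) q.1 e)
      (f := fun q : Cfg dh × Wsp dm => (zpt ψ q.1, q.2)) q (dbz_at hU bf e hq) (zp_at q)
  have h4 : ContDiffAt ℝ ∞ (fun q : Cfg dh × Wsp dm => cd S φ ψ Om c ε R e q.1 q.2) q :=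
    (contDiffAt_const.mul (ct_at hct q)).mul h3
  exact Complex.ofRealCLM.contDiff.contDiffAt.comp q h4

lemma uu_at (hζ : ContDiff ℝ ∞ ζ) (hΦ : ContDiff ℝ ∞ Φ) (q : Cfg dh × Wsp dm) :
    ContDiffAt ℝ ∞ (fun q : Cfg dh × Wsp dm => uu ψ R ζ Φ q.1) q := by
  have h1 : ContDiff ℝ ∞ (fun q : Cfg dh × Wsp dm => ζ ((R⁻¹ • zptL ψ) q.1)) :=
    hζ.comp ((R⁻¹ • zptL ψ).contDiff.comp contDiff_fst)
  have h2 : ContDiff ℝ ∞ (fun q : Cfg dh × Wsp dm => Φ (spt ψ q.1)) := hΦ.comp ((spt_smooth ψ).comp contDiff_fst)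
  exact (h1.smul h2).contDiffAt

lemma clm_at (A : F →L[ℂ] F) {g : Cfg dh × Wsp dm → F} {q : Cfg dh × Wsp dm} (hg : ContDiffAt ℝ ∞ g q) :
    ContDiffAt ℝ ∞ (fun q => (-Complex.I) • A (g q)) q :=
  (((-Complex.I) • A).restrictScalars ℝ).contDiff.contDiffAt.comp q hg

lemma X2_at (hV : S.VFr φ ψ U Om V K) (bf : BzFacts S φ ψ U Om y₀ ε0 C0) (hct : IsCt c)
    (hζ : ContDiff ℝ ∞ ζ) (hΦ : ContDiff ℝ ∞ Φ) (β : Fin 16) (q : Cfg dh × Wsp dm) (hq : zpt ψ q.1 ∈ U) :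
    ContDiffAt ℝ ∞ (fun q : Cfg dh × Wsp dm => X2 S φ ψ Om V c ε R ζ Φ β q.1 q.2) q := by
  unfold X2
  refine ContDiffAt.sum fun i _ => ContDiffAt.sum fun a _ => ?_
  have hz : ContDiffAt ℝ ∞ (fun q : Cfg dh × Wsp dm => zpt ψ q.1) q :=
    ((zpt_smooth ψ).comp contDiff_fst).contDiffAt
  have hu := uu_at (dm := dm) (ψ := ψ) (R := R) hζ hΦ q
  have h1 : ContDiffAt ℝ ∞ (fun q : Cfg dh × Wsp dm => v1 S φ ψ V R ζ Φ β i a q.1) q :=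
    clm_at _ (trf_V V U hV.opn hV.v_c (fun q : Cfg dh × Wsp dm => zpt ψ q.1) _ q hz hu hq)
  have hW : ContDiffOn ℝ ∞ (fun y => fderiv ℝ V y (EuclideanSpace.single (i, a) 1)) U :=
    (hV.v_c.fderiv_of_isOpen hV.opn (by simp)).clm_apply contDiffOn_const
  have h2 : ContDiffAt ℝ ∞ (fun q : Cfg dh × Wsp dm => v2 S φ ψ V R ζ Φ β i a q.1) q :=
    clm_at _ (trf_V (fun y => fderiv ℝ V y (EuclideanSpace.single (i, a) 1)) U hV.opn hW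
      (fun q : Cfg dh × Wsp dm => zpt ψ q.1) _ q hz hu hq)
  exact ((cd_at hV.opn bf hct _ hq).smul h1).add ((cb_at hV.opn bf hct hq).smul h2)

lemma X2_ne (hct : IsCt c) (hε : 0 < ε) (hR : 0 < R) (β : Fin 16) (x : Cfg dh) (w : Wsp dm)
    (h : X2 S φ ψ Om V c ε R ζ Φ β x w ≠ 0) :
    R⁻¹ • zpt ψ x ∈ tsupport ζ ∧ Φ (spt ψ x) ≠ 0 ∧ ‖w‖ ≤ ε * R := by
  refine ⟨?_, ?_, ?_⟩
  · by_contra hc
    apply h
    have h0 : ζ (R⁻¹ • zpt ψ x) = 0 := image_eq_zero_of_notMem_tsupport hc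
    have h2 : uu ψ R ζ Φ x = 0 := by
      unfold uu
      rw [h0, zero_smul]
    unfold X2 v1 v2
    simp [h2]
  · intro hc
    apply h
    have h2 : uu ψ R ζ Φ x = 0 := by
      unfold uu
      rw [hc, smul_zero]
    unfold X2 v1 v2
    simp [h2]
  · by_contra hc
    push Not at hc
    apply h
    have h10 : 0 < ε * R := mul_pos hε hR
    have h3 : c (‖w‖ ^ 2 / (ε * R) ^ 2) = 0 := by
      apply hct.zero
      rw [le_div_iff₀ (by positivity), one_mul]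
      exact pow_le_pow_left₀ h10.le hc.le 2
    unfold X2 cb cd
    simp [h3]

lemma X2_tst (hV : S.VFr φ ψ U Om V K) (bf : BzFacts S φ ψ U Om y₀ ε0 C0) (hct : IsCt c) (hε : 0 < ε) (hε0 : ε ≤ ε0)
    (hζ : ContDiff ℝ ∞ ζ) (hζs : tsupport ζ ⊆ Metric.ball y₀ (ε / 2)) (hΦ : Setup.Tst Φ) (hR : 1 ≤ R) (β : Fin 16) :
    Tst2 (X2 S φ ψ Om V c ε R ζ Φ β) := by
  have hR0 : 0 < R := lt_of_lt_of_le one_pos hR
  refine tst2_of (ψ := ψ) (U := U) hζs hR0 (fun y hy => trf_inU S φ ψ U Om y₀ ε0 C0 bf ε hε hε0 R hR _ (hζs hy)) hΦ.2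
    (fun q hq => X2_at hV bf hct hζ hΦ.1 β q hq) (ε := ε) fun x w h => ?_
  obtain ⟨h1, h2, h3⟩ := X2_ne hct hε hR0 β x w h
  exact ⟨h1, subset_tsupport _ h2, h3⟩

end Smooth

section Bd

variable {S : Setup d F} {φ : Spl dh dm d} {ψ : Spl r ds dh}
  {Om : Cfg r → Matrix (Fin dm) (Fin dm) ℝ} {V : Cfg r → F →L[ℂ] F} {c : ℝ → ℝ} {ε R : ℝ} {ζ : Cfg r → ℂ} {Φ : Cfg ds → F}
  {U : Set (Cfg r)} {K : Submodule ℂ F} {y₀ : Cfg r} {ε0 C0 : ℝ}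

/-- sum of the operator norms -/
noncomputable def Th (S : Setup d F) (φ : Spl dh dm d) (ψ : Spl r ds dh) : ℝ :=
  ∑ β, ∑ i, ∑ a, ‖(S.vec (S.g i) (φ (Sum.inl (ψ (Sum.inl a)))) β : F →L[ℂ] F)‖

lemma Th_nonneg (S : Setup d F) (φ : Spl dh dm d) (ψ : Spl r ds dh) : 0 ≤ Th S φ ψ :=
  Finset.sum_nonneg fun _ _ => Finset.sum_nonneg fun _ _ => Finset.sum_nonneg fun _ _ => norm_nonneg _

lemma Th_le (S : Setup d F) (φ : Spl dh dm d) (ψ : Spl r ds dh) (β : Fin 16) :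
    ∑ i, ∑ a, ‖(S.vec (S.g i) (φ (Sum.inl (ψ (Sum.inl a)))) β : F →L[ℂ] F)‖ ≤ Th S φ ψ :=
  Finset.single_le_sum (f := fun β => ∑ i, ∑ a, ‖(S.vec (S.g i) (φ (Sum.inl (ψ (Sum.inl a)))) β : F →L[ℂ] F)‖)
    (fun _ _ => Finset.sum_nonneg fun _ _ => Finset.sum_nonneg fun _ _ => norm_nonneg _) (Finset.mem_univ β)

lemma v1_le (hV : S.VFr φ ψ U Om V K) (β : Fin 16) (i : Fin 9) (a : Fin r) (x : Cfg dh) (hx : zpt ψ x ∈ U) :
    ‖v1 S φ ψ V R ζ Φ β i a x‖ ≤ ‖(S.vec (S.g i) (φ (Sum.inl (ψ (Sum.inl a)))) β : F →L[ℂ] F)‖ *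
      (‖ζ (R⁻¹ • zpt ψ x)‖ * ‖Φ (spt ψ x)‖) := by
  unfold v1
  rw [norm_smul, norm_neg, Complex.norm_I, one_mul]
  refine (ContinuousLinearMap.le_opNorm _ _).trans ?_
  rw [hV.v_n _ hx, uu, norm_smul]

lemma v2_le {C1 : ℝ} (β : Fin 16) (i : Fin 9) (a : Fin r) (x : Cfg dh)
    (hb : ∀ (e : Cfg r) (v : F), ‖(fderiv ℝ V (zpt ψ x) e) v‖ ≤ C1 / R * ‖e‖ * ‖v‖) :
    ‖v2 S φ ψ V R ζ Φ β i a x‖ ≤ ‖(S.vec (S.g i) (φ (Sum.inl (ψ (Sum.inl a)))) β : F →L[ℂ] F)‖ *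
      (C1 / R * (‖ζ (R⁻¹ • zpt ψ x)‖ * ‖Φ (spt ψ x)‖)) := by
  unfold v2
  rw [norm_smul, norm_neg, Complex.norm_I, one_mul]
  refine (ContinuousLinearMap.le_opNorm _ _).trans (mul_le_mul_of_nonneg_left ?_ (norm_nonneg _))
  refine (hb _ _).trans ?_
  rw [uu, norm_smul]
  simp

lemma near {x : Cfg dh} (hε0 : ε ≤ ε0) (hε : 0 < ε) (hR : 0 < R) (hζs : tsupport ζ ⊆ Metric.ball y₀ (ε / 2))
    (hx : R⁻¹ • zpt ψ x ∈ tsupport ζ) : ‖zpt ψ x - R • y₀‖ ≤ ε0 * R := by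
  have h1 := hζs hx
  rw [Metric.mem_ball, dist_eq_norm] at h1
  have h2 : zpt ψ x - R • y₀ = R • (R⁻¹ • zpt ψ x - y₀) := by
    rw [smul_sub, smul_smul, mul_inv_cancel₀ hR.ne', one_smul]
  rw [h2, norm_smul, Real.norm_of_nonneg hR.le, mul_comm]
  exact mul_le_mul_of_nonneg_right (by linarith) hR.le

/-- pointwise bound of the error term -/
lemma X2_le (hV : S.VFr φ ψ U Om V K) (bf : BzFacts S φ ψ U Om y₀ ε0 C0) (hct : IsCt c) (hε : 0 < ε) (hε0 : ε ≤ ε0)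
    (hC0 : 0 < C0) (hζs : tsupport ζ ⊆ Metric.ball y₀ (ε / 2)) (hR : 1 ≤ R) {C1 : ℝ} (hC1 : 0 ≤ C1)
    (hb : ∀ y : Cfg r, R⁻¹ • y ∈ tsupport ζ → ∀ (e : Cfg r) (v : F), ‖(fderiv ℝ V y e) v‖ ≤ C1 / R * ‖e‖ * ‖v‖)
    (β : Fin 16) (x : Cfg dh) (w : Wsp dm) :
    ‖X2 S φ ψ Om V c ε R ζ Φ β x w‖ ≤ Th S φ ψ * ((Real.sqrt R ^ (9 * r))⁻¹ *
      ((C0 + C1) * (1 / R + ‖w‖ ^ 2) * S.bz φ ψ Om (zpt ψ x) w) * (‖ζ (R⁻¹ • zpt ψ x)‖ * ‖Φ (spt ψ x)‖)) := by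
  have hR0 : 0 < R := lt_of_lt_of_le one_pos hR
  have hk : 0 ≤ (Real.sqrt R ^ (9 * r))⁻¹ := by positivity
  by_cases hp : R⁻¹ • zpt ψ x ∈ tsupport ζ
  · have hyU : zpt ψ x ∈ U := trf_inU S φ ψ U Om y₀ ε0 C0 bf ε hε hε0 R hR _ (hζs hp)
    have hnr := near (ψ := ψ) hε0 hε hR0 hζs hp
    have hbz := bf.pos _ hyU w
    have hχ := hct.bd (‖w‖ ^ 2 / (ε * R) ^ 2)
    have hcb : |cb S φ ψ Om c ε R x w| ≤ (Real.sqrt R ^ (9 * r))⁻¹ * S.bz φ ψ Om (zpt ψ x) w := by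
      unfold cb
      rw [abs_of_nonneg (mul_nonneg (mul_nonneg hk hχ.1) hbz.le)]
      refine mul_le_mul_of_nonneg_right ?_ hbz.le
      exact mul_le_of_le_one_right hk hχ.2
    have hcd : ∀ (i : Fin 9) (a : Fin r), |cd S φ ψ Om c ε R (EuclideanSpace.single (i, a) 1) x w| ≤
        (Real.sqrt R ^ (9 * r))⁻¹ * (C0 * (1 / R + ‖w‖ ^ 2) * S.bz φ ψ Om (zpt ψ x) w) := by
      intro i a
      unfold cd
      rw [abs_mul, abs_of_nonneg (mul_nonneg hk hχ.1)]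
      refine mul_le_mul (mul_le_of_le_one_right hk hχ.2) (bf.dy R hR0 _ hnr w i a) (abs_nonneg _) hk
    have hz : 0 ≤ ‖ζ (R⁻¹ • zpt ψ x)‖ * ‖Φ (spt ψ x)‖ := by positivity
    have hterm : ∀ (i : Fin 9) (a : Fin r), ‖(((cd S φ ψ Om c ε R (EuclideanSpace.single (i, a) 1) x w : ℝ) : ℂ) •
        v1 S φ ψ V R ζ Φ β i a x + ((cb S φ ψ Om c ε R x w : ℝ) : ℂ) • v2 S φ ψ V R ζ Φ β i a x)‖ ≤
        ‖(S.vec (S.g i) (φ (Sum.inl (ψ (Sum.inl a)))) β : F →L[ℂ] F)‖ * ((Real.sqrt R ^ (9 * r))⁻¹ *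
      ((C0 + C1) * (1 / R + ‖w‖ ^ 2) * S.bz φ ψ Om (zpt ψ x) w) * (‖ζ (R⁻¹ • zpt ψ x)‖ * ‖Φ (spt ψ x)‖)) := by
      intro i a
      have h1 := v1_le (R := R) (ζ := ζ) (Φ := Φ) hV β i a x hyU
      have h2 := v2_le (S := S) (φ := φ) (R := R) (ζ := ζ) (Φ := Φ) β i a x (hb _ hp)
      have h3 := hcd i a
      set T := ‖(S.vec (S.g i) (φ (Sum.inl (ψ (Sum.inl a)))) β : F →L[ℂ] F)‖ with hT
      have hT0 : 0 ≤ T := norm_nonneg _
      refine (norm_add_le _ _).trans ?_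
      rw [norm_smul, norm_smul, Complex.norm_real, Complex.norm_real, Real.norm_eq_abs, Real.norm_eq_abs]
      have e1 := mul_le_mul h3 h1 (norm_nonneg _) (by positivity)
      have e2 := mul_le_mul hcb h2 (norm_nonneg _) (by positivity)
      refine (add_le_add e1 e2).trans ?_
      have e3 : C1 / R ≤ C1 * (1 / R + ‖w‖ ^ 2) := by
        rw [mul_add, mul_one_div]
        have : 0 ≤ C1 * ‖w‖ ^ 2 := by positivity
        linarith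
      have e4 : (Real.sqrt R ^ (9 * r))⁻¹ * S.bz φ ψ Om (zpt ψ x) w * (T * (C1 / R * (‖ζ (R⁻¹ • zpt ψ x)‖ * ‖Φ (spt ψ x)‖))) ≤
          (Real.sqrt R ^ (9 * r))⁻¹ * S.bz φ ψ Om (zpt ψ x) w *
            (T * (C1 * (1 / R + ‖w‖ ^ 2) * (‖ζ (R⁻¹ • zpt ψ x)‖ * ‖Φ (spt ψ x)‖))) := by
        refine mul_le_mul_of_nonneg_left ?_ (by positivity)
        refine mul_le_mul_of_nonneg_left ?_ hT0
        exact mul_le_mul_of_nonneg_right e3 hz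
      refine (add_le_add le_rfl e4).trans (le_of_eq ?_)
      ring
    unfold X2
    refine (norm_sum_le _ _).trans ?_
    refine (Finset.sum_le_sum fun i _ => norm_sum_le _ _).trans ?_
    refine (Finset.sum_le_sum fun i _ => Finset.sum_le_sum fun a _ => hterm i a).trans ?_
    simp only [← Finset.sum_mul]
    refine mul_le_mul_of_nonneg_right (Th_le S φ ψ β) ?_
    positivity
  · have h0 : ζ (R⁻¹ • zpt ψ x) = 0 := image_eq_zero_of_notMem_tsupport hp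
    have h2 : X2 S φ ψ Om V c ε R ζ Φ β x w = 0 := by
      by_contra hne
      exact hp (X2_ne hct hε hR0 β x w hne).1
    rw [h2, h0]
    simp

lemma zeta_int (hζ : ContDiff ℝ ∞ ζ) (hζs : tsupport ζ ⊆ Metric.ball y₀ (ε / 2)) :
    Integrable fun y : Cfg r => ‖ζ y‖ ^ 2 := by
  have hc : HasCompactSupport ζ := tsupp_compact hζs
  refine (hζ.continuous.norm.pow 2).integrable_of_hasCompactSupport ?_
  refine hc.mono fun y hy => ?_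
  simp only [Function.mem_support] at hy ⊢
  intro h0
  exact hy (by simp [h0])

lemma Phi_int (hΦ : Setup.Tst Φ) : Integrable fun s : Cfg ds => ‖Φ s‖ ^ 2 := by
  refine (hΦ.1.continuous.norm.pow 2).integrable_of_hasCompactSupport ?_
  refine hΦ.2.mono fun y hy => ?_
  simp only [Function.mem_support] at hy ⊢
  intro h0
  exact hy (by simp [h0])

/-- `L²` bound of the error term -/
lemma X2_ns (hV : S.VFr φ ψ U Om V K) (bf : BzFacts S φ ψ U Om y₀ ε0 C0) (hct : IsCt c) (hε : 0 < ε) (hε0 : ε ≤ ε0)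
    (hC0 : 0 < C0) (hζ : ContDiff ℝ ∞ ζ) (hζs : tsupport ζ ⊆ Metric.ball y₀ (ε / 2)) (hΦ : Setup.Tst Φ)
    (hR : 1 ≤ R) {C1 : ℝ} (hC1 : 0 ≤ C1)
    (hb : ∀ y : Cfg r, R⁻¹ • y ∈ tsupport ζ → ∀ (e : Cfg r) (v : F), ‖(fderiv ℝ V y e) v‖ ≤ C1 / R * ‖e‖ * ‖v‖)
    (β : Fin 16) :
    R ^ 2 * ns2 (X2 S φ ψ Om V c ε R ζ Φ β) ≤ ((Th S φ ψ * (C0 + C1)) ^ 2 * (4 * C0) * ∫ y, ‖ζ y‖ ^ 2) * nsq Φ := by
  have hR0 : 0 < R := lt_of_lt_of_le one_pos hR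
  have hk : 0 ≤ (Real.sqrt R ^ (9 * r))⁻¹ := by positivity
  set Q := (Th S φ ψ * (C0 + C1)) ^ 2 with hQ
  have hQ0 : 0 ≤ Q := sq_nonneg _
  have hmain : ns2 (X2 S φ ψ Om V c ε R ζ Φ β) ≤ (Q * (4 * C0) / R ^ 2) * ((∫ y, ‖ζ y‖ ^ 2) * ∫ s, ‖Φ s‖ ^ 2) := by
    refine ns2_le_prodG ψ (X2_tst hV bf hct hε hε0 hζ hζs hΦ hR β) hR0 (a := fun y => ‖ζ y‖ ^ 2)
      (b := fun s => ‖Φ s‖ ^ 2)
      (G := fun y w => Q * (2 / R ^ 2 * (‖w‖ ^ 0 * S.bz φ ψ Om y w) ^ 2 + 2 * (‖w‖ ^ 2 * S.bz φ ψ Om y w) ^ 2))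
      (fun y => by positivity) (fun s => by positivity) (zeta_int hζ hζs) (Phi_int hΦ) ?_ ?_ ?_
    · intro y hy
      have hy' : R⁻¹ • y ∈ tsupport ζ := by
        refine subset_tsupport _ ?_
        intro h0
        apply hy
        simp [h0]
      have hyU : y ∈ U := trf_inU S φ ψ U Om y₀ ε0 C0 bf ε hε hε0 R hR _ (hζs hy')
      exact (((bf.int y hyU 0).const_mul _).add ((bf.int y hyU 2).const_mul _)).const_mul _
    · intro y hy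
      have hy' : R⁻¹ • y ∈ tsupport ζ := by
        refine subset_tsupport _ ?_
        intro h0
        apply hy
        simp [h0]
      have hyU : y ∈ U := trf_inU S φ ψ U Om y₀ ε0 C0 bf ε hε hε0 R hR _ (hζs hy')
      have hnr : ‖y - R • y₀‖ ≤ ε0 * R := by
        have := near (ψ := (Equiv.sumEmpty (Fin r) (Fin 0) : Spl r 0 r)) (x := cmb (Equiv.sumEmpty (Fin r) (Fin 0)) y 0)
          hε0 hε hR0 hζs (by rw [zpt_cmb]; exact hy')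
        rwa [zpt_cmb] at this
      rw [integral_const_mul, integral_add ((bf.int y hyU 0).const_mul _) ((bf.int y hyU 2).const_mul _),
        integral_const_mul, integral_const_mul]
      have h1 := bf.mom R hR0 y hnr 0 (by norm_num)
      have h2 := bf.mom R hR0 y hnr 2 (by norm_num)
      rw [pow_zero, mul_one] at h1
      have h3 : Q * (2 / R ^ 2 * (∫ w, (‖w‖ ^ 0 * S.bz φ ψ Om y w) ^ 2) + 2 * ∫ w, (‖w‖ ^ 2 * S.bz φ ψ Om y w) ^ 2) ≤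
          Q * (2 / R ^ 2 * C0 + 2 * (C0 * (1 / R) ^ 2)) := by
        refine mul_le_mul_of_nonneg_left (add_le_add ?_ ?_) hQ0
        · exact mul_le_mul_of_nonneg_left h1 (by positivity)
        · exact mul_le_mul_of_nonneg_left h2 (by norm_num)
      refine h3.trans (le_of_eq ?_)
      field_simp
      ring
    · intro x w
      have h1 := X2_le (R := R) (Φ := Φ) hV bf hct hε hε0 hC0 hζs hR hC1 hb β x w
      have h2 := pow_le_pow_left₀ (norm_nonneg _) h1 2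
      refine h2.trans ?_
      have h3 : (1 / R + ‖w‖ ^ 2) ^ 2 ≤ 2 / R ^ 2 + 2 * ‖w‖ ^ 4 := by
        have h4 : (2 : ℝ) / R ^ 2 = 2 * (1 / R) ^ 2 := by
          field_simp
        rw [h4]
        nlinarith [sq_nonneg (1 / R - ‖w‖ ^ 2)]
      have h5 : 0 ≤ ((Real.sqrt R ^ (9 * r))⁻¹) ^ 2 * (‖ζ (R⁻¹ • zpt ψ x)‖ ^ 2 * ‖Φ (spt ψ x)‖ ^ 2) * Q *
          S.bz φ ψ Om (zpt ψ x) w ^ 2 := by positivity
      calc (Th S φ ψ * ((Real.sqrt R ^ (9 * r))⁻¹ * ((C0 + C1) * (1 / R + ‖w‖ ^ 2) * S.bz φ ψ Om (zpt ψ x) w) *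
          (‖ζ (R⁻¹ • zpt ψ x)‖ * ‖Φ (spt ψ x)‖))) ^ 2
          = (((Real.sqrt R ^ (9 * r))⁻¹) ^ 2 * (‖ζ (R⁻¹ • zpt ψ x)‖ ^ 2 * ‖Φ (spt ψ x)‖ ^ 2) * Q *
          S.bz φ ψ Om (zpt ψ x) w ^ 2) * (1 / R + ‖w‖ ^ 2) ^ 2 := by
            rw [hQ]
            ring
        _ ≤ (((Real.sqrt R ^ (9 * r))⁻¹) ^ 2 * (‖ζ (R⁻¹ • zpt ψ x)‖ ^ 2 * ‖Φ (spt ψ x)‖ ^ 2) * Q *
          S.bz φ ψ Om (zpt ψ x) w ^ 2) * (2 / R ^ 2 + 2 * ‖w‖ ^ 4) := mul_le_mul_of_nonneg_left h3 h5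
        _ = _ := by ring
  have hR2 : 0 < R ^ 2 := by positivity
  calc R ^ 2 * ns2 (X2 S φ ψ Om V c ε R ζ Φ β)
      ≤ R ^ 2 * ((Q * (4 * C0) / R ^ 2) * ((∫ y, ‖ζ y‖ ^ 2) * ∫ s, ‖Φ s‖ ^ 2)) :=
        mul_le_mul_of_nonneg_left hmain hR2.le
    _ = (Q * (4 * C0) * ∫ y, ‖ζ y‖ ^ 2) * nsq Φ := by
        unfold nsq
        field_simp

end Bd

section Vac

variable {S : Setup d F} {φ : Spl dh dm d} {ψ : Spl r ds dh}
  {Om : Cfg r → Matrix (Fin dm) (Fin dm) ℝ} {V : Cfg r → F →L[ℂ] F} {c : ℝ → ℝ} {ε R : ℝ} {ζ : Cfg r → ℂ} {Φ : Cfg ds → F}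
  {U : Set (Cfg r)} {K : Submodule ℂ F} {y₀ : Cfg r} {ε0 C0 : ℝ}

/-- the vacuum component of `(γθ)(∂V)u` vanishes -/
lemma proj_v2 [FiniteDimensional ℂ F] (hV : S.VFr φ ψ U Om V K) (β : Fin 16) (i : Fin 9) (a : Fin r) (x : Cfg dh)
    (hx : zpt ψ x ∈ U) (hK : Φ (spt ψ x) ∈ K) :
    (S.F0 φ (S.Dz φ ψ (zpt ψ x)) (Om (zpt ψ x))).starProjection (v2 S φ ψ V R ζ Φ β i a x) = 0 := by
  rw [Submodule.starProjection_apply_eq_zero_iff, Submodule.mem_orthogonal]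
  intro v hv
  have key : ∀ v' ∈ S.F0 φ (S.Dz φ ψ (zpt ψ x)) (Om (zpt ψ x)),
      inner ℂ v' ((fderiv ℝ V (zpt ψ x) (EuclideanSpace.single (i, a) 1)) (uu ψ R ζ Φ x)) = 0 := by
    intro v' hv'
    obtain ⟨k, hk⟩ := hV.v_s _ hx v'
    have hkK : k ∈ K := (hV.v_m _ hx k).2 (by rw [hk]; exact hv')
    rw [← hk, uu, map_smul, inner_smul_right, hV.par _ hx i a _ hK _ hkK, mul_zero]
  unfold v2
  rw [inner_smul_right]
  have h1 : S.vec (S.g i) (φ (Sum.inl (ψ (Sum.inl a)))) β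
      ((fderiv ℝ V (zpt ψ x) (EuclideanSpace.single (i, a) 1)) (uu ψ R ζ Φ x)) =
      ∑ γ, S.g i β γ • S.th γ (φ (Sum.inl (ψ (Sum.inl a))))
        ((fderiv ℝ V (zpt ψ x) (EuclideanSpace.single (i, a) 1)) (uu ψ R ζ Φ x)) := by
    simp only [CS.vec, _root_.sum_apply, _root_.smul_apply]
  rw [h1, inner_sum]
  have h2 : ∀ γ, inner ℂ v (S.g i β γ • S.th γ (φ (Sum.inl (ψ (Sum.inl a))))
        ((fderiv ℝ V (zpt ψ x) (EuclideanSpace.single (i, a) 1)) (uu ψ R ζ Φ x))) = 0 := by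
    intro γ
    rw [inner_smul_right, ← S.th_sa, key _ ((f0S S φ _ _).1 γ _ v hv), mul_zero]
  simp only [h2, Finset.sum_const_zero, mul_zero]

/-- the overlap of the Gaussian with its cut off derivative -/
lemma ov_le (hV : S.VFr φ ψ U Om V K) (bf : BzFacts S φ ψ U Om y₀ ε0 C0) (hct : IsCt c) (hε : 0 < ε) (hC0 : 0 < C0)
    {C' : ℝ} (hC' : ∀ R : ℝ, 1 ≤ R → ∀ y : Cfg r, ‖y - R • y₀‖ ≤ ε0 * R → ∀ k : ℕ, k ≤ 8 →
      ∫ w, (if ε / 2 * R ≤ ‖w‖ then (‖w‖ ^ k * S.bz φ ψ Om y w) ^ 2 else 0) ≤ C' * (1 / R) ^ 8)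
    (hR : 1 ≤ R) (i : Fin 9) (a : Fin r) (x : Cfg dh) (hx : zpt ψ x ∈ U) (hn : ‖zpt ψ x - R • y₀‖ ≤ ε0 * R) :
    Integrable (fun w => S.bz φ ψ Om (zpt ψ x) w * cd S φ ψ Om c ε R (EuclideanSpace.single (i, a) 1) x w) ∧
    Integrable (fun w => S.bz φ ψ Om (zpt ψ x) w * cb S φ ψ Om c ε R x w) ∧
    |∫ w, S.bz φ ψ Om (zpt ψ x) w * cd S φ ψ Om c ε R (EuclideanSpace.single (i, a) 1) x w| ≤
      (Real.sqrt R ^ (9 * r))⁻¹ * (2 * C0 * C' * (1 / R) ^ 8) := by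
  have hR0 : 0 < R := lt_of_lt_of_le one_pos hR
  have hk : 0 ≤ (Real.sqrt R ^ (9 * r))⁻¹ := by positivity
  set y := zpt ψ x with hy
  set D : Wsp dm → ℝ := fun w => fderiv ℝ (fun y' => S.bz φ ψ Om y' w) y (EuclideanSpace.single (i, a) 1) with hD
  have hbc : Continuous fun w => S.bz φ ψ Om y w := by
    rw [continuous_iff_continuousAt]
    intro w
    exact (bz_at hV.opn bf (q := (y, w)) hx).continuousAt.comp
      (f := fun w : Wsp dm => (y, w)) (by fun_prop : Continuous fun w : Wsp dm => (y, w)).continuousAt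
  have hDc : Continuous D := by
    rw [continuous_iff_continuousAt]
    intro w
    exact (dbz_at hV.opn bf (EuclideanSpace.single (i, a) 1) (q := (y, w)) hx).continuousAt.comp
      (f := fun w : Wsp dm => (y, w)) (by fun_prop : Continuous fun w : Wsp dm => (y, w)).continuousAt
  have hχc : Continuous fun w : Wsp dm => c (‖w‖ ^ 2 / (ε * R) ^ 2) :=
    hct.sm.continuous.comp (by fun_prop)
  have hb0 : ∀ w, 0 < S.bz φ ψ Om y w := bf.pos y hx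
  have hDb : ∀ w, |S.bz φ ψ Om y w * D w| ≤ C0 * (1 / R) * (‖w‖ ^ 0 * S.bz φ ψ Om y w) ^ 2 +
      C0 * (‖w‖ ^ 1 * S.bz φ ψ Om y w) ^ 2 := by
    intro w
    rw [abs_mul, abs_of_pos (hb0 w)]
    refine (mul_le_mul_of_nonneg_left (bf.dy R hR0 y hn w i a) (hb0 w).le).trans (le_of_eq ?_)
    ring
  have hgi : Integrable fun w => C0 * (1 / R) * (‖w‖ ^ 0 * S.bz φ ψ Om y w) ^ 2 +
      C0 * (‖w‖ ^ 1 * S.bz φ ψ Om y w) ^ 2 := ((bf.int y hx 0).const_mul _).add ((bf.int y hx 1).const_mul _)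
  have hi1 : Integrable fun w => S.bz φ ψ Om y w * D w :=
    hgi.mono' (hbc.mul hDc).aestronglyMeasurable (Eventually.of_forall fun w => hDb w)
  have hi2 : Integrable fun w => (c (‖w‖ ^ 2 / (ε * R) ^ 2) - 1) * (S.bz φ ψ Om y w * D w) := by
    refine hi1.bdd_mul (c := 1) (hχc.sub continuous_const).aestronglyMeasurable (Eventually.of_forall fun w => ?_)
    rw [Real.norm_eq_abs, abs_le]
    have := hct.bd (‖w‖ ^ 2 / (ε * R) ^ 2)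
    constructor <;> linarith
  have e1 : ∀ w, S.bz φ ψ Om y w * cd S φ ψ Om c ε R (EuclideanSpace.single (i, a) 1) x w =
      (Real.sqrt R ^ (9 * r))⁻¹ * ((c (‖w‖ ^ 2 / (ε * R) ^ 2) - 1) * (S.bz φ ψ Om y w * D w) +
        S.bz φ ψ Om y w * D w) := by
    intro w
    unfold cd
    rw [hD]
    ring
  have hi3 : Integrable fun w => S.bz φ ψ Om y w * cb S φ ψ Om c ε R x w := by
    have h1 : Integrable fun w => (S.bz φ ψ Om y w) ^ 2 := by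
      have := bf.int y hx 0
      simpa only [pow_zero, one_mul] using this
    have h2 : Integrable fun w => c (‖w‖ ^ 2 / (ε * R) ^ 2) * (S.bz φ ψ Om y w) ^ 2 := by
      refine h1.bdd_mul (c := 1) hχc.aestronglyMeasurable (Eventually.of_forall fun w => ?_)
      rw [Real.norm_eq_abs, abs_le]
      have := hct.bd (‖w‖ ^ 2 / (ε * R) ^ 2)
      constructor <;> linarith
    refine (h2.const_mul ((Real.sqrt R ^ (9 * r))⁻¹)).congr (Eventually.of_forall fun w => ?_)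
    unfold cb
    ring
  refine ⟨?_, hi3, ?_⟩
  · simp only [e1]
    exact (hi2.add hi1).const_mul _
  · simp only [e1]
    rw [integral_const_mul, integral_add hi2 hi1, bf.orth y hx i a, add_zero, abs_mul, abs_of_nonneg hk]
    refine mul_le_mul_of_nonneg_left ?_ hk
    have hmeas : MeasurableSet {w : Wsp dm | ε / 2 * R ≤ ‖w‖} := measurableSet_le measurable_const measurable_norm
    have hit : ∀ k : ℕ, Integrable fun w : Wsp dm => if ε / 2 * R ≤ ‖w‖ then (‖w‖ ^ k * S.bz φ ψ Om y w) ^ 2 else 0 := by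
      intro k
      refine ((bf.int y hx k).indicator hmeas).congr (Eventually.of_forall fun w => ?_)
      simp only [Set.indicator_apply, Set.mem_ofPred_eq]
    have hpt : ∀ w, ‖(c (‖w‖ ^ 2 / (ε * R) ^ 2) - 1) * (S.bz φ ψ Om y w * D w)‖ ≤
        C0 * (1 / R) * (if ε / 2 * R ≤ ‖w‖ then (‖w‖ ^ 0 * S.bz φ ψ Om y w) ^ 2 else 0) +
        C0 * (if ε / 2 * R ≤ ‖w‖ then (‖w‖ ^ 1 * S.bz φ ψ Om y w) ^ 2 else 0) := by
      intro w
      by_cases hw : ε / 2 * R ≤ ‖w‖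
      · rw [if_pos hw, if_pos hw, norm_mul]
        refine le_trans ?_ (hDb w)
        rw [Real.norm_eq_abs, Real.norm_eq_abs]
        refine mul_le_of_le_one_left (abs_nonneg _) ?_
        rw [abs_le]
        have := hct.bd (‖w‖ ^ 2 / (ε * R) ^ 2)
        constructor <;> linarith
      · rw [if_neg hw, if_neg hw]
        push Not at hw
        have h10 : 0 < ε * R := mul_pos hε hR0
        have h3 : c (‖w‖ ^ 2 / (ε * R) ^ 2) = 1 := by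
          apply hct.one
          rw [div_le_iff₀ (by positivity)]
          have := pow_le_pow_left₀ (norm_nonneg w) hw.le 2
          nlinarith
        rw [h3]
        simp
    have hsum : Integrable fun w : Wsp dm =>
        C0 * (1 / R) * (if ε / 2 * R ≤ ‖w‖ then (‖w‖ ^ 0 * S.bz φ ψ Om y w) ^ 2 else 0) +
        C0 * (if ε / 2 * R ≤ ‖w‖ then (‖w‖ ^ 1 * S.bz φ ψ Om y w) ^ 2 else 0) :=
      ((hit 0).const_mul _).add ((hit 1).const_mul _)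
    refine (norm_integral_le_of_norm_le hsum (Eventually.of_forall hpt)).trans ?_
    rw [integral_add ((hit 0).const_mul _) ((hit 1).const_mul _), integral_const_mul, integral_const_mul]
    have h0 := hC' R hR y hn 0 (by norm_num)
    have h1 := hC' R hR y hn 1 (by norm_num)
    have h00 : 0 ≤ ∫ w : Wsp dm, (if ε / 2 * R ≤ ‖w‖ then (‖w‖ ^ 0 * S.bz φ ψ Om y w) ^ 2 else 0) :=
      integral_nonneg fun w => by
        by_cases hw : ε / 2 * R ≤ ‖w‖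
        · simp only [if_pos hw, Pi.zero_apply]
          positivity
        · simp only [if_neg hw, Pi.zero_apply, le_refl]
    have hR1 : 1 / R ≤ 1 := by
      rw [div_le_one hR0]
      exact hR
    calc C0 * (1 / R) * (∫ w : Wsp dm, (if ε / 2 * R ≤ ‖w‖ then (‖w‖ ^ 0 * S.bz φ ψ Om y w) ^ 2 else 0)) +
        C0 * (∫ w : Wsp dm, (if ε / 2 * R ≤ ‖w‖ then (‖w‖ ^ 1 * S.bz φ ψ Om y w) ^ 2 else 0))
        ≤ C0 * 1 * (C' * (1 / R) ^ 8) + C0 * (C' * (1 / R) ^ 8) := by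
          refine add_le_add ?_ (mul_le_mul_of_nonneg_left h1 hC0.le)
          exact mul_le_mul (mul_le_mul_of_nonneg_left hR1 hC0.le) h0 h00 (by positivity)
      _ = 2 * C0 * C' * (1 / R) ^ 8 := by ring

lemma vc_le [FiniteDimensional ℂ F] (hV : S.VFr φ ψ U Om V K) (bf : BzFacts S φ ψ U Om y₀ ε0 C0) (hct : IsCt c)
    (hε : 0 < ε) (hε0 : ε ≤ ε0) (hC0 : 0 < C0) (hζs : tsupport ζ ⊆ Metric.ball y₀ (ε / 2))
    {C' : ℝ} (hC'0 : 0 ≤ C') (hC' : ∀ R : ℝ, 1 ≤ R → ∀ y : Cfg r, ‖y - R • y₀‖ ≤ ε0 * R → ∀ k : ℕ, k ≤ 8 →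
      ∫ w, (if ε / 2 * R ≤ ‖w‖ then (‖w‖ ^ k * S.bz φ ψ Om y w) ^ 2 else 0) ≤ C' * (1 / R) ^ 8)
    (hR : 1 ≤ R) (hK : ∀ s, Φ s ∈ K) (β : Fin 16) (x : Cfg dh) :
    ‖vc S φ ψ Om (X2 S φ ψ Om V c ε R ζ Φ β) x‖ ≤
      Th S φ ψ * (((Real.sqrt R ^ (9 * r))⁻¹ * (2 * C0 * C' * (1 / R) ^ 8)) *
        (‖ζ (R⁻¹ • zpt ψ x)‖ * ‖Φ (spt ψ x)‖)) := by
  have hR0 : 0 < R := lt_of_lt_of_le one_pos hR
  have hk : 0 ≤ (Real.sqrt R ^ (9 * r))⁻¹ := by positivity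
  by_cases hp : R⁻¹ • zpt ψ x ∈ tsupport ζ
  · have hyU : zpt ψ x ∈ U := trf_inU S φ ψ U Om y₀ ε0 C0 bf ε hε hε0 R hR _ (hζs hp)
    have hnr := near (ψ := ψ) hε0 hε hR0 hζs hp
    have hov := fun (i : Fin 9) (a : Fin r) => ov_le hV bf hct hε hC0 hC' hR i a x hyU hnr
    have e1 : ∀ w, ((S.bz φ ψ Om (zpt ψ x) w : ℝ) : ℂ) • X2 S φ ψ Om V c ε R ζ Φ β x w =
        ∑ i, ∑ a, (((S.bz φ ψ Om (zpt ψ x) w * cd S φ ψ Om c ε R (EuclideanSpace.single (i, a) 1) x w : ℝ) : ℂ) •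
          v1 S φ ψ V R ζ Φ β i a x +
          ((S.bz φ ψ Om (zpt ψ x) w * cb S φ ψ Om c ε R x w : ℝ) : ℂ) • v2 S φ ψ V R ζ Φ β i a x) := by
      intro w
      unfold X2
      simp only [Finset.smul_sum, smul_add, smul_smul, Complex.ofReal_mul]
    have hi1 : ∀ (i : Fin 9) (a : Fin r), Integrable fun w =>
        ((S.bz φ ψ Om (zpt ψ x) w * cd S φ ψ Om c ε R (EuclideanSpace.single (i, a) 1) x w : ℝ) : ℂ) •
          v1 S φ ψ V R ζ Φ β i a x := fun i a => (hov i a).1.ofReal.smul_const _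
    have hi2 : ∀ (i : Fin 9) (a : Fin r), Integrable fun w =>
        ((S.bz φ ψ Om (zpt ψ x) w * cb S φ ψ Om c ε R x w : ℝ) : ℂ) • v2 S φ ψ V R ζ Φ β i a x :=
      fun i a => (hov i a).2.1.ofReal.smul_const _
    have hi3 : ∀ (i : Fin 9) (a : Fin r), Integrable fun w =>
        (((S.bz φ ψ Om (zpt ψ x) w * cd S φ ψ Om c ε R (EuclideanSpace.single (i, a) 1) x w : ℝ) : ℂ) •
          v1 S φ ψ V R ζ Φ β i a x +
        ((S.bz φ ψ Om (zpt ψ x) w * cb S φ ψ Om c ε R x w : ℝ) : ℂ) • v2 S φ ψ V R ζ Φ β i a x) :=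
      fun i a => (hi1 i a).add (hi2 i a)
    have e2 : ∫ w, ((S.bz φ ψ Om (zpt ψ x) w : ℝ) : ℂ) • X2 S φ ψ Om V c ε R ζ Φ β x w =
        ∑ i, ∑ a, (((∫ w, S.bz φ ψ Om (zpt ψ x) w * cd S φ ψ Om c ε R (EuclideanSpace.single (i, a) 1) x w : ℝ) : ℂ) •
          v1 S φ ψ V R ζ Φ β i a x +
          ((∫ w, S.bz φ ψ Om (zpt ψ x) w * cb S φ ψ Om c ε R x w : ℝ) : ℂ) • v2 S φ ψ V R ζ Φ β i a x) := by
      simp only [e1]
      rw [integral_finsetSum _ fun i _ => integrable_finsetSum _ fun a _ => hi3 i a]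
      refine Finset.sum_congr rfl fun i _ => ?_
      rw [integral_finsetSum _ fun a _ => hi3 i a]
      refine Finset.sum_congr rfl fun a _ => ?_
      rw [integral_add (hi1 i a) (hi2 i a), integral_smul_const, integral_smul_const, integral_complex_ofReal,
        integral_complex_ofReal]
    unfold vc
    rw [e2]
    simp only [map_sum, map_add, map_smul, proj_v2 hV β _ _ x hyU (hK _), smul_zero, add_zero]
    refine (norm_sum_le _ _).trans ?_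
    refine (Finset.sum_le_sum fun i _ => norm_sum_le _ _).trans ?_
    have hterm : ∀ (i : Fin 9) (a : Fin r),
        ‖((∫ w, S.bz φ ψ Om (zpt ψ x) w * cd S φ ψ Om c ε R (EuclideanSpace.single (i, a) 1) x w : ℝ) : ℂ) •
          (S.F0 φ (S.Dz φ ψ (zpt ψ x)) (Om (zpt ψ x))).starProjection (v1 S φ ψ V R ζ Φ β i a x)‖ ≤
        ‖(S.vec (S.g i) (φ (Sum.inl (ψ (Sum.inl a)))) β : F →L[ℂ] F)‖ *
        (((Real.sqrt R ^ (9 * r))⁻¹ * (2 * C0 * C' * (1 / R) ^ 8)) * (‖ζ (R⁻¹ • zpt ψ x)‖ * ‖Φ (spt ψ x)‖)) := by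
      intro i a
      rw [norm_smul, Complex.norm_real, Real.norm_eq_abs]
      have h1 := (Submodule.norm_starProjection_apply_le (S.F0 φ (S.Dz φ ψ (zpt ψ x)) (Om (zpt ψ x)))
        (v1 S φ ψ V R ζ Φ β i a x)).trans (v1_le (R := R) (ζ := ζ) (Φ := Φ) hV β i a x hyU)
      refine (mul_le_mul (hov i a).2.2 h1 (norm_nonneg _) (by positivity)).trans (le_of_eq ?_)
      ring
    refine (Finset.sum_le_sum fun i _ => Finset.sum_le_sum fun a _ => hterm i a).trans ?_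
    simp only [← Finset.sum_mul]
    refine mul_le_mul_of_nonneg_right (Th_le S φ ψ β) ?_
    positivity
  · have h0 : ∀ w, X2 S φ ψ Om V c ε R ζ Φ β x w = 0 := by
      intro w
      by_contra hne
      exact hp (X2_ne hct hε hR0 β x w hne).1
    have h1 : vc S φ ψ Om (X2 S φ ψ Om V c ε R ζ Φ β) x = 0 := by
      unfold vc
      simp only [h0, smul_zero, integral_zero, map_zero]
    rw [h1, norm_zero]
    have := Th_nonneg S φ ψ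
    positivity

end Vac

end Vale.Agent.P353.Z.AE.DecH213

namespace Vale.Agent.P353.Z.AE

variable {d dh dm r ds : ℕ} {F : Type*} [NormedAddCommGroup F] [InnerProductSpace ℂ F]

open DecH213

/-- **E-DecH** -/
theorem decH2 (S : Setup d F) (φ : Spl dh dm d) (ψ : Spl r ds dh) : DecHStmt S φ ψ := by
  intro hF hφ hc U Om V K hV y₀ ε0 C0 hy₀ hε0 hC0 bf cbd c hct ε hε hεε0 ζ hζ hζs
  have hsU : tsupport ζ ⊆ U := by
    intro y hy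
    have h1 := hζs hy
    exact trf_inU S φ ψ U Om y₀ ε0 C0 bf ε hε hεε0 1 le_rfl y (by rwa [inv_one, one_smul])
  obtain ⟨C1, hC1, hC1b⟩ := V_bd hV (tsupp_compact hζs) hsU
  obtain ⟨C', hC'⟩ := bf.tail (ε / 2) (by positivity)
  have hC'' : ∀ R : ℝ, 1 ≤ R → ∀ y : Cfg r, ‖y - R • y₀‖ ≤ ε0 * R → ∀ k : ℕ, k ≤ 8 →
      ∫ w, (if ε / 2 * R ≤ ‖w‖ then (‖w‖ ^ k * S.bz φ ψ Om y w) ^ 2 else 0) ≤ max C' 0 * (1 / R) ^ 8 := by
    intro R hR y hy k hk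
    refine (hC' R hR y hy k hk).trans ?_
    exact mul_le_mul_of_nonneg_right (le_max_left _ _) (by positivity)
  have hI : 0 ≤ ∫ y, ‖ζ y‖ ^ 2 := integral_nonneg fun y => by positivity
  set A1 := (Th S φ ψ * (C0 + C1)) ^ 2 * (4 * C0) * ∫ y, ‖ζ y‖ ^ 2 with hA1
  set A2 := (Th S φ ψ * (2 * C0 * max C' 0)) ^ 2 * ∫ y, ‖ζ y‖ ^ 2 with hA2
  have hA10 : 0 ≤ A1 := by positivity
  have hA20 : 0 ≤ A2 := by positivity
  have hz : Tst2 (fun (_ : Cfg dh) (_ : Wsp dm) => (0 : F)) := ⟨contDiff_const, HasCompactSupport.zero⟩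
  have hzs : ∀ (Y : Cfg dh) (ε R : ℝ), Sup2 Y ε R (fun (_ : Cfg dh) (_ : Wsp dm) => (0 : F)) :=
    fun Y ε R y w h => absurd rfl h
  have hzn : ns2 (fun (_ : Cfg dh) (_ : Wsp dm) => (0 : F)) = 0 := by
    unfold ns2
    simp
  refine ⟨A1 + A2, by positivity, fun R η hR hη hηε Φ hΦ β => ?_⟩
  have hR0 : 0 < R := lt_of_lt_of_le one_pos hR
  have hN : 0 ≤ nsq Φ := nsq_nonneg Φ
  have hDn : 0 ≤ ∑ i, ∑ A, nsq (pd i A Φ) := Finset.sum_nonneg fun _ _ => Finset.sum_nonneg fun _ _ => nsq_nonneg _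
  refine ⟨fun _ _ => 0, X2 S φ ψ Om V c ε R ζ Φ β, fun _ _ => 0, hz,
    X2_tst hV bf hct hε hεε0 hζ hζs hΦ.tst hR β, hz, hzs _ _ _, ?_, hzs _ _ _, ?_, ?_, ?_, ?_, ?_, ?_, ?_⟩
  · refine sup2_of hζs hR0 hηε fun x w h => ?_
    obtain ⟨h1, h2, h3⟩ := X2_ne hct hε hR0 β x w h
    exact ⟨h1, hΦ.sup _ h2, h3⟩
  · intro x w
    rw [dec_eq hφ hc hV bf hε hεε0 hζ hζs hΦ.tst.1 hR β x w, add_zero, add_zero]
  · rw [hzn, mul_zero]
    positivity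
  · refine (X2_ns hV bf hct hε hεε0 hC0 hζ hζs hΦ.tst hR hC1 (fun y hy => hC1b R hR0 y hy) β).trans ?_
    refine mul_le_mul_of_nonneg_right ?_ hN
    linarith
  · intro x w h
    exact hΦ.sup _ (X2_ne hct hε hR0 β x w h).2.1
  · have h1 : ∫ x, ‖vc S φ ψ Om (X2 S φ ψ Om V c ε R ζ Φ β) x‖ ^ 2 ≤
        ((Th S φ ψ * (2 * C0 * max C' 0 * (1 / R) ^ 8)) ^ 2) * ((∫ y, ‖ζ y‖ ^ 2) * ∫ s, ‖Φ s‖ ^ 2) := by
      refine int_le_prod ψ hR0 (a := fun y => ‖ζ y‖ ^ 2) (b := fun s => ‖Φ s‖ ^ 2) (zeta_int hζ hζs) (Phi_int hΦ.tst)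
        (fun x => by positivity) fun x => ?_
      have h2 := vc_le hV bf hct hε hεε0 hC0 hζs (le_max_right C' 0) hC'' hR hΦ.val β x
      refine (pow_le_pow_left₀ (norm_nonneg _) h2 2).trans (le_of_eq ?_)
      ring
    have hRi : (1 / R) ^ 16 * R ^ 2 ≤ 1 / R := by
      have h3 : (1 / R) ^ 16 * R ^ 2 = (1 / R) ^ 13 * (1 / R) := by
        field_simp
      rw [h3]
      have h4 : (1 / R) ^ 13 ≤ 1 := pow_le_one₀ (by positivity) (by rw [div_le_one hR0]; exact hR)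
      exact mul_le_of_le_one_left (by positivity) h4
    calc R ^ 2 * ∫ x, ‖vc S φ ψ Om (X2 S φ ψ Om V c ε R ζ Φ β) x‖ ^ 2
        ≤ R ^ 2 * (((Th S φ ψ * (2 * C0 * max C' 0 * (1 / R) ^ 8)) ^ 2) * ((∫ y, ‖ζ y‖ ^ 2) * ∫ s, ‖Φ s‖ ^ 2)) :=
          mul_le_mul_of_nonneg_left h1 (by positivity)
      _ = A2 * nsq Φ * ((1 / R) ^ 16 * R ^ 2) := by
          rw [hA2]
          unfold nsq
          ring
      _ ≤ A2 * nsq Φ * (1 / R) := mul_le_mul_of_nonneg_left hRi (by positivity)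
      _ = A2 / R * nsq Φ := by ring
      _ ≤ (A1 + A2) / R * nsq Φ := by
          refine mul_le_mul_of_nonneg_right ?_ hN
          exact div_le_div_of_nonneg_right (by linarith) hR0.le
  · intro x w
    rw [neg_zero]
  · rw [hzn]
    positivity

end Vale.Agent.P353.Z.AE
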