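import Vale.Agent.P353.AN.E.Stmt

/-! # P353, all `N`, block E: E-DecM, the mass term applied to the trial function -/

open MeasureTheory Filter Topology Matrix
open scoped ContDiff

namespace Vale.Agent.P353.Z.AE

variable {d dh dm r ds : ℕ} {F : Type*} [NormedAddCommGroup F] [InnerProductSpace ℂ F]

/-! ### splitting of the slice variable -/

theorem dcm_mp (ψ : Spl r ds dh) : MeasurePreserving (fun x : Cfg dh => (zpt ψ x, spt ψ x))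
    (volume : Measure (Cfg dh)) ((volume : Measure (Cfg r)).prod (volume : Measure (Cfg ds))) := by
  let e : (Fin 9 × Fin r) ⊕ (Fin 9 × Fin ds) ≃ Fin 9 × Fin dh :=
    (Equiv.prodSumDistrib (Fin 9) (Fin r) (Fin ds)).symm.trans (Equiv.prodCongr (Equiv.refl _) ψ)
  have h1 : MeasurePreserving (WithLp.ofLp : Cfg dh → (Fin 9 × Fin dh → ℝ)) volume volume :=
    PiLp.volume_preserving_ofLp (Fin 9 × Fin dh)
  have h2 : MeasurePreserving (MeasurableEquiv.piCongrLeft (fun _ : Fin 9 × Fin dh => ℝ) e).symm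
      volume volume :=
    (volume_measurePreserving_piCongrLeft (fun _ : Fin 9 × Fin dh => ℝ) e).symm
  have h3 := volume_measurePreserving_sumPiEquivProdPi
    (fun _ : (Fin 9 × Fin r) ⊕ (Fin 9 × Fin ds) => ℝ)
  have h4 : MeasurePreserving (WithLp.toLp 2 : (Fin 9 × Fin r → ℝ) → Cfg r) volume volume :=
    PiLp.volume_preserving_toLp (Fin 9 × Fin r)
  have h5 : MeasurePreserving (WithLp.toLp 2 : (Fin 9 × Fin ds → ℝ) → Cfg ds) volume volume :=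
    PiLp.volume_preserving_toLp (Fin 9 × Fin ds)
  have h6 := (h4.prod h5).comp (h3.comp (h2.comp h1))
  exact h6

theorem dcm_int (ψ : Spl r ds dh) {G : Cfg r → ℝ} {H : Cfg ds → ℝ} (hG : Continuous G)
    (hH : Continuous H) : ∫ x : Cfg dh, G (zpt ψ x) * H (spt ψ x) = (∫ y, G y) * ∫ s, H s := by
  rw [← integral_prod_mul, ← (dcm_mp ψ).map_eq, integral_map (dcm_mp ψ).measurable.aemeasurable]
  exact ((hG.comp continuous_fst).mul (hH.comp continuous_snd)).aestronglyMeasurable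

theorem dcm_int' (ψ : Spl r ds dh) {G : Cfg r → ℝ} {H : Cfg ds → ℝ}
    (hGi : Integrable G) (hHi : Integrable H) :
    Integrable fun x : Cfg dh => G (zpt ψ x) * H (spt ψ x) := by
  have h1 := hGi.mul_prod hHi
  have h2 := ((dcm_mp ψ).integrable_comp h1.aestronglyMeasurable).2 h1
  exact h2

/-! ### elementary bounds -/

theorem dcm_co {ι : Type*} [Fintype ι] (x : EuclideanSpace ℝ ι) (p : ι) : |x p| ≤ ‖x‖ :=
  PiLp.norm_apply_le x p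

theorem dcm_wt (w : Wsp dm) (i : Fin 9) (B : Fin dm) : |wt w i B| ≤ ‖w‖ := by
  refine Fin.lastCases ?_ (fun j => ?_) i
  · unfold wt
    rw [Fin.lastCases_last]
    simp
  · unfold wt
    rw [Fin.lastCases_castSucc]
    exact dcm_co w (j, B)

theorem dcm_wt_c (i : Fin 9) (B : Fin dm) : ContDiff ℝ ∞ fun w : Wsp dm => wt w i B := by
  refine Fin.lastCases ?_ (fun j => ?_) i
  · simp only [wt, Fin.lastCases_last]
    exact contDiff_const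
  · simp only [wt, Fin.lastCases_castSucc]
    exact (EuclideanSpace.proj (j, B) : Wsp dm →L[ℝ] ℝ).contDiff

theorem dcm_cd {E : Type*} [NormedAddCommGroup E] [NormedSpace ℝ E] (A : F →L[ℂ] F) {g : E → F}
    (hg : ContDiff ℝ ∞ g) : ContDiff ℝ ∞ fun p => A (g p) :=
  (A.restrictScalars ℝ).contDiff.comp hg

/-- error term: `∑ s_i^b N_iθ^b + ∑ w_i^B N_iθ^B` -/
noncomputable def dcmX (S : Setup d F) (φ : Spl dh dm d) (ψ : Spl r ds dh)
    (N : Fin 9 → Matrix (Fin 16) (Fin 16) ℂ) (β : Fin 16) (x : Cfg dh) (w : Wsp dm) (v : F) : F :=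
  (∑ i, ∑ b, ((spt ψ x (i, b) : ℝ) : ℂ) • S.vec (N i) (φ (Sum.inl (ψ (Sum.inr b)))) β v) +
    ∑ i, ∑ B, ((wt w i B : ℝ) : ℂ) • S.vec (N i) (φ (Sum.inr B)) β v

/-- the constant -/
noncomputable def dcmK (S : Setup d F) (φ : Spl dh dm d) (ψ : Spl r ds dh)
    (N : Fin 9 → Matrix (Fin 16) (Fin 16) ℂ) : ℝ :=
  ∑ β, ((∑ i, ∑ b, ‖(S.vec (N i) (φ (Sum.inl (ψ (Sum.inr b)))) β : F →L[ℂ] F)‖) +
    ∑ i, ∑ B, ‖(S.vec (N i) (φ (Sum.inr B)) β : F →L[ℂ] F)‖)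

theorem dcmK_nonneg (S : Setup d F) (φ : Spl dh dm d) (ψ : Spl r ds dh)
    (N : Fin 9 → Matrix (Fin 16) (Fin 16) ℂ) : 0 ≤ dcmK S φ ψ N := by
  unfold dcmK
  positivity

theorem dcmX_le (S : Setup d F) (φ : Spl dh dm d) (ψ : Spl r ds dh)
    (N : Fin 9 → Matrix (Fin 16) (Fin 16) ℂ) (β : Fin 16) (x : Cfg dh) (w : Wsp dm) (v : F) :
    ‖dcmX S φ ψ N β x w v‖ ≤ dcmK S φ ψ N * (‖spt ψ x‖ + ‖w‖) * ‖v‖ := by
  have h1 : ‖∑ i, ∑ b, ((spt ψ x (i, b) : ℝ) : ℂ) •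
      S.vec (N i) (φ (Sum.inl (ψ (Sum.inr b)))) β v‖ ≤
      (∑ i, ∑ b, ‖(S.vec (N i) (φ (Sum.inl (ψ (Sum.inr b)))) β : F →L[ℂ] F)‖) *
        ((‖spt ψ x‖ + ‖w‖) * ‖v‖) := by
    rw [Finset.sum_mul]
    refine norm_sum_le_of_le _ fun i _ => ?_
    rw [Finset.sum_mul]
    refine norm_sum_le_of_le _ fun b _ => ?_
    rw [norm_smul, Complex.norm_real, Real.norm_eq_abs]
    have h2 : |spt ψ x (i, b)| ≤ ‖spt ψ x‖ + ‖w‖ :=
      (dcm_co (spt ψ x) (i, b)).trans (le_add_of_nonneg_right (norm_nonneg _))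
    calc |spt ψ x (i, b)| * ‖S.vec (N i) (φ (Sum.inl (ψ (Sum.inr b)))) β v‖
        ≤ (‖spt ψ x‖ + ‖w‖) *
          (‖(S.vec (N i) (φ (Sum.inl (ψ (Sum.inr b)))) β : F →L[ℂ] F)‖ * ‖v‖) :=
          mul_le_mul h2 (ContinuousLinearMap.le_opNorm _ _) (norm_nonneg _) (by positivity)
      _ = _ := by ring
  have h1' : ‖∑ i, ∑ B, ((wt w i B : ℝ) : ℂ) • S.vec (N i) (φ (Sum.inr B)) β v‖ ≤
      (∑ i, ∑ B, ‖(S.vec (N i) (φ (Sum.inr B)) β : F →L[ℂ] F)‖) *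
        ((‖spt ψ x‖ + ‖w‖) * ‖v‖) := by
    rw [Finset.sum_mul]
    refine norm_sum_le_of_le _ fun i _ => ?_
    rw [Finset.sum_mul]
    refine norm_sum_le_of_le _ fun b _ => ?_
    rw [norm_smul, Complex.norm_real, Real.norm_eq_abs]
    have h2 : |wt w i b| ≤ ‖spt ψ x‖ + ‖w‖ :=
      (dcm_wt w i b).trans (le_add_of_nonneg_left (norm_nonneg _))
    calc |wt w i b| * ‖S.vec (N i) (φ (Sum.inr b)) β v‖
        ≤ (‖spt ψ x‖ + ‖w‖) *
          (‖(S.vec (N i) (φ (Sum.inr b)) β : F →L[ℂ] F)‖ * ‖v‖) :=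
          mul_le_mul h2 (ContinuousLinearMap.le_opNorm _ _) (norm_nonneg _) (by positivity)
      _ = _ := by ring
  have h3 : (∑ i, ∑ b, ‖(S.vec (N i) (φ (Sum.inl (ψ (Sum.inr b)))) β : F →L[ℂ] F)‖) +
      (∑ i, ∑ B, ‖(S.vec (N i) (φ (Sum.inr B)) β : F →L[ℂ] F)‖) ≤ dcmK S φ ψ N :=
    Finset.single_le_sum (f := fun β => (∑ i, ∑ b,
      ‖(S.vec (N i) (φ (Sum.inl (ψ (Sum.inr b)))) β : F →L[ℂ] F)‖) +
      ∑ i, ∑ B, ‖(S.vec (N i) (φ (Sum.inr B)) β : F →L[ℂ] F)‖)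
      (fun β _ => by positivity) (Finset.mem_univ β)
  have h4 : 0 ≤ (‖spt ψ x‖ + ‖w‖) * ‖v‖ := by positivity
  have h5 := mul_le_mul_of_nonneg_right h3 h4
  unfold dcmX
  refine (norm_add_le _ _).trans ?_
  linarith

theorem dcmX_cd (S : Setup d F) (φ : Spl dh dm d) (ψ : Spl r ds dh)
    (N : Fin 9 → Matrix (Fin 16) (Fin 16) ℂ) (β : Fin 16) {T : Cfg dh → Wsp dm → F}
    (hT : ContDiff ℝ ∞ fun p : Cfg dh × Wsp dm => T p.1 p.2) :
    ContDiff ℝ ∞ fun p : Cfg dh × Wsp dm => dcmX S φ ψ N β p.1 p.2 (T p.1 p.2) := by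
  unfold dcmX
  refine ContDiff.add ?_ ?_
  · refine ContDiff.sum fun i _ => ContDiff.sum fun b _ => ContDiff.smul ?_ (dcm_cd _ hT)
    refine Complex.ofRealCLM.contDiff.comp ?_
    exact (EuclideanSpace.proj (i, ψ (Sum.inr b)) : Cfg dh →L[ℝ] ℝ).contDiff.comp contDiff_fst
  · refine ContDiff.sum fun i _ => ContDiff.sum fun b _ => ContDiff.smul ?_ (dcm_cd _ hT)
    exact Complex.ofRealCLM.contDiff.comp ((dcm_wt_c i b).comp contDiff_snd)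

theorem dcm_Mh (S : Setup d F) (φ : Spl dh dm d) (ψ : Spl r ds dh)
    (N : Fin 9 → Matrix (Fin 16) (Fin 16) ℂ) (β : Fin 16) (x : Cfg dh) (w : Wsp dm) (v : F) :
    S.Mh φ N β x v + S.Mw φ N β w v =
      (∑ i, ∑ a, ((zpt ψ x (i, a) : ℝ) : ℂ) • S.vec (N i) (φ (Sum.inl (ψ (Sum.inl a)))) β v) +
        dcmX S φ ψ N β x w v := by
  have h1 : S.Mh φ N β x v = ∑ i, ∑ A, ((x (i, A) : ℝ) : ℂ) • S.vec (N i) (φ (Sum.inl A)) β v := by
    simp [Setup.Mh]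
  have h2 : S.Mw φ N β w v = ∑ i, ∑ B, ((wt w i B : ℝ) : ℂ) • S.vec (N i) (φ (Sum.inr B)) β v := by
    simp [Setup.Mw]
  have h3 : ∀ i, ∑ A, ((x (i, A) : ℝ) : ℂ) • S.vec (N i) (φ (Sum.inl A)) β v =
      (∑ a, ((zpt ψ x (i, a) : ℝ) : ℂ) • S.vec (N i) (φ (Sum.inl (ψ (Sum.inl a)))) β v) +
      ∑ b, ((spt ψ x (i, b) : ℝ) : ℂ) • S.vec (N i) (φ (Sum.inl (ψ (Sum.inr b)))) β v := by
    intro i
    rw [← ψ.sum_comp, Fintype.sum_sum_type]
    rfl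
  rw [h1, h2, dcmX]
  simp only [h3, Finset.sum_add_distrib]
  abel

/-! ### the main term and the weighted norm -/

theorem dcm_vec (S : Setup d F) (φ : Spl dh dm d) (A : Fin dh) (N : Matrix (Fin 16) (Fin 16) ℂ)
    (β : Fin 16) (B : F →L[ℂ] F)
    (h : ∀ α A v, B (S.th α (φ (Sum.inl A)) v) = S.th α (φ (Sum.inl A)) (B v)) (v : F) :
    B (S.vec N (φ (Sum.inl A)) β v) = S.vec N (φ (Sum.inl A)) β (B v) := by
  simp [CS.vec, h]

theorem dcm_DF (S : Setup d F) (φ : Spl dh dm d) (ψ : Spl r ds dh)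
    (N : Fin 9 → Matrix (Fin 16) (Fin 16) ℂ) (μ : ℝ) (β : Fin 16) (a : Cfg r → Cfg ds → F)
    (y : Cfg r) (s : Cfg ds) :
    S.DF φ ψ N μ β a y s = S.DF φ ψ (fun _ => 0) 0 β a y s +
      (μ : ℂ) • ∑ i, ∑ A, ((y (i, A) : ℝ) : ℂ) • S.vec (N i) (φ (Sum.inl (ψ (Sum.inl A)))) β (a y s) := by
  simp [Setup.DF]

theorem dcm_main (S : Setup d F) (φ : Spl dh dm d) (ψ : Spl r ds dh)
    (N : Fin 9 → Matrix (Fin 16) (Fin 16) ℂ) (μ : ℝ) (β : Fin 16)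
    (Om : Cfg r → Matrix (Fin dm) (Fin dm) ℝ) (V : Cfg r → F →L[ℂ] F) (c : ℝ → ℝ) (ε R : ℝ)
    (a : Cfg r → Cfg ds → F) (x : Cfg dh) (w : Wsp dm)
    (h : (∀ α A v, V (zpt ψ x) (S.th α (φ (Sum.inl A)) v) =
      S.th α (φ (Sum.inl A)) (V (zpt ψ x) v)) ∨ a (R⁻¹ • zpt ψ x) (spt ψ x) = 0) :
    ((R⁻¹ : ℝ) : ℂ) • (S.TR φ ψ Om V c ε R (S.DF φ ψ N μ β a) x w -
      S.TR φ ψ Om V c ε R (S.DF φ ψ (fun _ => 0) 0 β a) x w) =
    ((μ / R ^ 2 : ℝ) : ℂ) • ∑ i, ∑ A, ((zpt ψ x (i, A) : ℝ) : ℂ) •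
      S.vec (N i) (φ (Sum.inl (ψ (Sum.inl A)))) β (S.TR φ ψ Om V c ε R a x w) := by
  have e1 : S.TR φ ψ Om V c ε R (S.DF φ ψ N μ β a) x w -
      S.TR φ ψ Om V c ε R (S.DF φ ψ (fun _ => 0) 0 β a) x w =
      (((Real.sqrt R ^ (9 * r))⁻¹ * c (‖w‖ ^ 2 / (ε * R) ^ 2) * S.bz φ ψ Om (zpt ψ x) w : ℝ) : ℂ) •
      V (zpt ψ x) ((μ : ℂ) • ∑ i, ∑ A, (((R⁻¹ • zpt ψ x) (i, A) : ℝ) : ℂ) •
        S.vec (N i) (φ (Sum.inl (ψ (Sum.inl A)))) β (a (R⁻¹ • zpt ψ x) (spt ψ x))) := by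
    unfold Setup.TR
    rw [← smul_sub, ← map_sub, dcm_DF S φ ψ N μ β a, add_sub_cancel_left]
  rw [e1]
  rcases h with h | h
  · unfold Setup.TR
    rw [map_smul, map_sum, Finset.smul_sum, Finset.smul_sum, Finset.smul_sum, Finset.smul_sum]
    refine Finset.sum_congr rfl fun i _ => ?_
    rw [map_sum, Finset.smul_sum, Finset.smul_sum, Finset.smul_sum, Finset.smul_sum]
    refine Finset.sum_congr rfl fun A _ => ?_
    rw [map_smul, map_smul, dcm_vec S φ _ (N i) β _ h, smul_smul, smul_smul, smul_smul, smul_smul,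
      smul_smul]
    congr 1
    have : (R⁻¹ • zpt ψ x) (i, A) = R⁻¹ * zpt ψ x (i, A) := rfl
    rw [this]
    push_cast
    ring
  · unfold Setup.TR
    rw [h]
    simp

theorem dcm_in {ζ : Cfg r → ℂ} {y₀ : Cfg r} {ε ε0 R : ℝ} (hε : 0 < ε) (hle : ε ≤ ε0) (hR : 1 ≤ R)
    (hs : tsupport ζ ⊆ Metric.ball y₀ (ε / 2)) {z : Cfg r} (hz : ζ (R⁻¹ • z) ≠ 0) :
    ‖z - R • y₀‖ ≤ ε0 * R := by
  have h1 := hs (subset_tsupport _ hz)
  rw [Metric.mem_ball, dist_eq_norm] at h1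
  have h2 : z - R • y₀ = R • (R⁻¹ • z - y₀) := by
    rw [smul_sub, smul_smul, mul_inv_cancel₀ (by linarith), one_smul]
  rw [h2, norm_smul, Real.norm_of_nonneg (by linarith), mul_comm]
  exact mul_le_mul_of_nonneg_right (by linarith) (by linarith)

theorem dcm_sc {ζ : Cfg r → ℂ} {R : ℝ} (hR : 1 ≤ R) :
    ((Real.sqrt R ^ (9 * r))⁻¹) ^ 2 * (∫ y, ‖ζ (R⁻¹ • y)‖ ^ 2) = ∫ y, ‖ζ y‖ ^ 2 := by
  have hR0 : 0 < R := by linarith
  have h1 := Measure.integral_comp_inv_smul_of_nonneg (volume : Measure (Cfg r))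
    (fun y => ‖ζ y‖ ^ 2) hR0.le
  have h2 : Module.finrank ℝ (Cfg r) = 9 * r := by simp
  rw [h2] at h1
  rw [h1, smul_eq_mul, ← mul_assoc, ← inv_pow, ← pow_mul, mul_comm (9 * r) 2, pow_mul, inv_pow,
    Real.sq_sqrt hR0.le, ← mul_pow, inv_mul_cancel₀ hR0.ne', one_pow, one_mul]

/-- weighted norm of the trial function -/
theorem dcm_W (S : Setup d F) (φ : Spl dh dm d) (ψ : Spl r ds dh) {U : Set (Cfg r)}
    {Om : Cfg r → Matrix (Fin dm) (Fin dm) ℝ} {V : Cfg r → F →L[ℂ] F} {K : Submodule ℂ F}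
    (hV : S.VFr φ ψ U Om V K) {y₀ : Cfg r} {ε0 C0 : ℝ}
    (hB : BzFacts S φ ψ U Om y₀ ε0 C0) {c : ℝ → ℝ} (hc : IsCt c) {ε : ℝ} (hε : 0 < ε)
    (hle : ε ≤ ε0) {ζ : Cfg r → ℂ} (hζ : ContDiff ℝ ∞ ζ)
    (hs : tsupport ζ ⊆ Metric.ball y₀ (ε / 2)) {R : ℝ} (hR : 1 ≤ R) {Φ : Cfg ds → F}
    (hΦ : Setup.Tst Φ) (hT : Tst2 (S.TR φ ψ Om V c ε R (pp ζ Φ))) :
    ∫ p, (‖p.2‖ * ‖S.TR φ ψ Om V c ε R (pp ζ Φ) p.1 p.2‖) ^ 2
      ∂((volume : Measure (Cfg dh)).prod (volume : Measure (Wsp dm))) ≤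
      C0 * (1 / R) * ((∫ y, ‖ζ y‖ ^ 2) * nsq Φ) := by
  have hR0 : 0 < R := by linarith
  have hfi : Integrable (fun p : Cfg dh × Wsp dm =>
      (‖p.2‖ * ‖S.TR φ ψ Om V c ε R (pp ζ Φ) p.1 p.2‖) ^ 2)
      ((volume : Measure (Cfg dh)).prod (volume : Measure (Wsp dm))) := by
    have h1 : Continuous (fun p : Cfg dh × Wsp dm =>
        (‖p.2‖ * ‖S.TR φ ψ Om V c ε R (pp ζ Φ) p.1 p.2‖) ^ 2) :=
      (continuous_snd.norm.mul hT.1.continuous.norm).pow 2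
    refine h1.integrable_of_hasCompactSupport (hT.2.mono ?_)
    intro p hp
    simp only [Function.mem_support] at hp ⊢
    intro h0
    exact hp (by simp [h0])
  have hζc : HasCompactSupport ζ :=
    (isCompact_closedBall y₀ (ε / 2)).of_isClosed_subset (isClosed_tsupport ζ)
      (hs.trans Metric.ball_subset_closedBall)
  have hζs : HasCompactSupport fun y : Cfg r => ζ (R⁻¹ • y) :=
    hζc.comp_homeomorph (Homeomorph.smulOfNeZero R⁻¹ (inv_ne_zero hR0.ne'))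
  have hGc : Continuous fun y : Cfg r =>
      ((Real.sqrt R ^ (9 * r))⁻¹) ^ 2 * (C0 * (1 / R)) * ‖ζ (R⁻¹ • y)‖ ^ 2 := by
    refine continuous_const.mul (Continuous.pow (Continuous.norm ?_) 2)
    exact hζ.continuous.comp (continuous_const_smul R⁻¹)
  have hGi : Integrable fun y : Cfg r =>
      ((Real.sqrt R ^ (9 * r))⁻¹) ^ 2 * (C0 * (1 / R)) * ‖ζ (R⁻¹ • y)‖ ^ 2 := by
    refine hGc.integrable_of_hasCompactSupport (hζs.mono ?_)
    intro y hy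
    simp only [Function.mem_support] at hy ⊢
    intro h0
    exact hy (by simp [h0])
  have hHc : Continuous fun s : Cfg ds => ‖Φ s‖ ^ 2 := hΦ.1.continuous.norm.pow 2
  have hHi : Integrable fun s : Cfg ds => ‖Φ s‖ ^ 2 := hΦ.norm_sq_int
  rw [integral_prod _ hfi]
  have key : ∀ x : Cfg dh, ∫ w : Wsp dm,
      (‖w‖ * ‖S.TR φ ψ Om V c ε R (pp ζ Φ) x w‖) ^ 2 ≤
      (((Real.sqrt R ^ (9 * r))⁻¹) ^ 2 * (C0 * (1 / R)) * ‖ζ (R⁻¹ • zpt ψ x)‖ ^ 2) *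
        ‖Φ (spt ψ x)‖ ^ 2 := by
    intro x
    by_cases hz : ζ (R⁻¹ • zpt ψ x) = 0
    · have h0 : ∀ w, S.TR φ ψ Om V c ε R (pp ζ Φ) x w = 0 := by
        intro w
        simp [Setup.TR, pp, hz]
      simp [h0, hz]
    · have h1 := dcm_in hε hle hR hs hz
      have h2 := hB.inU R hR0 _ h1
      have h3 := hB.mom R hR0 _ h1 1 (by norm_num)
      have h4 := hB.int _ h2 1
      have h5 : ∀ w, (‖w‖ * ‖S.TR φ ψ Om V c ε R (pp ζ Φ) x w‖) ^ 2 ≤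
          (((Real.sqrt R ^ (9 * r))⁻¹) ^ 2 * ‖ζ (R⁻¹ • zpt ψ x)‖ ^ 2 * ‖Φ (spt ψ x)‖ ^ 2) *
            (‖w‖ ^ 1 * S.bz φ ψ Om (zpt ψ x) w) ^ 2 := by
        intro w
        unfold Setup.TR pp
        rw [norm_smul, Complex.norm_real, hV.v_n _ h2, norm_smul, Real.norm_eq_abs, abs_mul, abs_mul,
          pow_one]
        have h6 : |c (‖w‖ ^ 2 / (ε * R) ^ 2)| ≤ 1 := by
          rw [abs_of_nonneg (hc.bd _).1]
          exact (hc.bd _).2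
        have h7 : |c (‖w‖ ^ 2 / (ε * R) ^ 2)| ^ 2 ≤ 1 := pow_le_one₀ (abs_nonneg _) h6
        have h8 : 0 ≤ (‖w‖ * |(Real.sqrt R ^ (9 * r))⁻¹| * |S.bz φ ψ Om (zpt ψ x) w| *
            ‖ζ (R⁻¹ • zpt ψ x)‖ * ‖Φ (spt ψ x)‖) ^ 2 := by positivity
        have h9 := mul_le_mul_of_nonneg_left h7 h8
        calc _ = (‖w‖ * |(Real.sqrt R ^ (9 * r))⁻¹| * |S.bz φ ψ Om (zpt ψ x) w| *
            ‖ζ (R⁻¹ • zpt ψ x)‖ * ‖Φ (spt ψ x)‖) ^ 2 * |c (‖w‖ ^ 2 / (ε * R) ^ 2)| ^ 2 := by ring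
          _ ≤ _ := h9
          _ = _ := by
            rw [mul_one, mul_pow, mul_pow, mul_pow, mul_pow, sq_abs, sq_abs]
            ring
      have h10 : ∫ w : Wsp dm, (‖w‖ * ‖S.TR φ ψ Om V c ε R (pp ζ Φ) x w‖) ^ 2 ≤
          ∫ w : Wsp dm, (((Real.sqrt R ^ (9 * r))⁻¹) ^ 2 * ‖ζ (R⁻¹ • zpt ψ x)‖ ^ 2 *
            ‖Φ (spt ψ x)‖ ^ 2) * (‖w‖ ^ 1 * S.bz φ ψ Om (zpt ψ x) w) ^ 2 :=
        integral_mono_of_nonneg (Filter.Eventually.of_forall fun w => sq_nonneg _)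
          (h4.const_mul _) (Filter.Eventually.of_forall h5)
      refine h10.trans ?_
      rw [integral_const_mul]
      have h11 : 0 ≤ ((Real.sqrt R ^ (9 * r))⁻¹) ^ 2 * ‖ζ (R⁻¹ • zpt ψ x)‖ ^ 2 *
            ‖Φ (spt ψ x)‖ ^ 2 := by positivity
      refine (mul_le_mul_of_nonneg_left h3 h11).trans (le_of_eq ?_)
      rw [pow_one]
      ring
  have h1 := integral_mono hfi.integral_prod_left (dcm_int' ψ hGi hHi) key
  refine h1.trans (le_of_eq ?_)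
  rw [dcm_int ψ hGc hHc, integral_const_mul]
  have h2 := dcm_sc (r := r) (ζ := ζ) hR
  rw [← h2]
  unfold nsq
  ring

theorem dcm_zero (Y : Cfg dh) (ε R : ℝ) : Tst2 (fun (_ : Cfg dh) (_ : Wsp dm) => (0 : F)) ∧
    Sup2 Y ε R (fun (_ : Cfg dh) (_ : Wsp dm) => (0 : F)) :=
  ⟨⟨contDiff_const, HasCompactSupport.zero⟩, fun _ _ h => absurd rfl h⟩

/-- **E-DecM** -/
theorem decM (S : Setup d F) (φ : Spl dh dm d) (ψ : Spl r ds dh) (hTR : TRStmt S φ ψ) :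
    DecMStmt S φ ψ := by
  intro N μ hμ hF hφ hcn U Om V K hV y₀ ε0 C0 hy hε0 hC0 hB hCf c hc ε hε hle ζ hζ hζs
  obtain ⟨Z, hZ⟩ : ∃ Z : ℝ, Z = ∫ y, ‖ζ y‖ ^ 2 := ⟨_, rfl⟩
  have hZ0 : 0 ≤ Z := by
    rw [hZ]
    exact integral_nonneg fun y => by positivity
  obtain ⟨k, hk⟩ : ∃ k : ℝ, k = dcmK S φ ψ N := ⟨_, rfl⟩
  have hk0 : 0 ≤ k := hk ▸ dcmK_nonneg S φ ψ N
  have hCnn : 0 ≤ 2 * μ ^ 2 * k ^ 2 * Z * (1 + C0) := by positivity
  refine ⟨2 * μ ^ 2 * k ^ 2 * Z * (1 + C0), hCnn, ?_⟩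
  intro R η hR hη hηε Φ hΦ β
  have hR0 : 0 < R := by linarith
  obtain ⟨t1, t2, t3, t4⟩ := hTR hφ hcn U Om V K hV y₀ ε0 C0 hε0 hB c hc ε hε hle ζ hζ hζs R η hR
    hη hηε Φ hΦ
  have hW := dcm_W S φ ψ hV hB hc hε hle hζ hζs hR hΦ.tst t1
  rw [← hZ] at t4 hW
  obtain ⟨T, hT⟩ : ∃ T : Cfg dh → Wsp dm → F, T = S.TR φ ψ Om V c ε R (pp ζ Φ) := ⟨_, rfl⟩
  rw [← hT] at t1 t2 t3 t4 hW
  obtain ⟨X, hX⟩ : ∃ X : Cfg dh → Wsp dm → F,
    X = fun x w => ((μ / R ^ 2 : ℝ) : ℂ) • dcmX S φ ψ N β x w (T x w) := ⟨_, rfl⟩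
  have hX0 : ∀ x w, X x w ≠ 0 → T x w ≠ 0 := by
    intro x w h1 h2
    apply h1
    rw [hX]
    simp [dcmX, h2]
  have hXt : Tst2 X := by
    refine ⟨?_, t1.2.mono fun p hp => ?_⟩
    · rw [hX]
      exact (dcmX_cd S φ ψ N β t1.1).const_smul ((μ / R ^ 2 : ℝ) : ℂ)
    · exact hX0 p.1 p.2 hp
  have hnq : 0 ≤ nsq Φ := integral_nonneg fun y => by positivity
  have hpd : 0 ≤ ∑ i, ∑ A, nsq (pd i A Φ) :=
    Finset.sum_nonneg fun i _ => Finset.sum_nonneg fun A _ => integral_nonneg fun y => by positivity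
  obtain ⟨z1, z2⟩ := dcm_zero (dm := dm) (F := F) (cmb ψ y₀ 0) ε R
  refine ⟨X, fun _ _ => 0, fun _ _ => 0, hXt, z1, z1, fun x w h => t2 x w (hX0 x w h), z2, z2,
    ?_, ?_, ?_, ?_, ?_, ?_, ?_⟩
  · intro x w
    beta_reduce
    rw [dcm_main S φ ψ N μ β Om V c ε R (pp ζ Φ) x w, ← hT, dcm_Mh, smul_add, hX, add_zero,
      add_zero]
    by_cases hz : ζ (R⁻¹ • zpt ψ x) = 0
    · right
      simp [pp, hz]
    · left
      intro α A v
      exact hV.v_th _ (hB.inU R hR0 _ (dcm_in hε hle hR hζs hz)) α A v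
  · have hTi : Integrable (fun p : Cfg dh × Wsp dm => ‖T p.1 p.2‖ ^ 2)
        ((volume : Measure (Cfg dh)).prod (volume : Measure (Wsp dm))) := by
      refine (t1.1.continuous.norm.pow 2).integrable_of_hasCompactSupport (t1.2.mono ?_)
      intro p hp
      simp only [Function.mem_support] at hp ⊢
      intro h0
      exact hp (by simp [h0])
    have hWi : Integrable (fun p : Cfg dh × Wsp dm => (‖p.2‖ * ‖T p.1 p.2‖) ^ 2)
        ((volume : Measure (Cfg dh)).prod (volume : Measure (Wsp dm))) := by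
      refine ((continuous_snd.norm.mul t1.1.continuous.norm).pow 2).integrable_of_hasCompactSupport
        (t1.2.mono ?_)
      intro p hp
      simp only [Function.mem_support] at hp ⊢
      intro h0
      exact hp (by simp [h0])
    have hpt : ∀ p : Cfg dh × Wsp dm, ‖X p.1 p.2‖ ^ 2 ≤
        2 * (μ / R ^ 2) ^ 2 * k ^ 2 * ((η * R) ^ 2 * ‖T p.1 p.2‖ ^ 2 +
          (‖p.2‖ * ‖T p.1 p.2‖) ^ 2) := by
      intro p
      by_cases h0 : T p.1 p.2 = 0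
      · have : X p.1 p.2 = 0 := by
          by_contra h
          exact hX0 _ _ h h0
        rw [this]
        simp [h0]
      · have h1 := t3 p.1 p.2 h0
        have h2 := dcmX_le S φ ψ N β p.1 p.2 (T p.1 p.2)
        rw [← hk] at h2
        have h3 : ‖X p.1 p.2‖ ≤ (μ / R ^ 2) * (k * (η * R + ‖p.2‖) * ‖T p.1 p.2‖) := by
          rw [hX]
          change ‖((μ / R ^ 2 : ℝ) : ℂ) • dcmX S φ ψ N β p.1 p.2 (T p.1 p.2)‖ ≤ _
          rw [norm_smul, Complex.norm_real, Real.norm_of_nonneg (by positivity)]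
          refine mul_le_mul_of_nonneg_left (h2.trans ?_) (by positivity)
          refine mul_le_mul_of_nonneg_right ?_ (norm_nonneg _)
          exact mul_le_mul_of_nonneg_left (by linarith) hk0
        have h4 := pow_le_pow_left₀ (norm_nonneg _) h3 2
        refine h4.trans ?_
        have h5 : (η * R + ‖p.2‖) ^ 2 ≤ 2 * ((η * R) ^ 2 + ‖p.2‖ ^ 2) := by
          nlinarith [sq_nonneg (η * R - ‖p.2‖)]
        have h6 : 0 ≤ (μ / R ^ 2) ^ 2 * k ^ 2 * ‖T p.1 p.2‖ ^ 2 := by positivity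
        have h7 := mul_le_mul_of_nonneg_left h5 h6
        calc _ = (μ / R ^ 2) ^ 2 * k ^ 2 * ‖T p.1 p.2‖ ^ 2 * (η * R + ‖p.2‖) ^ 2 := by ring
          _ ≤ _ := h7
          _ = _ := by ring
    have h1 : ns2 X ≤ 2 * (μ / R ^ 2) ^ 2 * k ^ 2 * ((η * R) ^ 2 * ns2 T +
        ∫ p, (‖p.2‖ * ‖T p.1 p.2‖) ^ 2
          ∂((volume : Measure (Cfg dh)).prod (volume : Measure (Wsp dm)))) := by
      have h2 := integral_mono_of_nonneg (μ := (volume : Measure (Cfg dh)).prod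
        (volume : Measure (Wsp dm))) (f := fun p : Cfg dh × Wsp dm => ‖X p.1 p.2‖ ^ 2)
        (Filter.Eventually.of_forall fun p => sq_nonneg _)
        (((hTi.const_mul ((η * R) ^ 2)).add hWi).const_mul (2 * (μ / R ^ 2) ^ 2 * k ^ 2))
        (Filter.Eventually.of_forall hpt)
      refine h2.trans (le_of_eq ?_)
      rw [integral_const_mul]
      congr 1
      have h3 := integral_add (hTi.const_mul ((η * R) ^ 2)) hWi
      rw [integral_const_mul] at h3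
      exact h3
    have h2 : (η * R) ^ 2 * ns2 T + ∫ p, (‖p.2‖ * ‖T p.1 p.2‖) ^ 2
          ∂((volume : Measure (Cfg dh)).prod (volume : Measure (Wsp dm))) ≤
        R ^ 2 * (1 + C0) * Z * (η ^ 2 + 1 / R) * nsq Φ := by
      have h3 : (η * R) ^ 2 * ns2 T ≤ (η * R) ^ 2 * (Z * nsq Φ) :=
        mul_le_mul_of_nonneg_left t4 (by positivity)
      have h4 : 0 ≤ Z * nsq Φ := mul_nonneg hZ0 hnq
      have h5 : (1 : ℝ) ≤ R ^ 2 := one_le_pow₀ hR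
      have h6 : 0 ≤ 1 / R := by positivity
      have h7 : 0 ≤ (R ^ 2 - 1) * (C0 * (1 / R) * (Z * nsq Φ)) :=
        mul_nonneg (by linarith) (by positivity)
      have h8 : 0 ≤ R ^ 2 * (C0 * η ^ 2 + 1 / R) * (Z * nsq Φ) := by positivity
      nlinarith
    have h3 : R ^ 2 * ns2 X ≤ 2 * μ ^ 2 * k ^ 2 * Z * (1 + C0) * (η ^ 2 + 1 / R) * nsq Φ := by
      have h4 := h1.trans (mul_le_mul_of_nonneg_left h2 (by positivity))
      have h5 := mul_le_mul_of_nonneg_left h4 (sq_nonneg R)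
      refine h5.trans (le_of_eq ?_)
      field_simp
    refine h3.trans ?_
    rw [mul_assoc]
    refine mul_le_mul_of_nonneg_left ?_ hCnn
    have h4 : 0 ≤ 1 / R := by positivity
    have h5 := mul_nonneg h4 hpd
    linarith
  · have : ns2 (fun (_ : Cfg dh) (_ : Wsp dm) => (0 : F)) = 0 := by simp [ns2]
    rw [this, mul_zero]
    exact mul_nonneg hCnn hnq
  · intro x w h
    exact absurd rfl h
  · have : ∀ x, vc S φ ψ Om (fun (_ : Cfg dh) (_ : Wsp dm) => (0 : F)) x = 0 := by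
      intro x
      simp [vc]
    simp only [this]
    simp only [norm_zero, ne_eq, OfNat.ofNat_ne_zero, not_false_eq_true, zero_pow, integral_zero,
      mul_zero]
    have : 0 ≤ 1 / R := by positivity
    exact mul_nonneg (div_nonneg hCnn hR0.le) hnq
  · intro x w
    simp
  · have : ns2 (fun (_ : Cfg dh) (_ : Wsp dm) => (0 : F)) = 0 := by simp [ns2]
    rw [this]
    positivity

end Vale.Agent.P353.Z.AE
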