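import Vale.Agent.P353.AN.E.StmtG
import Vale.Agent.P353.AN.A.Std

/-! # P353, all `N`, block E: EG-Dir, a good direction (helper731) -/

open MeasureTheory Filter Topology Matrix
open scoped ContDiff

namespace Vale.Agent.P353.Z.AE

open Vale.Agent.P353.Z.AN.StdA

/-- the matrix `M` as an operator -/
noncomputable def dirLn {n : ℕ} (M : Matrix (Fin n) (Fin n) ℝ) : Ec n →ₗ[ℝ] Ec n where
  toFun v := WithLp.toLp 2 (M *ᵥ v.ofLp)
  map_add' v w := by
    ext C
    simp [Matrix.mulVec_add]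
  map_smul' c v := by
    ext C
    simp [Matrix.mulVec_smul]

private lemma dirLn_apply {n : ℕ} (M : Matrix (Fin n) (Fin n) ℝ) (v : Ec n) (C : Fin n) :
    dirLn M v C = ∑ B, M C B * v B := rfl

private lemma dirLn_skew {n : ℕ} {M : Matrix (Fin n) (Fin n) ℝ} (hM : Mᵀ = -M) (v w : Ec n) :
    inner ℝ (dirLn M v) w = - inner ℝ v (dirLn M w) := by
  rw [inner_Ec, inner_Ec]
  simp only [dirLn_apply, Finset.sum_mul, Finset.mul_sum]
  rw [Finset.sum_comm, ← Finset.sum_neg_distrib]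
  refine Finset.sum_congr rfl fun B _ => ?_
  rw [← Finset.sum_neg_distrib]
  refine Finset.sum_congr rfl fun C _ => ?_
  have h : M C B = - M B C := by
    have := congrFun (congrFun hM B) C
    rwa [Matrix.transpose_apply, Matrix.neg_apply] at this
  rw [h]
  ring

private lemma dirLn_comm {n : ℕ} {M P : Matrix (Fin n) (Fin n) ℝ} (h : M * P = P * M) (v : Ec n) :
    dirLn M (dirLn P v) = dirLn P (dirLn M v) := by
  have h1 : dirLn M (dirLn P v) = WithLp.toLp 2 (M *ᵥ (P *ᵥ v.ofLp)) := rfl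
  have h2 : dirLn P (dirLn M v) = WithLp.toLp 2 (P *ᵥ (M *ᵥ v.ofLp)) := rfl
  rw [h1, h2, Matrix.mulVec_mulVec, Matrix.mulVec_mulVec, h]

private lemma dirLn_sum {n : ℕ} (D : Fin 9 → Matrix (Fin n) (Fin n) ℝ) (e : Fin 9 → ℝ) (v : Ec n) :
    dirLn (∑ j, e j • D j) v = ∑ j, e j • dirLn (D j) v := by
  have h : dirLn (∑ j, e j • D j) v = WithLp.toLp 2 ((∑ j, e j • D j) *ᵥ v.ofLp) := rfl
  rw [h, Matrix.sum_mulVec, WithLp.toLp_sum]
  refine Finset.sum_congr rfl fun j _ => ?_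
  rw [Matrix.smul_mulVec, WithLp.toLp_smul]
  rfl

private lemma dir_skew_sum {n : ℕ} {D : Fin 9 → Matrix (Fin n) (Fin n) ℝ} (h : ∀ i, (D i)ᵀ = -D i) (e : Fin 9 → ℝ) :
    (∑ j, e j • D j)ᵀ = -(∑ j, e j • D j) := by
  rw [Matrix.transpose_sum, ← Finset.sum_neg_distrib]
  exact Finset.sum_congr rfl fun j _ => by rw [Matrix.transpose_smul, h j, smul_neg]

private lemma dir_comm_sum {n : ℕ} {D : Fin 9 → Matrix (Fin n) (Fin n) ℝ} (h : ∀ i j, D i * D j = D j * D i)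
    (e : Fin 9 → ℝ) (a : Fin 9) : (∑ j, e j • D j) * D a = D a * (∑ j, e j • D j) := by
  rw [Finset.sum_mul, Finset.mul_sum]
  exact Finset.sum_congr rfl fun j _ => by rw [Matrix.smul_mul, Matrix.mul_smul, h j a]

private lemma dir_exists_comb {n : ℕ} {D : Fin 9 → Matrix (Fin n) (Fin n) ℝ} (hs : ∀ i, (D i)ᵀ = -D i)
    (hc : ∀ i j, D i * D j = D j * D i) (s : Finset (Fin 9)) :
    ∃ e : Fin 9 → ℝ, ∀ v, dirLn (∑ j, e j • D j) v = 0 → ∀ i ∈ s, dirLn (D i) v = 0 := by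
  induction s using Finset.induction_on with
  | empty => exact ⟨0, fun v _ i hi => by simp at hi⟩
  | insert a s ha ih =>
    obtain ⟨e, he⟩ := ih
    obtain ⟨t, ht⟩ := exists_ker (dirLn (∑ j, e j • D j)) (dirLn (D a)) (dirLn_skew (dir_skew_sum hs e))
      (dirLn_skew (hs a)) (dirLn_comm (dir_comm_sum hc e a))
    refine ⟨e + Pi.single a t, fun v hv => ?_⟩
    have h1 : dirLn (∑ j, (e + Pi.single a t : Fin 9 → ℝ) j • D j) v = dirLn (∑ j, e j • D j) v + t • dirLn (D a) v := by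
      rw [dirLn_sum, dirLn_sum]
      simp only [Pi.add_apply, add_smul, Finset.sum_add_distrib]
      congr 1
      rw [Finset.sum_eq_single a]
      · simp
      · intro b _ hb
        simp [hb]
      · simp
    rw [h1] at hv
    obtain ⟨h2, h3⟩ := ht v hv
    intro i hi
    rcases Finset.mem_insert.1 hi with rfl | hi
    · exact h3
    · exact he v h2 i hi

private lemma dir_exists_unit {n : ℕ} {D : Fin 9 → Matrix (Fin n) (Fin n) ℝ} (hs : ∀ i, (D i)ᵀ = -D i)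
    (hc : ∀ i j, D i * D j = D j * D i) :
    ∃ e : EuclideanSpace ℝ (Fin 9), ‖e‖ = 1 ∧ ∀ v, dirLn (∑ j, e j • D j) v = 0 → ∀ i, dirLn (D i) v = 0 := by
  obtain ⟨e, he⟩ := dir_exists_comb hs hc Finset.univ
  have he' : ∀ v, dirLn (∑ j, e j • D j) v = 0 → ∀ i, dirLn (D i) v = 0 :=
    fun v hv i => he v hv i (Finset.mem_univ i)
  by_cases h0 : e = 0
  · refine ⟨EuclideanSpace.single 0 1, by simp, fun v _ i => he' v ?_ i⟩
    rw [dirLn_sum, h0]
    simp
  · set E : EuclideanSpace ℝ (Fin 9) := WithLp.toLp 2 e with hE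
    have hE0 : E ≠ 0 := by
      intro h
      apply h0
      funext i
      have := congrArg (fun z : EuclideanSpace ℝ (Fin 9) => z i) h
      simpa [hE] using this
    have hn : ‖E‖ ≠ 0 := norm_ne_zero_iff.2 hE0
    refine ⟨‖E‖⁻¹ • E, by rw [norm_smul, norm_inv, norm_norm, inv_mul_cancel₀ hn], fun v hv i => he' v ?_ i⟩
    rw [dirLn_sum] at hv ⊢
    have h2 : ∑ j, (‖E‖⁻¹ • E) j • dirLn (D j) v = ‖E‖⁻¹ • ∑ j, e j • dirLn (D j) v := by
      rw [Finset.smul_sum]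
      exact Finset.sum_congr rfl fun j _ => by rw [PiLp.smul_apply, smul_eq_mul, mul_smul]
    rw [h2] at hv
    exact (smul_eq_zero.1 hv).resolve_left (inv_ne_zero hn)

/-- **EG-Dir** -/
theorem dirS : DirStmt := by
  intro n D hs hc hdet
  obtain ⟨e, he1, he⟩ := dir_exists_unit hs hc
  obtain ⟨R, hR, hR8⟩ := exists_rot e he1
  refine ⟨R, hR, fun h0 => hdet ?_⟩
  obtain ⟨z, hz0, hz⟩ := Matrix.exists_mulVec_eq_zero_iff.2 h0
  have h1 : dirLn (∑ j, e j • D j) (WithLp.toLp 2 z) = 0 := by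
    have h2 : dirLn (∑ j, e j • D j) (WithLp.toLp 2 z) = WithLp.toLp 2 ((∑ j, e j • D j) *ᵥ z) := rfl
    have h3 : (∑ j, R 8 j • D j) = ∑ j, e j • D j := Finset.sum_congr rfl fun j _ => by rw [hR8]
    rw [h2, ← h3, hz, WithLp.toLp_zero]
  have h4 : ∀ i, D i *ᵥ z = 0 := by
    intro i
    have h5 := he _ h1 i
    have h6 : dirLn (D i) (WithLp.toLp 2 z) = WithLp.toLp 2 (D i *ᵥ z) := rfl
    rw [h6] at h5
    exact congrArg WithLp.ofLp h5
  refine Matrix.exists_mulVec_eq_zero_iff.1 ⟨z, hz0, ?_⟩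
  rw [Matrix.sum_mulVec]
  refine Finset.sum_eq_zero fun i _ => ?_
  rw [← Matrix.mulVec_mulVec, h4 i, Matrix.mulVec_zero]

end Vale.Agent.P353.Z.AE
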