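import Vale.Agent.P353.AN.E.StmtG
import Vale.Agent.P353.Z.U.A2
import Vale.Agent.P353.Z.U.QmBase

/-! # P353, all `N`, block E, EG-QInv: the supercharges with mass preserve gauge invariant test functions -/

open MeasureTheory Filter Topology Matrix
open scoped ContDiff

namespace Vale.Agent.P353.Z.AE

variable {d : ℕ} {F : Type*} [NormedAddCommGroup F] [InnerProductSpace ℂ F]

namespace QInv533

open U

variable (S : Setup d F) (N : Fin 9 → Matrix (Fin 16) (Fin 16) ℂ)

lemma contDiff_Mx (β : Fin 16) : ContDiff ℝ ∞ (S.Mx N β) := by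
  unfold Setup.Mx
  refine ContDiff.sum fun i _ => ContDiff.sum fun A _ => ?_
  exact (Setup.contDiff_ofReal (Setup.contDiff_coord _)).smul contDiff_const

lemma Mx_line (β : Fin 16) (x v : Cfg d) (t : ℝ) :
    S.Mx N β (x + t • v) = S.Mx N β x + (t : ℂ) • S.Mx N β v := by
  simp only [Setup.Mx, PiLp.add_apply, PiLp.smul_apply, smul_eq_mul, Finset.smul_sum,
    ← Finset.sum_add_distrib]
  refine Finset.sum_congr rfl fun i _ => Finset.sum_congr rfl fun A _ => ?_
  push_cast
  module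

lemma fderiv_Mx (β : Fin 16) (x v : Cfg d) : fderiv ℝ (S.Mx N β) x v = S.Mx N β v := by
  refine line_fderiv (b := 0) ((contDiff_Mx S N β).differentiable (by simp) x) fun t => ?_
  rw [Mx_line, smul_zero, add_zero]

lemma comm_Mx (C : Fin d) (β : Fin 16) (x : Cfg d) :
    S.cS C * S.Mx N β x - S.Mx N β x * S.cS C = Complex.I • S.Mx N β (gLc S C x) := by
  have h1 : S.Mx N β (gLc S C x) = ∑ i, ∑ A, ((x (i, A) : ℝ) : ℂ) • ∑ E, (S.f C A E : ℂ) • S.vec (N i) E β := by
    simp only [Setup.Mx, gLc_apply, Complex.ofReal_sum, Finset.sum_smul, Finset.smul_sum, smul_smul]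
    refine Finset.sum_congr rfl fun i _ => ?_
    rw [Finset.sum_comm]
    refine Finset.sum_congr rfl fun A _ => Finset.sum_congr rfl fun E _ => ?_
    congr 1
    push_cast
    ring
  rw [h1]
  simp only [Setup.Mx, Finset.mul_sum, Finset.sum_mul, ← Finset.sum_sub_distrib, Finset.smul_sum (r := Complex.I)]
  refine Finset.sum_congr rfl fun i _ => Finset.sum_congr rfl fun A _ => ?_
  rw [mul_smul_comm, smul_mul_assoc, ← smul_sub, comm_cS, smul_comm]

lemma G_Mx (C : Fin d) (β : Fin 16) {u : Cfg d → F} (hu : ContDiff ℝ ∞ u) (x : Cfg d) :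
    S.G C (fun y => S.Mx N β y (u y)) x = S.Mx N β x (S.G C u x) := by
  rw [G_eq, G_eq, fderiv_clm_app ((contDiff_Mx S N β).differentiable (by simp) x)
    (hu.differentiable (by simp) x), fderiv_Mx]
  have h1 := congrArg (fun T : F →L[ℂ] F => T (u x)) (comm_Mx S N C β x)
  change S.cS C (S.Mx N β x (u x)) - S.Mx N β x (S.cS C (u x)) = Complex.I • S.Mx N β (gLc S C x) (u x) at h1
  rw [sub_eq_iff_eq_add.1 h1, map_add, map_smul]
  module

end QInv533

open QInv533 in
/-- **EG-QInv** -/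
theorem qInv (S : Setup d F) : QInvStmt S := by
  intro N m β u hu
  have hM : Setup.Tst (fun x => S.Mx N β x (u x)) := Setup.Tst.clm (contDiff_Mx S N β) hu.tst
  refine ⟨(hu.tst.Q S β).add (U.HB.Tst_csmul (m : ℂ) hM), fun C x => ?_⟩
  have h1 : S.G C (S.Q β u) x = 0 := by
    have h2 := U.a3 S 0 C β u hu.tst.1 x
    have h3 : S.Qm 0 β u = S.Q β u := by
      funext y
      simp [Setup.Qm]
    have h4 : S.G C u = fun _ => 0 := by
      funext y
      exact hu.inv C y
    rw [h3, h4, U.HB.Qm_zero] at h2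
    exact h2
  have h5 : S.G C (fun y => (m : ℂ) • S.Mx N β y (u y)) x = 0 := by
    rw [U.HB.G_csmul S C (m : ℂ) hM.1 x, G_Mx S N C β hu.tst.1, hu.inv, map_zero, smul_zero]
  have h6 := U.HB.G_add S C (S.contDiff_Q β hu.tst.1) (U.HB.Tst_csmul (m : ℂ) hM).1 x
  rw [h1, h5, add_zero] at h6
  exact h6

end Vale.Agent.P353.Z.AE
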