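import Vale.Agent.P353.AN.E.StmtG
import Vale.Agent.P353.AN.GL.Glob
import Vale.Agent.P353.AN.C.Frame

/-! # P353, all `N`, block E: covariance under rotations of the vector index (EG-Rot) -/

open MeasureTheory Filter Topology Matrix
open scoped ContDiff

namespace Vale.Agent.P353.Z.AE

variable {d dh dm r ds n : ℕ} {F : Type*} [NormedAddCommGroup F] [InnerProductSpace ℂ F]
  {R₀ : Matrix (Fin 9) (Fin 9) ℝ}

/-- two setups with the same data are equal -/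
theorem rg666_ext {T T' : Setup n F} (hg : T.g = T'.g) (hth : T.th = T'.th) (hκ : T.κ = T'.κ)
    (hf : T.f = T'.f) : T = T' := by
  obtain ⟨⟨g, th, _, _, _⟩, κ, _, f, _, _, _, _, _⟩ := T
  obtain ⟨⟨g', th', _, _, _⟩, κ', _, f', _, _, _, _, _⟩ := T'
  simp only at hg hth hκ hf
  subst hg
  subst hth
  subst hκ
  subst hf
  rfl

/-- contraction with an orthogonal matrix, operators and vectors -/
theorem rg666_con (hR : R₀ * R₀ᵀ = 1) (L : Fin 9 → F →L[ℂ] F) (p : Fin 9 → F) :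
    ∑ i, (∑ j, (R₀ i j : ℂ) • L j) (∑ k, (R₀ i k : ℂ) • p k) = ∑ j, L j (p j) := by
  have h1 : ∀ i, (∑ j, (R₀ i j : ℂ) • L j) (∑ k, (R₀ i k : ℂ) • p k) =
      ∑ j, ∑ k, ((R₀ i j : ℂ) * (R₀ i k : ℂ)) • L j (p k) := by
    intro i
    simp only [_root_.sum_apply, _root_.smul_apply, map_sum, map_smul, Finset.smul_sum, smul_smul]
    rw [Finset.sum_comm]
    refine Finset.sum_congr rfl fun j _ => Finset.sum_congr rfl fun k _ => ?_
    rw [mul_comm]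
  simp only [h1]
  rw [Finset.sum_comm]
  refine Finset.sum_congr rfl fun j _ => ?_
  rw [Finset.sum_comm]
  simp only [← Finset.sum_smul, AN.rt_orthc hR, ite_smul, one_smul, zero_smul, Finset.sum_ite_eq,
    Finset.mem_univ, if_true]

/-- norms: contraction with an orthogonal matrix -/
theorem rg666_nrm (hR : R₀ * R₀ᵀ = 1) (p : Fin 9 → F) :
    ∑ i, ‖∑ j, (R₀ i j : ℂ) • p j‖ ^ 2 = ∑ j, ‖p j‖ ^ 2 := by
  have h1 : ∀ v : F, ((‖v‖ ^ 2 : ℝ) : ℂ) = inner ℂ v v := by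
    intro v
    rw [inner_self_eq_norm_sq_to_K]
    norm_cast
  have h2 : ((∑ i, ‖∑ j, (R₀ i j : ℂ) • p j‖ ^ 2 : ℝ) : ℂ) = ((∑ j, ‖p j‖ ^ 2 : ℝ) : ℂ) := by
    rw [Complex.ofReal_sum, Complex.ofReal_sum]
    simp only [h1]
    have h3 : ∀ i, inner ℂ (∑ j, (R₀ i j : ℂ) • p j) (∑ j, (R₀ i j : ℂ) • p j) =
        ∑ j, ∑ k, ((R₀ i j : ℂ) * (R₀ i k : ℂ)) * inner ℂ (p j) (p k) := by
      intro i
      rw [sum_inner]
      refine Finset.sum_congr rfl fun j _ => ?_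
      rw [inner_sum]
      refine Finset.sum_congr rfl fun k _ => ?_
      rw [inner_smul_left, inner_smul_right, Complex.conj_ofReal]
      ring
    simp only [h3]
    rw [Finset.sum_comm]
    refine Finset.sum_congr rfl fun j _ => ?_
    rw [Finset.sum_comm]
    simp only [← Finset.sum_mul, AN.rt_orthc hR, ite_mul, one_mul, zero_mul, Finset.sum_ite_eq,
      Finset.mem_univ, if_true]
  exact Complex.ofReal_injective h2

theorem rg666_pd (R₀ : Matrix (Fin 9) (Fin 9) ℝ) (v : Cfg n → F) (hv : Differentiable ℝ v)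
    (i : Fin 9) (A : Fin n) (x : Cfg n) :
    pd i A (fun z => v (rox R₀ᵀ 1 z)) x = ∑ j, (R₀ i j : ℂ) • pd j A v (rox R₀ᵀ 1 x) := by
  rw [AN.rt_pd R₀ᵀ 1 v hv i A x]
  refine Finset.sum_congr rfl fun j _ => ?_
  rw [Matrix.transpose_apply]
  congr 1
  rw [Finset.sum_eq_single A]
  · simp
  · intro B _ hB
    rw [Matrix.one_apply_ne hB]
    simp
  · simp

theorem rg666_vec (S : Setup d F) (hR : R₀ * R₀ᵀ = 1)
    (h1 : (1 : Matrix (Fin d) (Fin d) ℝ) * (1 : Matrix (Fin d) (Fin d) ℝ)ᵀ = 1)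
    (N : Matrix (Fin 16) (Fin 16) ℂ) (A : Fin d) (β : Fin 16) :
    (S.rot R₀ hR 1 h1).vec N A β = S.vec N A β := by
  rw [AN.rt_vec, Finset.sum_eq_single A]
  · simp
  · intro B _ hB
    rw [Matrix.one_apply_ne hB.symm]
    simp
  · simp

/-- the internal setup of the rotated setup is the rotated internal setup -/
theorem rg666_int (S : Setup d F) (φ : Spl dh dm d) (ψ : Spl r ds dh) (hφ : S.IsSub φ) (hc : S.IsCen φ ψ)
    (hR : R₀ * R₀ᵀ = 1) (h1 : (1 : Matrix (Fin d) (Fin d) ℝ) * (1 : Matrix (Fin d) (Fin d) ℝ)ᵀ = 1)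
    (hφ' : (S.rot R₀ hR 1 h1).IsSub φ) (hc' : (S.rot R₀ hR 1 h1).IsCen φ ψ)
    (h2 : (1 : Matrix (Fin ds) (Fin ds) ℝ) * (1 : Matrix (Fin ds) (Fin ds) ℝ)ᵀ = 1) :
    (S.rot R₀ hR 1 h1).int φ ψ hφ' hc' = (S.int φ ψ hφ hc).rot R₀ hR 1 h2 := by
  have hth : ∀ (m : ℕ) (T : Setup m F) (h3 : (1 : Matrix (Fin m) (Fin m) ℝ) * (1 : Matrix (Fin m) (Fin m) ℝ)ᵀ = 1)
      (α : Fin 16) (A : Fin m), (T.rot R₀ hR 1 h3).th α A = T.th α A := by
    intro m T h3 α A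
    show ∑ B, ((1 : Matrix (Fin m) (Fin m) ℝ) A B : ℂ) • T.th α B = T.th α A
    rw [Finset.sum_eq_single A]
    · simp
    · intro B _ hB
      rw [Matrix.one_apply_ne hB.symm]
      simp
    · simp
  refine rg666_ext rfl ?_ rfl ?_
  · funext α A
    rw [hth]
    exact hth d S h1 α _
  · funext A B C
    rw [AX.rot_f]
    exact AX.rot_f S R₀ hR h1 _ _ _

omit [InnerProductSpace ℂ F] in
theorem rg666_nsq (hR : R₀ * R₀ᵀ = 1) (u : Cfg n → F) :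
    nsq (fun x => u (rox R₀ᵀ 1 x)) = nsq u := by
  have hmp := AN.rt_mp (AN.gb969_hR' hR) (AN.gb969_one n)
  have he : MeasurableEmbedding (rox R₀ᵀ 1 : Cfg n → Cfg n) :=
    (AN.rtE R₀ᵀ (AN.gb969_hR' hR) 1 (AN.gb969_one n)).toHomeomorph.measurableEmbedding
  exact hmp.integral_comp he (fun x => ‖u x‖ ^ 2)

theorem rg666_tst (hR : R₀ * R₀ᵀ = 1) {u : Cfg n → F} (hu : Setup.Tst u) :
    Setup.Tst (fun x => u (rox R₀ᵀ 1 x)) := by
  refine ⟨hu.1.comp (AN.rtE R₀ᵀ (AN.gb969_hR' hR) 1 (AN.gb969_one n)).contDiff, ?_⟩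
  exact hu.2.comp_homeomorph (AN.rtE R₀ᵀ (AN.gb969_hR' hR) 1 (AN.gb969_one n)).toHomeomorph

theorem rg666_Q (S : Setup n F) (hR : R₀ * R₀ᵀ = 1)
    (h1 : (1 : Matrix (Fin n) (Fin n) ℝ) * (1 : Matrix (Fin n) (Fin n) ℝ)ᵀ = 1) {u : Cfg n → F}
    (hu : Setup.Tst u) (β : Fin 16) (x : Cfg n) :
    (S.rot R₀ hR 1 h1).Q β (fun x => u (rox R₀ᵀ 1 x)) x = S.Q β u (rox R₀ᵀ 1 x) := by
  have h2 := AN.rt_Q S hR h1 (fun x => u (rox R₀ᵀ 1 x)) ((rg666_tst hR hu).1.differentiable (by simp)) β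
    (rox R₀ᵀ 1 x)
  rw [AN.gb969_inv' hR] at h2
  rw [h2]
  simp only [AN.gb969_inv hR]

theorem rg666_grad (hR : R₀ * R₀ᵀ = 1) {u : Cfg n → F} (hu : Setup.Tst u) :
    ∑ i, ∑ A, nsq (pd i A (fun x => u (rox R₀ᵀ 1 x))) = ∑ i, ∑ A, nsq (pd i A u) := by
  rw [Finset.sum_comm, Finset.sum_comm (s := Finset.univ) (t := Finset.univ)
    (f := fun (i : Fin 9) (A : Fin n) => nsq (pd i A u))]
  refine Finset.sum_congr rfl fun A _ => ?_
  have hi : ∀ v : Cfg n → F, Setup.Tst v → ∀ i, Integrable (fun x => ‖pd i A v x‖ ^ 2) := fun v hv i =>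
    memLp_norm_sq_int (hv.pd i A).memLp
  have h1 : ∀ v : Cfg n → F, Setup.Tst v → ∑ i, nsq (pd i A v) = ∫ x, ∑ i, ‖pd i A v x‖ ^ 2 := by
    intro v hv
    rw [integral_finsetSum _ fun i _ => hi v hv i]
    rfl
  rw [h1 _ (rg666_tst hR hu), h1 u hu]
  have h2 : ∀ x, ∑ i, ‖pd i A (fun x => u (rox R₀ᵀ 1 x)) x‖ ^ 2 =
      ∑ i, ‖pd i A u (rox R₀ᵀ 1 x)‖ ^ 2 := by
    intro x
    simp only [rg666_pd R₀ u (hu.1.differentiable (by simp))]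
    exact rg666_nrm hR fun j => pd j A u (rox R₀ᵀ 1 x)
  simp only [h2]
  have hmp := AN.rt_mp (AN.gb969_hR' hR) (AN.gb969_one n)
  have he : MeasurableEmbedding (rox R₀ᵀ 1 : Cfg n → Cfg n) :=
    (AN.rtE R₀ᵀ (AN.gb969_hR' hR) 1 (AN.gb969_one n)).toHomeomorph.measurableEmbedding
  exact hmp.integral_comp he (fun x => ∑ i, ‖pd i A u x‖ ^ 2)

theorem rg666_IZm (T : Setup n F) (hR : R₀ * R₀ᵀ = 1)
    (h1 : (1 : Matrix (Fin n) (Fin n) ℝ) * (1 : Matrix (Fin n) (Fin n) ℝ)ᵀ = 1) (K : Submodule ℂ F)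
    (o : Cfg n → F) (ho : IZm T K o) : IZm (T.rot R₀ hR 1 h1) K (fun s => o (rox R₀ᵀ 1 s)) := by
  refine ⟨ho.mem.comp_measurePreserving (AN.rt_mp (AN.gb969_hR' hR) (AN.gb969_one n)), fun R hR1 hRt => ?_⟩
  obtain ⟨η, Φ, h⟩ := ho.app R hR1 hRt
  refine ⟨η, fun n s => Φ n (rox R₀ᵀ 1 s), ?_⟩
  refine { eta := h.eta, eta_lim := h.eta_lim, intf := ?_, lim := ?_, grad := ?_, en := ?_ }
  · intro n
    refine ⟨rg666_tst hR (h.intf n).tst, fun s => (h.intf n).val _, fun s hs => ?_⟩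
    have := (h.intf n).sup _ hs
    rwa [AN.rt_norm (AN.gb969_hR' hR) (AN.gb969_one _)] at this
  · refine h.lim.congr fun n => ?_
    exact (rg666_nsq hR fun s => Φ n s - o s).symm
  · refine h.grad.congr fun n => ?_
    rw [rg666_grad hR (h.intf n).tst]
  · refine h.en.congr fun n => ?_
    congr 1
    refine Finset.sum_congr rfl fun β _ => ?_
    have h3 : (T.rot R₀ hR 1 h1).Q β (fun s => Φ n (rox R₀ᵀ 1 s)) = fun x => T.Q β (Φ n) (rox R₀ᵀ 1 x) :=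
      funext fun x => rg666_Q T hR h1 (h.intf n).tst β x
    rw [h3, rg666_nsq hR]

theorem rg666_DF (S : Setup d F) (φ : Spl dh dm d) (ψ : Spl r ds dh) (hR : R₀ * R₀ᵀ = 1)
    (h1 : (1 : Matrix (Fin d) (Fin d) ℝ) * (1 : Matrix (Fin d) (Fin d) ℝ)ᵀ = 1)
    (N : Fin 9 → Matrix (Fin 16) (Fin 16) ℂ) (μ : ℝ) (β : Fin 16) (a : Cfg r → Cfg ds → F)
    (ha : ∀ s, Differentiable ℝ fun y => a y s) (y : Cfg r) (s : Cfg ds) :
    (S.rot R₀ hR 1 h1).DF φ ψ (AN.rotN R₀ N) μ β (fun y s => a (rox R₀ᵀ 1 y) (rox R₀ᵀ 1 s)) y s =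
      S.DF φ ψ N μ β a (rox R₀ᵀ 1 y) (rox R₀ᵀ 1 s) := by
  unfold Setup.DF
  congr 2
  · rw [Finset.sum_comm, Finset.sum_comm (s := Finset.univ) (t := Finset.univ)
      (f := fun (i : Fin 9) (A : Fin r) => S.vec (S.g i) (φ (Sum.inl (ψ (Sum.inl A)))) β
        (pd i A (fun y' => a y' (rox R₀ᵀ 1 s)) (rox R₀ᵀ 1 y)))]
    refine Finset.sum_congr rfl fun A _ => ?_
    rw [← rg666_con hR (fun j => S.vec (S.g j) (φ (Sum.inl (ψ (Sum.inl A)))) β)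
      (fun j => pd j A (fun y' => a y' (rox R₀ᵀ 1 s)) (rox R₀ᵀ 1 y))]
    refine Finset.sum_congr rfl fun i _ => ?_
    have h2 : pd i A (fun y' => a (rox R₀ᵀ 1 y') (rox R₀ᵀ 1 s)) y =
        ∑ j, (R₀ i j : ℂ) • pd j A (fun y' => a y' (rox R₀ᵀ 1 s)) (rox R₀ᵀ 1 y) :=
      rg666_pd R₀ (fun y' => a y' (rox R₀ᵀ 1 s)) (ha _) i A y
    have h3 : (S.rot R₀ hR 1 h1).vec ((S.rot R₀ hR 1 h1).g i) (φ (Sum.inl (ψ (Sum.inl A)))) β =
        ∑ j, (R₀ i j : ℂ) • S.vec (S.g j) (φ (Sum.inl (ψ (Sum.inl A)))) β := by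
      rw [rg666_vec]
      have h0 : (S.rot R₀ hR 1 h1).g i = ∑ j, (R₀ i j : ℂ) • S.g j := rfl
      rw [h0, CS.vec_sum]
      refine Finset.sum_congr rfl fun j _ => ?_
      rw [CS.vec_smul]
    rw [h2, h3]
  · rw [Finset.sum_comm, Finset.sum_comm (s := Finset.univ) (t := Finset.univ)
      (f := fun (i : Fin 9) (A : Fin r) => (((rox R₀ᵀ 1 y) (i, A) : ℝ) : ℂ) •
        S.vec (N i) (φ (Sum.inl (ψ (Sum.inl A)))) β (a (rox R₀ᵀ 1 y) (rox R₀ᵀ 1 s)))]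
    refine Finset.sum_congr rfl fun A _ => ?_
    rw [← AN.rt_con (K := ℂ) (M := F) (fun i j => (R₀ i j : ℂ)) (AN.rt_orthc hR)
      (fun j => (((rox R₀ᵀ 1 y) (j, A) : ℝ) : ℂ))
      (fun j => S.vec (N j) (φ (Sum.inl (ψ (Sum.inl A)))) β (a (rox R₀ᵀ 1 y) (rox R₀ᵀ 1 s)))]
    refine Finset.sum_congr rfl fun i _ => ?_
    have h2 : ((y (i, A) : ℝ) : ℂ) = ∑ k, (R₀ i k : ℂ) * (((rox R₀ᵀ 1 y) (k, A) : ℝ) : ℂ) := by
      have h4 : y (i, A) = rox R₀ 1 (rox R₀ᵀ 1 y) (i, A) := by rw [AN.gb969_inv' hR]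
      rw [AN.gb969_apply] at h4
      rw [h4]
      push_cast
      rfl
    have h3 : (S.rot R₀ hR 1 h1).vec (AN.rotN R₀ N i) (φ (Sum.inl (ψ (Sum.inl A)))) β =
        ∑ j, (R₀ i j : ℂ) • S.vec (N j) (φ (Sum.inl (ψ (Sum.inl A)))) β := by
      rw [rg666_vec]
      unfold AN.rotN
      rw [CS.vec_sum]
      refine Finset.sum_congr rfl fun j _ => ?_
      rw [CS.vec_smul]
    rw [h2, h3]
    simp only [_root_.sum_apply, _root_.smul_apply]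

theorem rg666_ZL (S : Setup d F) (φ : Spl dh dm d) (ψ : Spl r ds dh) (hR : R₀ * R₀ᵀ = 1)
    (h1 : (1 : Matrix (Fin d) (Fin d) ℝ) * (1 : Matrix (Fin d) (Fin d) ℝ)ᵀ = 1)
    (Om : Cfg r → Matrix (Fin dm) (Fin dm) ℝ) (χ : Cfg r × Cfg ds × Cfg dm → ℝ) (R : ℝ)
    (a : Cfg r → Cfg ds → F) (u : Cfg d → F) :
    ZL (S.rot R₀ hR 1 h1) φ ψ (fun y => Om (rox R₀ᵀ 1 y))
      (fun q => χ (rox R₀ᵀ 1 q.1, rox R₀ᵀ 1 q.2.1, rox R₀ᵀ 1 q.2.2)) R
      (fun y s => a (rox R₀ᵀ 1 y) (rox R₀ᵀ 1 s)) (fun x => u (rox R₀ᵀ 1 x)) = ZL S φ ψ Om χ R a u := by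
  have hmp := AN.rt_mp hR (AN.gb969_one d)
  have he : MeasurableEmbedding (rox R₀ 1 : Cfg d → Cfg d) :=
    (AN.rtE R₀ hR 1 (AN.gb969_one d)).toHomeomorph.measurableEmbedding
  unfold ZL
  rw [← hmp.integral_comp he]
  refine integral_congr_ae (Eventually.of_forall fun x => ?_)
  simp only [AN.Zb, AN.gb969_zy, AN.gb969_pm, AN.gb969_hz, AN.gb969_hs, ← AN.gb969_smul, AN.gb969_inv hR,
    AN.bG, AN.gb969_qX hR]
  rfl

/-- **EG-Rot** -/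
theorem rotG (S : Setup d F) (φ : Spl dh dm d) (ψ : Spl r ds dh) : RotGStmt S φ ψ := by
  intro hφ hc R₀ hR h1
  have hφ' : (S.rot R₀ hR 1 h1).IsSub φ := by
    intro A B C
    rw [AX.rot_f]
    exact hφ A B C
  have hc' : (S.rot R₀ hR 1 h1).IsCen φ ψ := by
    intro A B C
    rw [AX.rot_f]
    exact hc A B C
  have hFr := AN.frame_stmt S
  refine ⟨hφ', hc', ?_, ?_, ?_, ?_, ?_, ?_⟩
  · intro y₀ h8
    refine ⟨hφ', ?_, ?_⟩
    · intro i B C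
      rw [← ψ.sum_comp, Fintype.sum_sum_type]
      have e1 : ∀ b : Fin ds, (cmb ψ y₀ 0 : Cfg dh) (i, ψ (Sum.inr b)) = 0 := by
        intro b
        simp [cmb]
      have e2 : ∀ b : Fin r, (S.rot R₀ hR 1 h1).f (φ (Sum.inl (ψ (Sum.inl b)))) (φ (Sum.inl B))
          (φ (Sum.inl C)) = 0 := fun b => hc' b B C
      simp [e1, e2]
    · have h2 : (S.rot R₀ hR 1 h1).Dy φ 8 (cmb ψ y₀ 0) = S.Dz φ ψ y₀ 8 :=
        congrFun (AX.rot_Dz S φ ψ R₀ hR h1 y₀) 8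
      rw [h2]
      exact h8
  · intro N hN
    exact ((hFr.2.2 N).1 R₀ hR 1 h1 hN).1
  · intro N m β u hu
    have h3 := AN.gb969_GInv S hR h1 (u := u) ⟨hu.tst, hu.inv⟩
    refine ⟨⟨h3.1, h3.2⟩, rg666_nsq hR u, ?_⟩
    funext x
    unfold QN
    rw [rg666_Q S hR h1 hu.tst β x]
    congr 3
    have h4 := AN.frm_rot_Mx S N R₀ hR 1 h1 β (rox R₀ᵀ 1 x)
    rwa [AN.gb969_inv' hR] at h4
  · intro K o ho
    rw [rg666_int S φ ψ hφ hc hR h1 hφ' hc' (AN.gb969_one ds)]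
    simp only [← AX.rox_one]
    exact rg666_IZm _ hR _ K o ho
  · intro N μ β ζ o hζ y s
    simp only [← AX.rox_one]
    have h2 := rg666_DF S φ ψ hR h1 N μ β (pp ζ o) (fun s => by
      unfold pp
      exact (hζ.differentiable (by simp)).smul_const (o s)) y s
    exact h2
  · intro Om χ R a u
    simp only [← AX.rox_one]
    exact rg666_ZL S φ ψ hR h1 Om χ R a u

end Vale.Agent.P353.Z.AE
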