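import Vale.Agent.P353.AN.E.LocZ
import Vale.Agent.P353.AN.E.RotG
import Vale.Agent.P353.AN.E.Dir
import Vale.Agent.P353.AN.E.QInv
import Mathlib.Geometry.Manifold.PartitionOfUnity

/-! # P353, all `N`, block E: EG-GLim, the global limit equation (helper7) -/

open MeasureTheory Filter Topology Matrix
open scoped ContDiff Manifold

namespace Vale.Agent.P353.Z.AE

variable {d dh dm r ds : ℕ} {F : Type*} [NormedAddCommGroup F] [InnerProductSpace ℂ F]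

private theorem gl7_tt {R : Matrix (Fin 9) (Fin 9) ℝ} (hR : R * Rᵀ = 1) : Rᵀ * Rᵀᵀ = 1 := by
  rw [Matrix.transpose_transpose]
  exact mul_eq_one_comm.1 hR

private theorem gl7_nrz {n : ℕ} {R : Matrix (Fin 9) (Fin 9) ℝ} (hR : R * Rᵀ = 1) (y : Cfg n) :
    ‖AX.rz R y‖ = ‖y‖ := by
  have hR' : Rᵀ * R = 1 := mul_eq_one_comm.1 hR
  have h : ∀ v : Fin 9 → ℝ, ∑ i, (∑ j, R i j * v j) ^ 2 = ∑ j, v j ^ 2 := by
    intro v
    have h1 : (R *ᵥ v) ⬝ᵥ (R *ᵥ v) = v ⬝ᵥ v := by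
      rw [Matrix.dotProduct_mulVec, Matrix.vecMul_mulVec, hR', Matrix.vecMul_one]
    simpa only [dotProduct, Matrix.mulVec, sq] using h1
  have h2 : ‖AX.rz R y‖ ^ 2 = ‖y‖ ^ 2 := by
    rw [EuclideanSpace.norm_sq_eq, EuclideanSpace.norm_sq_eq, Fintype.sum_prod_type, Fintype.sum_prod_type]
    rw [Finset.sum_comm, Finset.sum_comm (s := (Finset.univ : Finset (Fin 9)))]
    refine Finset.sum_congr rfl fun A _ => ?_
    have h3 := h fun j => y (j, A)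
    simpa only [AX.rz, Real.norm_eq_abs, sq_abs] using h3
  exact (sq_eq_sq₀ (norm_nonneg _) (norm_nonneg _)).1 h2

private theorem gl7_DMa (M : Fin r → Matrix (Fin dm) (Fin dm) ℝ) (h : ∀ a, (M a)ᵀ = -M a) (η : Cfg r) (i : Fin 9) :
    (DM M η i)ᵀ = -DM M η i := by
  simp only [DM, Matrix.transpose_sum, Matrix.transpose_smul, h, smul_neg, Finset.sum_neg_distrib]

private theorem gl7_DMc (M : Fin r → Matrix (Fin dm) (Fin dm) ℝ) (h : ∀ a b, M a * M b = M b * M a) (η : Cfg r)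
    (i j : Fin 9) : DM M η i * DM M η j = DM M η j * DM M η i := by
  simp only [DM, Finset.sum_mul_sum, smul_mul_smul_comm]
  rw [Finset.sum_comm]
  refine Finset.sum_congr rfl fun a _ => Finset.sum_congr rfl fun b _ => ?_
  rw [h, mul_comm]

/-- the limit equation for cut-offs supported in `W` -/
private def gl7_P (S : Setup d F) (φ : Spl dh dm d) (ψ : Spl r ds dh) (hφ : S.IsSub φ) (hc : S.IsCen φ ψ)
    (N : Fin 9 → Matrix (Fin 16) (Fin 16) ℂ) (Om : Cfg r → Matrix (Fin dm) (Fin dm) ℝ) (K : Submodule ℂ F)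
    (U : Cfg r → F →L[ℂ] F) (W : Set (Cfg r)) (δ : ℝ) : Prop :=
  ∀ ζ : Cfg r → ℂ, ContDiff ℝ ∞ ζ → HasCompactSupport ζ → tsupport ζ ⊆ W → ∀ μ : ℝ, 0 ≤ μ → ∀ o : Cfg ds → F,
    IZm (S.int φ ψ hφ hc) K o → ∀ (R : ℕ → ℝ) (u : ℕ → Cfg d → F) (C : ℝ), SqN S N μ C R u →
    ∀ χ : ℕ → Cfg r × Cfg ds × Cfg dm → ℝ, CutA δ R χ → ∀ β,
      Tendsto (fun n => (R n : ℂ) * ZL S φ ψ Om (χ n) (R n) (fun η s => U η (pp ζ o η s)) (QN S N (μ / R n ^ 2) β (u n)) -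
        ZL S φ ψ Om (χ n) (R n) (fun η s => U η (S.DF φ ψ N μ β (pp ζ o) η s)) (u n)) atTop (𝓝 0)

private theorem gl7_cut {δ δ' : ℝ} (h : δ ≤ δ') {R : ℕ → ℝ} (hR : ∀ n, 1 ≤ R n) {χ : ℕ → Cfg r × Cfg ds × Cfg dm → ℝ}
    (hχ : CutA δ R χ) : CutA δ' R χ where
  meas := hχ.meas
  bd := hχ.bd
  lim := hχ.lim
  sup := fun n q hq => by
    have hR0 : 0 ≤ R n := zero_le_one.trans (hR n)
    obtain ⟨h1, h2⟩ := hχ.sup n q hq
    exact ⟨h1.trans (mul_le_mul_of_nonneg_right h hR0),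
      h2.trans (mul_le_mul_of_nonneg_right h (mul_nonneg hR0 (Real.sqrt_nonneg _)))⟩

/-- the local statement at a point off the collisions -/
private theorem gl7_loc (S : Setup d F) (φ : Spl dh dm d) (ψ : Spl r ds dh) (hL : ∀ S' : Setup d F, LocZStmt S' φ ψ)
    (hF : FiniteDimensional ℂ F) (hφ : S.IsSub φ) (hc : S.IsCen φ ψ)
    (N : Fin 9 → Matrix (Fin 16) (Fin 16) ℂ) (hN : S.IsMass N) (L : Finset (Fin r → ℝ))
    (Om : Cfg r → Matrix (Fin dm) (Fin dm) ℝ) (K : Submodule ℂ F) (U : Cfg r → F →L[ℂ] F)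
    (hBun : AX.Bun S φ (AX.Mz S φ (spsw ψ)) L Om K U) (z : Cfg r) (hz : z ∉ Coll L) :
    ∃ δ : ℝ, 0 < δ ∧ gl7_P S φ ψ hφ hc N Om K U (Metric.ball z δ) δ := by
  have h1 : (1 : Matrix (Fin d) (Fin d) ℝ) * (1 : Matrix (Fin d) (Fin d) ℝ)ᵀ = 1 := by simp
  have ha := AX.Mz_anti S φ (spsw ψ)
  have hm := AX.Mz_comm S φ (spsw ψ) hφ (fun A B C => hc A B C)
  obtain ⟨R₀, hR₀, hdet⟩ := dirS dm (DM (AX.Mz S φ (spsw ψ)) z) (gl7_DMa _ ha z) (gl7_DMc _ hm z) (hBun.det z hz)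
  have hR₀t : R₀ᵀ * R₀ᵀᵀ = 1 := gl7_tt hR₀
  obtain ⟨hφ', hc', hstd, hmass, hGI, hIZ, hDF, hZL⟩ := rotG S φ ψ hφ hc R₀ hR₀ h1
  set y₀ : Cfg r := AX.rz R₀ z with hy₀
  have hback : AX.rz R₀ᵀ y₀ = z := by
    have := AX.rz_rz hR₀t z
    rwa [Matrix.transpose_transpose] at this
  have h8 : (S.Dz φ ψ y₀ 8).det ≠ 0 := by
    rw [← AX.DM_Dz, hy₀, AX.DM_rz]
    exact hdet
  have hV := AX.vfr S φ ψ hBun R₀ hR₀ h1
  have hy₀G : y₀ ∈ {y : Cfg r | AX.rz R₀ᵀ y ∉ Coll L ∧ (S.Dz φ ψ y 8).det ≠ 0} := by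
    refine ⟨?_, h8⟩
    rw [hback]
    exact hz
  obtain ⟨δ, hδ, hloc⟩ := hL (S.rot R₀ hR₀ 1 h1) hF hφ' hc' (AN.rotN R₀ N) (hmass N hN) _ _ _ K hV y₀ hy₀G
  refine ⟨δ, hδ, fun ζ hζ hζc hζs μ hμ o ho R u C hu χ hχ β => ?_⟩
  have hnm : ∀ {n : ℕ} (y : Cfg n), ‖AX.rz R₀ᵀ y‖ = ‖y‖ := fun y => gl7_nrz hR₀t y
  have hct : ∀ {n : ℕ}, Continuous fun y : Cfg n => AX.rz R₀ᵀ y := fun {n} => (AX.rzL n R₀ᵀ).continuous
  have hsm : ∀ {n : ℕ}, ContDiff ℝ ∞ fun y : Cfg n => AX.rz R₀ᵀ y := fun {n} => (AX.rzL n R₀ᵀ).contDiff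
  have hsup : tsupport (fun y' => ζ (AX.rz R₀ᵀ y')) ⊆ Metric.ball y₀ δ := by
    intro y hy
    have h2 : AX.rz R₀ᵀ y ∈ tsupport ζ := by
      have h3 : tsupport (fun y' => ζ (AX.rz R₀ᵀ y')) ⊆ (fun y' => AX.rz R₀ᵀ y') ⁻¹' tsupport ζ :=
        closure_minimal (fun y' hy' => subset_tsupport _ hy') ((isClosed_tsupport ζ).preimage hct)
      exact h3 hy
    have h4 := hζs h2
    rw [Metric.mem_ball, dist_eq_norm] at h4 ⊢
    have h3 : AX.rz R₀ᵀ y - z = AX.rz R₀ᵀ (y - y₀) := by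
      rw [← hback]
      exact ((AX.rzL r R₀ᵀ).map_sub y y₀).symm
    rwa [h3, hnm] at h4
  have hSq : SqN (S.rot R₀ hR₀ 1 h1) (AN.rotN R₀ N) μ C R (fun n x => u n (rox R₀ᵀ 1 x)) := by
    refine ⟨hu.one, hu.lim, fun n => (hGI N 0 0 (u n) (hu.gi n)).1, fun n => ?_, fun n => ?_⟩
    · rw [(hGI N 0 0 (u n) (hu.gi n)).2.1]
      exact hu.nrm n
    · have h2 : ∀ β, nsq (QN (S.rot R₀ hR₀ 1 h1) (AN.rotN R₀ N) (μ / R n ^ 2) β (fun x => u n (rox R₀ᵀ 1 x))) =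
          nsq (QN S N (μ / R n ^ 2) β (u n)) := by
        intro β
        rw [(hGI N _ β (u n) (hu.gi n)).2.2]
        exact (hGI N 0 0 _ (qInv S N (μ / R n ^ 2) β (u n) (hu.gi n))).2.1
      simp only [h2]
      exact hu.en n
  have hcut : CutA δ R (fun n (q : Cfg r × Cfg ds × Cfg dm) => χ n (AX.rz R₀ᵀ q.1, AX.rz R₀ᵀ q.2.1, AX.rz R₀ᵀ q.2.2)) := by
    refine ⟨fun n => ?_, fun n q => hχ.bd n _, fun q => hχ.lim _, fun n q hq => ?_⟩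
    · refine (hχ.meas n).comp ?_
      exact ((hct.comp continuous_fst).prodMk ((hct.comp (continuous_fst.comp continuous_snd)).prodMk
        (hct.comp (continuous_snd.comp continuous_snd)))).measurable
    · have h2 := hχ.sup n _ hq
      simpa only [hnm] using h2
  have key := hloc (fun y' => ζ (AX.rz R₀ᵀ y')) (hζ.comp hsm) hsup μ hμ (fun s => o (AX.rz R₀ᵀ s)) (hIZ K o ho) R
    (fun n x => u n (rox R₀ᵀ 1 x)) C hSq _ hcut β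
  refine key.congr fun n => ?_
  have e1 := hZL Om (χ n) (R n) (fun η s => U η (pp ζ o η s)) (QN S N (μ / R n ^ 2) β (u n))
  have e2 := hZL Om (χ n) (R n) (fun η s => U η (S.DF φ ψ N μ β (pp ζ o) η s)) (u n)
  rw [← e1, ← e2]
  have e3 : QN (S.rot R₀ hR₀ 1 h1) (AN.rotN R₀ N) (μ / R n ^ 2) β (fun x => u n (rox R₀ᵀ 1 x)) =
      fun x => QN S N (μ / R n ^ 2) β (u n) (rox R₀ᵀ 1 x) := (hGI N _ β (u n) (hu.gi n)).2.2
  have e4 : (fun (η : Cfg r) (s : Cfg ds) => U (AX.rz R₀ᵀ η) ((S.rot R₀ hR₀ 1 h1).DF φ ψ (AN.rotN R₀ N) μ β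
      (pp (fun y' => ζ (AX.rz R₀ᵀ y')) (fun s => o (AX.rz R₀ᵀ s))) η s)) =
      fun η s => U (AX.rz R₀ᵀ η) (S.DF φ ψ N μ β (pp ζ o) (AX.rz R₀ᵀ η) (AX.rz R₀ᵀ s)) := by
    funext η s
    rw [hDF N μ β ζ o hζ η s]
  rw [e3, e4]
  rfl

private theorem gl7_add (S : Setup d F) (φ : Spl dh dm d) (ψ : Spl r ds dh) (Om : Cfg r → Matrix (Fin dm) (Fin dm) ℝ)
    (χ : Cfg r × Cfg ds × Cfg dm → ℝ) (R : ℝ) (a b : Cfg r → Cfg ds → F) (u : Cfg d → F)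
    (ha : Integrable (fun x => inner ℂ (AN.Zb φ ψ (fun q => ((χ q : ℝ) : ℂ) • AN.bG S.κ Om a q) R x) (u x)))
    (hb : Integrable (fun x => inner ℂ (AN.Zb φ ψ (fun q => ((χ q : ℝ) : ℂ) • AN.bG S.κ Om b q) R x) (u x))) :
    ZL S φ ψ Om χ R (fun η s => a η s + b η s) u = ZL S φ ψ Om χ R a u + ZL S φ ψ Om χ R b u := by
  rw [ZL, ZL, ZL, ← integral_add ha hb]
  refine integral_congr_ae (ae_of_all _ fun x => ?_)
  simp only [AN.Zb, AN.bG, smul_add, inner_add_left]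

/-- splitting a smooth function supported in `W₁ ∪ W₂` -/
private theorem gl7_split {W₁ W₂ : Set (Cfg r)} (h₁ : IsOpen W₁) (h₂ : IsOpen W₂) {ζ : Cfg r → ℂ} (hζ : ContDiff ℝ ∞ ζ)
    (hζc : HasCompactSupport ζ) (hζs : tsupport ζ ⊆ W₁ ∪ W₂) : ∃ ζ₁ ζ₂ : Cfg r → ℂ, ContDiff ℝ ∞ ζ₁ ∧ ContDiff ℝ ∞ ζ₂ ∧
      tsupport ζ₁ ⊆ W₁ ∧ tsupport ζ₂ ⊆ W₂ ∧ tsupport ζ₁ ⊆ tsupport ζ ∧ tsupport ζ₂ ⊆ tsupport ζ ∧
      ∀ y, ζ y = ζ₁ y + ζ₂ y := by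
  have hA : IsCompact (tsupport ζ \ W₂) := hζc.isCompact.diff h₂
  have hAW : tsupport ζ \ W₂ ⊆ W₁ := fun y hy => (hζs hy.1).resolve_right hy.2
  obtain ⟨L₁, hL₁, hAL, hLW⟩ := exists_compact_between hA h₁ hAW
  obtain ⟨L₂, hL₂, hLL, hL₂W⟩ := exists_compact_between hL₁ h₁ hLW
  obtain ⟨κ, hκ0, hκ1, hκ⟩ := exists_contMDiffMap_zero_one_of_isClosed (n := ⊤) 𝓘(ℝ, Cfg r)
    (isOpen_interior (s := L₂)).isClosed_compl hL₁.isClosed
    (Set.disjoint_left.2 fun x hx hx' => hx (hLL hx'))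
  have hκs : ContDiff ℝ ∞ (κ : Cfg r → ℝ) := κ.contMDiff.contDiff
  have hκc : ContDiff ℝ ∞ fun y => ((κ y : ℝ) : ℂ) := Complex.ofRealCLM.contDiff.comp hκs
  refine ⟨fun y => ((κ y : ℝ) : ℂ) * ζ y, fun y => (1 - ((κ y : ℝ) : ℂ)) * ζ y, hκc.mul hζ,
    (contDiff_const.sub hκc).mul hζ, ?_, ?_, tsupport_mul_subset_right, tsupport_mul_subset_right, fun y => by ring⟩
  · refine (closure_minimal ?_ hL₂.isClosed).trans hL₂W
    intro y hy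
    by_contra hn
    apply hy
    have hn' : y ∉ interior L₂ := fun h => hn (interior_subset (s := L₂) h)
    have : κ y = 0 := hκ0 hn'
    simp [this]
  · have hcl : IsClosed (tsupport ζ ∩ (interior L₁)ᶜ) := (isClosed_tsupport ζ).inter isOpen_interior.isClosed_compl
    refine (closure_minimal ?_ hcl).trans ?_
    · intro y hy
      refine ⟨subset_tsupport _ (right_ne_zero_of_mul hy), fun hi => hy ?_⟩
      have : κ y = 1 := hκ1 (interior_subset (s := L₁) hi)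
      simp [this]
    · rintro y ⟨hy1, hy2⟩
      by_contra hn
      exact hy2 (hAL ⟨hy1, hn⟩)

/-- gluing -/
private theorem gl7_union (S : Setup d F) (φ : Spl dh dm d) (ψ : Spl r ds dh) (hI : ZIntStmt S φ ψ)
    (hF : FiniteDimensional ℂ F) (hφ : S.IsSub φ) (hc : S.IsCen φ ψ)
    (N : Fin 9 → Matrix (Fin 16) (Fin 16) ℂ) (L : Finset (Fin r → ℝ))
    (Om : Cfg r → Matrix (Fin dm) (Fin dm) ℝ) (K : Submodule ℂ F) (U : Cfg r → F →L[ℂ] F)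
    (hBun : AX.Bun S φ (AX.Mz S φ (spsw ψ)) L Om K U) {W₁ W₂ : Set (Cfg r)} (h₁ : IsOpen W₁) (h₂ : IsOpen W₂)
    (hd₁ : W₁ ⊆ (Coll L)ᶜ) (hd₂ : W₂ ⊆ (Coll L)ᶜ) {δ : ℝ} (hP₁ : gl7_P S φ ψ hφ hc N Om K U W₁ δ)
    (hP₂ : gl7_P S φ ψ hφ hc N Om K U W₂ δ) : gl7_P S φ ψ hφ hc N Om K U (W₁ ∪ W₂) δ := by
  intro ζ hζ hζc hζs μ hμ o ho R u C hu χ hχ β
  obtain ⟨ζ₁, ζ₂, s₁, s₂, t₁, t₂, v₁, v₂, hsum⟩ := gl7_split h₁ h₂ hζ hζc hζs
  have c₁ : HasCompactSupport ζ₁ := hζc.of_isClosed_subset (isClosed_tsupport _) v₁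
  have c₂ : HasCompactSupport ζ₂ := hζc.of_isClosed_subset (isClosed_tsupport _) v₂
  have k₁ := hP₁ ζ₁ s₁ c₁ t₁ μ hμ o ho R u C hu χ hχ β
  have k₂ := hP₂ ζ₂ s₂ c₂ t₂ μ hμ o ho R u C hu χ hχ β
  have hUo : IsOpen (Coll L)ᶜ := hBun.closed.isOpen_compl
  have hUc : ContinuousOn U (Coll L)ᶜ := hBun.U_smooth.continuousOn
  have hζU : tsupport ζ ⊆ (Coll L)ᶜ := hζs.trans (Set.union_subset hd₁ hd₂)
  have hdis : Disjoint (tsupport ζ) (Coll L) := Set.disjoint_left.2 fun y hy => hζU hy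
  have hint := (hI hF hφ hc L Om K U hBun (tsupport ζ) hζc hdis).2
  -- integrability
  have hi : ∀ ζ' : Cfg r → ℂ, ContDiff ℝ ∞ ζ' → HasCompactSupport ζ' → tsupport ζ' ⊆ tsupport ζ → ∀ (n : ℕ) (v : Cfg d → F),
      Setup.Tst v → Integrable (fun x => inner ℂ (AN.Zb φ ψ (fun q => ((χ n q : ℝ) : ℂ) •
        AN.bG S.κ Om (fun η s => U η (pp ζ' o η s)) q) (R n) x) (v x)) ∧
      Integrable (fun x => inner ℂ (AN.Zb φ ψ (fun q => ((χ n q : ℝ) : ℂ) •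
        AN.bG S.κ Om (fun η s => U η (S.DF φ ψ N μ β (pp ζ' o) η s)) q) (R n) x) (v x)) := by
    intro ζ' hs' hc' ht' n v hv
    constructor
    · refine hint _ (LocZ518.mem_sec hUo hUc hs'.continuous hc' (ht'.trans hζU) (ContinuousLinearMap.id ℂ F) ho.mem) ?_
        (R n) (χ n) v (hu.one n) (hχ.meas n) (hχ.bd n) hv
      intro η s h
      by_contra hn
      apply h
      have h0 : ζ' η = 0 := image_eq_zero_of_notMem_tsupport fun h' => hn (ht' h')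
      simp [pp, h0]
    · refine hint _ (LocZ518.mem_DF hUo hUc N μ β hs' hc' (ht'.trans hζU) ho.mem) ?_
        (R n) (χ n) v (hu.one n) (hχ.meas n) (hχ.bd n) hv
      intro η s h
      by_contra hn
      apply h
      rw [LocZ518.DF_zero S φ ψ N μ β hs' o (fun h' => hn (ht' h')), map_zero]
  have e1 : (fun (η : Cfg r) (s : Cfg ds) => U η (pp ζ o η s)) =
      fun η s => U η (pp ζ₁ o η s) + U η (pp ζ₂ o η s) := by
    funext η s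
    rw [← map_add]
    congr 1
    simp only [pp, hsum, add_smul]
  have hfun : ζ = fun y => ζ₁ y + ζ₂ y := funext hsum
  have e2 : (fun (η : Cfg r) (s : Cfg ds) => U η (S.DF φ ψ N μ β (pp ζ o) η s)) =
      fun η s => U η (S.DF φ ψ N μ β (pp ζ₁ o) η s) + U η (S.DF φ ψ N μ β (pp ζ₂ o) η s) := by
    funext η s
    rw [← map_add]
    congr 1
    rw [LocZ518.DF_pp S φ ψ N μ β hζ, LocZ518.DF_pp S φ ψ N μ β s₁, LocZ518.DF_pp S φ ψ N μ β s₂]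
    have e3 : ∀ e, fderiv ℝ ζ η e = fderiv ℝ ζ₁ η e + fderiv ℝ ζ₂ η e := by
      intro e
      rw [hfun, fderiv_fun_add (s₁.differentiable (by simp) η) (s₂.differentiable (by simp) η)]
      rfl
    simp only [e3, hsum, mul_add, add_smul, Finset.sum_add_distrib, smul_add]
    abel
  rw [e1, e2]
  have hk := k₁.add k₂
  rw [add_zero] at hk
  refine hk.congr fun n => ?_
  have hQ := (qInv S N (μ / R n ^ 2) β (u n) (hu.gi n)).tst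
  rw [gl7_add S φ ψ Om (χ n) (R n) _ _ _ (hi ζ₁ s₁ c₁ v₁ n _ hQ).1 (hi ζ₂ s₂ c₂ v₂ n _ hQ).1,
    gl7_add S φ ψ Om (χ n) (R n) _ _ _ (hi ζ₁ s₁ c₁ v₁ n _ (hu.gi n).tst).2 (hi ζ₂ s₂ c₂ v₂ n _ (hu.gi n).tst).2]
  ring

/-- **EG-GLim** global limit equation -/
theorem gLim (S : Setup d F) (φ : Spl dh dm d) (ψ : Spl r ds dh) (hL : ∀ S' : Setup d F, LocZStmt S' φ ψ)
    (hI : ZIntStmt S φ ψ) : GLimStmt S φ ψ := by
  intro hF hφ hc N hN L Om K U hBun ζ hζ hζc hdis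
  have main : ∃ W : Set (Cfg r), IsOpen W ∧ tsupport ζ ⊆ W ∧ W ⊆ (Coll L)ᶜ ∧ ∃ δ : ℝ, 0 < δ ∧
      gl7_P S φ ψ hφ hc N Om K U W δ := by
    have hmono : ∀ (W : Set (Cfg r)) (δ δ' : ℝ), δ' ≤ δ → gl7_P S φ ψ hφ hc N Om K U W δ →
        gl7_P S φ ψ hφ hc N Om K U W δ' := by
      intro W δ δ' hδ h ζ' h1 h2 h3 μ hμ o ho R u C hu χ hχ β
      exact h ζ' h1 h2 h3 μ hμ o ho R u C hu χ (gl7_cut hδ hu.one hχ) β
    refine hζc.isCompact.induction_on (p := fun s => ∃ W : Set (Cfg r), IsOpen W ∧ s ⊆ W ∧ W ⊆ (Coll L)ᶜ ∧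
      ∃ δ : ℝ, 0 < δ ∧ gl7_P S φ ψ hφ hc N Om K U W δ) ?_ ?_ ?_ ?_
    · refine ⟨∅, isOpen_empty, subset_rfl, Set.empty_subset _, 1, one_pos, ?_⟩
      intro ζ' h1 h2 h3 μ hμ o ho R u C hu χ hχ β
      have h0 : ∀ y, y ∉ tsupport ζ' := fun y hy => h3 hy
      have e1 : ∀ n (v : Cfg d → F), ZL S φ ψ Om (χ n) (R n) (fun η s => U η (pp ζ' o η s)) v = 0 := by
        intro n v
        have : ∀ η, ζ' η = 0 := fun η => image_eq_zero_of_notMem_tsupport (h0 η)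
        simp [ZL, AN.Zb, AN.bG, pp, this]
      have e2 : ∀ n (v : Cfg d → F),
          ZL S φ ψ Om (χ n) (R n) (fun η s => U η (S.DF φ ψ N μ β (pp ζ' o) η s)) v = 0 := by
        intro n v
        have : ∀ η s, S.DF φ ψ N μ β (pp ζ' o) η s = 0 := fun η s => LocZ518.DF_zero S φ ψ N μ β h1 o (h0 η) s
        simp [ZL, AN.Zb, AN.bG, this]
      simp [e1, e2]
    · rintro s t hst ⟨W, h1, h2, h3⟩
      exact ⟨W, h1, hst.trans h2, h3⟩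
    · rintro s t ⟨W₁, o₁, i₁, d₁, δ₁, p₁, q₁⟩ ⟨W₂, o₂, i₂, d₂, δ₂, p₂, q₂⟩
      refine ⟨W₁ ∪ W₂, o₁.union o₂, Set.union_subset_union i₁ i₂, Set.union_subset d₁ d₂, min δ₁ δ₂, lt_min p₁ p₂, ?_⟩
      exact gl7_union S φ ψ hI hF hφ hc N L Om K U hBun o₁ o₂ d₁ d₂ (hmono _ _ _ (min_le_left _ _) q₁)
        (hmono _ _ _ (min_le_right _ _) q₂)
    · intro z hz
      have hzc : z ∉ Coll L := Set.disjoint_left.1 hdis hz
      obtain ⟨δ, hδ, hP⟩ := gl7_loc S φ ψ hL hF hφ hc N hN L Om K U hBun z hzc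
      refine ⟨Metric.ball z δ ∩ (Coll L)ᶜ, mem_nhdsWithin_of_mem_nhds ?_, Metric.ball z δ ∩ (Coll L)ᶜ, ?_, subset_rfl,
        Set.inter_subset_right, δ, hδ, ?_⟩
      · exact Filter.inter_mem (Metric.ball_mem_nhds z hδ) (hBun.closed.isOpen_compl.mem_nhds hzc)
      · exact Metric.isOpen_ball.inter hBun.closed.isOpen_compl
      · intro ζ' h1 h2 h3
        exact hP ζ' h1 h2 (h3.trans Set.inter_subset_left)
  obtain ⟨W, hW, hζW, hWd, δ, hδ, hP⟩ := main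
  exact ⟨δ, hδ, fun μ hμ o ho R u C hu χ hχ β => hP ζ hζ hζc hζW μ hμ o ho R u C hu χ hχ β⟩

end Vale.Agent.P353.Z.AE
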