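import Vale.Agent.P353.AN.E.StmtG

/-! # P353, all `N`, block E: `GluDStmt` from `AN.GluStmt` (change the section on a null set) -/

open MeasureTheory Filter Topology Matrix
open scoped ContDiff

namespace Vale.Agent.P353.Z.AE

variable {d dh dm r ds : ℕ} {F : Type*} [NormedAddCommGroup F] [InnerProductSpace ℂ F]

/-- the coordinates `(y^z/R, y^s)` as a linear map on `Cfg dh` -/
noncomputable def gd655L (ψ : Spl r ds dh) (R : ℝ) : Cfg dh →ₗ[ℝ] Cfg r × Cfg ds where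
  toFun y := (R⁻¹ • AN.hz ψ y, AN.hs ψ y)
  map_add' := by
    intro x y
    refine Prod.ext ?_ ?_
    · ext p
      simp [AN.hz, mul_add]
    · ext p
      simp [AN.hs]
  map_smul' := by
    intro c x
    refine Prod.ext ?_ ?_
    · ext p
      simp [AN.hz, mul_left_comm]
    · ext p
      simp [AN.hs]

lemma gd655L_surj (ψ : Spl r ds dh) {R : ℝ} (hR : R ≠ 0) : Function.Surjective (gd655L ψ R) := by
  intro p
  refine ⟨AN.cmb ψ (R • p.1) p.2, ?_⟩
  refine Prod.ext ?_ ?_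
  · ext q
    simp [gd655L, AN.hz, AN.cmb, hR]
  · ext q
    simp [gd655L, AN.hs, AN.cmb]

/-- `zy` as a linear map -/
noncomputable def gd655Z (φ : Spl dh dm d) : Cfg d →ₗ[ℝ] Cfg dh where
  toFun x := AN.zy φ x
  map_add' := by
    intro x y
    ext p
    simp [AN.zy]
  map_smul' := by
    intro c x
    ext p
    simp [AN.zy]

lemma gd655Z_surj (φ : Spl dh dm d) : Function.Surjective (gd655Z φ) := by
  intro y
  refine ⟨emb φ y 0, ?_⟩
  ext q
  simp [gd655Z, AN.zy, emb]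

lemma gd655_qmp {E G : Type*} [NormedAddCommGroup E] [NormedSpace ℝ E] [FiniteDimensional ℝ E] [MeasurableSpace E]
    [BorelSpace E] [NormedAddCommGroup G] [NormedSpace ℝ G] [FiniteDimensional ℝ G] [MeasurableSpace G] [BorelSpace G]
    (L : E →ₗ[ℝ] G) (hL : Function.Surjective L) (μ : Measure E) (ν : Measure G) [μ.IsAddHaarMeasure]
    [ν.IsAddHaarMeasure] : Measure.QuasiMeasurePreserving L μ ν := by
  obtain ⟨c, -, hc⟩ := L.exists_map_addHaar_eq_smul_addHaar μ ν hL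
  refine ⟨L.continuous_of_finiteDimensional.measurable, ?_⟩
  rw [hc]
  exact Measure.smul_absolutelyContinuous

/-- **EG-GluD** -/
theorem gluD (S : Setup d F) : AN.GluStmt S → GluDStmt S := by
  intro hG hF dh dm r ds φ ψ z₀ hcen hStd
  obtain ⟨ε₀, hε₀, H⟩ := hG hF dh dm r ds φ ψ z₀ hcen hStd
  refine ⟨ε₀, hε₀, fun ε hε hε' => ?_⟩
  obtain ⟨δ₀, hδ₀, H2⟩ := H ε hε hε'
  refine ⟨δ₀, hδ₀, fun δ hδ hδ' Om hOm hOmc a ha hsupp R χ u C hR hcut hGI hn => ?_⟩
  -- the strongly measurable version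
  set B : Set (Cfg r × Cfg ds) := {q | ‖q.1 - z₀‖ ≤ δ} with hB
  have hBm : MeasurableSet B := (isClosed_le (by fun_prop) continuous_const).measurableSet
  set g : Cfg r × Cfg ds → F := B.indicator (ha.1.mk _) with hg
  have hgm : StronglyMeasurable g := (ha.1.stronglyMeasurable_mk).indicator hBm
  have hga : (fun q : Cfg r × Cfg ds => a q.1 q.2) =ᵐ[volume.prod volume] g := by
    filter_upwards [ha.1.ae_eq_mk] with q hq
    by_cases hqB : q ∈ B
    · rw [hg, Set.indicator_of_mem hqB, ← hq]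
    · rw [hg, Set.indicator_of_notMem hqB]
      by_contra h0
      exact hqB (hsupp q.1 q.2 h0)
  have hglp : MemLp g 2 (volume.prod volume) := ha.ae_eq hga
  have hgs : ∀ η s, g (η, s) ≠ 0 → ‖η - z₀‖ ≤ δ := by
    intro η s h0
    by_contra h1
    exact h0 (Set.indicator_of_notMem (fun h2 : (η, s) ∈ B => h1 h2) _)
  have hsup : ∀ n q, χ n q ≠ 0 → ‖q.2.1‖ ≤ δ₀ * R n ∧ ‖q.2.2‖ ≤ δ₀ * (R n * Real.sqrt (R n)) := by
    intro n q hq
    obtain ⟨h1, h2⟩ := hcut.sup n q hq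
    have h3 : 0 ≤ R n := by
      by_contra h
      have := (norm_nonneg q.2.1).trans h1
      nlinarith
    exact ⟨h1.trans (mul_le_mul_of_nonneg_right hδ' h3),
      h2.trans (mul_le_mul_of_nonneg_right hδ' (mul_nonneg h3 (Real.sqrt_nonneg _)))⟩
  have key := H2 δ hδ hδ' Om hOm hOmc (fun η s => g (η, s)) hgm hglp hgs R χ u C hR hcut.meas hcut.bd hcut.lim
    hsup (fun n => (hGI n).tst) (fun n => (hGI n).inv) hn
  refine key.congr' ?_
  filter_upwards [hR.eventually_gt_atTop 0] with n hRn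
  have hR0 : R n ≠ 0 := hRn.ne'
  have q1 : ∀ᵐ y : Cfg dh, a ((R n)⁻¹ • AN.hz ψ y) (AN.hs ψ y) = g ((R n)⁻¹ • AN.hz ψ y, AN.hs ψ y) :=
    (gd655_qmp (gd655L ψ (R n)) (gd655L_surj ψ hR0) (volume : Measure (Cfg dh))
      ((volume : Measure (Cfg r)).prod (volume : Measure (Cfg ds)))).ae hga
  have q2 : ∀ᵐ x : Cfg d, a ((R n)⁻¹ • AN.hz ψ (AN.zy φ x)) (AN.hs ψ (AN.zy φ x)) =
      g ((R n)⁻¹ • AN.hz ψ (AN.zy φ x), AN.hs ψ (AN.zy φ x)) :=
    (gd655_qmp (gd655Z φ) (gd655Z_surj φ) (volume : Measure (Cfg d)) (volume : Measure (Cfg dh))).ae q1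
  have q3 : ∀ᵐ p : Cfg dh × Wsp dm ∂((volume : Measure (Cfg dh)).prod (volume : Measure (Wsp dm))),
      a ((R n)⁻¹ • AN.hz ψ p.1) (AN.hs ψ p.1) = g ((R n)⁻¹ • AN.hz ψ p.1, AN.hs ψ p.1) :=
    (Measure.quasiMeasurePreserving_fst).ae q1
  have e1 : (∫ x, inner ℂ (AN.Zb φ ψ (fun q => ((χ n q : ℝ) : ℂ) • AN.bG S.κ Om (fun η s => g (η, s)) q) (R n) x)
      (u n x)) = ZL S φ ψ Om (χ n) (R n) a (u n) := by
    unfold ZL
    refine integral_congr_ae ?_
    filter_upwards [q2] with x hx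
    simp only [AN.Zb, AN.bG, hx]
  have e2 : (∫ p in AN.Nb (AN.cmb ψ z₀ 0) dm (R n) ε, inner ℂ (AN.Ts0 ψ (AN.vG S φ ψ Om (fun η s => g (η, s))) (R n) p.1 p.2)
      (S.res φ (u n) p.1 p.2) ∂((volume : Measure (Cfg dh)).prod (volume : Measure (Wsp dm)))) =
      SL S φ ψ Om z₀ ε (R n) a (u n) := by
    unfold SL
    refine integral_congr_ae (ae_restrict_of_ae ?_)
    filter_upwards [q3] with p hp
    simp only [AN.Ts0, AN.vG, hp]
  rw [← e1, ← e2]

end Vale.Agent.P353.Z.AE
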