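import Vale.Agent.P353.AN.E.StmtG
import Vale.Agent.P353.AN.GL.Gau
import Vale.Agent.P353.AN.GL.Wgt

/-! # P353, all `N`, block E: EG-Int, integrability of the global functional (prover helper932)

Continuity of the normalisation `Nf` on compact sets off the collisions: uniform Gaussian domination. Integrability: the linear
substitution `x ↔ (η, s, X)`, the bound `|bG a| ≤ C |a|`, and `a ∈ L² ⊂ L¹` on sets of finite measure. -/

open MeasureTheory Filter Topology Matrix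
open scoped ContDiff ENNReal

namespace Vale.Agent.P353.Z.AE

variable {d dh dm r ds : ℕ} {F : Type*} [NormedAddCommGroup F] [InnerProductSpace ℂ F]

section ZIntGauss

variable {X : Type*} [TopologicalSpace X]
  {E : Type*} [NormedAddCommGroup E] [InnerProductSpace ℝ E] [FiniteDimensional ℝ E]

/-- uniform lower bound for a continuous family of positive definite forms on a compact set -/
theorem zInt_low {𝒞 : Set X} (h𝒞 : IsCompact 𝒞) (Q : X → E → ℝ)
    (hc : ContinuousOn (fun p : X × E => Q p.1 p.2) (𝒞 ×ˢ Set.univ))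
    (hh : ∀ η ∈ 𝒞, ∀ (t : ℝ) x, Q η (t • x) = t ^ 2 * Q η x) (hp : ∀ η ∈ 𝒞, ∀ x, x ≠ 0 → 0 < Q η x) :
    ∃ c : ℝ, 0 < c ∧ ∀ η ∈ 𝒞, ∀ x, c * ‖x‖ ^ 2 ≤ Q η x := by
  have h0 : ∀ η ∈ 𝒞, Q η 0 = 0 := by
    intro η hη
    have := hh η hη 0 0
    rwa [smul_zero, zero_pow two_ne_zero, zero_mul] at this
  rcases subsingleton_or_nontrivial E with hs | hs
  · refine ⟨1, one_pos, fun η hη x => ?_⟩
    rw [Subsingleton.elim x 0, h0 η hη]
    simp
  rcases 𝒞.eq_empty_or_nonempty with he | hne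
  · refine ⟨1, one_pos, fun η hη x => ?_⟩
    rw [he] at hη
    exact absurd hη (Set.notMem_empty η)
  have hK : IsCompact (𝒞 ×ˢ Metric.sphere (0 : E) 1) := h𝒞.prod (isCompact_sphere 0 1)
  have hKn : (𝒞 ×ˢ Metric.sphere (0 : E) 1).Nonempty := hne.prod (NormedSpace.sphere_nonempty.2 zero_le_one)
  obtain ⟨q0, hq0, hmin⟩ := hK.exists_isMinOn hKn
    (hc.mono (Set.prod_mono_right (Set.subset_univ _)))
  have hx0' : q0.2 ≠ 0 := by
    intro h
    have h2 := hq0.2
    rw [h] at h2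
    simp at h2
  refine ⟨Q q0.1 q0.2, hp _ hq0.1 _ hx0', fun η hη x => ?_⟩
  by_cases hx : x = 0
  · rw [hx, h0 η hη]
    simp
  have hn : 0 < ‖x‖ := norm_pos_iff.2 hx
  have h1 := hmin (show (η, ‖x‖⁻¹ • x) ∈ 𝒞 ×ˢ Metric.sphere (0 : E) 1 by
    refine ⟨hη, ?_⟩
    rw [mem_sphere_zero_iff_norm, norm_smul, norm_inv, norm_norm, inv_mul_cancel₀ hn.ne'])
  simp only [Set.mem_ofPred_eq, hh η hη] at h1
  calc Q q0.1 q0.2 * ‖x‖ ^ 2 ≤ ‖x‖⁻¹ ^ 2 * Q η x * ‖x‖ ^ 2 := mul_le_mul_of_nonneg_right h1 (by positivity)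
    _ = Q η x := by field_simp

variable [MeasurableSpace E] [BorelSpace E]

/-- Gaussian integrals of a continuous family of positive definite forms are continuous -/
theorem zInt_gcont [FirstCountableTopology X] {𝒞 : Set X} (h𝒞 : IsCompact 𝒞) (Q : X → E → ℝ)
    (hc : ContinuousOn (fun p : X × E => Q p.1 p.2) (𝒞 ×ˢ Set.univ))
    (hh : ∀ η ∈ 𝒞, ∀ (t : ℝ) x, Q η (t • x) = t ^ 2 * Q η x) (hp : ∀ η ∈ 𝒞, ∀ x, x ≠ 0 → 0 < Q η x) :
    ContinuousOn (fun η => ∫ x : E, Real.exp (-Q η x)) 𝒞 := by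
  obtain ⟨c, hc0, hcl⟩ := zInt_low h𝒞 Q hc hh hp
  refine continuousOn_of_dominated (bound := fun x : E => Real.exp (-(c * ‖x‖ ^ 2))) ?_ ?_ (AN.gau_int_sq hc0) ?_
  · intro η hη
    have h1 : Continuous fun x : E => Q η x := by
      have h2 : ContinuousOn (fun x : E => Q η x) Set.univ :=
        hc.comp (f := fun x : E => (η, x)) (by fun_prop) (fun x _ => ⟨hη, Set.mem_univ x⟩)
      exact continuousOn_univ.1 h2
    exact (Real.continuous_exp.comp h1.neg).aestronglyMeasurable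
  · intro η hη
    refine Eventually.of_forall fun x => ?_
    rw [Real.norm_eq_abs, abs_of_pos (Real.exp_pos _), Real.exp_le_exp, neg_le_neg_iff]
    exact hcl η hη x
  · refine Eventually.of_forall fun x => ?_
    have h2 : ContinuousOn (fun η => Q η x) 𝒞 :=
      hc.comp (f := fun η : X => (η, x)) (by fun_prop) (fun η hη => ⟨hη, Set.mem_univ x⟩)
    exact Real.continuous_exp.comp_continuousOn h2.neg

/-- a form with continuous coefficients is continuous -/
theorem zInt_qX {𝒞 : Set X} {Om : X → Matrix (Fin dm) (Fin dm) ℝ} (hO : ContinuousOn Om 𝒞) :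
    ContinuousOn (fun p : X × Cfg dm => AN.qX (Om p.1) p.2) (𝒞 ×ˢ Set.univ) := by
  have h1 : ContinuousOn (fun p : X × Cfg dm => Om p.1) (𝒞 ×ˢ Set.univ) :=
    hO.comp continuousOn_fst (fun p hp => hp.1)
  unfold AN.qX
  refine continuousOn_finsetSum _ fun i _ => continuousOn_finsetSum _ fun B _ => continuousOn_finsetSum _ fun C _ => ?_
  have h2 : ContinuousOn (fun p : X × Cfg dm => Om p.1 B C) (𝒞 ×ˢ Set.univ) :=
    (continuous_apply_apply B C).comp_continuousOn h1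
  refine ContinuousOn.mul (ContinuousOn.mul ?_ h2) ?_
  · exact Continuous.continuousOn (by fun_prop)
  · exact Continuous.continuousOn (by fun_prop)

theorem zInt_gQ {𝒞 : Set X} {Om : X → Matrix (Fin dm) (Fin dm) ℝ} (hO : ContinuousOn Om 𝒞) :
    ContinuousOn (fun p : X × EuclideanSpace ℝ (Fin dm) => AN.gauQ (Om p.1) p.2) (𝒞 ×ˢ Set.univ) := by
  have h1 : ContinuousOn (fun p : X × EuclideanSpace ℝ (Fin dm) => Om p.1 * Om p.1 * Om p.1) (𝒞 ×ˢ Set.univ) := by
    have h3 : ContinuousOn (fun p : X × EuclideanSpace ℝ (Fin dm) => Om p.1) (𝒞 ×ˢ Set.univ) :=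
      hO.comp continuousOn_fst (fun p hp => hp.1)
    exact (h3.mul h3).mul h3
  unfold AN.gauQ
  refine continuousOn_finsetSum _ fun B _ => continuousOn_finsetSum _ fun C _ => ?_
  have h2 : ContinuousOn (fun p : X × EuclideanSpace ℝ (Fin dm) => (Om p.1 * Om p.1 * Om p.1) B C) (𝒞 ×ˢ Set.univ) :=
    (continuous_apply_apply B C).comp_continuousOn h1
  refine ContinuousOn.mul (ContinuousOn.mul ?_ h2) ?_
  · exact Continuous.continuousOn (by fun_prop)
  · exact Continuous.continuousOn (by fun_prop)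

end ZIntGauss

/-- the normalisation is continuous on compact sets where `Ω` is -/
theorem zInt_Nf {X : Type*} [TopologicalSpace X] [FirstCountableTopology X] {κ : ℝ} (hκ : 0 < κ) {𝒞 : Set X} (h𝒞 : IsCompact 𝒞)
    {D : X → Fin 9 → Matrix (Fin dm) (Fin dm) ℝ} {Om : X → Matrix (Fin dm) (Fin dm) ℝ}
    (hI : ∀ η ∈ 𝒞, IsOm κ (D η) (Om η)) (hO : ContinuousOn Om 𝒞) :
    ContinuousOn (fun η => AN.Nf κ (Om η)) 𝒞 := by
  have hK : ContinuousOn (fun η => AN.Kx (Om η)) 𝒞 :=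
    zInt_gcont h𝒞 (fun η x => AN.qX (Om η) x) (zInt_qX hO) (fun η _ => AN.gau_qX_smul (Om η))
      (fun η hη => AN.gau_qX_pos (hI η hη))
  have hG : ∀ s : ℝ, 0 < s → ContinuousOn (fun η => AN.Gs κ (Om η) s) 𝒞 := by
    intro s hs
    have hs' : 0 < s * (κ ^ 2)⁻¹ := by positivity
    have := zInt_gcont h𝒞 (fun η x => s * (κ ^ 2)⁻¹ * AN.gauQ (Om η) x) (continuousOn_const.mul (zInt_gQ hO))
      (fun η _ t x => by rw [AN.gauQ_smul]; ring)
      (fun η hη x hx => mul_pos hs' (AN.gauQ_pos (hI η hη) x hx))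
    exact this
  have hK0 : ∀ η ∈ 𝒞, 0 < AN.Kx (Om η) := fun η hη => AN.gau_Kx_pos (hI η hη)
  have hG0 : ∀ η ∈ 𝒞, 0 < AN.Gs κ (Om η) (1 / 2) := fun η hη => AN.gau_Gs_pos hκ (hI η hη) (by norm_num)
  unfold AN.Nf
  refine Real.continuous_sqrt.comp_continuousOn ?_
  refine (hG 1 one_pos).div (((hG (1 / 2) (by norm_num)).pow 2).mul hK) ?_
  intro η hη
  have := hK0 η hη
  have := hG0 η hη
  positivity

/-- the substitution `x ↔ (η, s, X)` at scale `R` -/
noncomputable def zIntT (φ : Spl dh dm d) (ψ : Spl r ds dh) (R : ℝ) (x : Cfg d) : Cfg r × Cfg ds × Cfg dm :=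
  (R⁻¹ • AN.hz ψ (AN.zy φ x), AN.hs ψ (AN.zy φ x), Real.sqrt R • AN.pm φ x)

theorem zIntT_cont (φ : Spl dh dm d) (ψ : Spl r ds dh) (R : ℝ) : Continuous (zIntT φ ψ R) := by
  have a4 : Continuous (AN.zy φ : Cfg d → Cfg dh) := by unfold AN.zy; fun_prop
  have a1 : Continuous fun x : Cfg d => AN.hz ψ (AN.zy φ x) := by unfold AN.hz; fun_prop
  have a2 : Continuous fun x : Cfg d => AN.hs ψ (AN.zy φ x) := by unfold AN.hs; fun_prop
  have a3 : Continuous fun x : Cfg d => AN.pm φ x := by unfold AN.pm; fun_prop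
  unfold zIntT
  fun_prop

/-- the image measure is a finite multiple of the product measure -/
theorem zIntT_map (φ : Spl dh dm d) (ψ : Spl r ds dh) {R : ℝ} (hR : 0 < R) :
    Measure.map (zIntT φ ψ R) (volume : Measure (Cfg d)) =
      (ENNReal.ofReal |(R⁻¹ ^ (9 * r))⁻¹| * ENNReal.ofReal |(Real.sqrt R ^ (9 * dm))⁻¹|) •
      ((volume : Measure (Cfg r)).prod ((volume : Measure (Cfg ds)).prod (volume : Measure (Cfg dm)))) := by
  have h1 : R⁻¹ ≠ 0 := (inv_pos.2 hR).ne'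
  have h2 : Real.sqrt R ≠ 0 := (Real.sqrt_pos.2 hR).ne'
  have e1 := AN.wgt_map_smul (ι := Fin 9 × Fin r) R⁻¹ h1
  have e2 := AN.wgt_map_smul (ι := Fin 9 × Fin dm) (Real.sqrt R) h2
  have k1 : Fintype.card (Fin 9 × Fin r) = 9 * r := by simp
  have k2 : Fintype.card (Fin 9 × Fin dm) = 9 * dm := by simp
  rw [k1] at e1
  rw [k2] at e2
  have mc : ∀ {ι : Type} [Fintype ι] (c : ℝ), Measurable (fun x : EuclideanSpace ℝ ι => c • x) :=
    fun c => (continuous_const_smul c).measurable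
  have hm : Measure.map (Prod.map (fun x : Cfg r => R⁻¹ • x) (Prod.map (id : Cfg ds → Cfg ds)
      (fun x : Cfg dm => Real.sqrt R • x)))
      ((volume : Measure (Cfg r)).prod ((volume : Measure (Cfg ds)).prod (volume : Measure (Cfg dm)))) =
      (ENNReal.ofReal |(R⁻¹ ^ (9 * r))⁻¹| * ENNReal.ofReal |(Real.sqrt R ^ (9 * dm))⁻¹|) •
      ((volume : Measure (Cfg r)).prod ((volume : Measure (Cfg ds)).prod (volume : Measure (Cfg dm)))) := by
    rw [← Measure.map_prod_map _ _ (mc R⁻¹) (measurable_id.prodMap (mc (Real.sqrt R))),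
      ← Measure.map_prod_map _ _ measurable_id (mc (Real.sqrt R)), Measure.map_id, e1, e2,
      Measure.prod_smul_right, Measure.prod_smul_left, Measure.prod_smul_right, smul_smul]
  have hmp := AN.wgt_mp φ ψ
  rw [← hm, ← hmp.map_eq, Measure.map_map ((mc R⁻¹).prodMap ((measurable_id (α := Cfg ds)).prodMap
    (mc (ι := Fin 9 × Fin dm) (Real.sqrt R)))) hmp.measurable]
  rfl

/-- the projection to `(η, s)` -/
theorem zInt_proj : Measure.QuasiMeasurePreserving (fun q : Cfg r × Cfg ds × Cfg dm => (q.1, q.2.1))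
    ((volume : Measure (Cfg r)).prod ((volume : Measure (Cfg ds)).prod (volume : Measure (Cfg dm))))
    ((volume : Measure (Cfg r)).prod (volume : Measure (Cfg ds))) := by
  have h1 := (measurePreserving_prodAssoc (volume : Measure (Cfg r)) (volume : Measure (Cfg ds))
      (volume : Measure (Cfg dm))).symm
  have h2 : Measure.QuasiMeasurePreserving (Prod.fst : (Cfg r × Cfg ds) × Cfg dm → Cfg r × Cfg ds)
      (((volume : Measure (Cfg r)).prod (volume : Measure (Cfg ds))).prod (volume : Measure (Cfg dm)))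
      ((volume : Measure (Cfg r)).prod (volume : Measure (Cfg ds))) := Measure.quasiMeasurePreserving_fst
  exact h2.comp h1.quasiMeasurePreserving

omit [InnerProductSpace ℂ F] in
/-- local integrability of a section, as a function of three variables -/
theorem zInt_loc (a : Cfg r → Cfg ds → F) (ha : MemLp (fun q : Cfg r × Cfg ds => a q.1 q.2) 2 (volume.prod volume))
    {A₁ : Set (Cfg r)} {A₂ : Set (Cfg ds)} {A₃ : Set (Cfg dm)} (h1 : IsCompact A₁) (h2 : IsCompact A₂) (h3 : IsCompact A₃) :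
    IntegrableOn (fun q : Cfg r × Cfg ds × Cfg dm => a q.1 q.2.1) (A₁ ×ˢ (A₂ ×ˢ A₃))
      ((volume : Measure (Cfg r)).prod ((volume : Measure (Cfg ds)).prod (volume : Measure (Cfg dm)))) := by
  have hl : IntegrableOn (fun q : Cfg r × Cfg ds => a q.1 q.2) (A₁ ×ˢ A₂) (volume.prod volume) :=
    (ha.locallyIntegrable (by norm_num)).integrableOn_isCompact (h1.prod h2)
  unfold IntegrableOn at hl ⊢
  rw [← Measure.prod_restrict] at hl
  rw [← Measure.prod_restrict, ← Measure.prod_restrict]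
  have : IsFiniteMeasure ((volume : Measure (Cfg dm)).restrict A₃) :=
    ⟨by rw [Measure.restrict_apply_univ]; exact h3.measure_lt_top⟩
  have h4 := hl.comp_fst ((volume : Measure (Cfg dm)).restrict A₃)
  have h5 := (measurePreserving_prodAssoc ((volume : Measure (Cfg r)).restrict A₁)
    ((volume : Measure (Cfg ds)).restrict A₂) ((volume : Measure (Cfg dm)).restrict A₃)).symm
  exact h5.integrable_comp_of_integrable h4

/-- the profile is measurable and bounded by the section -/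
theorem zInt_bG (κ : ℝ) (Om : Cfg r → Matrix (Fin dm) (Fin dm) ℝ) {𝒞 : Set (Cfg r)} (h𝒞 : IsCompact 𝒞)
    (hO : ContinuousOn Om 𝒞) (hN : ContinuousOn (fun η => AN.Nf κ (Om η)) 𝒞)
    (hq : ∀ η ∈ 𝒞, ∀ X : Cfg dm, 0 ≤ AN.qX (Om η) X)
    (a : Cfg r → Cfg ds → F) (ha : MemLp (fun q : Cfg r × Cfg ds => a q.1 q.2) 2 (volume.prod volume))
    (hs : ∀ η s, a η s ≠ 0 → η ∈ 𝒞) :
    AEStronglyMeasurable (AN.bG κ Om a)
      ((volume : Measure (Cfg r)).prod ((volume : Measure (Cfg ds)).prod (volume : Measure (Cfg dm)))) ∧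
    ∃ N₀ : ℝ, 0 ≤ N₀ ∧ ∀ q : Cfg r × Cfg ds × Cfg dm, ‖AN.bG κ Om a q‖ ≤ N₀ * ‖a q.1 q.2.1‖ := by
  constructor
  · have hm : AEStronglyMeasurable (fun q : Cfg r × Cfg ds × Cfg dm => a q.1 q.2.1)
        ((volume : Measure (Cfg r)).prod ((volume : Measure (Cfg ds)).prod (volume : Measure (Cfg dm)))) :=
      ha.1.comp_quasiMeasurePreserving zInt_proj
    have hS : MeasurableSet (𝒞 ×ˢ (Set.univ : Set (Cfg ds × Cfg dm))) := h𝒞.isClosed.measurableSet.prod MeasurableSet.univ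
    have hg : ContinuousOn (fun q : Cfg r × Cfg ds × Cfg dm =>
        ((AN.Nf κ (Om q.1) * Real.exp (-(1 / 2) * AN.qX (Om q.1) q.2.2) : ℝ) : ℂ)) (𝒞 ×ˢ Set.univ) := by
      refine Complex.continuous_ofReal.comp_continuousOn (ContinuousOn.mul ?_ ?_)
      · exact hN.comp continuousOn_fst (fun q hq => hq.1)
      · refine Real.continuous_exp.comp_continuousOn (continuousOn_const.mul ?_)
        exact (zInt_qX hO).comp (f := fun q : Cfg r × Cfg ds × Cfg dm => (q.1, q.2.2)) (by fun_prop)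
          (fun q hq => ⟨hq.1, Set.mem_univ _⟩)
    have hgm := (aestronglyMeasurable_indicator_iff hS).2 (hg.aestronglyMeasurable
      (μ := (volume : Measure (Cfg r)).prod ((volume : Measure (Cfg ds)).prod (volume : Measure (Cfg dm)))) hS)
    refine (hgm.smul hm).congr (Eventually.of_forall fun q => ?_)
    change Set.indicator (𝒞 ×ˢ (Set.univ : Set (Cfg ds × Cfg dm))) (fun q : Cfg r × Cfg ds × Cfg dm =>
        ((AN.Nf κ (Om q.1) * Real.exp (-(1 / 2) * AN.qX (Om q.1) q.2.2) : ℝ) : ℂ)) q • a q.1 q.2.1 = _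
    unfold AN.bG
    by_cases h0 : a q.1 q.2.1 = 0
    · rw [h0, smul_zero, smul_zero]
    · rw [Set.indicator_of_mem (show q ∈ 𝒞 ×ˢ (Set.univ : Set (Cfg ds × Cfg dm)) from ⟨hs _ _ h0, Set.mem_univ _⟩)]
  · obtain ⟨N₀, hN₀⟩ := h𝒞.exists_bound_of_continuousOn hN
    refine ⟨max N₀ 0, le_max_right _ _, fun q => ?_⟩
    unfold AN.bG
    by_cases h0 : a q.1 q.2.1 = 0
    · rw [h0, smul_zero, norm_zero, mul_zero]
    have hm := hs _ _ h0
    rw [norm_smul, Complex.norm_real, norm_mul, Real.norm_of_nonneg (Real.exp_pos _).le]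
    refine mul_le_mul_of_nonneg_right ?_ (norm_nonneg _)
    have h1 := hN₀ _ hm
    have h2 : Real.exp (-(1 / 2) * AN.qX (Om q.1) q.2.2) ≤ 1 := by
      rw [Real.exp_le_one_iff]
      have := hq _ hm q.2.2
      linarith
    calc ‖AN.Nf κ (Om q.1)‖ * Real.exp (-(1 / 2) * AN.qX (Om q.1) q.2.2) ≤ ‖AN.Nf κ (Om q.1)‖ * 1 :=
        mul_le_mul_of_nonneg_left h2 (norm_nonneg _)
      _ ≤ max N₀ 0 := by rw [mul_one]; exact h1.trans (le_max_left _ _)

/-- **EG-Int** integrability -/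
theorem zInt (S : Setup d F) (φ : Spl dh dm d) (ψ : Spl r ds dh) : ZIntStmt S φ ψ := by
  intro _ _ _ L Om K U hB 𝒞 h𝒞 hdis
  have hnot : ∀ η ∈ 𝒞, η ∉ Coll L := fun η hη h => Set.disjoint_left.1 hdis hη h
  have hI : ∀ η ∈ 𝒞, IsOm S.κ (DM (AX.Mz S φ (spsw ψ)) η) (Om η) := fun η hη => hB.om η (hB.det η (hnot η hη))
  have hO : ContinuousOn Om 𝒞 := by
    refine continuousOn_pi.2 fun A => continuousOn_pi.2 fun B => ?_
    exact (hB.om_smooth A B).continuousOn.mono fun η hη => hB.det η (hnot η hη)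
  have hN : ContinuousOn (fun η => AN.Nf S.κ (Om η)) 𝒞 := zInt_Nf S.κ_pos h𝒞 hI hO
  refine ⟨hN, fun a ha hs R χ u hR hχ hχb hu => ?_⟩
  have hq : ∀ η ∈ 𝒞, ∀ X : Cfg dm, 0 ≤ AN.qX (Om η) X := by
    intro η hη X
    rw [AN.gau_qX]
    exact Finset.sum_nonneg fun i _ => AN.gau_nn (hI η hη) _
  obtain ⟨hbm, N₀, hN₀, hbd⟩ := zInt_bG S.κ Om h𝒞 hO hN hq a ha hs
  have hR0 : 0 < R := lt_of_lt_of_le one_pos hR
  have hTc := zIntT_cont (d := d) φ ψ R
  have hTm := hTc.measurable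
  have hmap := zIntT_map (d := d) φ ψ hR0
  -- measurability
  have hb : AEStronglyMeasurable (fun q : Cfg r × Cfg ds × Cfg dm => ((χ q : ℝ) : ℂ) • AN.bG S.κ Om a q)
      ((volume : Measure (Cfg r)).prod ((volume : Measure (Cfg ds)).prod (volume : Measure (Cfg dm)))) :=
    (Complex.measurable_ofReal.comp hχ).aestronglyMeasurable.smul hbm
  have hb2 : AEStronglyMeasurable (fun x : Cfg d => ((χ (zIntT φ ψ R x) : ℝ) : ℂ) • AN.bG S.κ Om a (zIntT φ ψ R x)) volume := by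
    have h1 : AEStronglyMeasurable (fun q : Cfg r × Cfg ds × Cfg dm => ((χ q : ℝ) : ℂ) • AN.bG S.κ Om a q)
        (Measure.map (zIntT φ ψ R) (volume : Measure (Cfg d))) := by
      rw [hmap]
      exact hb.smul_measure _
    exact h1.comp_measurable hTm
  have hZm : AEStronglyMeasurable (fun x : Cfg d =>
      AN.Zb φ ψ (fun q => ((χ q : ℝ) : ℂ) • AN.bG S.κ Om a q) R x) volume := hb2.const_smul _
  have huc : Continuous u := hu.1.continuous
  -- the dominating function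
  have hK : IsCompact (tsupport u) := hu.2
  have hKT := hK.image hTc
  set A₁ : Set (Cfg r) := Prod.fst '' (zIntT φ ψ R '' tsupport u) with hA₁
  set A₂ : Set (Cfg ds) := (fun q : Cfg r × Cfg ds × Cfg dm => q.2.1) '' (zIntT φ ψ R '' tsupport u) with hA₂
  set A₃ : Set (Cfg dm) := (fun q : Cfg r × Cfg ds × Cfg dm => q.2.2) '' (zIntT φ ψ R '' tsupport u) with hA₃
  have c1 : IsCompact A₁ := hKT.image continuous_fst
  have c2 : IsCompact A₂ := hKT.image (by fun_prop)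
  have c3 : IsCompact A₃ := hKT.image (by fun_prop)
  have hH : Integrable (Set.indicator (A₁ ×ˢ (A₂ ×ˢ A₃)) fun q : Cfg r × Cfg ds × Cfg dm => ‖a q.1 q.2.1‖)
      ((volume : Measure (Cfg r)).prod ((volume : Measure (Cfg ds)).prod (volume : Measure (Cfg dm)))) := by
    rw [integrable_indicator_iff (c1.isClosed.measurableSet.prod (c2.isClosed.measurableSet.prod c3.isClosed.measurableSet))]
    exact (zInt_loc a ha c1 c2 c3).norm
  have hH2 : Integrable (fun x : Cfg d => Set.indicator (A₁ ×ˢ (A₂ ×ˢ A₃))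
      (fun q : Cfg r × Cfg ds × Cfg dm => ‖a q.1 q.2.1‖) (zIntT φ ψ R x)) volume := by
    have h1 : Integrable (Set.indicator (A₁ ×ˢ (A₂ ×ˢ A₃)) fun q : Cfg r × Cfg ds × Cfg dm => ‖a q.1 q.2.1‖)
        (Measure.map (zIntT φ ψ R) (volume : Measure (Cfg d))) := by
      rw [hmap]
      exact hH.smul_measure (ENNReal.mul_ne_top ENNReal.ofReal_ne_top ENNReal.ofReal_ne_top)
    exact h1.comp_measurable hTm
  obtain ⟨M, hM⟩ := hu.2.exists_bound_of_continuous huc
  have hM0 : 0 ≤ M := (norm_nonneg _).trans (hM 0)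
  set c : ℝ := |R ^ (3 * (dm : ℝ) - 9 * (r : ℝ) / 2)| with hc
  have hc0 : 0 ≤ c := abs_nonneg _
  refine (hH2.const_mul (c * N₀ * M)).mono' (hZm.inner huc.aestronglyMeasurable) (Eventually.of_forall fun x => ?_)
  by_cases hux : u x = 0
  · rw [hux, inner_zero_right, norm_zero]
    refine mul_nonneg (by positivity) (Set.indicator_nonneg (fun q _ => norm_nonneg _) _)
  · have hx : x ∈ tsupport u := subset_tsupport u hux
    have hTx : zIntT φ ψ R x ∈ zIntT φ ψ R '' tsupport u := ⟨x, hx, rfl⟩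
    have hmem : zIntT φ ψ R x ∈ A₁ ×ˢ (A₂ ×ˢ A₃) := ⟨⟨_, hTx, rfl⟩, ⟨_, hTx, rfl⟩, ⟨_, hTx, rfl⟩⟩
    rw [Set.indicator_of_mem hmem]
    have hZ : ‖AN.Zb φ ψ (fun q => ((χ q : ℝ) : ℂ) • AN.bG S.κ Om a q) R x‖ ≤
        c * (N₀ * ‖a (zIntT φ ψ R x).1 (zIntT φ ψ R x).2.1‖) := by
      change ‖((R ^ (3 * (dm : ℝ) - 9 * (r : ℝ) / 2) : ℝ) : ℂ) • (((χ (zIntT φ ψ R x) : ℝ) : ℂ) •
        AN.bG S.κ Om a (zIntT φ ψ R x))‖ ≤ _
      rw [norm_smul, Complex.norm_real, Real.norm_eq_abs, norm_smul, Complex.norm_real]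
      refine mul_le_mul_of_nonneg_left ?_ hc0
      have h1 := hχb (zIntT φ ψ R x)
      rw [Real.norm_of_nonneg h1.1]
      calc χ (zIntT φ ψ R x) * ‖AN.bG S.κ Om a (zIntT φ ψ R x)‖ ≤ 1 * ‖AN.bG S.κ Om a (zIntT φ ψ R x)‖ :=
          mul_le_mul_of_nonneg_right h1.2 (norm_nonneg _)
        _ ≤ _ := by rw [one_mul]; exact hbd _
    calc ‖inner ℂ (AN.Zb φ ψ (fun q => ((χ q : ℝ) : ℂ) • AN.bG S.κ Om a q) R x) (u x)‖
        ≤ ‖AN.Zb φ ψ (fun q => ((χ q : ℝ) : ℂ) • AN.bG S.κ Om a q) R x‖ * ‖u x‖ := norm_inner_le_norm _ _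
      _ ≤ (c * (N₀ * ‖a (zIntT φ ψ R x).1 (zIntT φ ψ R x).2.1‖)) * M :=
          mul_le_mul hZ (hM x) (norm_nonneg _) (by positivity)
      _ = c * N₀ * M * ‖a (zIntT φ ψ R x).1 (zIntT φ ψ R x).2.1‖ := by ring

end Vale.Agent.P353.Z.AE
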