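import Vale.Agent.P353.AN.E.Stmt
import Vale.Agent.P353.AN.C.Op
import Vale.Agent.P353.AN.C.Out
import Vale.Agent.P353.AN.B.FZero
import Vale.Agent.P353.Z.Ana

/-! # P353, all `N`, block E, E-Loc: limit equation on the slice (helper962) -/

open MeasureTheory Filter Topology Matrix
open scoped ContDiff

namespace Vale.Agent.P353.Z.AE

set_option linter.unusedSectionVars false

variable {d dh dm r ds : ℕ} {F : Type*} [NormedAddCommGroup F] [InnerProductSpace ℂ F]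

/-! ### monotonicity of the bounds -/

theorem loc962_bz {S : Setup d F} {φ : Spl dh dm d} {ψ : Spl r ds dh} {U : Set (Cfg r)}
    {Om : Cfg r → Matrix (Fin dm) (Fin dm) ℝ} {y₀ : Cfg r} {ε ε' C C' : ℝ}
    (h : BzFacts S φ ψ U Om y₀ ε C) (he : ε' ≤ ε) (hC : C ≤ C') (hC0 : 0 < C) :
    BzFacts S φ ψ U Om y₀ ε' C' := by
  have key : ∀ R : ℝ, 0 < R → ∀ y : Cfg r, ‖y - R • y₀‖ ≤ ε' * R → ‖y - R • y₀‖ ≤ ε * R :=
    fun R hR y hy => hy.trans (mul_le_mul_of_nonneg_right he hR.le)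
  have hC' : 0 < C' := hC0.trans_le hC
  have pos : ∀ R : ℝ, 0 < R → ∀ y : Cfg r, ‖y - R • y₀‖ ≤ ε' * R → ∀ w, 0 ≤ S.bz φ ψ Om y w :=
    fun R hR y hy w => (h.pos y (h.inU R hR y (key R hR y hy)) w).le
  refine ⟨fun R hR y hy => h.inU R hR y (key R hR y hy), h.sm, h.pos, h.ev, h.int, h.norm, ?_, ?_, ?_, ?_, ?_,
    h.orth⟩
  · intro R hR y hy w
    refine (h.up R hR y (key R hR y hy) w).trans ?_
    have h1 : Real.exp (-(R * ‖w‖ ^ 2 / C)) ≤ Real.exp (-(R * ‖w‖ ^ 2 / C')) := by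
      apply Real.exp_le_exp.2
      apply neg_le_neg
      exact div_le_div_of_nonneg_left (by positivity) hC0 hC
    have h2 : C * Real.sqrt R ^ (4 * dm) ≤ C' * Real.sqrt R ^ (4 * dm) :=
      mul_le_mul_of_nonneg_right hC (by positivity)
    exact mul_le_mul h2 h1 (Real.exp_nonneg _) (by positivity)
  · intro R hR y hy w j B
    refine (h.dw R hR y (key R hR y hy) w j B).trans ?_
    refine mul_le_mul_of_nonneg_right ?_ (pos R hR y hy w)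
    refine mul_le_mul_of_nonneg_right ?_ (norm_nonneg _)
    exact mul_le_mul_of_nonneg_right hC hR.le
  · intro R hR y hy w i A
    refine (h.dy R hR y (key R hR y hy) w i A).trans ?_
    refine mul_le_mul_of_nonneg_right ?_ (pos R hR y hy w)
    exact mul_le_mul_of_nonneg_right hC (by positivity)
  · intro R hR y hy k hk
    refine (h.mom R hR y (key R hR y hy) k hk).trans ?_
    exact mul_le_mul_of_nonneg_right hC (by positivity)
  · intro δ hδ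
    obtain ⟨C1, h1⟩ := h.tail δ hδ
    exact ⟨C1, fun R hR y hy k hk => h1 R hR y (key R (by linarith) y hy) k hk⟩

theorem loc962_co {S : Setup d F} {φ : Spl dh dm d} {Y : Cfg dh} {e C C' : ℝ} (h : S.CoefBd φ Y e C)
    (hC : C ≤ C') : S.CoefBd φ Y e C' := by
  refine ⟨h.det, fun R hR y hy i B E => ?_, fun R hR y hy B E => ?_, fun R hR y hy j B E i A => ?_,
    fun R hR y hy w hw v β => ?_⟩
  · exact (h.dy R hR y hy i B E).trans (mul_le_mul_of_nonneg_right hC hR.le)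
  · exact (h.inv R hR y hy B E).trans (div_le_div_of_nonneg_right hC hR.le)
  · exact (h.dcf R hR y hy j B E i A).trans (div_le_div_of_nonneg_right hC hR.le)
  · refine (h.rem R hR y hy w hw v β).trans (mul_le_mul_of_nonneg_right hC ?_)
    have h1 : 0 ≤ (∑ i, ∑ A, ‖py i A v y w‖) + ∑ j, ∑ B, ‖pw j B v y w‖ :=
      add_nonneg (Finset.sum_nonneg fun _ _ => Finset.sum_nonneg fun _ _ => norm_nonneg _)
        (Finset.sum_nonneg fun _ _ => Finset.sum_nonneg fun _ _ => norm_nonneg _)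
    have h2 : 0 ≤ ‖w‖ / R := by positivity
    have h3 : 0 ≤ (1 / R + ‖w‖ ^ 2) * ‖v y w‖ := by positivity
    have h4 := mul_nonneg h2 h1
    linarith

/-! ### the internal supercharge preserves the internal functions -/

theorem loc962_K {S : Setup d F} {φ : Spl dh dm d} {ψ : Spl r ds dh} {U : Set (Cfg r)}
    {Om : Cfg r → Matrix (Fin dm) (Fin dm) ℝ} {V : Cfg r → F →L[ℂ] F} {K : Submodule ℂ F}
    (hV : S.VFr φ ψ U Om V K) {y₀ : Cfg r} (hy : y₀ ∈ U) (α : Fin 16) (A : Fin dh) (v : F) (hv : v ∈ K) :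
    S.th α (φ (Sum.inl A)) v ∈ K := by
  have h1 := (hV.v_m y₀ hy v).1 hv
  have h2 := (f0S S φ (S.Dz φ ψ y₀) (Om y₀)).1 α A (V y₀ v) h1
  rw [← hV.v_th y₀ hy] at h2
  exact (hV.v_m y₀ hy _).2 h2

theorem loc962_vec {S : Setup d F} {φ : Spl dh dm d} {ψ : Spl r ds dh} (hφ : S.IsSub φ) (hc : S.IsCen φ ψ)
    {K : Submodule ℂ F} (hK : ∀ (α : Fin 16) (A : Fin dh) (v : F), v ∈ K → S.th α (φ (Sum.inl A)) v ∈ K)
    (X : Matrix (Fin 16) (Fin 16) ℂ) (A : Fin ds) (β : Fin 16) (v : F) (hv : v ∈ K) :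
    (S.int φ ψ hφ hc).vec X A β v ∈ K := by
  unfold CS.vec
  simp only [_root_.sum_apply, _root_.smul_apply]
  refine Submodule.sum_mem _ fun γ _ => Submodule.smul_mem _ _ ?_
  exact hK γ (ψ (Sum.inr A)) v hv

theorem loc962_pd [FiniteDimensional ℂ F] {n : ℕ} {K : Submodule ℂ F} {Φ : Cfg n → F}
    (hΦ : ContDiff ℝ ∞ Φ) (hK : ∀ s, Φ s ∈ K) (i : Fin 9) (A : Fin n) (s : Cfg n) :
    pd i A Φ s ∈ K := by
  have h1 : Φ = fun s => K.starProjection (Φ s) := by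
    funext s
    exact (Submodule.starProjection_eq_self_iff.2 (hK s)).symm
  have hd : DifferentiableAt ℝ Φ s := hΦ.contDiffAt.differentiableAt (by simp)
  have h2 : HasFDerivAt (fun s => K.starProjection (Φ s))
      (((K.starProjection).restrictScalars ℝ).comp (fderiv ℝ Φ s)) s :=
    ((K.starProjection).restrictScalars ℝ).hasFDerivAt.comp s hd.hasFDerivAt
  have h3 : pd i A Φ s = K.starProjection (fderiv ℝ Φ s (EuclideanSpace.single (i, A) 1)) := by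
    have h4 : fderiv ℝ Φ s = (((K.starProjection).restrictScalars ℝ).comp (fderiv ℝ Φ s)) := by
      conv_lhs => rw [h1]
      exact h2.fderiv
    change fderiv ℝ Φ s (EuclideanSpace.single (i, A) 1) = _
    conv_lhs => rw [h4]
    rfl
  rw [h3]
  exact Submodule.starProjection_apply_mem _ _

theorem loc962_sup {n : ℕ} {Φ : Cfg n → F} {a : ℝ} (hs : ∀ s, Φ s ≠ 0 → ‖s‖ ≤ a) (s : Cfg n)
    (h : ¬ ‖s‖ ≤ a) : Φ s = 0 ∧ ∀ i A, pd i A Φ s = 0 := by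
  have h1 : Φ =ᶠ[𝓝 s] fun _ => 0 := by
    have ho : {z : Cfg n | a < ‖z‖} ∈ 𝓝 s :=
      (isOpen_lt continuous_const continuous_norm).mem_nhds (not_le.1 h)
    filter_upwards [ho] with z hz
    by_contra hne
    exact absurd (hs z hne) (not_le.2 hz)
  refine ⟨h1.self_of_nhds, fun i A => ?_⟩
  change fderiv ℝ Φ s (EuclideanSpace.single (i, A) 1) = 0
  rw [h1.fderiv_eq]
  simp

theorem loc962_int {S : Setup d F} {φ : Spl dh dm d} {ψ : Spl r ds dh} [FiniteDimensional ℂ F]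
    (hφ : S.IsSub φ) (hc : S.IsCen φ ψ) {U : Set (Cfg r)}
    {Om : Cfg r → Matrix (Fin dm) (Fin dm) ℝ} {V : Cfg r → F →L[ℂ] F} {K : Submodule ℂ F}
    (hV : S.VFr φ ψ U Om V K) {y₀ : Cfg r} (hy : y₀ ∈ U) {η R : ℝ} {Φ : Cfg ds → F} (h : IntF K η R Φ)
    (β : Fin 16) : IntF K η R ((S.int φ ψ hφ hc).Q β Φ) := by
  have hK := fun (α : Fin 16) (A : Fin dh) (v : F) (hv : v ∈ K) => loc962_K hV hy α A v hv
  refine ⟨Setup.Tst.Q (S.int φ ψ hφ hc) h.tst β, fun s => ?_, fun s hs => ?_⟩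
  · unfold Setup.Q Setup.W
    simp only [_root_.sum_apply, _root_.smul_apply]
    refine Submodule.add_mem _ (Submodule.smul_mem _ _ ?_) (Submodule.smul_mem _ _ ?_)
    · exact Submodule.sum_mem _ fun i _ => Submodule.sum_mem _ fun A _ =>
        loc962_vec hφ hc hK _ _ _ _ (loc962_pd h.tst.1 h.val i A s)
    · exact Submodule.sum_mem _ fun A _ => Submodule.sum_mem _ fun i _ => Submodule.sum_mem _ fun j _ =>
        Submodule.smul_mem _ _ (loc962_vec hφ hc hK _ _ _ _ (h.val s))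
  · by_contra hn
    obtain ⟨h0, h1⟩ := loc962_sup h.sup s hn
    apply hs
    unfold Setup.Q
    simp [h0, h1]

/-! ### symmetry of the full operator -/

/-- the mass term -/
noncomputable def loc962_MT (S : Setup d F) (φ : Spl dh dm d) (N : Fin 9 → Matrix (Fin 16) (Fin 16) ℂ) (m : ℝ)
    (β : Fin 16) (v : Cfg dh → Wsp dm → F) (y : Cfg dh) (w : Wsp dm) : F :=
  ((m : ℝ) : ℂ) • (S.Mh φ N β y (v y w) + S.Mw φ N β w (v y w))

theorem loc962_MT_sm (S : Setup d F) (φ : Spl dh dm d) (N : Fin 9 → Matrix (Fin 16) (Fin 16) ℂ)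
    (hN : ∀ i α β, (N i α β).im = 0) (m : ℝ) (β : Fin 16) (hA : AN.CalcA dh dm F) (hB : AN.CalcB dh dm F) :
    AN.Op687.Sm (loc962_MT S φ N m β) := by
  have h : loc962_MT S φ N m β = fun (v : Cfg dh → Wsp dm → F) y w =>
      (∑ i, ∑ A, ((m * y (i, A) : ℝ) : ℂ) • S.vec (N i) (φ (Sum.inl A)) β (v y w)) +
      ∑ i, ∑ B, ((m * wt w i B : ℝ) : ℂ) • S.vec (N i) (φ (Sum.inr B)) β (v y w) := by
    funext v y w
    unfold loc962_MT Setup.Mh Setup.Mw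
    simp only [smul_add, Finset.smul_sum, _root_.sum_apply, _root_.smul_apply, smul_smul, Complex.ofReal_mul]
  rw [h]
  refine AN.Op687.sm_add hA hB ?_ ?_
  · exact AN.Op687.sm_sum hA hB _ _ fun i => AN.Op687.sm_sum hA hB _ _ fun A =>
      AN.Op687.sm_mul hA (fun y _ => m * y (i, A)) (contDiff_const.mul (AN.Sy.contDiff_y _)) _
        (S.vec_symm _ (hN i) _ _)
  · exact AN.Op687.sm_sum hA hB _ _ fun i => AN.Op687.sm_sum hA hB _ _ fun B =>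
      AN.Op687.sm_mul hA (fun _ w => m * wt w i B) (contDiff_const.mul (AN.Sy.contDiff_wt i B)) _
        (S.vec_symm _ (hN i) _ _)

theorem loc962_QS (S : Setup d F) (φ : Spl dh dm d) (N : Fin 9 → Matrix (Fin 16) (Fin 16) ℂ) (m : ℝ)
    (β : Fin 16) (v : Cfg dh → Wsp dm → F) (y : Cfg dh) (w : Wsp dm) :
    S.QS φ N m β v y w = AN.Qs S φ β v y w + loc962_MT S φ N m β v y w := by
  unfold Setup.QS Setup.Qhm AN.Qs loc962_MT
  rw [smul_add]
  abel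

theorem loc962_Qh (S : Setup d F) (φ : Spl dh dm d) (N : Fin 9 → Matrix (Fin 16) (Fin 16) ℂ)
    (β : Fin 16) (v : Cfg dh → Wsp dm → F) : S.Qhm φ N 0 β v = S.Qh φ β v := by
  funext y w
  unfold Setup.Qhm
  simp

theorem loc962_ts {S : Setup d F} {φ : Spl dh dm d} {Y : Cfg dh} {ε C R : ℝ} (hb : S.CoefBd φ Y ε C)
    (hR : 0 < R) {v : Cfg dh → Wsp dm → F} (hv : Tst2 v) (hs : Sup2 Y ε R v) : AN.Ts S φ v := by
  refine ⟨hv.1, hv.2, ?_⟩
  have hcl : IsClosed {p : Cfg dh × Wsp dm | ‖p.1 - R • Y‖ ≤ ε * R} :=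
    isClosed_le (by fun_prop) continuous_const
  intro p hp
  have h1 : p ∈ {p : Cfg dh × Wsp dm | ‖p.1 - R • Y‖ ≤ ε * R} := by
    refine closure_minimal ?_ hcl hp
    intro q hq
    exact (hs q.1 q.2 hq).1
  exact hb.det R hR p.1 h1

theorem loc962_symm {S : Setup d F} {φ : Spl dh dm d} (hφ : S.IsSub φ) (hSy : AN.SymStmt S)
    (hA : AN.CalcA dh dm F) (hB : AN.CalcB dh dm F) {N : Fin 9 → Matrix (Fin 16) (Fin 16) ℂ}
    (hN : ∀ i α β, (N i α β).im = 0) {Y : Cfg dh} {ε C R : ℝ} (hb : S.CoefBd φ Y ε C)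
    (hop : AN.OpFacts S φ N Y ε) (hR : 0 < R) (m : ℝ) (β : Fin 16) {u v : Cfg dh → Wsp dm → F}
    (hu : Tst2 u) (hus : Sup2 Y ε R u) (hv : Tst2 v) (hvs : Sup2 Y ε R v) :
    ip2 u (S.QS φ N m β v) = ip2 (S.QS φ N m β u) v := by
  have hm := loc962_MT_sm S φ N hN m β hA hB
  have hq : ∀ v : Cfg dh → Wsp dm → F, Tst2 v → Sup2 Y ε R v → Tst2 (AN.Qs S φ β v) := by
    intro v hv hvs
    have h1 := hop.th v hv 0 β
    rw [loc962_Qh] at h1
    exact hA.add _ _ (hA.add _ _ h1 (hop.t1 R hR v hv hvs β)) (hop.tr R hR v hv hvs β)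
  have e : ∀ v : Cfg dh → Wsp dm → F, S.QS φ N m β v = fun y w => AN.Qs S φ β v y w + loc962_MT S φ N m β v y w := by
    intro v
    funext y w
    exact loc962_QS S φ N m β v y w
  have h2 : ip2 (AN.Qs S φ β u) v = ip2 u (AN.Qs S φ β v) :=
    hSy dh dm φ hφ u v (loc962_ts hb hR hu hus) (hv.1.contDiffOn) β
  rw [e, e, hB.ip_add u _ _ hu (hq v hv hvs) (hm.1 v hv),
    AN.Op687.ip_add_left hB _ _ v (hq u hu hus) (hm.1 u hu) hv, h2, hm.2 u v hu hv]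

/-! ### the errors -/

/-- all errors of a decomposition are negligible -/
theorem loc962_err [FiniteDimensional ℂ F] {S : Setup d F} {φ : Spl dh dm d} {ψ : Spl r ds dh}
    {Om : Cfg r → Matrix (Fin dm) (Fin dm) ℝ} {y₀ : Cfg r} {ε C CΦ : ℝ} (hA : AN.CalcA dh dm F)
    (hB : AN.CalcB dh dm F)
    {R η : ℕ → ℝ} {Φ : ℕ → Cfg ds → F} {v T M : ℕ → Cfg dh → Wsp dm → F} (hC : 0 ≤ C)
    (hR : Tendsto R atTop atTop) (hR1 : ∀ n, 1 ≤ R n) (hη0 : Tendsto η atTop (𝓝 0))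
    (hΦ : ∀ n, nsq (Φ n) ≤ CΦ) (hd : Tendsto (fun n => (∑ i, ∑ A, nsq (pd i A (Φ n))) / R n) atTop (𝓝 0))
    (hv : ∀ n, Tst2 (v n))
    (hneg : ∀ (E : ℕ → Cfg dh → Wsp dm → F) (C' : ℝ), (∀ n, Tst2 (E n)) →
      (∀ n, Sup2 (cmb ψ y₀ 0) ε (R n) (E n)) →
      (Tendsto (fun n => R n ^ 2 * ns2 (E n)) atTop (𝓝 0) ∨
      ((∀ n, R n ^ 2 * ns2 (E n) ≤ C') ∧ (∀ n x w, E n x w ≠ 0 → ‖spt ψ x‖ ≤ η n * R n) ∧
        Tendsto (fun n => R n ^ 2 * ∫ x, ‖vc S φ ψ Om (E n) x‖ ^ 2) atTop (𝓝 0)) ∨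
      ((∀ n x w, E n x (-w) = -E n x w) ∧ Tendsto (fun n => ns2 (E n) / R n) atTop (𝓝 0))) →
      Tendsto (fun n => (R n : ℂ) * ip2 (E n) (v n)) atTop (𝓝 0))
    (hT : ∀ n, Tst2 (T n))
    (hdec : ∀ n, DecE S φ ψ Om y₀ ε (T n) (M n) C (η n) (R n) (Φ n)) :
    (∀ n, Tst2 (M n)) ∧
      Tendsto (fun n => (R n : ℂ) * (ip2 (T n) (v n) - ip2 (M n) (v n))) atTop (𝓝 0) := by
  choose X1 X2 X3 t1 t2 t3 s1 s2 s3 he b1 b2 p2 c2 o3 b3 using hdec
  have hnn : ∀ n, 0 ≤ nsq (Φ n) := fun n => integral_nonneg fun x => by positivity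
  have hnp : ∀ n, 0 ≤ ∑ i, ∑ A, nsq (pd i A (Φ n)) := fun n =>
    Finset.sum_nonneg fun i _ => Finset.sum_nonneg fun A _ => integral_nonneg fun x => by positivity
  have hn1 : ∀ n, nsq (Φ n) ≤ CΦ := hΦ
  have hRp : ∀ n, 0 < R n := fun n => lt_of_lt_of_le one_pos (hR1 n)
  have hRi : Tendsto (fun n => 1 / R n) atTop (𝓝 0) := by
    simp only [one_div]
    exact hR.inv_tendsto_atTop
  have hη2 : Tendsto (fun n => η n ^ 2) atTop (𝓝 0) := by
    simpa using hη0.pow 2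
  -- the main term is a test function
  have hM : ∀ n, M n = fun y w => ((T n y w - X1 n y w) - X2 n y w) - X3 n y w := by
    intro n
    funext y w
    rw [he n y w]
    abel
  have tM : ∀ n, Tst2 (M n) := by
    intro n
    rw [hM n]
    exact hA.sub _ _ (hA.sub _ _ (hA.sub _ _ (hT n) (t1 n)) (t2 n)) (t3 n)
  refine ⟨tM, ?_⟩
  have e : ∀ n, (R n : ℂ) * (ip2 (T n) (v n) - ip2 (M n) (v n)) =
      (R n : ℂ) * ip2 (X1 n) (v n) + (R n : ℂ) * ip2 (X2 n) (v n) + (R n : ℂ) * ip2 (X3 n) (v n) := by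
    intro n
    have h1 : T n = fun y w => ((M n y w + X1 n y w) + X2 n y w) + X3 n y w := by
      funext y w
      exact he n y w
    rw [h1, AN.Op687.ip_add_left hB (fun y w => (M n y w + X1 n y w) + X2 n y w) _ _
        (hA.add _ _ (hA.add _ _ (tM n) (t1 n)) (t2 n)) (t3 n) (hv n),
      AN.Op687.ip_add_left hB (fun y w => M n y w + X1 n y w) _ _ (hA.add _ _ (tM n) (t1 n)) (t2 n) (hv n),
      AN.Op687.ip_add_left hB _ _ _ (tM n) (t1 n) (hv n)]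
    ring
  simp only [e]
  have z1 : Tendsto (fun n => (R n : ℂ) * ip2 (X1 n) (v n)) atTop (𝓝 0) := by
    refine hneg X1 0 t1 s1 (Or.inl ?_)
    refine squeeze_zero (fun n => mul_nonneg (sq_nonneg _) (hB.nonneg _)) (fun n => b1 n) ?_
    have h1 : Tendsto (fun n => C * ((η n ^ 2 + 1 / R n) * CΦ + (∑ i, ∑ A, nsq (pd i A (Φ n))) / R n)) atTop
        (𝓝 0) := by
      have := (((hη2.add hRi).mul_const CΦ).add hd).const_mul C
      simpa using this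
    refine squeeze_zero (fun n => ?_) (fun n => ?_) h1
    · have := hRp n
      have := hnn n
      have := hnp n
      positivity
    · have h2 : 0 ≤ η n ^ 2 + 1 / R n := by
        have := hRp n
        positivity
      refine mul_le_mul_of_nonneg_left (add_le_add (mul_le_mul_of_nonneg_left (hΦ n) h2) (le_of_eq ?_)) hC
      ring
  have z2 : Tendsto (fun n => (R n : ℂ) * ip2 (X2 n) (v n)) atTop (𝓝 0) := by
    refine hneg X2 (C * CΦ) t2 s2 (Or.inr (Or.inl ⟨fun n => ?_, p2, ?_⟩))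
    · exact (b2 n).trans (mul_le_mul_of_nonneg_left (hn1 n) hC)
    · refine squeeze_zero (fun n => mul_nonneg (sq_nonneg _) (integral_nonneg fun x => by positivity))
        (fun n => c2 n) ?_
      have h1 : Tendsto (fun n => C * (1 / R n) * CΦ) atTop (𝓝 0) := by
        have := (hRi.const_mul C).mul_const CΦ
        simpa using this
      refine squeeze_zero (fun n => ?_) (fun n => ?_) h1
      · have := hRp n
        have := hnn n
        positivity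
      · have h2 : 0 ≤ C * (1 / R n) := by
          have := hRp n
          positivity
        have h3 : C / R n = C * (1 / R n) := by ring
        rw [h3]
        exact mul_le_mul_of_nonneg_left (hn1 n) h2
  have z3 : Tendsto (fun n => (R n : ℂ) * ip2 (X3 n) (v n)) atTop (𝓝 0) := by
    refine hneg X3 0 t3 s3 (Or.inr (Or.inr ⟨o3, ?_⟩))
    have h1 : Tendsto (fun n => C * η n ^ 2 * CΦ) atTop (𝓝 0) := by
      have := (hη2.const_mul C).mul_const CΦ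
      simpa using this
    refine squeeze_zero (fun n => div_nonneg (hB.nonneg _) (hRp n).le) (fun n => ?_) h1
    rw [div_le_iff₀ (hRp n)]
    refine (b3 n).trans ?_
    have h2 : 0 ≤ C * η n ^ 2 * R n := by
      have := hRp n
      positivity
    calc C * η n ^ 2 * R n * nsq (Φ n) ≤ C * η n ^ 2 * R n * CΦ := mul_le_mul_of_nonneg_left (hn1 n) h2
      _ = C * η n ^ 2 * CΦ * R n := by ring
  have z := (z1.add z2).add z3
  simpa using z

/-- the main terms -/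
theorem loc962_alg (hA : AN.CalcA dh dm F) (hB : AN.CalcB dh dm F) {R : ℝ} (hR : R ≠ 0)
    {A0 A1 P v : Cfg dh → Wsp dm → F} (tP : Tst2 P) (tv : Tst2 v)
    (mH : Tst2 (fun x w => ((R⁻¹ : ℝ) : ℂ) • A0 x w + P x w))
    (mM : Tst2 (fun x w => ((R⁻¹ : ℝ) : ℂ) • (A1 x w - A0 x w))) :
    (R : ℂ) * (ip2 (fun x w => ((R⁻¹ : ℝ) : ℂ) • A0 x w + P x w) v +
      ip2 (fun x w => ((R⁻¹ : ℝ) : ℂ) • (A1 x w - A0 x w)) v) = ip2 A1 v + (R : ℂ) * ip2 P v := by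
  have t0 : Tst2 (fun x w => ((R⁻¹ : ℝ) : ℂ) • A0 x w) := by
    have := hA.sub _ _ mH tP
    simpa using this
  have e1 : ip2 (fun x w => ((R⁻¹ : ℝ) : ℂ) • A0 x w + P x w) v = ip2 (fun x w => ((R⁻¹ : ℝ) : ℂ) • A0 x w) v +
      ip2 P v := AN.Op687.ip_add_left hB _ _ _ t0 tP tv
  have e2 : ip2 (fun x w => ((R⁻¹ : ℝ) : ℂ) • A1 x w) v =
      ip2 (fun x w => ((R⁻¹ : ℝ) : ℂ) • (A1 x w - A0 x w)) v + ip2 (fun x w => ((R⁻¹ : ℝ) : ℂ) • A0 x w) v := by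
    rw [← AN.Op687.ip_add_left hB _ _ _ mM t0 tv]
    congr 1
    funext x w
    rw [smul_sub]
    abel
  have e3 : ip2 (fun x w => ((R⁻¹ : ℝ) : ℂ) • A1 x w) v = ((R⁻¹ : ℝ) : ℂ) * ip2 A1 v := by
    rw [AN.Op687.ip_smul_left, Complex.conj_ofReal]
  have e4 : (R : ℂ) * ((R⁻¹ : ℝ) : ℂ) = 1 := by
    rw [← Complex.ofReal_mul, mul_inv_cancel₀ hR, Complex.ofReal_one]
  rw [e1]
  calc (R : ℂ) * (ip2 (fun x w => ((R⁻¹ : ℝ) : ℂ) • A0 x w) v + ip2 P v +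
        ip2 (fun x w => ((R⁻¹ : ℝ) : ℂ) • (A1 x w - A0 x w)) v) =
        (R : ℂ) * (ip2 (fun x w => ((R⁻¹ : ℝ) : ℂ) • (A1 x w - A0 x w)) v +
          ip2 (fun x w => ((R⁻¹ : ℝ) : ℂ) • A0 x w) v) + (R : ℂ) * ip2 P v := by ring
    _ = ((R : ℂ) * ((R⁻¹ : ℝ) : ℂ)) * ip2 A1 v + (R : ℂ) * ip2 P v := by
        rw [← e2, e3]
        ring
    _ = ip2 A1 v + (R : ℂ) * ip2 P v := by rw [e4, one_mul]

/-- **E-Loc** -/
theorem loc (S : Setup d F) (φ : Spl dh dm d) (ψ : Spl r ds dh) : AN.CalcA dh dm F → AN.CalcB dh dm F →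
    AN.OpStmt S φ → AN.SymStmt S → NegStmt S φ ψ → TRStmt S φ ψ → DecHStmt S φ ψ → Dec1Stmt S φ ψ →
    DecRStmt S φ ψ → DecMStmt S φ ψ → BzStmt S φ ψ → AN.CoefStmt S φ → AN.OutStmt S φ → LocStmt S φ ψ := by
  intro hA hB hOp hSy hNg hTR hH h1 hRr hM hBz hCo hOut hF hφ hc N hN U Om V K hV y₀ hy hSt c hct
  obtain ⟨εB, CB, hεB, hCB, hBf⟩ := hBz hφ hc U Om V K hV y₀ hy
  obtain ⟨εC, CC, hεC, hCC, hCf⟩ := hCo (cmb ψ y₀ 0) hSt
  obtain ⟨εN, hεN, hNf⟩ := hNg hF hφ hc U Om V K hV y₀ hy hSt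
  obtain ⟨Om', εO, R0, CO, -, -, hεO, hR0, hCO, hOf⟩ := hOut hF N hN (cmb ψ y₀ 0) hSt
  obtain ⟨ε0, hε0, leB, leC, leN, leO⟩ : ∃ ε0 : ℝ, 0 < ε0 ∧ ε0 ≤ εB ∧ ε0 ≤ εC ∧ ε0 ≤ εN ∧ ε0 ≤ εO :=
    ⟨min (min εB εC) (min εN εO), lt_min (lt_min hεB hεC) (lt_min hεN hεO),
      (min_le_left _ _).trans (min_le_left _ _), (min_le_left _ _).trans (min_le_right _ _),
      (min_le_right _ _).trans (min_le_left _ _), (min_le_right _ _).trans (min_le_right _ _)⟩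
  obtain ⟨C0, hC0, lCB, lCC⟩ : ∃ C0 : ℝ, 0 < C0 ∧ CB ≤ C0 ∧ CC ≤ C0 :=
    ⟨max CB CC, lt_max_of_lt_left hCB, le_max_left _ _, le_max_right _ _⟩
  have hBf' : BzFacts S φ ψ U Om y₀ ε0 C0 := loc962_bz hBf leB lCB hCB
  have hCf' : S.CoefBd φ (cmb ψ y₀ 0) ε0 C0 := loc962_co (AN.co359_mono hCf leC) lCC
  have hop := hOp N hN.real (cmb ψ y₀ 0) ε0 C0 hε0 hCf'
  refine ⟨ε0, hε0, ?_⟩
  intro ε hε hεle ζ hζ hζs μ hμ
  obtain ⟨CH, hCH, dH⟩ := hH hF hφ hc U Om V K hV y₀ ε0 C0 hy hε0 hC0 hBf' hCf' c hct ε hε hεle ζ hζ hζs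
  obtain ⟨C1, hC1, d1⟩ := h1 hF hφ hc U Om V K hV y₀ ε0 C0 hy hε0 hC0 hBf' hCf' c hct ε hε hεle ζ hζ hζs
  obtain ⟨CR, hCR, dR⟩ := hRr hF hφ hc U Om V K hV y₀ ε0 C0 hy hε0 hC0 hBf' hCf' c hct ε hε hεle ζ hζ hζs
  obtain ⟨CM, hCM, dM⟩ := hM N μ hμ hF hφ hc U Om V K hV y₀ ε0 C0 hy hε0 hC0 hBf' hCf' c hct ε hε hεle ζ hζ hζs
  have key : ∀ (R η : ℕ → ℝ) (Φ : ℕ → Cfg ds → F) (v : ℕ → Cfg dh → Wsp dm → F) (C : ℝ),
      Tendsto R atTop atTop → (∀ n, 1 ≤ R n) → (∀ n, 0 < η n ∧ η n ≤ ε / 2) → Tendsto η atTop (𝓝 0) →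
      (∀ n, IntF K (η n) (R n) (Φ n)) → (∀ n, nsq (Φ n) ≤ C) →
      Tendsto (fun n => (∑ i, ∑ A, nsq (pd i A (Φ n))) / R n) atTop (𝓝 0) →
      Tendsto (fun n => R n ^ 2 * ∑ β, nsq ((S.int φ ψ hφ hc).Q β (Φ n))) atTop (𝓝 0) →
      (∀ n, Tst2 (v n)) → (∀ n, Sup2 (cmb ψ y₀ 0) ε (R n) (v n)) → (∀ n, ns2 (v n) ≤ C) →
      (∀ n, R n ^ 2 * S.ES φ N (μ / R n ^ 2) (v n) ≤ C) → (∀ n, R0 ≤ R n) → (∀ n, μ ≤ R n) →
      ∀ β, Tendsto (fun n => (R n : ℂ) * ip2 (S.TR φ ψ Om V c ε (R n) (pp ζ (Φ n))) (S.QS φ N (μ / R n ^ 2) β (v n)) -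
        ip2 (S.TR φ ψ Om V c ε (R n) (S.DF φ ψ N μ β (pp ζ (Φ n)))) (v n)) atTop (𝓝 0) := by
    intro R η Φ v C hR hR1 hη hη0 hI hΦ hd hQ hv hvs hvn hvE hRR hμR β
    have hRp : ∀ n, 0 < R n := fun n => lt_of_lt_of_le one_pos (hR1 n)
    have hC : 0 ≤ C := (hB.nonneg (v 0)).trans (hvn 0)
    -- the energy of the off-diagonal part
    have hE1 : ∀ n, R n ^ 2 * S.E1 φ (v n) ≤ CO * (C + (1 + μ ^ 2) * C) := by
      intro n
      have hm0 : 0 ≤ μ / R n ^ 2 := div_nonneg hμ (sq_nonneg _)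
      have hm1 : μ / R n ^ 2 ≤ 1 := by
        rw [div_le_one (pow_pos (hRp n) 2)]
        nlinarith [hμR n, hR1 n]
      have a1 := (hOf ε hε (hεle.trans leO) (R n) (hRR n) (μ / R n ^ 2) hm0 hm1 (v n) (hv n) (hvs n)).1
      have a2 : 0 ≤ S.EH φ N (μ / R n ^ 2) (v n) := Finset.sum_nonneg fun β _ => hB.nonneg _
      have a3 : S.E1 φ (v n) ≤ CO * (S.ES φ N (μ / R n ^ 2) (v n) +
        (1 / R n ^ 2 + (μ / R n ^ 2) ^ 2 / R n) * ns2 (v n)) := by linarith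
      have a4 := mul_le_mul_of_nonneg_left a3 (sq_nonneg (R n))
      refine a4.trans ?_
      have a5 : R n ^ 2 * (CO * (S.ES φ N (μ / R n ^ 2) (v n) +
          (1 / R n ^ 2 + (μ / R n ^ 2) ^ 2 / R n) * ns2 (v n))) =
          CO * (R n ^ 2 * S.ES φ N (μ / R n ^ 2) (v n) + (1 + μ ^ 2 / R n ^ 3) * ns2 (v n)) := by
        have := (hRp n).ne'
        field_simp
      rw [a5]
      refine mul_le_mul_of_nonneg_left (add_le_add (hvE n) ?_) hCO.le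
      have a6 : μ ^ 2 / R n ^ 3 ≤ μ ^ 2 := div_le_self (sq_nonneg _) (one_le_pow₀ (hR1 n))
      exact mul_le_mul (by linarith) (hvn n) (hB.nonneg _) (by positivity)
    -- negligible errors
    have hneg : ∀ (E : ℕ → Cfg dh → Wsp dm → F) (C' : ℝ), (∀ n, Tst2 (E n)) →
        (∀ n, Sup2 (cmb ψ y₀ 0) ε (R n) (E n)) →
        (Tendsto (fun n => R n ^ 2 * ns2 (E n)) atTop (𝓝 0) ∨
        ((∀ n, R n ^ 2 * ns2 (E n) ≤ C') ∧ (∀ n x w, E n x w ≠ 0 → ‖spt ψ x‖ ≤ η n * R n) ∧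
          Tendsto (fun n => R n ^ 2 * ∫ x, ‖vc S φ ψ Om (E n) x‖ ^ 2) atTop (𝓝 0)) ∨
        ((∀ n x w, E n x (-w) = -E n x w) ∧ Tendsto (fun n => ns2 (E n) / R n) atTop (𝓝 0))) →
        Tendsto (fun n => (R n : ℂ) * ip2 (E n) (v n)) atTop (𝓝 0) := by
      intro E C' tE sE hE
      refine hNf R η E v (max C (max C' (CO * (C + (1 + μ ^ 2) * C)))) hR (fun n => (hη n).1) hη0 hR1 tE
        (fun n => AN.su359_mono (sE n) (hRp n) (hεle.trans leN)) hv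
        (fun n => AN.su359_mono (hvs n) (hRp n) (hεle.trans leN)) (fun n => (hvn n).trans (le_max_left _ _))
        (fun n => (hE1 n).trans ((le_max_right _ _).trans (le_max_right _ _))) ?_
      rcases hE with h | ⟨h1, h2, h3⟩ | h
      · exact Or.inl h
      · exact Or.inr (Or.inl ⟨fun n => (h1 n).trans ((le_max_left _ _).trans (le_max_right _ _)), h2, h3⟩)
      · exact Or.inr (Or.inr h)
    -- trial functions
    have hT := fun n => hTR hφ hc U Om V K hV y₀ ε0 C0 hε0 hBf' c hct ε hε hεle ζ hζ hζs (R n) (η n) (hR1 n)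
      (hη n).1.le (hη n).2 (Φ n) (hI n)
    have hP := fun n => hTR hφ hc U Om V K hV y₀ ε0 C0 hε0 hBf' c hct ε hε hεle ζ hζ hζs (R n) (η n) (hR1 n)
      (hη n).1.le (hη n).2 ((S.int φ ψ hφ hc).Q β (Φ n)) (loc962_int hφ hc hV hy (hI n) β)
    have hTs : ∀ n, Sup2 (cmb ψ y₀ 0) ε0 (R n) (S.TR φ ψ Om V c ε (R n) (pp ζ (Φ n))) := fun n =>
      AN.su359_mono (hT n).2.1 (hRp n) hεle
    have hvs0 : ∀ n, Sup2 (cmb ψ y₀ 0) ε0 (R n) (v n) := fun n => AN.su359_mono (hvs n) (hRp n) hεle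
    have zP : Tendsto (fun n => (R n : ℂ) *
        ip2 (S.TR φ ψ Om V c ε (R n) (pp ζ ((S.int φ ψ hφ hc).Q β (Φ n)))) (v n)) atTop (𝓝 0) := by
      refine hneg _ 0 (fun n => (hP n).1) (fun n => (hP n).2.1) (Or.inl ?_)
      have z0 : Tendsto (fun n => (∫ y, ‖ζ y‖ ^ 2) * (R n ^ 2 * ∑ β, nsq ((S.int φ ψ hφ hc).Q β (Φ n)))) atTop
          (𝓝 0) := by
        have := hQ.const_mul (∫ y, ‖ζ y‖ ^ 2)
        simpa using this
      refine squeeze_zero (fun n => mul_nonneg (sq_nonneg _) (hB.nonneg _)) (fun n => ?_) z0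
      have b1 := (hP n).2.2.2
      have b2 : nsq ((S.int φ ψ hφ hc).Q β (Φ n)) ≤ ∑ β, nsq ((S.int φ ψ hφ hc).Q β (Φ n)) :=
        Finset.single_le_sum (f := fun β => nsq ((S.int φ ψ hφ hc).Q β (Φ n)))
          (fun β _ => integral_nonneg fun x => by positivity) (Finset.mem_univ β)
      have b3 : 0 ≤ ∫ y, ‖ζ y‖ ^ 2 := integral_nonneg fun x => by positivity
      calc R n ^ 2 * ns2 (S.TR φ ψ Om V c ε (R n) (pp ζ ((S.int φ ψ hφ hc).Q β (Φ n)))) ≤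
          R n ^ 2 * ((∫ y, ‖ζ y‖ ^ 2) * ∑ β, nsq ((S.int φ ψ hφ hc).Q β (Φ n))) :=
            mul_le_mul_of_nonneg_left (b1.trans (mul_le_mul_of_nonneg_left b2 b3)) (sq_nonneg _)
        _ = (∫ y, ‖ζ y‖ ^ 2) * (R n ^ 2 * ∑ β, nsq ((S.int φ ψ hφ hc).Q β (Φ n))) := by ring
    -- the four decompositions
    have hm := fun n => loc962_MT_sm S φ N hN.real (μ / R n ^ 2) β hA hB
    have tH : ∀ n, Tst2 (S.Qh φ β (S.TR φ ψ Om V c ε (R n) (pp ζ (Φ n)))) := by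
      intro n
      have := hop.th _ (hT n).1 0 β
      rwa [loc962_Qh] at this
    obtain ⟨mH, zH⟩ := loc962_err hA hB hCH hR hR1 hη0 hΦ hd hv hneg tH
      (fun n => dH (R n) (η n) (hR1 n) (hη n).1.le (hη n).2 (Φ n) (hI n) β)
    have t1 : ∀ n, Tst2 (S.Q1 φ β (S.TR φ ψ Om V c ε (R n) (pp ζ (Φ n)))) := fun n =>
      hop.t1 (R n) (hRp n) _ (hT n).1 (hTs n) β
    obtain ⟨-, z1⟩ := loc962_err hA hB hC1 hR hR1 hη0 hΦ hd hv hneg t1
      (fun n => d1 (R n) (η n) (hR1 n) (hη n).1.le (hη n).2 (Φ n) (hI n) β)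
    have tR : ∀ n, Tst2 (S.Qr φ β (S.TR φ ψ Om V c ε (R n) (pp ζ (Φ n)))) := fun n =>
      hop.tr (R n) (hRp n) _ (hT n).1 (hTs n) β
    obtain ⟨-, zR⟩ := loc962_err hA hB hCR hR hR1 hη0 hΦ hd hv hneg tR
      (fun n => dR (R n) (η n) (hR1 n) (hη n).1.le (hη n).2 (Φ n) (hI n) β)
    have tM : ∀ n, Tst2 (loc962_MT S φ N (μ / R n ^ 2) β (S.TR φ ψ Om V c ε (R n) (pp ζ (Φ n)))) := fun n =>
      (hm n).1 _ (hT n).1
    obtain ⟨mM, zM⟩ := loc962_err hA hB hCM hR hR1 hη0 hΦ hd hv hneg tM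
      (fun n => dM (R n) (η n) (hR1 n) (hη n).1.le (hη n).2 (Φ n) (hI n) β)
    have z := (((zH.add z1).add zR).add zM).add zP
    simp only [add_zero] at z
    refine z.congr fun n => ?_
    have s := loc962_symm hφ hSy hA hB hN.real hCf' hop (hRp n) (μ / R n ^ 2) β (hT n).1 (hTs n) (hv n) (hvs0 n)
    have q : ip2 (S.QS φ N (μ / R n ^ 2) β (S.TR φ ψ Om V c ε (R n) (pp ζ (Φ n)))) (v n) =
        ip2 (S.Qh φ β (S.TR φ ψ Om V c ε (R n) (pp ζ (Φ n)))) (v n) +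
        ip2 (S.Q1 φ β (S.TR φ ψ Om V c ε (R n) (pp ζ (Φ n)))) (v n) +
        ip2 (S.Qr φ β (S.TR φ ψ Om V c ε (R n) (pp ζ (Φ n)))) (v n) +
        ip2 (loc962_MT S φ N (μ / R n ^ 2) β (S.TR φ ψ Om V c ε (R n) (pp ζ (Φ n)))) (v n) := by
      rw [← AN.Op687.ip_add_left hB _ _ _ (tH n) (t1 n) (hv n),
        ← AN.Op687.ip_add_left hB _ _ _ (hA.add _ _ (tH n) (t1 n)) (tR n) (hv n),
        ← AN.Op687.ip_add_left hB _ _ _ (hA.add _ _ (hA.add _ _ (tH n) (t1 n)) (tR n)) (tM n) (hv n)]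
      congr 1
      funext x w
      exact loc962_QS S φ N (μ / R n ^ 2) β _ x w
    have m := loc962_alg hA hB (hRp n).ne' (hP n).1 (hv n) (mH n) (mM n)
    have o : ip2 (fun (_ : Cfg dh) (_ : Wsp dm) => (0 : F)) (v n) = 0 := by
      unfold ip2
      simp
    rw [s, q, o]
    linear_combination (-1 : ℂ) * m
  intro R η Φ v C hR hR1 hη hη0 hI hΦ hd hQ hv hvs hvn hvE β
  obtain ⟨n0, hn0⟩ := (tendsto_atTop.1 hR (max R0 μ)).exists_forall_of_atTop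
  rw [← tendsto_add_atTop_iff_nat n0]
  have hs := tendsto_add_atTop_nat n0
  exact key (fun n => R (n + n0)) (fun n => η (n + n0)) (fun n => Φ (n + n0)) (fun n => v (n + n0)) C
    (hR.comp hs) (fun n => hR1 _) (fun n => hη _) (hη0.comp hs) (fun n => hI _) (fun n => hΦ _) (hd.comp hs) (hQ.comp hs)
    (fun n => hv _) (fun n => hvs _) (fun n => hvn _) (fun n => hvE _)
    (fun n => (le_max_left _ _).trans (hn0 _ (Nat.le_add_left _ _)))
    (fun n => (le_max_right _ _).trans (hn0 _ (Nat.le_add_left _ _))) β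

end Vale.Agent.P353.Z.AE
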