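import Vale.Agent.P353.AN.E.Stmt

/-! # P353, all `N`, block E: shared tools (helper213)

T1: `zpt`, `spt`, `cmb`; T2: product bounds for `ns2` and for integrals over `Cfg dh`. -/

open MeasureTheory Filter Topology Matrix
open scoped ContDiff

namespace Vale.Agent.P353.Z.AE

variable {d dh dm r ds : ℕ} {F : Type*} [NormedAddCommGroup F] [InnerProductSpace ℂ F]

section T1

variable (ψ : Spl r ds dh)

/-- `zpt` as a continuous linear map -/
noncomputable def zptL : Cfg dh →L[ℝ] Cfg r :=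
  LinearMap.toContinuousLinearMap
    { toFun := zpt ψ
      map_add' := fun _ _ => rfl
      map_smul' := fun _ _ => rfl }

/-- `spt` as a continuous linear map -/
noncomputable def sptL : Cfg dh →L[ℝ] Cfg ds :=
  LinearMap.toContinuousLinearMap
    { toFun := spt ψ
      map_add' := fun _ _ => rfl
      map_smul' := fun _ _ => rfl }

lemma zptL_apply (x : Cfg dh) : zptL ψ x = zpt ψ x := rfl

lemma sptL_apply (x : Cfg dh) : sptL ψ x = spt ψ x := rfl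

lemma zpt_add (x x' : Cfg dh) : zpt ψ (x + x') = zpt ψ x + zpt ψ x' := rfl

lemma spt_add (x x' : Cfg dh) : spt ψ (x + x') = spt ψ x + spt ψ x' := rfl

lemma zpt_sub (x x' : Cfg dh) : zpt ψ (x - x') = zpt ψ x - zpt ψ x' := rfl

lemma spt_sub (x x' : Cfg dh) : spt ψ (x - x') = spt ψ x - spt ψ x' := rfl

lemma zpt_smul (t : ℝ) (x : Cfg dh) : zpt ψ (t • x) = t • zpt ψ x := rfl

lemma spt_smul (t : ℝ) (x : Cfg dh) : spt ψ (t • x) = t • spt ψ x := rfl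

lemma zpt_cont : Continuous (zpt ψ) := (zptL ψ).continuous

lemma spt_cont : Continuous (spt ψ) := (sptL ψ).continuous

lemma zpt_smooth : ContDiff ℝ ∞ (zpt ψ) := (zptL ψ).contDiff

lemma spt_smooth : ContDiff ℝ ∞ (spt ψ) := (sptL ψ).contDiff

lemma zpt_cmb (y : Cfg r) (s : Cfg ds) : zpt ψ (cmb ψ y s) = y := by
  ext p
  simp [zpt, cmb]

lemma spt_cmb (y : Cfg r) (s : Cfg ds) : spt ψ (cmb ψ y s) = s := by
  ext p
  simp [spt, cmb]

lemma cmb_eta (x : Cfg dh) : cmb ψ (zpt ψ x) (spt ψ x) = x := by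
  ext ⟨i, A⟩
  obtain ⟨q, rfl⟩ := ψ.surjective A
  rcases q with a | b <;> simp [zpt, spt, cmb]

lemma zpt_single_inl (i : Fin 9) (a : Fin r) :
    zpt ψ (EuclideanSpace.single (i, ψ (Sum.inl a)) 1) = EuclideanSpace.single (i, a) 1 := by
  ext ⟨j, b⟩
  simp [zpt, PiLp.single_apply]

lemma spt_single_inl (i : Fin 9) (a : Fin r) :
    spt ψ (EuclideanSpace.single (i, ψ (Sum.inl a)) 1) = 0 := by
  ext ⟨j, b⟩
  simp [spt]

lemma zpt_single_inr (i : Fin 9) (b : Fin ds) :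
    zpt ψ (EuclideanSpace.single (i, ψ (Sum.inr b)) 1) = 0 := by
  ext ⟨j, a⟩
  simp [zpt]

lemma spt_single_inr (i : Fin 9) (b : Fin ds) :
    spt ψ (EuclideanSpace.single (i, ψ (Sum.inr b)) 1) = EuclideanSpace.single (i, b) 1 := by
  ext ⟨j, a⟩
  simp [spt, PiLp.single_apply]

lemma norm_sq_zs (x : Cfg dh) : ‖x‖ ^ 2 = ‖zpt ψ x‖ ^ 2 + ‖spt ψ x‖ ^ 2 := by
  rw [EuclideanSpace.real_norm_sq_eq, EuclideanSpace.real_norm_sq_eq, EuclideanSpace.real_norm_sq_eq,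
    Fintype.sum_prod_type, Fintype.sum_prod_type, Fintype.sum_prod_type, ← Finset.sum_add_distrib]
  refine Finset.sum_congr rfl fun i _ => ?_
  rw [← ψ.sum_comp, Fintype.sum_sum_type]
  rfl

lemma norm_zpt_le (x : Cfg dh) : ‖zpt ψ x‖ ≤ ‖x‖ := by
  have := norm_sq_zs ψ x
  exact abs_le_of_sq_le_sq' (by nlinarith [sq_nonneg ‖spt ψ x‖]) (norm_nonneg _) |>.2

lemma norm_spt_le (x : Cfg dh) : ‖spt ψ x‖ ≤ ‖x‖ := by
  have := norm_sq_zs ψ x
  exact abs_le_of_sq_le_sq' (by nlinarith [sq_nonneg ‖zpt ψ x‖]) (norm_nonneg _) |>.2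

lemma norm_le_zs (x : Cfg dh) : ‖x‖ ≤ ‖zpt ψ x‖ + ‖spt ψ x‖ := by
  have := norm_sq_zs ψ x
  refine abs_le_of_sq_le_sq' ?_ (by positivity) |>.2
  nlinarith [norm_nonneg (zpt ψ x), norm_nonneg (spt ψ x)]

lemma norm_cmb_le (y : Cfg r) (s : Cfg ds) : ‖cmb ψ y s‖ ≤ ‖y‖ + ‖s‖ := by
  have := norm_le_zs ψ (cmb ψ y s)
  rwa [zpt_cmb, spt_cmb] at this

/-- distance to the ray in terms of the two components -/
lemma norm_sub_ray (x : Cfg dh) (y₀ : Cfg r) (R : ℝ) :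
    ‖x - R • cmb ψ y₀ 0‖ ^ 2 = ‖zpt ψ x - R • y₀‖ ^ 2 + ‖spt ψ x‖ ^ 2 := by
  rw [norm_sq_zs ψ, zpt_sub, zpt_smul, zpt_cmb, spt_sub, spt_smul, spt_cmb, smul_zero, sub_zero]

lemma zpt_ray_le {x : Cfg dh} {y₀ : Cfg r} {R ρ : ℝ} (h : ‖x - R • cmb ψ y₀ 0‖ ≤ ρ) :
    ‖zpt ψ x - R • y₀‖ ≤ ρ := by
  have := norm_zpt_le ψ (x - R • cmb ψ y₀ 0)
  rw [zpt_sub, zpt_smul, zpt_cmb] at this
  exact this.trans h

/-- `cmb` as a linear isometry -/
noncomputable def cmbE : WithLp 2 (Cfg r × Cfg ds) ≃ₗᵢ[ℝ] Cfg dh where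
  toFun p := cmb ψ p.ofLp.1 p.ofLp.2
  invFun x := WithLp.toLp 2 (zpt ψ x, spt ψ x)
  map_add' p q := by
    ext ⟨i, A⟩
    obtain ⟨t, rfl⟩ := ψ.surjective A
    rcases t with a | b <;> simp [cmb]
  map_smul' c p := by
    ext ⟨i, A⟩
    obtain ⟨t, rfl⟩ := ψ.surjective A
    rcases t with a | b <;> simp [cmb]
  left_inv p := by
    change WithLp.toLp 2 (zpt ψ (cmb ψ p.ofLp.1 p.ofLp.2), spt ψ (cmb ψ p.ofLp.1 p.ofLp.2)) = p
    rw [zpt_cmb, spt_cmb]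
  right_inv x := cmb_eta ψ x
  norm_map' p := by
    have h : ‖cmb ψ p.ofLp.1 p.ofLp.2‖ ^ 2 = ‖p‖ ^ 2 := by
      rw [norm_sq_zs ψ, zpt_cmb, spt_cmb, WithLp.prod_norm_sq_eq_of_L2]
      rfl
    exact (sq_eq_sq₀ (norm_nonneg _) (norm_nonneg _)).1 h

/-- `cmb` preserves Lebesgue measure -/
lemma cmb_mp : MeasurePreserving (fun p : Cfg r × Cfg ds => cmb ψ p.1 p.2)
    ((volume : Measure (Cfg r)).prod (volume : Measure (Cfg ds))) volume :=
  (cmbE ψ).measurePreserving.comp (WithLp.volume_preserving_toLp (Cfg r) (Cfg ds))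

/-- `cmb` as a measurable equivalence -/
noncomputable def cmbM : (Cfg r × Cfg ds) ≃ᵐ Cfg dh :=
  (MeasurableEquiv.toLp 2 (Cfg r × Cfg ds)).trans (cmbE ψ).toHomeomorph.toMeasurableEquiv

lemma cmbM_apply (p : Cfg r × Cfg ds) : cmbM ψ p = cmb ψ p.1 p.2 := rfl

/-- integration over `Cfg dh` in the coordinates `y, s` -/
lemma integral_cmb {E : Type*} [NormedAddCommGroup E] [NormedSpace ℝ E] (f : Cfg dh → E) :
    ∫ x, f x = ∫ p : Cfg r × Cfg ds, f (cmb ψ p.1 p.2) ∂((volume : Measure (Cfg r)).prod (volume : Measure (Cfg ds))) := by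
  have h : MeasurePreserving (cmbM ψ) ((volume : Measure (Cfg r)).prod (volume : Measure (Cfg ds))) volume := cmb_mp ψ
  exact (h.integral_comp' f).symm

lemma integrable_cmb {E : Type*} [NormedAddCommGroup E] (f : Cfg dh → E) :
    Integrable f ↔ Integrable (fun p : Cfg r × Cfg ds => f (cmb ψ p.1 p.2))
      ((volume : Measure (Cfg r)).prod (volume : Measure (Cfg ds))) := by
  have h : MeasurePreserving (cmbM ψ) ((volume : Measure (Cfg r)).prod (volume : Measure (Cfg ds))) volume := cmb_mp ψ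
  exact (h.integrable_comp_emb (cmbM ψ).measurableEmbedding (g := f)).symm

end T1

section T2

lemma kap_sq {R : ℝ} (hR : 0 < R) : ((Real.sqrt R ^ (9 * r))⁻¹) ^ 2 = (R ^ (9 * r))⁻¹ := by
  rw [inv_pow, ← pow_mul, mul_comm (9 * r) 2, pow_mul, Real.sq_sqrt hR.le]

lemma finrank_Cfg (r : ℕ) : Module.finrank ℝ (Cfg r) = 9 * r := by
  rw [finrank_euclideanSpace, Fintype.card_prod, Fintype.card_fin, Fintype.card_fin]

lemma integral_scale {E : Type*} [NormedAddCommGroup E] [NormedSpace ℝ E] {R : ℝ} (hR : 0 < R) (a : Cfg r → E) :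
    ∫ y, a (R⁻¹ • y) = R ^ (9 * r) • ∫ y, a y := by
  rw [Measure.integral_comp_inv_smul_of_nonneg _ _ hR.le, finrank_Cfg]

lemma integrable_scale {E : Type*} [NormedAddCommGroup E] {R : ℝ} (hR : 0 < R) {a : Cfg r → E}
    (ha : Integrable a) : Integrable fun y => a (R⁻¹ • y) :=
  ha.comp_smul (inv_ne_zero hR.ne')

/-- value of the product integral -/
lemma int_prod_eq (ψ : Spl r ds dh) {R : ℝ} (hR : 0 < R) {a : Cfg r → ℝ} {b : Cfg ds → ℝ}
    (ha : Integrable a) (hb : Integrable b) :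
    Integrable (fun x : Cfg dh => ((Real.sqrt R ^ (9 * r))⁻¹) ^ 2 * (a (R⁻¹ • zpt ψ x) * b (spt ψ x))) ∧
    ∫ x : Cfg dh, ((Real.sqrt R ^ (9 * r))⁻¹) ^ 2 * (a (R⁻¹ • zpt ψ x) * b (spt ψ x)) = (∫ y, a y) * ∫ s, b s := by
  constructor
  · refine Integrable.const_mul ?_ _
    rw [integrable_cmb ψ]
    simp only [zpt_cmb, spt_cmb]
    exact (integrable_scale hR ha).mul_prod hb
  · rw [integral_const_mul, integral_cmb ψ]
    simp only [zpt_cmb, spt_cmb]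
    rw [integral_prod_mul (fun y => a (R⁻¹ • y)) b, integral_scale hR, kap_sq hR, smul_eq_mul]
    have : R ^ (9 * r) ≠ 0 := pow_ne_zero _ hR.ne'
    field_simp

/-- **T2a** product bound for an integral over `Cfg dh` -/
theorem int_le_prod (ψ : Spl r ds dh) {R M : ℝ} (hR : 0 < R) {a : Cfg r → ℝ} {b : Cfg ds → ℝ}
    (ha : Integrable a) (hb : Integrable b) {g : Cfg dh → ℝ} (hg : ∀ x, 0 ≤ g x)
    (h : ∀ x, g x ≤ M * (((Real.sqrt R ^ (9 * r))⁻¹) ^ 2 * (a (R⁻¹ • zpt ψ x) * b (spt ψ x)))) :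
    ∫ x, g x ≤ M * ((∫ y, a y) * ∫ s, b s) := by
  obtain ⟨hi, he⟩ := int_prod_eq ψ hR ha hb
  rw [← he, ← integral_const_mul]
  exact integral_mono_of_nonneg (Eventually.of_forall hg) (hi.const_mul M) (Eventually.of_forall h)

omit [InnerProductSpace ℂ F] in
lemma ns2_eq_nsf {v : Cfg dh → Wsp dm → F} (h1 : Continuous fun p : Cfg dh × Wsp dm => v p.1 p.2)
    (h2 : HasCompactSupport fun p : Cfg dh × Wsp dm => v p.1 p.2) : ns2 v = ∫ y, nsf (v y) := by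
  have h : Integrable (fun p : Cfg dh × Wsp dm => ‖v p.1 p.2‖ ^ 2)
      ((volume : Measure (Cfg dh)).prod (volume : Measure (Wsp dm))) := by
    refine (h1.norm.pow 2).integrable_of_hasCompactSupport ?_
    refine h2.mono ?_
    intro p hp
    simp only [Function.mem_support] at hp ⊢
    intro h0
    exact hp (by simp [h0])
  rw [ns2, integral_prod _ h]
  rfl

/-- **T2b** product bound for `ns2`, fibre norms given -/
theorem ns2_le_prod (ψ : Spl r ds dh) {v : Cfg dh → Wsp dm → F} (hv : Tst2 v) {R M : ℝ} (hR : 0 < R)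
    {a : Cfg r → ℝ} {b : Cfg ds → ℝ} (ha : Integrable a) (hb : Integrable b)
    (h : ∀ x, nsf (v x) ≤ M * (((Real.sqrt R ^ (9 * r))⁻¹) ^ 2 * (a (R⁻¹ • zpt ψ x) * b (spt ψ x)))) :
    ns2 v ≤ M * ((∫ y, a y) * ∫ s, b s) := by
  rw [ns2_eq_nsf hv.1.continuous hv.2]
  exact int_le_prod ψ hR ha hb (fun x => integral_nonneg fun w => by positivity) h

/-- **T2c** product bound for `ns2`, pointwise bound with a fibre weight `G` -/
theorem ns2_le_prodG (ψ : Spl r ds dh) {v : Cfg dh → Wsp dm → F} (hv : Tst2 v) {R M : ℝ} (hR : 0 < R)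
    {a : Cfg r → ℝ} {b : Cfg ds → ℝ} {G : Cfg r → Wsp dm → ℝ} (ha0 : ∀ y, 0 ≤ a y) (hb0 : ∀ s, 0 ≤ b s)
    (ha : Integrable a) (hb : Integrable b) (hGi : ∀ y, a (R⁻¹ • y) ≠ 0 → Integrable (G y))
    (hG : ∀ y, a (R⁻¹ • y) ≠ 0 → ∫ w, G y w ≤ M)
    (h : ∀ x w, ‖v x w‖ ^ 2 ≤
      ((Real.sqrt R ^ (9 * r))⁻¹) ^ 2 * (a (R⁻¹ • zpt ψ x) * b (spt ψ x)) * G (zpt ψ x) w) :
    ns2 v ≤ M * ((∫ y, a y) * ∫ s, b s) := by
  refine ns2_le_prod ψ hv hR ha hb fun x => ?_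
  have hk : 0 ≤ ((Real.sqrt R ^ (9 * r))⁻¹) ^ 2 := sq_nonneg _
  by_cases h0 : a (R⁻¹ • zpt ψ x) = 0
  · have h1 : ∀ w, ‖v x w‖ ^ 2 = 0 := fun w => by
      have := h x w
      rw [h0] at this
      simp only [zero_mul, mul_zero] at this
      exact le_antisymm this (by positivity)
    unfold nsf
    simp only [h1, integral_zero, h0, zero_mul, mul_zero, le_refl]
  · have hc : 0 ≤ ((Real.sqrt R ^ (9 * r))⁻¹) ^ 2 * (a (R⁻¹ • zpt ψ x) * b (spt ψ x)) :=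
      mul_nonneg hk (mul_nonneg (ha0 _) (hb0 _))
    calc nsf (v x) ≤ ∫ w, ((Real.sqrt R ^ (9 * r))⁻¹) ^ 2 * (a (R⁻¹ • zpt ψ x) * b (spt ψ x)) * G (zpt ψ x) w :=
          integral_mono_of_nonneg (Eventually.of_forall fun w => by positivity)
            ((hGi _ h0).const_mul _) (Eventually.of_forall fun w => h x w)
      _ = ((Real.sqrt R ^ (9 * r))⁻¹) ^ 2 * (a (R⁻¹ • zpt ψ x) * b (spt ψ x)) * ∫ w, G (zpt ψ x) w :=
          integral_const_mul _ _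
      _ ≤ ((Real.sqrt R ^ (9 * r))⁻¹) ^ 2 * (a (R⁻¹ • zpt ψ x) * b (spt ψ x)) * M :=
          mul_le_mul_of_nonneg_left (hG _ h0) hc
      _ = _ := mul_comm _ _

end T2

end Vale.Agent.P353.Z.AE
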