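import Vale.Agent.P353.AN.E.StmtG
import Vale.Agent.P353.AN.E.Tool
import Vale.Agent.P353.AN.GL.GluA

/-! # P353, all `N`, block E: EG-LocG, limit equation for the slice functional (helper980) -/

open MeasureTheory Filter Topology Matrix
open scoped ContDiff ENNReal

namespace Vale.Agent.P353.Z.AE

variable {d dh dm r ds : ℕ} {F : Type*} [NormedAddCommGroup F] [InnerProductSpace ℂ F]

/-- the linear isomorphism `x ↦ (x^z, x^s)` -/
noncomputable def lgT0 (ψ : Spl r ds dh) : Cfg dh ≃ₗ[ℝ] Cfg r × Cfg ds where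
  toFun := fun x => (zpt ψ x, spt ψ x)
  map_add' := by intro x y; rfl
  map_smul' := by intro c x; rfl
  invFun := fun q => cmb ψ q.1 q.2
  left_inv := cmb_eta ψ
  right_inv := fun q => Prod.ext (zpt_cmb ψ q.1 q.2) (spt_cmb ψ q.1 q.2)

/-- the linear isomorphism `x ↦ (x^z / R, x^s)` -/
noncomputable def lgT (ψ : Spl r ds dh) (R : ℝ) (hR : 0 < R) : Cfg dh ≃L[ℝ] Cfg r × Cfg ds :=
  ((lgT0 ψ).trans ((LinearEquiv.smulOfNeZero ℝ (Cfg r) R⁻¹ (inv_ne_zero hR.ne')).prodCongr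
      (LinearEquiv.refl ℝ (Cfg ds)))).toContinuousLinearEquiv

theorem lgT_apply (ψ : Spl r ds dh) (R : ℝ) (hR : 0 < R) (x : Cfg dh) :
    lgT ψ R hR x = (R⁻¹ • zpt ψ x, spt ψ x) := rfl

theorem lg_memF (ψ : Spl r ds dh) {R : ℝ} (hR : 0 < R) {G : Cfg r → Cfg ds → F}
    (hG : MemLp (fun q : Cfg r × Cfg ds => G q.1 q.2) 2
      ((volume : Measure (Cfg r)).prod (volume : Measure (Cfg ds)))) :
    MemLp (fun x : Cfg dh => G (R⁻¹ • zpt ψ x) (spt ψ x)) 2 (volume : Measure (Cfg dh)) := by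
  have h1 : (Measure.map (lgT ψ R hR) (volume : Measure (Cfg dh))).IsAddHaarMeasure :=
    (lgT ψ R hR).isAddHaarMeasure_map _
  have h5 : ((volume : Measure (Cfg r)).prod (volume : Measure (Cfg ds))).IsAddHaarMeasure :=
    Measure.prod.instIsAddHaarMeasure _ _
  have h2 := Measure.isAddLeftInvariant_eq_smul (Measure.map (lgT ψ R hR) (volume : Measure (Cfg dh)))
    ((volume : Measure (Cfg r)).prod (volume : Measure (Cfg ds)))
  have h3 : MemLp (fun q : Cfg r × Cfg ds => G q.1 q.2) 2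
      (Measure.map (lgT ψ R hR) (volume : Measure (Cfg dh))) := by
    rw [h2]
    exact hG.smul_measure (by simp)
  exact (memLp_map_measure_iff h3.1 (lgT ψ R hR).continuous.aemeasurable).1 h3

theorem lg_mem (ψ : Spl r ds dh) {U : Set (Cfg r)} (hU : IsOpen U) {R : ℝ} (hR : 0 < R)
    {G : Cfg r → Cfg ds → F} (hG : MemLp (fun q : Cfg r × Cfg ds => G q.1 q.2) 2
      ((volume : Measure (Cfg r)).prod (volume : Measure (Cfg ds)))) {k : Cfg dh → Wsp dm → ℝ}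
    (hk : ContinuousOn (fun p : Cfg dh × Wsp dm => k p.1 p.2) {p | R⁻¹ • zpt ψ p.1 ∈ U}) {M b : ℝ}
    (hb : 0 < b) (hsup : ∀ η s, G η s ≠ 0 → η ∈ U)
    (hbd : ∀ x w, G (R⁻¹ • zpt ψ x) (spt ψ x) ≠ 0 → |k x w| ≤ M * Real.exp (-(b * ‖w‖ ^ 2))) :
    MemLp (fun p : Cfg dh × Wsp dm => ((k p.1 p.2 : ℝ) : ℂ) • G (R⁻¹ • zpt ψ p.1) (spt ψ p.1)) 2
      ((volume : Measure (Cfg dh)).prod (volume : Measure (Wsp dm))) := by
  have hF := lg_memF ψ hR hG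
  have hz : Continuous fun p : Cfg dh × Wsp dm => R⁻¹ • zpt ψ p.1 := by
    have := zpt_cont ψ
    fun_prop
  have hWo : IsOpen {p : Cfg dh × Wsp dm | R⁻¹ • zpt ψ p.1 ∈ U} := hU.preimage hz
  have e : (fun p : Cfg dh × Wsp dm => ((k p.1 p.2 : ℝ) : ℂ) • G (R⁻¹ • zpt ψ p.1) (spt ψ p.1)) =
      fun p => (({p : Cfg dh × Wsp dm | R⁻¹ • zpt ψ p.1 ∈ U}.indicator
        (fun p : Cfg dh × Wsp dm => k p.1 p.2) p : ℝ) : ℂ) • G (R⁻¹ • zpt ψ p.1) (spt ψ p.1) := by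
    funext p
    by_cases hp : R⁻¹ • zpt ψ p.1 ∈ U
    · rw [Set.indicator_of_mem (by exact hp)]
    · have h0 : G (R⁻¹ • zpt ψ p.1) (spt ψ p.1) = 0 := by
        by_contra h0
        exact hp (hsup _ _ h0)
      rw [h0, smul_zero, smul_zero]
  have hm : AEStronglyMeasurable (fun p : Cfg dh × Wsp dm =>
      ((k p.1 p.2 : ℝ) : ℂ) • G (R⁻¹ • zpt ψ p.1) (spt ψ p.1))
      ((volume : Measure (Cfg dh)).prod (volume : Measure (Wsp dm))) := by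
    rw [e]
    have h1 : AEStronglyMeasurable (({p : Cfg dh × Wsp dm | R⁻¹ • zpt ψ p.1 ∈ U}.indicator
        (fun p : Cfg dh × Wsp dm => k p.1 p.2)))
        ((volume : Measure (Cfg dh)).prod (volume : Measure (Wsp dm))) := by
      rw [aestronglyMeasurable_indicator_iff hWo.measurableSet]
      exact hk.aestronglyMeasurable hWo.measurableSet
    exact (Complex.continuous_ofReal.comp_aestronglyMeasurable h1).smul hF.1.comp_fst
  rw [memLp_two_iff_integrable_sq_norm hm]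
  have hg : Integrable (fun w : Wsp dm => Real.exp (-(2 * b * ‖w‖ ^ 2))) := by
    have := GaussianFourier.integrable_cexp_neg_mul_sq_norm_add (V := Wsp dm) (b := ((2 * b : ℝ) : ℂ))
      (by simpa using hb) 0 0
    have h2 := this.re
    refine h2.congr (Eventually.of_forall fun x => ?_)
    simp only [inner_zero_left, Complex.ofReal_zero, mul_zero, add_zero]
    rw [show (-((2 * b : ℝ) : ℂ) * (‖x‖ : ℂ) ^ 2) = ((-(2 * b * ‖x‖ ^ 2) : ℝ) : ℂ) by push_cast; ring,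
      ← Complex.ofReal_exp]
    exact Complex.ofReal_re _
  have h2 := (((memLp_two_iff_integrable_sq_norm hF.1).1 hF).mul_prod hg).const_mul (M ^ 2)
  refine h2.mono' (hm.norm.pow 2) (ae_of_all _ fun p => ?_)
  rw [Real.norm_eq_abs, abs_of_nonneg (by positivity), norm_smul, Complex.norm_real, mul_pow,
    Real.norm_eq_abs]
  by_cases h0 : G (R⁻¹ • zpt ψ p.1) (spt ψ p.1) = 0
  · rw [h0, norm_zero]
    simp
  · have h3 := hbd p.1 p.2 h0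
    have h4 : |k p.1 p.2| ^ 2 ≤ M ^ 2 * Real.exp (-(2 * b * ‖p.2‖ ^ 2)) := by
      calc |k p.1 p.2| ^ 2 ≤ (M * Real.exp (-(b * ‖p.2‖ ^ 2))) ^ 2 :=
            pow_le_pow_left₀ (abs_nonneg _) h3 2
        _ = M ^ 2 * Real.exp (-(2 * b * ‖p.2‖ ^ 2)) := by
            rw [mul_pow, ← Real.exp_nat_mul]
            congr 2
            push_cast
            ring
    calc |k p.1 p.2| ^ 2 * ‖G (R⁻¹ • zpt ψ p.1) (spt ψ p.1)‖ ^ 2 ≤
          (M ^ 2 * Real.exp (-(2 * b * ‖p.2‖ ^ 2))) * ‖G (R⁻¹ • zpt ψ p.1) (spt ψ p.1)‖ ^ 2 :=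
          mul_le_mul_of_nonneg_right h4 (by positivity)
      _ = _ := by ring

theorem lg_cut : ∃ c : ℝ → ℝ, IsCt c ∧ ∀ t, 9 / 16 ≤ t → c t = 0 := by
  refine ⟨fun t => 1 - Real.smoothTransition ((t - 1 / 4) * (16 / 5)), ⟨?_, ?_, ?_, ?_⟩, ?_⟩
  · exact contDiff_const.sub (Real.smoothTransition.contDiff.comp
      ((contDiff_id.sub contDiff_const).mul contDiff_const))
  · intro t ht
    show 1 - Real.smoothTransition _ = 1
    rw [Real.smoothTransition.zero_of_nonpos (by linarith)]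
    ring
  · intro t ht
    show 1 - Real.smoothTransition _ = 0
    rw [Real.smoothTransition.one_of_one_le (by linarith)]
    ring
  · intro t
    have h1 := Real.smoothTransition.nonneg ((t - 1 / 4) * (16 / 5))
    have h2 := Real.smoothTransition.le_one ((t - 1 / 4) * (16 / 5))
    exact ⟨by linarith, by linarith⟩
  · intro t ht
    show 1 - Real.smoothTransition _ = 0
    rw [Real.smoothTransition.one_of_one_le (by linarith)]
    ring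

theorem lg_nrm {α : Type*} [MeasurableSpace α] {μ : Measure α} {f : α → F} (hf : MemLp f 2 μ) :
    eLpNorm f 2 μ = ENNReal.ofReal (Real.sqrt (∫ x, ‖f x‖ ^ 2 ∂μ)) := by
  have h := AN.glu_real_sq hf
  have h1 : eLpNorm f 2 μ = ENNReal.ofReal (eLpNorm f 2 μ).toReal := (ENNReal.ofReal_toReal hf.2.ne).symm
  have h0 : 0 ≤ ∫ x, ‖f x‖ ^ 2 ∂μ := integral_nonneg fun x => sq_nonneg _
  rw [h1, ← ENNReal.ofReal_pow ENNReal.toReal_nonneg,
    ENNReal.ofReal_eq_ofReal_iff h0 (by positivity)] at h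
  rw [h1, h, Real.sqrt_sq ENNReal.toReal_nonneg, ← h1]
  
theorem lg_cs {α : Type*} [MeasurableSpace α] {μ : ℕ → Measure α} {f g : ℕ → α → F} {C : ℝ}
    (hf : ∀ n, MemLp (f n) 2 (μ n)) (hg : ∀ n, MemLp (g n) 2 (μ n))
    (h0 : Tendsto (fun n => ∫ x, ‖f n x‖ ^ 2 ∂(μ n)) atTop (𝓝 0))
    (hC : ∀ n, ∫ x, ‖g n x‖ ^ 2 ∂(μ n) ≤ C) :
    Tendsto (fun n => ∫ x, inner ℂ (f n x) (g n x) ∂(μ n)) atTop (𝓝 0) := by
  have h1 : ∀ n, ‖∫ x, inner ℂ (f n x) (g n x) ∂(μ n)‖ ≤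
      Real.sqrt (∫ x, ‖f n x‖ ^ 2 ∂(μ n)) * Real.sqrt C := by
    intro n
    have h2 := AN.glu_cs (hf n).1 (hg n).1
    rw [lg_nrm (hf n), lg_nrm (hg n), ← ENNReal.ofReal_mul (Real.sqrt_nonneg _), ← ofReal_norm,
      ENNReal.ofReal_le_ofReal_iff (by positivity)] at h2
    exact h2.trans (mul_le_mul_of_nonneg_left (Real.sqrt_le_sqrt (hC n)) (Real.sqrt_nonneg _))
  refine squeeze_zero_norm h1 ?_
  have h3 := (Real.continuous_sqrt.tendsto 0).comp h0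
  rw [Real.sqrt_zero] at h3
  simpa using h3.mul_const (Real.sqrt C)

section TA

variable {S : Setup d F} {φ : Spl dh dm d} {ψ : Spl r ds dh} {U : Set (Cfg r)}
  {Om : Cfg r → Matrix (Fin dm) (Fin dm) ℝ} {V : Cfg r → F →L[ℂ] F} {K : Submodule ℂ F}

theorem lg_inU {y₀ : Cfg r} {ε0 C0 : ℝ} (bf : BzFacts S φ ψ U Om y₀ ε0 C0) {η : Cfg r} (h : ‖η - y₀‖ ≤ ε0) :
    η ∈ U := by
  refine bf.inU 1 one_pos η ?_
  rw [one_smul, mul_one]
  exact h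

theorem lg_ray {y₀ y : Cfg r} {ρ R : ℝ} (hR : 0 < R) (h : ‖R⁻¹ • y - y₀‖ ≤ ρ) : ‖y - R • y₀‖ ≤ ρ * R := by
  have e : y - R • y₀ = R • (R⁻¹ • y - y₀) := by
    rw [smul_sub, smul_inv_smul₀ hR.ne']
  rw [e, norm_smul, Real.norm_eq_abs, abs_of_pos hR, mul_comm]
  exact mul_le_mul_of_nonneg_right h hR.le

theorem lg_U (hV : S.VFr φ ψ U Om V K) {R : ℝ} (hR : 0 < R) {y : Cfg r} (h : R⁻¹ • y ∈ U) : y ∈ U := by
  have := hV.cone _ h R hR
  rwa [smul_inv_smul₀ hR.ne'] at this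

theorem lg_Vh (hV : S.VFr φ ψ U Om V K) {R : ℝ} (hR : 0 < R) {y : Cfg r} (h : R⁻¹ • y ∈ U) :
    V y = V (R⁻¹ • y) := by
  have := hV.v_h _ h R hR
  rwa [smul_inv_smul₀ hR.ne'] at this

/-- the trial functions are in `L²` -/
theorem lg_memT (hV : S.VFr φ ψ U Om V K) {y₀ : Cfg r} {ε0 C0 : ℝ} (hC0 : 0 < C0)
    (bf : BzFacts S φ ψ U Om y₀ ε0 C0) {c : ℝ → ℝ} (hc : IsCt c) {ε R : ℝ} (hR : 0 < R)
    {a : Cfg r → Cfg ds → F} (ha : ∀ η s, a η s ≠ 0 → ‖η - y₀‖ ≤ ε0)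
    (hm : MemLp (fun q : Cfg r × Cfg ds => V q.1 (a q.1 q.2)) 2 (volume.prod volume)) :
    MemLp (fun p : Cfg dh × Wsp dm => S.TR φ ψ Om V c ε R a p.1 p.2) 2
      ((volume : Measure (Cfg dh)).prod (volume : Measure (Wsp dm))) := by
  have hU : ∀ η s, a η s ≠ 0 → η ∈ U := fun η s h => lg_inU bf (ha η s h)
  have hG : ∀ η s, V η (a η s) ≠ 0 → a η s ≠ 0 := fun η s h h0 => h (by rw [h0, map_zero])
  have hk : ContinuousOn (fun p : Cfg dh × Wsp dm => (Real.sqrt R ^ (9 * r))⁻¹ * c (‖p.2‖ ^ 2 / (ε * R) ^ 2) *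
      S.bz φ ψ Om (zpt ψ p.1) p.2) {p | R⁻¹ • zpt ψ p.1 ∈ U} := by
    have h2 : Continuous fun p : Cfg dh × Wsp dm => c (‖p.2‖ ^ 2 / (ε * R) ^ 2) :=
      hc.sm.continuous.comp ((continuous_snd.norm.pow 2).div_const _)
    refine ContinuousOn.mul (continuous_const.mul h2).continuousOn ?_
    refine bf.sm.continuousOn.comp (f := fun p : Cfg dh × Wsp dm => (zpt ψ p.1, p.2))
      (((zpt_cont ψ).comp continuous_fst).prodMk continuous_snd).continuousOn ?_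
    intro p hp
    exact ⟨lg_U hV hR hp, trivial⟩
  have hb : ∀ (x : Cfg dh) (w : Wsp dm), V (R⁻¹ • zpt ψ x) (a (R⁻¹ • zpt ψ x) (spt ψ x)) ≠ 0 →
      |(Real.sqrt R ^ (9 * r))⁻¹ * c (‖w‖ ^ 2 / (ε * R) ^ 2) * S.bz φ ψ Om (zpt ψ x) w| ≤
        ((Real.sqrt R ^ (9 * r))⁻¹ * (C0 * Real.sqrt R ^ (4 * dm))) * Real.exp (-(R / C0 * ‖w‖ ^ 2)) := by
    intro x w h
    have h1 := ha _ _ (hG _ _ h)
    have h2 := bf.up R hR (zpt ψ x) (lg_ray hR h1) w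
    have h3 := (bf.pos _ (lg_U hV hR (lg_inU bf h1)) w).le
    have h4 := hc.bd (‖w‖ ^ 2 / (ε * R) ^ 2)
    rw [abs_of_nonneg (mul_nonneg (mul_nonneg (by positivity) h4.1) h3)]
    have h5 : R * ‖w‖ ^ 2 / C0 = R / C0 * ‖w‖ ^ 2 := by ring
    rw [h5] at h2
    have h6 : c (‖w‖ ^ 2 / (ε * R) ^ 2) * S.bz φ ψ Om (zpt ψ x) w ≤
        1 * (C0 * Real.sqrt R ^ (4 * dm) * Real.exp (-(R / C0 * ‖w‖ ^ 2))) :=
      mul_le_mul h4.2 h2 h3 zero_le_one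
    have h7 : (0 : ℝ) ≤ (Real.sqrt R ^ (9 * r))⁻¹ := by positivity
    calc _ = (Real.sqrt R ^ (9 * r))⁻¹ * (c (‖w‖ ^ 2 / (ε * R) ^ 2) * S.bz φ ψ Om (zpt ψ x) w) := by ring
      _ ≤ (Real.sqrt R ^ (9 * r))⁻¹ * (1 * (C0 * Real.sqrt R ^ (4 * dm) * Real.exp (-(R / C0 * ‖w‖ ^ 2)))) :=
          mul_le_mul_of_nonneg_left h6 h7
      _ = _ := by ring
  have key := lg_mem (dm := dm) ψ hV.opn hR (G := fun η s => V η (a η s)) hm
    (k := fun x w => (Real.sqrt R ^ (9 * r))⁻¹ * c (‖w‖ ^ 2 / (ε * R) ^ 2) * S.bz φ ψ Om (zpt ψ x) w)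
    hk (M := (Real.sqrt R ^ (9 * r))⁻¹ * (C0 * Real.sqrt R ^ (4 * dm))) (b := R / C0) (by positivity)
    (fun η s h => hU η s (hG η s h)) hb
  have e : (fun p : Cfg dh × Wsp dm => S.TR φ ψ Om V c ε R a p.1 p.2) = fun p =>
      (((Real.sqrt R ^ (9 * r))⁻¹ * c (‖p.2‖ ^ 2 / (ε * R) ^ 2) * S.bz φ ψ Om (zpt ψ p.1) p.2 : ℝ) : ℂ) •
        V (R⁻¹ • zpt ψ p.1) (a (R⁻¹ • zpt ψ p.1) (spt ψ p.1)) := by
    funext p
    show (_ : ℂ) • V (zpt ψ p.1) (a (R⁻¹ • zpt ψ p.1) (spt ψ p.1)) = _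
    by_cases h0 : a (R⁻¹ • zpt ψ p.1) (spt ψ p.1) = 0
    · rw [h0, map_zero, map_zero]
    · rw [lg_Vh hV hR (hU _ _ h0)]
  rw [e]
  exact key

/-- the scaled sections are in `L²` -/
theorem lg_memA (hV : S.VFr φ ψ U Om V K) {y₀ : Cfg r} {ε0 C0 : ℝ} (hC0 : 0 < C0)
    (bf : BzFacts S φ ψ U Om y₀ ε0 C0) {R : ℝ} (hR : 0 < R)
    {a : Cfg r → Cfg ds → F} (ha : ∀ η s, a η s ≠ 0 → ‖η - y₀‖ ≤ ε0)
    (hm : MemLp (fun q : Cfg r × Cfg ds => V q.1 (a q.1 q.2)) 2 (volume.prod volume)) :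
    MemLp (fun p : Cfg dh × Wsp dm => AN.Ts0 ψ (AN.vG S φ ψ Om (fun η s => V η (a η s))) R p.1 p.2) 2
      ((volume : Measure (Cfg dh)).prod (volume : Measure (Wsp dm))) := by
  have hU : ∀ η s, a η s ≠ 0 → η ∈ U := fun η s h => lg_inU bf (ha η s h)
  have hG : ∀ η s, V η (a η s) ≠ 0 → a η s ≠ 0 := fun η s h h0 => h (by rw [h0, map_zero])
  have hk : ContinuousOn (fun p : Cfg dh × Wsp dm => R ^ (2 * (dm : ℝ) - 9 * (r : ℝ) / 2) *
      S.bz φ ψ Om (R⁻¹ • zpt ψ p.1) (Real.sqrt R • p.2)) {p | R⁻¹ • zpt ψ p.1 ∈ U} := by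
    refine continuousOn_const.mul ?_
    have hz : Continuous fun p : Cfg dh × Wsp dm => (R⁻¹ • zpt ψ p.1, Real.sqrt R • p.2) := by
      have := zpt_cont ψ
      fun_prop
    refine bf.sm.continuousOn.comp (f := fun p : Cfg dh × Wsp dm => (R⁻¹ • zpt ψ p.1, Real.sqrt R • p.2))
      hz.continuousOn ?_
    intro p hp
    exact ⟨hp, trivial⟩
  have hp0 : 0 < R ^ (2 * (dm : ℝ) - 9 * (r : ℝ) / 2) := Real.rpow_pos_of_pos hR _
  have hb : ∀ (x : Cfg dh) (w : Wsp dm), V (R⁻¹ • zpt ψ x) (a (R⁻¹ • zpt ψ x) (spt ψ x)) ≠ 0 →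
      |R ^ (2 * (dm : ℝ) - 9 * (r : ℝ) / 2) * S.bz φ ψ Om (R⁻¹ • zpt ψ x) (Real.sqrt R • w)| ≤
        (R ^ (2 * (dm : ℝ) - 9 * (r : ℝ) / 2) * C0) * Real.exp (-(R / C0 * ‖w‖ ^ 2)) := by
    intro x w h
    have h1 := ha _ _ (hG _ _ h)
    have h2 := bf.up 1 one_pos (R⁻¹ • zpt ψ x) (by rw [one_smul, mul_one]; exact h1) (Real.sqrt R • w)
    have h3 := (bf.pos _ (lg_inU bf h1) (Real.sqrt R • w)).le
    rw [abs_of_nonneg (mul_nonneg hp0.le h3)]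
    have h5 : 1 * ‖Real.sqrt R • w‖ ^ 2 / C0 = R / C0 * ‖w‖ ^ 2 := by
      rw [norm_smul, mul_pow, Real.norm_eq_abs, sq_abs, Real.sq_sqrt hR.le]
      ring
    rw [h5, Real.sqrt_one, one_pow, mul_one] at h2
    calc _ ≤ R ^ (2 * (dm : ℝ) - 9 * (r : ℝ) / 2) * (C0 * Real.exp (-(R / C0 * ‖w‖ ^ 2))) :=
          mul_le_mul_of_nonneg_left h2 hp0.le
      _ = _ := by ring
  have key := lg_mem (dm := dm) ψ hV.opn hR (G := fun η s => V η (a η s)) hm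
    (k := fun x w => R ^ (2 * (dm : ℝ) - 9 * (r : ℝ) / 2) * S.bz φ ψ Om (R⁻¹ • zpt ψ x) (Real.sqrt R • w))
    hk (M := R ^ (2 * (dm : ℝ) - 9 * (r : ℝ) / 2) * C0) (b := R / C0) (by positivity)
    (fun η s h => hU η s (hG η s h)) hb
  have e : (fun p : Cfg dh × Wsp dm => AN.Ts0 ψ (AN.vG S φ ψ Om (fun η s => V η (a η s))) R p.1 p.2) = fun p =>
      ((R ^ (2 * (dm : ℝ) - 9 * (r : ℝ) / 2) * S.bz φ ψ Om (R⁻¹ • zpt ψ p.1) (Real.sqrt R • p.2) : ℝ) : ℂ) •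
        V (R⁻¹ • zpt ψ p.1) (a (R⁻¹ • zpt ψ p.1) (spt ψ p.1)) := by
    funext p
    rw [Complex.ofReal_mul, mul_smul]
    rfl
  rw [e]
  exact key

/-- support of the derivative profile -/
theorem lg_DF {N : Fin 9 → Matrix (Fin 16) (Fin 16) ℂ} {μ : ℝ} {β : Fin 16} {ζ : Cfg r → ℂ} {Φ : Cfg ds → F}
    {y : Cfg r} {s : Cfg ds} (h : S.DF φ ψ N μ β (pp ζ Φ) y s ≠ 0) : y ∈ tsupport ζ ∧ Φ s ≠ 0 := by
  constructor
  · by_contra hy
    apply h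
    have h1 : ζ =ᶠ[𝓝 y] 0 := notMem_tsupport_iff_eventuallyEq.1 hy
    have h2 : (fun y' => pp ζ Φ y' s) =ᶠ[𝓝 y] fun _ => (0 : F) := by
      filter_upwards [h1] with y' hy'
      show ζ y' • Φ s = 0
      rw [hy', Pi.zero_apply, zero_smul]
    have h3 : ∀ i A, pd i A (fun y' => pp ζ Φ y' s) y = 0 := by
      intro i A
      show fderiv ℝ (fun y' => pp ζ Φ y' s) y _ = 0
      rw [h2.fderiv_eq, fderiv_fun_const]
      rfl
    have h4 : pp ζ Φ y s = 0 := h2.self_of_nhds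
    unfold Setup.DF
    simp only [h3, h4, map_zero, smul_zero, Finset.sum_const_zero, add_zero]
  · intro hs
    apply h
    have h2 : (fun y' => pp ζ Φ y' s) = fun _ => (0 : F) := by
      funext y'
      show ζ y' • Φ s = 0
      rw [hs, smul_zero]
    have h3 : ∀ i A, pd i A (fun y' => pp ζ Φ y' s) y = 0 := by
      intro i A
      show fderiv ℝ (fun y' => pp ζ Φ y' s) y _ = 0
      rw [h2, fderiv_fun_const]
      rfl
    have h4 : pp ζ Φ y s = 0 := congrFun h2 y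
    unfold Setup.DF
    simp only [h3, h4, map_zero, smul_zero, Finset.sum_const_zero, add_zero]

/-- support of the trial functions -/
theorem lg_sup {y₀ : Cfg r} {c : ℝ → ℝ} (hc0 : ∀ t, 9 / 16 ≤ t → c t = 0) {ε R η : ℝ} (hε : 0 < ε) (hR : 0 < R)
    (hη : η ≤ ε / 2) {a : Cfg r → Cfg ds → F} (ha : ∀ y s, a y s ≠ 0 → ‖y - y₀‖ < ε / 2 ∧ ‖s‖ ≤ η * R)
    {y : Cfg dh} {w : Wsp dm} (h : S.TR φ ψ Om V c ε R a y w ≠ 0) :
    ‖y - R • cmb ψ y₀ 0‖ < 3 / 4 * ε * R ∧ ‖w‖ < 3 / 4 * ε * R := by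
  have hεR : 0 < ε * R := mul_pos hε hR
  constructor
  · have h1 : a (R⁻¹ • zpt ψ y) (spt ψ y) ≠ 0 := by
      intro h0
      apply h
      show (_ : ℂ) • V (zpt ψ y) (a (R⁻¹ • zpt ψ y) (spt ψ y)) = 0
      rw [h0, map_zero, smul_zero]
    obtain ⟨h2, h3⟩ := ha _ _ h1
    have h4 := lg_ray hR h2.le
    have h5 := norm_sub_ray ψ y y₀ R
    have h6 : ‖spt ψ y‖ ≤ ε / 2 * R := h3.trans (mul_le_mul_of_nonneg_right hη hR.le)
    have h7 : ‖y - R • cmb ψ y₀ 0‖ ^ 2 < (3 / 4 * ε * R) ^ 2 := by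
      rw [h5]
      nlinarith [norm_nonneg (zpt ψ y - R • y₀), norm_nonneg (spt ψ y)]
    exact lt_of_pow_lt_pow_left₀ 2 (by positivity) h7
  · by_contra h0
    push Not at h0
    apply h
    have h1 : 9 / 16 ≤ ‖w‖ ^ 2 / (ε * R) ^ 2 := by
      rw [le_div_iff₀ (by positivity)]
      have := pow_le_pow_left₀ (by positivity) h0 2
      nlinarith
    have h2 := hc0 _ h1
    show (((Real.sqrt R ^ (9 * r))⁻¹ * c (‖w‖ ^ 2 / (ε * R) ^ 2) * S.bz φ ψ Om (zpt ψ y) w : ℝ) : ℂ) • _ = (0 : F)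
    rw [h2]
    simp

end TA

/-- squared norms of approximants -/
theorem lg_nsq {f g : Cfg ds → F} (hf : MemLp f 2 (volume : Measure (Cfg ds))) (hg : MemLp g 2 (volume : Measure (Cfg ds))) :
    nsq f ≤ 2 * nsq (fun s => f s - g s) + 2 * nsq g := by
  have i1 := (memLp_two_iff_integrable_sq_norm hf.1).1 hf
  have i2 := (memLp_two_iff_integrable_sq_norm hg.1).1 hg
  have i3 := (memLp_two_iff_integrable_sq_norm (hf.sub hg).1).1 (hf.sub hg)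
  unfold nsq
  rw [← integral_const_mul, ← integral_const_mul, ← integral_add]
  · refine integral_mono i1 ((i3.const_mul 2).add (i2.const_mul 2)) fun s => ?_
    show ‖f s‖ ^ 2 ≤ 2 * ‖f s - g s‖ ^ 2 + 2 * ‖g s‖ ^ 2
    have h1 : ‖f s‖ ≤ ‖f s - g s‖ + ‖g s‖ := by
      simpa using norm_add_le (f s - g s) (g s)
    have h2 := pow_le_pow_left₀ (norm_nonneg _) h1 2
    nlinarith [sq_nonneg (‖f s - g s‖ - ‖g s‖)]
  · exact i3.const_mul 2
  · exact i2.const_mul 2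

/-- integral against a function supported in `s` -/
theorem lg_ip {α : Type*} [MeasurableSpace α] {μ : Measure α} {s : Set α} {T X Y : α → F}
    (h : ∀ p, T p ≠ 0 → p ∈ s ∧ X p = Y p) :
    ∫ p, inner ℂ (T p) (X p) ∂μ = ∫ p in s, inner ℂ (T p) (Y p) ∂μ := by
  have h1 : ∀ p, inner ℂ (T p) (X p) = (inner ℂ (T p) (Y p) : ℂ) := by
    intro p
    by_cases h0 : T p = 0
    · rw [h0, inner_zero_left, inner_zero_left]
    · rw [(h p h0).2]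
  simp_rw [h1]
  refine (setIntegral_eq_integral_of_forall_compl_eq_zero fun p hp => ?_).symm
  have h0 : T p = 0 := by
    by_contra h0
    exact hp (h p h0).1
  rw [h0, inner_zero_left]

theorem lg_sub {α : Type*} [MeasurableSpace α] {μ : Measure α} {A T X : α → F} (hA : MemLp A 2 μ) (hT : MemLp T 2 μ)
    (hX : MemLp X 2 μ) :
    ∫ p, inner ℂ (A p) (X p) ∂μ - ∫ p, inner ℂ (T p) (X p) ∂μ = ∫ p, inner ℂ (A p - T p) (X p) ∂μ := by
  rw [← integral_sub (AN.glu_int hA hX) (AN.glu_int hT hX)]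
  refine integral_congr_ae (ae_of_all _ fun p => ?_)
  exact (inner_sub_left _ _ _).symm

/-- **EG-LocG** -/
theorem locG (S : Setup d F) (φ : Spl dh dm d) (ψ : Spl r ds dh) (hLoc : LocStmt S φ ψ) (hBz : BzStmt S φ ψ)
    (hCut : CutGStmt S φ) (hTL : TLStmt S φ ψ) (hQ : QInvStmt S) : LocGStmt S φ ψ := by
  intro iF hφ hc N hN U Om V K hV y₀ hy₀ hStd
  obtain ⟨c, hct, hct0⟩ := lg_cut
  obtain ⟨ε1, hε1, H1⟩ := hLoc iF hφ hc N hN U Om V K hV y₀ hy₀ hStd c hct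
  obtain ⟨ε2, C0, hε2, hC0, bf⟩ := hBz hφ hc U Om V K hV y₀ hy₀
  obtain ⟨ε3, hε3, H3⟩ := hCut iF N hN.real (cmb ψ y₀ 0) hStd
  refine ⟨min ε1 (min ε2 ε3), lt_min hε1 (lt_min hε2 hε3), ?_⟩
  intro ε hε hεle ζ hζ hζs μ hμ o ho R u C hu β
  have hle1 : ε ≤ ε1 := hεle.trans (min_le_left _ _)
  have hle2 : ε ≤ ε2 := hεle.trans ((min_le_right _ _).trans (min_le_left _ _))
  have hle3 : ε ≤ ε3 := hεle.trans ((min_le_right _ _).trans (min_le_right _ _))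
  obtain ⟨C3, hC3, H3⟩ := H3 ε hε hle3
  have Hres := fun n => (H3 (R n) (hu.one n)).1
  choose Θ hΘ1 hΘ2 hΘ3 hΘ4 hΘ5 using fun n => (H3 (R n) (hu.one n)).2
  obtain ⟨η, Φ, ia⟩ := ho.app R hu.one hu.lim
  have hR : ∀ n, 0 < R n := fun n => one_pos.trans_le (hu.one n)
  have hΦm : ∀ n, MemLp (Φ n) 2 (volume : Measure (Cfg ds)) := fun n => (ia.intf n).tst.memLp
  have hC : 0 ≤ C := (integral_nonneg fun x => sq_nonneg _).trans (hu.nrm 0)
  have sp : ∀ (Ψ : Cfg ds → F) y s, pp ζ Ψ y s ≠ 0 → y ∈ tsupport ζ ∧ Ψ s ≠ 0 := by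
    intro Ψ y s h
    refine ⟨subset_tsupport _ fun h0 => h ?_, fun h0 => h ?_⟩
    · show ζ y • Ψ s = 0
      rw [h0, zero_smul]
    · show ζ y • Ψ s = 0
      rw [h0, smul_zero]
  have bl : ∀ y, y ∈ tsupport ζ → ‖y - y₀‖ < ε / 2 := fun y hy => mem_ball_iff_norm.1 (hζs hy)
  have bl2 : ∀ y, y ∈ tsupport ζ → ‖y - y₀‖ ≤ ε2 := fun y hy => by linarith [bl y hy]
  obtain ⟨t1, t2, -, t4, t5⟩ := hTL iF hφ hc N U Om V K hV y₀ ε2 C0 hε2 bf c hct ε hε hle2 ζ hζ hζs μ R Φ o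
    hu.one hu.lim ho.mem (fun n => (ia.intf n).tst) ia.lim
  have tt : ∀ n, MemLp (fun q : Cfg r × Cfg ds => V q.1 (pp ζ (Φ n) q.1 q.2)) 2 (volume.prod volume) ∧
      ∀ β, MemLp (fun q : Cfg r × Cfg ds => V q.1 (S.DF φ ψ N μ β (pp ζ (Φ n)) q.1 q.2)) 2
        (volume.prod volume) := by
    intro n
    obtain ⟨-, -, -, t6, t7⟩ := hTL iF hφ hc N U Om V K hV y₀ ε2 C0 hε2 bf c hct ε hε hle2 ζ hζ hζs μ
      (fun k => (k : ℝ) + 1) (fun _ => Φ n) (Φ n) (fun k => by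
        have := Nat.cast_nonneg (α := ℝ) k
        linarith) (tendsto_atTop_add_const_right _ _ tendsto_natCast_atTop_atTop) (hΦm n)
      (fun _ => (ia.intf n).tst) (by simp [nsq])
    exact ⟨t6, t7⟩
  have mA := fun n => lg_memA (dm := dm) (S := S) (φ := φ) hV hC0 bf (hR n) (a := pp ζ o)
    (fun y s h => bl2 y (sp o y s h).1) t4
  have mA' := fun n => lg_memA (dm := dm) (S := S) (φ := φ) hV hC0 bf (hR n) (a := S.DF φ ψ N μ β (pp ζ o))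
    (fun y s h => bl2 y (lg_DF h).1) (t5 β)
  have mT := fun n => lg_memT (dm := dm) (S := S) (φ := φ) hV hC0 bf hct (ε := ε) (hR n) (a := pp ζ (Φ n))
    (fun y s h => bl2 y (sp _ y s h).1) (tt n).1
  have mT' := fun n => lg_memT (dm := dm) (S := S) (φ := φ) hV hC0 bf hct (ε := ε) (hR n)
    (a := S.DF φ ψ N μ β (pp ζ (Φ n))) (fun y s h => bl2 y (lg_DF h).1) ((tt n).2 β)
  have giQ : ∀ n, GI S (QN S N (μ / R n ^ 2) β (u n)) := fun n => hQ _ _ _ _ (hu.gi n)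
  have mQ := fun n => AN.glu_res_memLp S φ (dm := dm) (giQ n).tst.1.continuous (cmb ψ y₀ 0) (R n) ε
  have mu := fun n => AN.glu_res_memLp S φ (dm := dm) (hu.gi n).tst.1.continuous (cmb ψ y₀ 0) (R n) ε
  -- norm bounds
  have hb1 : ∀ n, ∫ p, ‖((R n : ℝ) : ℂ) • S.res φ (QN S N (μ / R n ^ 2) β (u n)) p.1 p.2‖ ^ 2
      ∂(((volume : Measure (Cfg dh)).prod (volume : Measure (Wsp dm))).restrict
        (AN.Nb (cmb ψ y₀ 0) dm (R n) ε)) ≤ C3 * C := by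
    intro n
    have h1 := Hres n _ (giQ n)
    have h2 : nsq (QN S N (μ / R n ^ 2) β (u n)) ≤ ∑ β, nsq (QN S N (μ / R n ^ 2) β (u n)) :=
      Finset.single_le_sum (f := fun β => nsq (QN S N (μ / R n ^ 2) β (u n)))
        (fun i _ => integral_nonneg fun x => sq_nonneg _) (Finset.mem_univ β)
    have h3 := hu.en n
    have h4 : ∀ p : Cfg dh × Wsp dm, ‖((R n : ℝ) : ℂ) • S.res φ (QN S N (μ / R n ^ 2) β (u n)) p.1 p.2‖ ^ 2 =
        R n ^ 2 * ‖S.res φ (QN S N (μ / R n ^ 2) β (u n)) p.1 p.2‖ ^ 2 := by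
      intro p
      rw [norm_smul, mul_pow, Complex.norm_real, Real.norm_eq_abs, sq_abs]
    simp_rw [h4]
    rw [integral_const_mul]
    calc _ ≤ R n ^ 2 * (C3 * nsq (QN S N (μ / R n ^ 2) β (u n))) := mul_le_mul_of_nonneg_left h1 (sq_nonneg _)
      _ = C3 * (R n ^ 2 * nsq (QN S N (μ / R n ^ 2) β (u n))) := by ring
      _ ≤ C3 * C := mul_le_mul_of_nonneg_left ((mul_le_mul_of_nonneg_left h2 (sq_nonneg _)).trans h3) hC3
  have hb2 : ∀ n, ∫ p, ‖S.res φ (u n) p.1 p.2‖ ^ 2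
      ∂(((volume : Measure (Cfg dh)).prod (volume : Measure (Wsp dm))).restrict
        (AN.Nb (cmb ψ y₀ 0) dm (R n) ε)) ≤ C3 * C := fun n =>
    (Hres n _ (hu.gi n)).trans (mul_le_mul_of_nonneg_left (hu.nrm n) hC3)
  have k1 := lg_cs (μ := fun n => ((volume : Measure (Cfg dh)).prod (volume : Measure (Wsp dm))).restrict
    (AN.Nb (cmb ψ y₀ 0) dm (R n) ε)) (fun n => ((mA n).sub (mT n)).mono_measure Measure.restrict_le_self)
    (fun n => (mQ n).const_smul ((R n : ℝ) : ℂ)) (squeeze_zero (fun n => integral_nonneg fun p => sq_nonneg _)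
      (fun n => setIntegral_le_integral ((memLp_two_iff_integrable_sq_norm ((mA n).sub (mT n)).1).1
        ((mA n).sub (mT n))) (ae_of_all _ fun p => sq_nonneg _)) t1) hb1
  have k2 := lg_cs (μ := fun n => ((volume : Measure (Cfg dh)).prod (volume : Measure (Wsp dm))).restrict
    (AN.Nb (cmb ψ y₀ 0) dm (R n) ε)) (fun n => ((mA' n).sub (mT' n)).mono_measure Measure.restrict_le_self)
    mu (squeeze_zero (fun n => integral_nonneg fun p => sq_nonneg _)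
      (fun n => setIntegral_le_integral ((memLp_two_iff_integrable_sq_norm ((mA' n).sub (mT' n)).1).1
        ((mA' n).sub (mT' n))) (ae_of_all _ fun p => sq_nonneg _)) (t2 β)) hb2
  -- the limit equation for the trial functions
  obtain ⟨n0, hn0⟩ : ∃ n0 : ℕ, ∀ n, n0 ≤ n → η n ≤ ε / 2 ∧ nsq (fun s => Φ n s - o s) ≤ 1 := by
    have h1 : ∀ᶠ n in atTop, η n ≤ ε / 2 := ia.eta_lim.eventually_le_const (by positivity)
    have h2 : ∀ᶠ n in atTop, nsq (fun s => Φ n s - o s) ≤ 1 := ia.lim.eventually_le_const one_pos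
    exact eventually_atTop.1 (h1.and h2)
  have hno : 0 ≤ nsq o := integral_nonneg fun x => sq_nonneg _
  have hl := fun n : ℕ => Nat.le_add_left n0 n
  have k3 := H1 ε hε hle1 ζ hζ hζs μ hμ (fun n => R (n + n0)) (fun n => η (n + n0)) (fun n => Φ (n + n0))
    (fun n => mul2 (Θ (n + n0)) (S.res φ (u (n + n0)))) ((2 + 2 * nsq o) + C3 * (C + C))
    (hu.lim.comp (tendsto_add_atTop_nat n0)) (fun n => hu.one _) (fun n => ⟨ia.eta _, (hn0 _ (hl n)).1⟩)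
    (ia.eta_lim.comp (tendsto_add_atTop_nat n0)) (fun n => ia.intf _) (fun n => by
      have h1 := lg_nsq (hΦm (n + n0)) ho.mem
      have h2 := (hn0 _ (hl n)).2
      have h3 : 0 ≤ C3 * (C + C) := by positivity
      linarith) (ia.grad.comp (tendsto_add_atTop_nat n0)) (ia.en.comp (tendsto_add_atTop_nat n0))
    (fun n => (hΘ5 _ (μ / R (n + n0) ^ 2) _ (hu.gi (n + n0))).1) (fun n => (hΘ5 _ (μ / R (n + n0) ^ 2) _ (hu.gi (n + n0))).2.1)
    (fun n => by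
      have h1 := (hΘ5 (n + n0) (μ / R (n + n0) ^ 2) _ (hu.gi (n + n0))).2.2.1
      have h2 := mul_le_mul_of_nonneg_left (hu.nrm (n + n0)) hC3
      have h3 : 0 ≤ C3 * C := by positivity
      linarith)
    (fun n => by
      have h1 := (hΘ5 (n + n0) (μ / R (n + n0) ^ 2) _ (hu.gi (n + n0))).2.2.2.1
      have h2 := mul_le_mul_of_nonneg_left h1 (sq_nonneg (R (n + n0)))
      refine h2.trans ?_
      have h3 := hu.en (n + n0)
      have h4 := hu.nrm (n + n0)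
      have h5 := (hR (n + n0)).ne'
      have e : R (n + n0) ^ 2 * (C3 * ((∑ β, nsq (QN S N (μ / R (n + n0) ^ 2) β (u (n + n0)))) +
          1 / R (n + n0) ^ 2 * nsq (u (n + n0)))) =
          C3 * (R (n + n0) ^ 2 * (∑ β, nsq (QN S N (μ / R (n + n0) ^ 2) β (u (n + n0)))) + nsq (u (n + n0))) := by
        field_simp
      rw [e]
      have h6 := mul_le_mul_of_nonneg_left (add_le_add h3 h4) hC3
      linarith) β
  have k4 := (tendsto_add_atTop_iff_nat (f := fun n => (R n : ℂ) * ip2 (S.TR φ ψ Om V c ε (R n) (pp ζ (Φ n)))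
    (S.QS φ N (μ / R n ^ 2) β (mul2 (Θ n) (S.res φ (u n)))) -
      ip2 (S.TR φ ψ Om V c ε (R n) (S.DF φ ψ N μ β (pp ζ (Φ n)))) (mul2 (Θ n) (S.res φ (u n)))) n0).1 k3
  have k5 := (k1.sub k2).add k4
  rw [sub_zero, add_zero] at k5
  refine k5.congr' ?_
  filter_upwards [eventually_ge_atTop n0] with n hn
  have hη := (hn0 n hn).1
  have sT : ∀ p : Cfg dh × Wsp dm, S.TR φ ψ Om V c ε (R n) (pp ζ (Φ n)) p.1 p.2 ≠ 0 →
      ‖p.1 - R n • cmb ψ y₀ 0‖ < 3 / 4 * ε * R n ∧ ‖p.2‖ < 3 / 4 * ε * R n := fun p h =>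
    lg_sup hct0 hε (hR n) hη (fun y s h => ⟨bl y (sp _ y s h).1, (ia.intf n).sup s (sp _ y s h).2⟩) h
  have sT' : ∀ p : Cfg dh × Wsp dm, S.TR φ ψ Om V c ε (R n) (S.DF φ ψ N μ β (pp ζ (Φ n))) p.1 p.2 ≠ 0 →
      ‖p.1 - R n • cmb ψ y₀ 0‖ < 3 / 4 * ε * R n ∧ ‖p.2‖ < 3 / 4 * ε * R n := fun p h =>
    lg_sup hct0 hε (hR n) hη (fun y s h => ⟨bl y (lg_DF h).1, (ia.intf n).sup s (lg_DF h).2⟩) h
  have hlt : 3 / 4 * ε * R n < ε * R n := by nlinarith [mul_pos hε (hR n)]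
  have e1 : ip2 (S.TR φ ψ Om V c ε (R n) (pp ζ (Φ n))) (S.QS φ N (μ / R n ^ 2) β (mul2 (Θ n) (S.res φ (u n)))) =
      ∫ p in AN.Nb (cmb ψ y₀ 0) dm (R n) ε, inner ℂ (S.TR φ ψ Om V c ε (R n) (pp ζ (Φ n)) p.1 p.2)
        (S.res φ (QN S N (μ / R n ^ 2) β (u n)) p.1 p.2)
        ∂((volume : Measure (Cfg dh)).prod (volume : Measure (Wsp dm))) := by
    refine lg_ip (T := fun p : Cfg dh × Wsp dm => S.TR φ ψ Om V c ε (R n) (pp ζ (Φ n)) p.1 p.2)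
      (X := fun p : Cfg dh × Wsp dm => S.QS φ N (μ / R n ^ 2) β (mul2 (Θ n) (S.res φ (u n))) p.1 p.2)
      (Y := fun p : Cfg dh × Wsp dm => S.res φ (QN S N (μ / R n ^ 2) β (u n)) p.1 p.2) fun p hp => ?_
    obtain ⟨h1, h2⟩ := sT p hp
    exact ⟨⟨h1.trans hlt, h2.trans hlt⟩, (hΘ5 n (μ / R n ^ 2) _ (hu.gi n)).2.2.2.2.1 β p.1 p.2 h1 h2⟩
  have e2 : ip2 (S.TR φ ψ Om V c ε (R n) (S.DF φ ψ N μ β (pp ζ (Φ n)))) (mul2 (Θ n) (S.res φ (u n))) =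
      ∫ p in AN.Nb (cmb ψ y₀ 0) dm (R n) ε, inner ℂ (S.TR φ ψ Om V c ε (R n) (S.DF φ ψ N μ β (pp ζ (Φ n))) p.1 p.2)
        (S.res φ (u n) p.1 p.2) ∂((volume : Measure (Cfg dh)).prod (volume : Measure (Wsp dm))) := by
    refine lg_ip (T := fun p : Cfg dh × Wsp dm => S.TR φ ψ Om V c ε (R n) (S.DF φ ψ N μ β (pp ζ (Φ n))) p.1 p.2)
      (X := fun p : Cfg dh × Wsp dm => mul2 (Θ n) (S.res φ (u n)) p.1 p.2)
      (Y := fun p : Cfg dh × Wsp dm => S.res φ (u n) p.1 p.2) fun p hp => ?_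
    obtain ⟨h1, h2⟩ := sT' p hp
    refine ⟨⟨h1.trans hlt, h2.trans hlt⟩, ?_⟩
    show ((Θ n p.1 p.2 : ℝ) : ℂ) • S.res φ (u n) p.1 p.2 = _
    rw [hΘ4 n p.1 p.2 h1 h2, Complex.ofReal_one, one_smul]
  have f1 := lg_sub ((mA n).mono_measure (Measure.restrict_le_self (s := AN.Nb (cmb ψ y₀ 0) dm (R n) ε)))
    ((mT n).mono_measure (Measure.restrict_le_self (s := AN.Nb (cmb ψ y₀ 0) dm (R n) ε))) (mQ n)
  have f2 := lg_sub ((mA' n).mono_measure (Measure.restrict_le_self (s := AN.Nb (cmb ψ y₀ 0) dm (R n) ε)))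
    ((mT' n).mono_measure (Measure.restrict_le_self (s := AN.Nb (cmb ψ y₀ 0) dm (R n) ε))) (mu n)
  have g1 : ∫ p in AN.Nb (cmb ψ y₀ 0) dm (R n) ε, inner ℂ
      (AN.Ts0 ψ (AN.vG S φ ψ Om (fun η s => V η (pp ζ o η s))) (R n) p.1 p.2 -
        S.TR φ ψ Om V c ε (R n) (pp ζ (Φ n)) p.1 p.2)
      (((R n : ℝ) : ℂ) • S.res φ (QN S N (μ / R n ^ 2) β (u n)) p.1 p.2)
        ∂((volume : Measure (Cfg dh)).prod (volume : Measure (Wsp dm))) =
      ((R n : ℝ) : ℂ) * ∫ p in AN.Nb (cmb ψ y₀ 0) dm (R n) ε, inner ℂ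
      (AN.Ts0 ψ (AN.vG S φ ψ Om (fun η s => V η (pp ζ o η s))) (R n) p.1 p.2 -
        S.TR φ ψ Om V c ε (R n) (pp ζ (Φ n)) p.1 p.2)
      (S.res φ (QN S N (μ / R n ^ 2) β (u n)) p.1 p.2)
        ∂((volume : Measure (Cfg dh)).prod (volume : Measure (Wsp dm))) := by
    rw [← integral_const_mul]
    refine integral_congr_ae (ae_of_all _ fun p => ?_)
    exact inner_smul_right _ _ _
  rw [e1, e2]
  refine Eq.trans (congrArg₂ (· + ·) (congrArg₂ (· - ·) (g1.trans (congrArg _ f1.symm)) f2.symm) rfl) ?_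
  show _ = ((R n : ℝ) : ℂ) * (∫ p in AN.Nb (cmb ψ y₀ 0) dm (R n) ε,
    inner ℂ (AN.Ts0 ψ (AN.vG S φ ψ Om (fun η s => V η (pp ζ o η s))) (R n) p.1 p.2)
      (S.res φ (QN S N (μ / R n ^ 2) β (u n)) p.1 p.2)
      ∂((volume : Measure (Cfg dh)).prod (volume : Measure (Wsp dm)))) -
    ∫ p in AN.Nb (cmb ψ y₀ 0) dm (R n) ε,
      inner ℂ (AN.Ts0 ψ (AN.vG S φ ψ Om (fun η s => V η (S.DF φ ψ N μ β (pp ζ o) η s))) (R n) p.1 p.2)
        (S.res φ (u n) p.1 p.2) ∂((volume : Measure (Cfg dh)).prod (volume : Measure (Wsp dm)))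
  ring

end Vale.Agent.P353.Z.AE
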