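import Vale.Agent.P353.AN.E.StmtG

/-! # P353, all `N`, block E: limit equation for the global functional near a point (`LocZStmt`) -/

open MeasureTheory Filter Topology Matrix
open scoped ContDiff

namespace Vale.Agent.P353.Z.AE

namespace LocZ518

variable {d dh dm r ds : ℕ} {F : Type*} [NormedAddCommGroup F] [InnerProductSpace ℂ F]

/-! ### frozen points -/

lemma frz {S : Setup d F} {φ : Spl dh dm d} {ψ : Spl r ds dh} (hs : S.IsSub φ) (hc : S.IsCen φ ψ) {y : Cfg r}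
    (h8 : (S.Dz φ ψ y 8).det ≠ 0) : Frz (S.Dz φ ψ y) := by
  have hT := AX.tor_Dz hs hc h8
  rw [← AX.DM_Dz] at h8 ⊢
  refine ⟨?_, ?_, h8⟩
  · intro i
    simp only [DM, Matrix.transpose_sum, Matrix.transpose_smul, hT.anti, smul_neg, Finset.sum_neg_distrib]
  · intro i j
    simp only [DM, Finset.sum_mul_sum, smul_mul_smul_comm]
    rw [Finset.sum_comm]
    refine Finset.sum_congr rfl fun a _ => Finset.sum_congr rfl fun b _ => ?_
    rw [hT.comm, mul_comm]

lemma std {S : Setup d F} {φ : Spl dh dm d} {ψ : Spl r ds dh} (hs : S.IsSub φ) (hc : S.IsCen φ ψ) {y : Cfg r}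
    (h8 : (S.Dz φ ψ y 8).det ≠ 0) : AN.Std S φ (cmb ψ y 0) := by
  refine ⟨hs, ?_, h8⟩
  intro i B C
  rw [← ψ.sum_comp, Fintype.sum_sum_type]
  have e1 : ∀ A : Fin ds, cmb ψ y 0 (i, ψ (Sum.inr A)) = 0 := by
    intro A
    simp [cmb]
  have e2 : ∀ A : Fin r, S.f (φ (Sum.inl (ψ (Sum.inl A)))) (φ (Sum.inl B)) (φ (Sum.inl C)) = 0 :=
    fun A => hc A B C
  simp [e1, e2]

/-! ### linearity -/

lemma ZL_smul (S : Setup d F) (φ : Spl dh dm d) (ψ : Spl r ds dh) (Om : Cfg r → Matrix (Fin dm) (Fin dm) ℝ)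
    (χ : Cfg r × Cfg ds × Cfg dm → ℝ) (R : ℝ) (a : Cfg r → Cfg ds → F) (c : ℂ) (u : Cfg d → F) :
    ZL S φ ψ Om χ R a (fun x => c • u x) = c * ZL S φ ψ Om χ R a u := by
  unfold ZL
  simp only [inner_smul_right]
  exact integral_const_mul _ _

lemma SL_smul (S : Setup d F) (φ : Spl dh dm d) (ψ : Spl r ds dh) (Om : Cfg r → Matrix (Fin dm) (Fin dm) ℝ)
    (y₀ : Cfg r) (ε R : ℝ) (a : Cfg r → Cfg ds → F) (c : ℂ) (u : Cfg d → F) :
    SL S φ ψ Om y₀ ε R a (fun x => c • u x) = c * SL S φ ψ Om y₀ ε R a u := by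
  have h : ∀ (y : Cfg dh) (w : Wsp dm), S.res φ (fun x => c • u x) y w = c • S.res φ u y w := by
    intro y w
    simp only [Setup.res]
    rw [smul_comm]
  unfold SL
  simp only [h, inner_smul_right]
  exact integral_const_mul _ _

lemma GI_smul {S : Setup d F} {u : Cfg d → F} (h : GI S u) (c : ℝ) : GI S (fun x => (c : ℂ) • u x) := by
  refine ⟨Setup.Tst.rsmul (φ := fun _ => c) contDiff_const h.tst, fun C x => ?_⟩
  have hd : Differentiable ℝ u := fun x => h.tst.diff x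
  have hp : ∀ (i : Fin 9) (A : Fin d) (x : Cfg d), pd i A (fun y => (c : ℂ) • u y) x = (c : ℂ) • pd i A u x := by
    intro i A x
    have := pd_rsmul (i := i) (A := A) (φ := fun _ => c) (u := u) (x := x)
      (differentiableAt_const c) (hd x)
    simpa using this
  have h1 : S.G C (fun y => (c : ℂ) • u y) x = (c : ℂ) • S.G C u x := by
    simp only [Setup.G, hp, map_smul]
    simp only [smul_comm _ (c : ℂ), ← Finset.smul_sum]
    rw [smul_add]
  rw [h1, h.inv, smul_zero]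

lemma nsq_smul (c : ℝ) (u : Cfg d → F) : nsq (fun x => (c : ℂ) • u x) = c ^ 2 * nsq u := by
  unfold nsq
  rw [← integral_const_mul]
  congr 1
  funext x
  rw [norm_smul, Complex.norm_real, mul_pow, Real.norm_eq_abs, sq_abs]

/-! ### square integrability of the sections -/

lemma mem_sec {U : Set (Cfg r)} {V : Cfg r → F →L[ℂ] F} (hU : IsOpen U) (hV : ContinuousOn V U) {h : Cfg r → ℂ}
    (hh : Continuous h) (hc : HasCompactSupport h) (hsub : tsupport h ⊆ U) (T : F →L[ℂ] F) {o : Cfg ds → F}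
    (ho : MemLp o 2 (volume : Measure (Cfg ds))) :
    MemLp (fun q : Cfg r × Cfg ds => V q.1 (h q.1 • T (o q.2))) 2 (volume.prod volume) := by
  set g : Cfg r → F →L[ℂ] F := fun η => h η • V η with hg
  have hgt : tsupport g ⊆ tsupport h := closure_mono (Function.support_smul_subset_left h V)
  have hgc : Continuous g := (hh.continuousOn.smul hV).continuous_of_tsupport_subset hU (hgt.trans hsub)
  have hgs : HasCompactSupport g := hc.of_isClosed_subset (isClosed_tsupport _) hgt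
  have hTo : MemLp (fun s => T (o s)) 2 (volume : Measure (Cfg ds)) := T.comp_memLp' ho
  have e : ∀ q : Cfg r × Cfg ds, V q.1 (h q.1 • T (o q.2)) = g q.1 (T (o q.2)) := by
    intro q
    rw [hg, map_smul]
    rfl
  simp only [e]
  have hm : AEStronglyMeasurable (fun q : Cfg r × Cfg ds => g q.1 (T (o q.2))) (volume.prod volume) := by
    have h1 : AEStronglyMeasurable (fun q : Cfg r × Cfg ds => g q.1) (volume.prod volume) :=
      (hgc.comp continuous_fst).aestronglyMeasurable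
    have h2 : AEStronglyMeasurable (fun q : Cfg r × Cfg ds => T (o q.2)) (volume.prod volume) := hTo.1.comp_snd
    exact (ContinuousLinearMap.id ℂ (F →L[ℂ] F)).aestronglyMeasurable_comp₂ h1 h2
  rw [memLp_two_iff_integrable_sq_norm hm]
  have h1 : Integrable (fun η => ‖g η‖ ^ 2) (volume : Measure (Cfg r)) := by
    refine (hgc.norm.pow 2).integrable_of_hasCompactSupport (hgs.mono ?_)
    intro x hx
    simp only [Function.mem_support] at hx ⊢
    intro h0
    exact hx (by simp [h0])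
  have h2 : Integrable (fun s => ‖T (o s)‖ ^ 2) (volume : Measure (Cfg ds)) := hTo.integrable_norm_pow (by norm_num)
  refine (h1.mul_prod h2).mono' (hm.norm.pow 2) (Eventually.of_forall fun q => ?_)
  rw [Real.norm_of_nonneg (by positivity), ← mul_pow]
  exact pow_le_pow_left₀ (norm_nonneg _) ((g q.1).le_opNorm _) 2

/-- the profile `DF (ζ o)` in terms of `o` -/
lemma DF_pp (S : Setup d F) (φ : Spl dh dm d) (ψ : Spl r ds dh) (N : Fin 9 → Matrix (Fin 16) (Fin 16) ℂ) (μ : ℝ)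
    (β : Fin 16) {ζ : Cfg r → ℂ} (hζ : ContDiff ℝ ∞ ζ) (o : Cfg ds → F) (y : Cfg r) (s : Cfg ds) :
    S.DF φ ψ N μ β (pp ζ o) y s =
      (-Complex.I) • ∑ i, ∑ A, fderiv ℝ ζ y (EuclideanSpace.single (i, A) 1) •
        S.vec (S.g i) (φ (Sum.inl (ψ (Sum.inl A)))) β (o s) +
      (μ : ℂ) • ∑ i, ∑ A, (((y (i, A) : ℝ) : ℂ) * ζ y) • S.vec (N i) (φ (Sum.inl (ψ (Sum.inl A)))) β (o s) := by
  have h1 : ∀ (i : Fin 9) (A : Fin r), pd i A (fun y' => pp ζ o y' s) y =
      fderiv ℝ ζ y (EuclideanSpace.single (i, A) 1) • o s := by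
    intro i A
    have h2 := pd_csmul (i := i) (A := A) (c := ζ) (u := fun _ : Cfg r => o s) (x := y)
      (hζ.differentiable (by simp) y) (differentiableAt_const _)
    have h3 : pd i A (fun _ : Cfg r => o s) y = 0 := by
      unfold pd
      simp
    rw [h3, smul_zero, add_zero] at h2
    exact h2
  simp only [Setup.DF, h1, map_smul]
  simp only [pp, map_smul, smul_smul]

lemma mem_DF {S : Setup d F} {φ : Spl dh dm d} {ψ : Spl r ds dh} {U : Set (Cfg r)} {V : Cfg r → F →L[ℂ] F}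
    (hU : IsOpen U) (hV : ContinuousOn V U) (N : Fin 9 → Matrix (Fin 16) (Fin 16) ℂ) (μ : ℝ) (β : Fin 16)
    {ζ : Cfg r → ℂ} (hζ : ContDiff ℝ ∞ ζ) (hc : HasCompactSupport ζ) (hsub : tsupport ζ ⊆ U) {o : Cfg ds → F}
    (ho : MemLp o 2 (volume : Measure (Cfg ds))) :
    MemLp (fun q : Cfg r × Cfg ds => V q.1 (S.DF φ ψ N μ β (pp ζ o) q.1 q.2)) 2 (volume.prod volume) := by
  have h1 : ∀ (i : Fin 9) (A : Fin r), MemLp (fun q : Cfg r × Cfg ds =>
      V q.1 (fderiv ℝ ζ q.1 (EuclideanSpace.single (i, A) 1) • S.vec (S.g i) (φ (Sum.inl (ψ (Sum.inl A)))) β (o q.2)))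
      2 (volume.prod volume) := by
    intro i A
    have ht := tsupport_fderiv_apply_subset ℝ (f := ζ) (EuclideanSpace.single (i, A) 1)
    exact mem_sec hU hV ((hζ.continuous_fderiv (by simp)).clm_apply continuous_const)
      (hc.of_isClosed_subset (isClosed_tsupport _) ht) (ht.trans hsub) _ ho
  have h2 : ∀ (i : Fin 9) (A : Fin r), MemLp (fun q : Cfg r × Cfg ds =>
      V q.1 ((((q.1 (i, A) : ℝ) : ℂ) * ζ q.1) • S.vec (N i) (φ (Sum.inl (ψ (Sum.inl A)))) β (o q.2)))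
      2 (volume.prod volume) := by
    intro i A
    have ht : tsupport (fun y : Cfg r => ((y (i, A) : ℝ) : ℂ) * ζ y) ⊆ tsupport ζ := tsupport_mul_subset_right
    refine mem_sec hU hV (h := fun y : Cfg r => ((y (i, A) : ℝ) : ℂ) * ζ y) ?_
      (hc.of_isClosed_subset (isClosed_tsupport _) ht) (ht.trans hsub) _ ho
    have h3 : Continuous fun y : Cfg r => y (i, A) := by fun_prop
    exact (Complex.continuous_ofReal.comp h3).mul hζ.continuous
  have e : (fun q : Cfg r × Cfg ds => V q.1 (S.DF φ ψ N μ β (pp ζ o) q.1 q.2)) = fun q =>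
      (-Complex.I) • (∑ i, ∑ A, V q.1 (fderiv ℝ ζ q.1 (EuclideanSpace.single (i, A) 1) •
        S.vec (S.g i) (φ (Sum.inl (ψ (Sum.inl A)))) β (o q.2))) +
      (μ : ℂ) • ∑ i, ∑ A, V q.1 ((((q.1 (i, A) : ℝ) : ℂ) * ζ q.1) •
        S.vec (N i) (φ (Sum.inl (ψ (Sum.inl A)))) β (o q.2)) := by
    funext q
    rw [DF_pp S φ ψ N μ β hζ o q.1 q.2]
    simp only [map_add, map_smul, map_sum]
  rw [e]
  refine MemLp.add (MemLp.const_smul ?_ _) (MemLp.const_smul ?_ _)
  · exact memLp_finsetSum _ fun i _ => memLp_finsetSum _ fun A _ => h1 i A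
  · exact memLp_finsetSum _ fun i _ => memLp_finsetSum _ fun A _ => h2 i A

lemma DF_zero (S : Setup d F) (φ : Spl dh dm d) (ψ : Spl r ds dh) (N : Fin 9 → Matrix (Fin 16) (Fin 16) ℂ) (μ : ℝ)
    (β : Fin 16) {ζ : Cfg r → ℂ} (hζ : ContDiff ℝ ∞ ζ) (o : Cfg ds → F) {y : Cfg r} (hy : y ∉ tsupport ζ) (s : Cfg ds) :
    S.DF φ ψ N μ β (pp ζ o) y s = 0 := by
  rw [DF_pp S φ ψ N μ β hζ o y s, fderiv_of_notMem_tsupport ℝ hy, image_eq_zero_of_notMem_tsupport hy]
  simp

end LocZ518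

open LocZ518 in
/-- **EG-LocZ** -/
theorem locZ {d dh dm r ds : ℕ} {F : Type*} [NormedAddCommGroup F] [InnerProductSpace ℂ F] (S : Setup d F)
    (φ : Spl dh dm d) (ψ : Spl r ds dh) (hG : GluDStmt S) (hL : LocGStmt S φ ψ) (hQ : QInvStmt S)
    (_hTL : TLStmt S φ ψ) : LocZStmt S φ ψ := by
  intro hfin hφ hc N hN U Om V K hV y₀ hy₀
  have hstd : AN.Std S φ (cmb ψ y₀ 0) := std hφ hc (hV.det y₀ hy₀)
  obtain ⟨ε1, hε1, hG1⟩ := hG hfin dh dm r ds φ ψ y₀ hc hstd
  obtain ⟨ε2, hε2, hL1⟩ := hL hfin hφ hc N hN U Om V K hV y₀ hy₀ hstd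
  set ε := min ε1 ε2 with hε
  have hεpos : 0 < ε := lt_min hε1 hε2
  obtain ⟨δ₀, hδ₀, hG2⟩ := hG1 ε hεpos (min_le_left _ _)
  have hL2 := hL1 ε hεpos (min_le_right _ _)
  obtain ⟨ρ, hρ, hρU⟩ := Metric.isOpen_iff.1 hV.opn y₀ hy₀
  set δ := min δ₀ (min (ε / 2) (ρ / 3)) with hδ
  have hδpos : 0 < δ := lt_min hδ₀ (lt_min (by positivity) (by positivity))
  have hδ1 : δ ≤ δ₀ := min_le_left _ _
  have hδ2 : δ ≤ ε / 2 := (min_le_right _ _).trans (min_le_left _ _)
  have hδ3 : δ ≤ ρ / 3 := (min_le_right _ _).trans (min_le_right _ _)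
  have hin : ∀ η : Cfg r, ‖η - y₀‖ ≤ 2 * δ → η ∈ U := by
    intro η hη
    refine hρU ?_
    rw [Metric.mem_ball, dist_eq_norm]
    linarith
  have hOm : ∀ η : Cfg r, ‖η - y₀‖ ≤ 2 * δ → Frz (S.Dz φ ψ η) ∧ IsOm S.κ (S.Dz φ ψ η) (Om η) := fun η hη =>
    ⟨frz hφ hc (hV.det η (hin η hη)), hV.om η (hin η hη)⟩
  have hOmc : ContinuousOn Om {η | ‖η - y₀‖ ≤ 2 * δ} := by
    refine continuousOn_pi.2 fun B => continuousOn_pi.2 fun C => ?_
    exact (hV.om_c B C).continuousOn.mono fun η hη => hin η hη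
  have hG3 := hG2 δ hδpos hδ1 Om hOm hOmc
  refine ⟨δ, hδpos, ?_⟩
  intro ζ hζ hζs μ hμ o ho R u C hu χ hχ β
  have hζs2 : tsupport ζ ⊆ Metric.ball y₀ (ε / 2) := hζs.trans (Metric.ball_subset_ball hδ2)
  have hζU : tsupport ζ ⊆ U := fun η hη => hin η (by
    have h1 := hζs hη
    rw [Metric.mem_ball, dist_eq_norm] at h1
    linarith)
  have hζc : HasCompactSupport ζ :=
    (isCompact_closedBall y₀ δ).of_isClosed_subset (isClosed_tsupport _) (hζs.trans Metric.ball_subset_closedBall)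
  have hVc : ContinuousOn V U := hV.v_c.continuousOn
  have hnear : ∀ η : Cfg r, η ∈ tsupport ζ → ‖η - y₀‖ ≤ δ := by
    intro η hη
    have h1 := hζs hη
    rw [Metric.mem_ball, dist_eq_norm] at h1
    exact h1.le
  -- the slice limit equation
  have hA := hL2 ζ hζ hζs2 μ hμ o ho R u C hu β
  -- section 1
  have hB := hG3 (fun η s => V η (pp ζ o η s))
    (mem_sec hV.opn hVc hζ.continuous hζc hζU (ContinuousLinearMap.id ℂ F) ho.mem)
    (by
      intro η s h0
      refine hnear η ?_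
      by_contra hη
      apply h0
      simp only [pp]
      rw [image_eq_zero_of_notMem_tsupport hη, zero_smul, map_zero])
    R χ (fun n x => ((R n : ℝ) : ℂ) • QN S N (μ / R n ^ 2) β (u n) x) C hu.lim hχ
    (fun n => GI_smul (hQ N _ β (u n) (hu.gi n)) (R n))
    (by
      intro n
      rw [nsq_smul]
      refine le_trans ?_ (hu.en n)
      exact mul_le_mul_of_nonneg_left (Finset.single_le_sum (f := fun β => nsq (QN S N (μ / R n ^ 2) β (u n)))
        (fun β _ => nsq_nonneg _) (Finset.mem_univ β)) (by positivity))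
  simp only [ZL_smul, SL_smul] at hB
  -- section 2
  have hC := hG3 (fun η s => V η (S.DF φ ψ N μ β (pp ζ o) η s)) (mem_DF hV.opn hVc N μ β hζ hζc hζU ho.mem)
    (by
      intro η s h0
      refine hnear η ?_
      by_contra hη
      apply h0
      rw [DF_zero S φ ψ N μ β hζ o hη, map_zero])
    R χ u C hu.lim hχ hu.gi hu.nrm
  have hD := (hB.add hA).sub hC
  rw [add_zero, sub_zero] at hD
  refine hD.congr fun n => ?_
  ring

end Vale.Agent.P353.Z.AE
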