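import Vale.Agent.P353.AN.E.Stmt

/-! # P353, all `N`, block E: the quadratic form as a smooth function of the central point (helper492) -/

open MeasureTheory Filter Topology Matrix
open scoped ContDiff

namespace Vale.Agent.P353.Z.AE

section Mat

variable {X : Type*} [NormedAddCommGroup X] [NormedSpace ℝ X] {U : Set X} {n : ℕ}

private theorem emz_det {A : X → Matrix (Fin n) (Fin n) ℝ} (hA : ∀ i j, ContDiffOn ℝ ∞ (fun y => A y i j) U) :
    ContDiffOn ℝ ∞ (fun y => (A y).det) U := by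
  simp only [Matrix.det_apply]
  refine ContDiffOn.sum fun σ _ => ?_
  refine ContDiffOn.const_smul _ ?_
  exact contDiffOn_prod fun i _ => hA _ _

private theorem emz_adj {A : X → Matrix (Fin n) (Fin n) ℝ} (hA : ∀ i j, ContDiffOn ℝ ∞ (fun y => A y i j) U)
    (i j : Fin n) : ContDiffOn ℝ ∞ (fun y => (A y).adjugate i j) U := by
  simp only [Matrix.adjugate_apply]
  refine emz_det fun k l => ?_
  by_cases hk : k = j
  · subst hk
    simp only [Matrix.updateRow_self]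
    exact contDiffOn_const
  · simp only [Matrix.updateRow_ne hk]
    exact hA k l

private theorem emz_inv {A : X → Matrix (Fin n) (Fin n) ℝ} (hA : ∀ i j, ContDiffOn ℝ ∞ (fun y => A y i j) U)
    (hd : ∀ y ∈ U, (A y).det ≠ 0) (i j : Fin n) : ContDiffOn ℝ ∞ (fun y => (A y)⁻¹ i j) U := by
  have h1 : ∀ y, (A y)⁻¹ i j = ((A y).det)⁻¹ * (A y).adjugate i j := by
    intro y
    rw [Matrix.inv_def, Ring.inverse_eq_inv', Matrix.smul_apply, smul_eq_mul]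
  simp only [h1]
  exact ((emz_det hA).inv hd).mul (emz_adj hA i j)

private theorem emz_mul {A B : X → Matrix (Fin n) (Fin n) ℝ} (hA : ∀ i j, ContDiffOn ℝ ∞ (fun y => A y i j) U)
    (hB : ∀ i j, ContDiffOn ℝ ∞ (fun y => B y i j) U) (i j : Fin n) :
    ContDiffOn ℝ ∞ (fun y => (A y * B y) i j) U := by
  simp only [Matrix.mul_apply]
  exact ContDiffOn.sum fun k _ => (hA i k).mul (hB k j)

private theorem emz_mv {A : X → Matrix (Fin n) (Fin n) ℝ} {v : X → Fin n → ℝ}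
    (hA : ∀ i j, ContDiffOn ℝ ∞ (fun y => A y i j) U)
    (hv : ∀ i, ContDiffOn ℝ ∞ (fun y => v y i) U) (i : Fin n) :
    ContDiffOn ℝ ∞ (fun y => (A y *ᵥ v y) i) U := by
  simp only [Matrix.mulVec, dotProduct]
  exact ContDiffOn.sum fun k _ => (hA i k).mul (hv k)

end Mat

section Smooth

variable {X : Type*} [NormedAddCommGroup X] [NormedSpace ℝ X] {U : Set X} {dm : ℕ}
  {D : X → Fin 9 → Matrix (Fin dm) (Fin dm) ℝ} {Om : X → Matrix (Fin dm) (Fin dm) ℝ}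

private theorem emz_VV (hD : ∀ k i j, ContDiffOn ℝ ∞ (fun y => D y k i j) U) (h8 : ∀ y ∈ U, (D y 8).det ≠ 0)
    (ht : ∀ y ∈ U, (t2 (D y)).det ≠ 0) (w : Wsp dm) (k : Fin 9) (B : Fin dm) :
    ContDiffOn ℝ ∞ (fun y => VV (D y) w k B) U := by
  have hT : ∀ k i j, ContDiffOn ℝ ∞ (fun y => tI (D y) k i j) U := by
    intro k i j
    unfold tI
    exact emz_mul (emz_inv (hD 8) h8) (hD k) i j
  have h2 : ∀ i j, ContDiffOn ℝ ∞ (fun y => t2 (D y) i j) U := by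
    intro i j
    unfold t2
    simp only [Matrix.sum_apply]
    exact ContDiffOn.sum fun k _ => emz_mul (hT k) (hT k) i j
  have hs : ∀ i, ContDiffOn ℝ ∞ (fun y => sV (D y) w i) U := by
    intro i
    unfold sV
    refine emz_mv (emz_inv h2 ht) (fun i => ?_) i
    simp only [Finset.sum_apply]
    exact ContDiffOn.sum fun k _ => emz_mv (v := fun _ => wt w k) (hT k) (fun _ => contDiffOn_const) i
  unfold VV
  simp only [Pi.sub_apply]
  exact contDiffOn_const.sub (emz_mv (hT k) hs B)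

end Smooth

section Hom

variable {dm : ℕ}

private theorem emz_tI_smul (D : Fin 9 → Matrix (Fin dm) (Fin dm) ℝ) {t : ℝ} (ht : t ≠ 0) (h8 : (D 8).det ≠ 0)
    (k : Fin 9) : tI (fun i => t • D i) k = tI D k := by
  unfold tI
  have h1 : (t • D 8)⁻¹ = t⁻¹ • (D 8)⁻¹ := by
    refine Matrix.inv_eq_left_inv ?_
    rw [Matrix.smul_mul, Matrix.mul_smul, smul_smul, inv_mul_cancel₀ ht, one_smul,
      Matrix.nonsing_inv_mul _ (isUnit_iff_ne_zero.2 h8)]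
  rw [h1, Matrix.smul_mul, Matrix.mul_smul, smul_smul, inv_mul_cancel₀ ht, one_smul]

private theorem emz_VV_smul (D : Fin 9 → Matrix (Fin dm) (Fin dm) ℝ) {t : ℝ} (ht : t ≠ 0) (h8 : (D 8).det ≠ 0)
    (w : Wsp dm) (k : Fin 9) : VV (fun i => t • D i) w k = VV D w k := by
  have hT : tI (fun i => t • D i) = tI D := funext fun k => emz_tI_smul D ht h8 k
  unfold VV sV t2
  rw [hT]

end Hom

variable {d dh dm r ds : ℕ} {F : Type*} [NormedAddCommGroup F] [InnerProductSpace ℂ F]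

section Alg

variable (S : Setup d F) (φ : Spl dh dm d) (ψ : Spl r ds dh)

private theorem emz_Dz_apply (y : Cfg r) (i : Fin 9) (B C : Fin dm) :
    S.Dz φ ψ y i B C =
      ∑ a, S.f (φ (Sum.inr B)) (φ (Sum.inl (ψ (Sum.inl a)))) (φ (Sum.inr C)) * y (i, a) := by
  unfold Setup.Dz Setup.Dy Setup.Dm cmb
  simp only [Matrix.of_apply]
  rw [← ψ.sum_comp, Fintype.sum_sum_type]
  simp

private theorem emz_Dz_smul (y : Cfg r) (t : ℝ) (i : Fin 9) : S.Dz φ ψ (t • y) i = t • S.Dz φ ψ y i := by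
  ext B C
  rw [Matrix.smul_apply, emz_Dz_apply, emz_Dz_apply, smul_eq_mul, Finset.mul_sum]
  refine Finset.sum_congr rfl fun a _ => ?_
  rw [PiLp.smul_apply, smul_eq_mul]
  ring

private theorem emz_Dz_c (U : Set (Cfg r)) (k : Fin 9) (B C : Fin dm) :
    ContDiffOn ℝ ∞ (fun y => S.Dz φ ψ y k B C) U := by
  simp only [emz_Dz_apply]
  refine ContDiffOn.sum fun a _ => contDiffOn_const.mul ?_
  exact (contDiff_euclidean.1 contDiff_id (k, a)).contDiffOn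

private theorem emz_Dz_anti (y : Cfg r) (i : Fin 9) : (S.Dz φ ψ y i)ᵀ = -S.Dz φ ψ y i := by
  ext B C
  rw [Matrix.transpose_apply, Matrix.neg_apply, emz_Dz_apply, emz_Dz_apply, ← Finset.sum_neg_distrib]
  refine Finset.sum_congr rfl fun a _ => ?_
  rw [← neg_mul]
  congr 1
  rw [S.f_cyc (φ (Sum.inr C)), S.f_swap]

private theorem emz_jac (hφ : S.IsSub φ) (hc : S.IsCen φ ψ) (B C : Fin dm) (a b : Fin r) :
    ∑ E, S.f (φ (Sum.inr B)) (φ (Sum.inl (ψ (Sum.inl a)))) (φ (Sum.inr E)) *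
      S.f (φ (Sum.inr E)) (φ (Sum.inl (ψ (Sum.inl b)))) (φ (Sum.inr C)) =
    ∑ E, S.f (φ (Sum.inr B)) (φ (Sum.inl (ψ (Sum.inl b)))) (φ (Sum.inr E)) *
      S.f (φ (Sum.inr E)) (φ (Sum.inl (ψ (Sum.inl a)))) (φ (Sum.inr C)) := by
  have h1 := S.f_jac (φ (Sum.inr B)) (φ (Sum.inl (ψ (Sum.inl a)))) (φ (Sum.inl (ψ (Sum.inl b)))) (φ (Sum.inr C))
  rw [← φ.sum_comp, Fintype.sum_sum_type] at h1
  have hz : ∀ A A' : Fin dh, ∀ B : Fin dm, S.f (φ (Sum.inr B)) (φ (Sum.inl A)) (φ (Sum.inl A')) = 0 := by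
    intro A A' B
    rw [S.f_cyc]
    exact hφ _ _ _
  have hz' : ∀ A A' : Fin dh, ∀ B : Fin dm, S.f (φ (Sum.inl A)) (φ (Sum.inr B)) (φ (Sum.inl A')) = 0 := by
    intro A A' B
    rw [S.f_swap, hz, neg_zero]
  have e1 : ∀ E : Fin dh, S.f (φ (Sum.inr B)) (φ (Sum.inl (ψ (Sum.inl a)))) (φ (Sum.inl E)) *
        S.f (φ (Sum.inl E)) (φ (Sum.inl (ψ (Sum.inl b)))) (φ (Sum.inr C)) +
      S.f (φ (Sum.inl (ψ (Sum.inl a)))) (φ (Sum.inl (ψ (Sum.inl b)))) (φ (Sum.inl E)) *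
        S.f (φ (Sum.inl E)) (φ (Sum.inr B)) (φ (Sum.inr C)) +
      S.f (φ (Sum.inl (ψ (Sum.inl b)))) (φ (Sum.inr B)) (φ (Sum.inl E)) *
        S.f (φ (Sum.inl E)) (φ (Sum.inl (ψ (Sum.inl a)))) (φ (Sum.inr C)) = 0 := by
    intro E
    rw [hz, hc, hz']
    ring
  have e2 : ∀ E : Fin dm, S.f (φ (Sum.inr B)) (φ (Sum.inl (ψ (Sum.inl a)))) (φ (Sum.inr E)) *
        S.f (φ (Sum.inr E)) (φ (Sum.inl (ψ (Sum.inl b)))) (φ (Sum.inr C)) +
      S.f (φ (Sum.inl (ψ (Sum.inl a)))) (φ (Sum.inl (ψ (Sum.inl b)))) (φ (Sum.inr E)) *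
        S.f (φ (Sum.inr E)) (φ (Sum.inr B)) (φ (Sum.inr C)) +
      S.f (φ (Sum.inl (ψ (Sum.inl b)))) (φ (Sum.inr B)) (φ (Sum.inr E)) *
        S.f (φ (Sum.inr E)) (φ (Sum.inl (ψ (Sum.inl a)))) (φ (Sum.inr C)) =
      S.f (φ (Sum.inr B)) (φ (Sum.inl (ψ (Sum.inl a)))) (φ (Sum.inr E)) *
        S.f (φ (Sum.inr E)) (φ (Sum.inl (ψ (Sum.inl b)))) (φ (Sum.inr C)) -
      S.f (φ (Sum.inr B)) (φ (Sum.inl (ψ (Sum.inl b)))) (φ (Sum.inr E)) *
        S.f (φ (Sum.inr E)) (φ (Sum.inl (ψ (Sum.inl a)))) (φ (Sum.inr C)) := by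
    intro E
    rw [hφ, S.f_swap (φ (Sum.inl (ψ (Sum.inl b)))) (φ (Sum.inr B))]
    ring
  simp only [e1, e2, Finset.sum_const_zero, zero_add, Finset.sum_sub_distrib] at h1
  linarith

private theorem emz_Dz_comm (hφ : S.IsSub φ) (hc : S.IsCen φ ψ) (y : Cfg r) (i j : Fin 9) :
    S.Dz φ ψ y i * S.Dz φ ψ y j = S.Dz φ ψ y j * S.Dz φ ψ y i := by
  have h1 : ∀ i j B C, (S.Dz φ ψ y i * S.Dz φ ψ y j) B C = ∑ a, ∑ b, y (i, a) * y (j, b) *
      ∑ E, S.f (φ (Sum.inr B)) (φ (Sum.inl (ψ (Sum.inl a)))) (φ (Sum.inr E)) *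
        S.f (φ (Sum.inr E)) (φ (Sum.inl (ψ (Sum.inl b)))) (φ (Sum.inr C)) := by
    intro i j B C
    rw [Matrix.mul_apply]
    simp only [emz_Dz_apply, Finset.sum_mul_sum]
    rw [Finset.sum_comm]
    refine Finset.sum_congr rfl fun a _ => ?_
    rw [Finset.sum_comm]
    refine Finset.sum_congr rfl fun b _ => ?_
    rw [Finset.mul_sum]
    refine Finset.sum_congr rfl fun E _ => ?_
    ring
  ext B C
  rw [h1, h1, Finset.sum_comm]
  refine Finset.sum_congr rfl fun b _ => Finset.sum_congr rfl fun a _ => ?_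
  rw [emz_jac S φ ψ hφ hc B C a b]
  ring

private theorem emz_frz (hφ : S.IsSub φ) (hc : S.IsCen φ ψ) (y : Cfg r) (h8 : (S.Dz φ ψ y 8).det ≠ 0) :
    Frz (S.Dz φ ψ y) :=
  ⟨emz_Dz_anti S φ ψ y, emz_Dz_comm S φ ψ hφ hc y, h8⟩

end Alg

/-- **E-Mz** -/
theorem mz (S : Setup d F) (φ : Spl dh dm d) (ψ : Spl r ds dh) (hA : AlgStmt) (hQ : QFStmt) :
    MzStmt S φ ψ := by
  intro hφ hc U Om V K hV
  have hF : ∀ y ∈ U, Frz (S.Dz φ ψ y) := fun y hy => emz_frz S φ ψ hφ hc y (hV.det y hy)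
  refine ⟨hF, ?_⟩
  have hM : ∀ y : Cfg r, ∃ M : Wsp dm →L[ℝ] Wsp dm, y ∈ U → (∀ v w, inner ℝ (M v) w = inner ℝ v (M w)) ∧
      (∀ w, qf (S.Dz φ ψ y) (Om y) w = inner ℝ w (M w)) ∧
      (∀ (w : Wsp dm) (j : Fin 8) (B : Fin dm), M w (j, B) = (Om y *ᵥ VV (S.Dz φ ψ y) w j.castSucc) B) ∧
      ∃ c : ℝ, 0 < c ∧ ∀ w, c * ‖w‖ ^ 2 ≤ inner ℝ w (M w) := by
    intro y
    by_cases hy : y ∈ U
    · obtain ⟨M, h1⟩ := hQ dm S.κ (S.Dz φ ψ y) (Om y) S.κ_pos (hF y hy) (hV.om y hy)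
      exact ⟨M, fun _ => h1⟩
    · exact ⟨0, fun h => absurd h hy⟩
  choose M hM using hM
  refine ⟨M, ?_, fun y hy => (hM y hy).1, fun y hy => (hM y hy).2.1, ?_, fun y hy => (hM y hy).2.2.1,
    fun y hy => (hM y hy).2.2.2⟩
  · rw [contDiffOn_clm_apply]
    intro w
    rw [contDiffOn_euclidean]
    rintro ⟨j, B⟩
    have h1 : ∀ y ∈ U, M y w (j, B) = (Om y *ᵥ VV (S.Dz φ ψ y) w j.castSucc) B :=
      fun y hy => (hM y hy).2.2.1 w j B
    refine ContDiffOn.congr ?_ h1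
    refine emz_mv hV.om_c (fun k => ?_) B
    refine emz_VV (fun k i j => emz_Dz_c S φ ψ U k i j) hV.det (fun y hy => ?_) w j.castSucc k
    exact (hA dm S.κ (S.Dz φ ψ y) (Om y) S.κ_pos (hF y hy) (hV.om y hy)).2.2.2.2.2.1
  · intro y hy t ht
    ext w p
    obtain ⟨j, B⟩ := p
    have hty := hV.cone y hy t ht
    have e1 : S.Dz φ ψ (t • y) = fun i => t • S.Dz φ ψ y i := funext fun i => emz_Dz_smul S φ ψ y t i
    rw [(hM (t • y) hty).2.2.1 w j B, _root_.smul_apply, PiLp.smul_apply,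
      (hM y hy).2.2.1 w j B, e1, emz_VV_smul _ ht.ne' (hV.det y hy), hV.om_h y hy t ht, Matrix.smul_mulVec,
      Pi.smul_apply]

end Vale.Agent.P353.Z.AE
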