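import Vale.Agent.P353.AN.E.Stmt
import Vale.Agent.P353.AN.C.Op
import Vale.Agent.P353.AN.C.Out

/-! # P353, all `N`, block E: negligible errors -/

open MeasureTheory Filter Topology Matrix
open scoped ContDiff

namespace Vale.Agent.P353.Z.AE

namespace Neg817

variable {d dh dm r ds : ℕ} {F : Type*} [NormedAddCommGroup F] [InnerProductSpace ℂ F]

theorem real_cs {t a b : ℝ} (ht : 0 ≤ t) (ha : 0 ≤ a) (hb : 0 ≤ b)
    (h : ∀ s : ℝ, 0 < s → 2 * t ≤ s * a + s⁻¹ * b) : t ^ 2 ≤ a * b := by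
  rcases ht.eq_or_lt with h0 | h0
  · rw [← h0]
    simpa using mul_nonneg ha hb
  rcases ha.eq_or_lt with h1 | h1
  · exfalso
    have h2 := h (b / t + 1) (by positivity)
    rw [← h1, mul_zero, zero_add] at h2
    have h3 : (b / t + 1)⁻¹ * b ≤ t := by
      rw [inv_mul_le_iff₀ (by positivity), add_mul, div_mul_cancel₀ _ h0.ne']
      linarith
    linarith
  · have h2 := h (t / a) (by positivity)
    rw [div_mul_cancel₀ _ h1.ne', inv_div] at h2
    have h3 : t ≤ a / t * b := by linarith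
    rw [div_mul_eq_mul_div, le_div_iff₀ h0] at h3
    nlinarith

theorem lim_of {z b : ℕ → ℝ} (C : ℝ) (hz : ∀ n, 0 ≤ z n) (h : ∀ n, z n ^ 2 ≤ C * b n)
    (hb : Tendsto b atTop (𝓝 0)) : Tendsto z atTop (𝓝 0) := by
  have h1 : Tendsto (fun n => z n ^ 2) atTop (𝓝 0) :=
    squeeze_zero (fun n => sq_nonneg _) h (by simpa using hb.const_mul C)
  have h2 := h1.sqrt
  simpa [Real.sqrt_sq (hz _)] using h2

theorem ip_cs (hA : AN.CalcA dh dm F) (hB : AN.CalcB dh dm F) {u v : Cfg dh → Wsp dm → F}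
    (hu : Tst2 u) (hv : Tst2 v) : ‖ip2 u v‖ ^ 2 ≤ ns2 u * ns2 v := by
  refine real_cs (norm_nonneg _) (hB.nonneg u) (hB.nonneg v) fun s hs => ?_
  have hu0 := hB.nonneg u
  have hv0 := hB.nonneg v
  by_cases h0 : ip2 u v = 0
  · rw [h0, norm_zero, mul_zero]
    positivity
  set z := ip2 u v with hz
  have hz0 : ‖z‖ ≠ 0 := norm_ne_zero_iff.2 h0
  have hz0' : ((‖z‖ : ℝ) : ℂ) ≠ 0 := by exact_mod_cast hz0
  set c : ℂ := (starRingEnd ℂ) z / ((‖z‖ : ℝ) : ℂ) with hc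
  have hcn : ‖c‖ = 1 := by
    rw [hc, norm_div, RCLike.norm_conj, Complex.norm_real, norm_norm, div_self hz0]
  have h1 := hB.cs s u (fun y w => c • v y w) hs hu (hA.smul c v hv)
  rw [hB.ip_smul, hB.ns_smul, hcn, one_pow, one_mul, ← hz] at h1
  have h2 : c * z = ((‖z‖ : ℝ) : ℂ) := by
    rw [hc, div_mul_eq_mul_div, mul_comm ((starRingEnd ℂ) z), Complex.mul_conj,
      Complex.normSq_eq_norm_sq, div_eq_iff hz0']
    push_cast
    ring
  rw [h2, Complex.ofReal_re, abs_of_nonneg (norm_nonneg _)] at h1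
  exact h1

theorem nsf_nonneg {E : Type*} [NormedAddCommGroup E] (f : Wsp dm → E) : 0 ≤ nsf f :=
  integral_nonneg fun w => by positivity

theorem ft_sq {f : Wsp dm → F} (hf : FT f) : Integrable fun w => ‖f w‖ ^ 2 := by
  have h1 : Continuous fun w => ‖f w‖ ^ 2 := hf.1.continuous.norm.pow 2
  refine h1.integrable_of_hasCompactSupport (hf.2.mono' ?_)
  intro w hw
  refine subset_tsupport _ ?_
  intro h0
  apply hw
  simp [h0]

/-- Cauchy-Schwarz for a real weight and a vector function -/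
theorem vec_cs (b : Wsp dm → ℝ) (hbi : Integrable fun w => b w ^ 2)
    (hb1 : ∫ w, b w ^ 2 = 1) (f : Wsp dm → F) (hf : Integrable fun w => ‖f w‖ ^ 2) :
    ‖∫ w, ((b w : ℝ) : ℂ) • f w‖ ^ 2 ≤ nsf f := by
  have h := real_cs (t := ‖∫ w, ((b w : ℝ) : ℂ) • f w‖) (a := 1) (b := nsf f) (norm_nonneg _)
    zero_le_one (nsf_nonneg f) (fun s hs => by
      have h1 : ‖∫ w, ((b w : ℝ) : ℂ) • f w‖ ≤
          ∫ w, (s / 2 * b w ^ 2 + s⁻¹ / 2 * ‖f w‖ ^ 2) := by
        refine norm_integral_le_of_norm_le ((hbi.const_mul _).add (hf.const_mul _))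
          (ae_of_all _ fun w => ?_)
        rw [norm_smul, Complex.norm_real, Real.norm_eq_abs]
        have h2 : 0 ≤ (s * |b w| - ‖f w‖) ^ 2 := sq_nonneg _
        have h3 : s * (2 * (|b w| * ‖f w‖)) ≤ s * (s * b w ^ 2 + s⁻¹ * ‖f w‖ ^ 2) := by
          rw [mul_add, ← mul_assoc s s⁻¹, mul_inv_cancel₀ hs.ne', one_mul, ← sq_abs (b w)]
          nlinarith
        have h4 := le_of_mul_le_mul_left h3 hs
        linarith
      rw [integral_add (hbi.const_mul _) (hf.const_mul _), integral_const_mul,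
        integral_const_mul, hb1] at h1
      unfold nsf
      linarith)
  rwa [one_mul] at h

/-- fibre estimate -/
theorem fib_est [FiniteDimensional ℂ F] (P : Submodule ℂ F) (b : Wsp dm → ℝ) (hbc : Continuous b)
    (hbi : Integrable fun w => b w ^ 2) (hb1 : ∫ w, b w ^ 2 = 1) (e f : Wsp dm → F) (he : FT e)
    (hf : FT f) {s s' : ℝ} (hs : 0 < s) (hs' : 0 < s') :
    2 * ‖∫ w, inner ℂ (e w) (f w)‖ ≤ s * nsf e +
      s⁻¹ * nsf (fun w => f w - ((b w : ℝ) : ℂ) •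
        P.starProjection (∫ w', ((b w' : ℝ) : ℂ) • f w')) +
      (s' * ‖P.starProjection (∫ w, ((b w : ℝ) : ℂ) • e w)‖ ^ 2 + s'⁻¹ * nsf f) := by
  have : CompleteSpace F := FiniteDimensional.complete ℂ F
  set Bf := ∫ w', ((b w' : ℝ) : ℂ) • f w' with hBf
  set c := P.starProjection Bf with hc
  have hbc' : Continuous fun w => ((b w : ℝ) : ℂ) := Complex.continuous_ofReal.comp hbc
  have hec := he.1.continuous
  have hfc := hf.1.continuous
  have hh : Continuous fun w => f w - ((b w : ℝ) : ℂ) • c := hfc.sub (hbc'.smul continuous_const)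
  have hsupp : ∀ g : Wsp dm → F, Continuous g → Integrable fun w => inner ℂ (e w) (g w) := by
    intro g hg
    refine (hec.inner hg).integrable_of_hasCompactSupport (he.2.mono' ?_)
    intro w hw
    refine subset_tsupport _ ?_
    intro h0
    apply hw
    simp only
    rw [h0, inner_zero_left]
  have i1 := hsupp _ hh
  have i2 : Integrable fun w => inner ℂ (e w) (((b w : ℝ) : ℂ) • c) :=
    hsupp (fun w => ((b w : ℝ) : ℂ) • c) (hbc'.smul continuous_const)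
  have hsplit : ∫ w, inner ℂ (e w) (f w) = (∫ w, inner ℂ (e w) (f w - ((b w : ℝ) : ℂ) • c)) +
      ∫ w, inner ℂ (e w) (((b w : ℝ) : ℂ) • c) := by
    rw [← integral_add i1 i2]
    congr 1
    funext w
    rw [← inner_add_right, sub_add_cancel]
  have hbe : Integrable fun w => ((b w : ℝ) : ℂ) • e w :=
    (hbc'.smul hec).integrable_of_hasCompactSupport (he.2.smul_left)
  have h2nd : ∫ w, inner ℂ (e w) (((b w : ℝ) : ℂ) • c) =
      inner ℂ (P.starProjection (∫ w, ((b w : ℝ) : ℂ) • e w)) Bf := by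
    have e1 : ∀ w, inner ℂ (e w) (((b w : ℝ) : ℂ) • c) =
        (starRingEnd ℂ) (inner ℂ c (((b w : ℝ) : ℂ) • e w)) := by
      intro w
      rw [inner_conj_symm, inner_smul_left, inner_smul_right, Complex.conj_ofReal]
    simp only [e1]
    rw [integral_conj, integral_inner hbe, inner_conj_symm, hc,
      Submodule.inner_starProjection_left_eq_right]
  have hh2 : Integrable fun w => ‖f w - ((b w : ℝ) : ℂ) • c‖ ^ 2 := by
    refine Integrable.mono' (((ft_sq hf).const_mul 2).add (hbi.const_mul (2 * ‖c‖ ^ 2)))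
      ((hh.norm.pow 2).aestronglyMeasurable) (ae_of_all _ fun w => ?_)
    rw [Real.norm_eq_abs, abs_of_nonneg (sq_nonneg _)]
    have h1 : ‖f w - ((b w : ℝ) : ℂ) • c‖ ≤ ‖f w‖ + |b w| * ‖c‖ := by
      refine (norm_sub_le _ _).trans ?_
      rw [norm_smul, Complex.norm_real, Real.norm_eq_abs]
    have h2 : ‖f w - ((b w : ℝ) : ℂ) • c‖ ^ 2 ≤ (‖f w‖ + |b w| * ‖c‖) ^ 2 :=
      pow_le_pow_left₀ (norm_nonneg _) h1 2
    have h3 : (|b w| * ‖c‖) ^ 2 = ‖c‖ ^ 2 * b w ^ 2 := by rw [mul_pow, sq_abs]; ring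
    simp only [Pi.add_apply]
    nlinarith [sq_nonneg (‖f w‖ - |b w| * ‖c‖)]
  have h1st : 2 * ‖∫ w, inner ℂ (e w) (f w - ((b w : ℝ) : ℂ) • c)‖ ≤ s * nsf e +
      s⁻¹ * nsf (fun w => f w - ((b w : ℝ) : ℂ) • c) := by
    have h1 : ‖∫ w, inner ℂ (e w) (f w - ((b w : ℝ) : ℂ) • c)‖ ≤
        ∫ w, (s / 2 * ‖e w‖ ^ 2 + s⁻¹ / 2 * ‖f w - ((b w : ℝ) : ℂ) • c‖ ^ 2) := by
      refine norm_integral_le_of_norm_le (((ft_sq he).const_mul _).add (hh2.const_mul _))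
        (ae_of_all _ fun w => ?_)
      refine (norm_inner_le_norm _ _).trans ?_
      set X := ‖e w‖
      set Y := ‖f w - ((b w : ℝ) : ℂ) • c‖
      have h2 : 0 ≤ (s * X - Y) ^ 2 := sq_nonneg _
      have h3 : s * (2 * (X * Y)) ≤ s * (s * X ^ 2 + s⁻¹ * Y ^ 2) := by
        rw [mul_add, ← mul_assoc s s⁻¹, mul_inv_cancel₀ hs.ne', one_mul]
        nlinarith
      have h4 := le_of_mul_le_mul_left h3 hs
      linarith
    rw [integral_add ((ft_sq he).const_mul _) (hh2.const_mul _), integral_const_mul,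
      integral_const_mul] at h1
    unfold nsf
    linarith
  have h2st : 2 * ‖inner ℂ (P.starProjection (∫ w, ((b w : ℝ) : ℂ) • e w)) Bf‖ ≤
      s' * ‖P.starProjection (∫ w, ((b w : ℝ) : ℂ) • e w)‖ ^ 2 + s'⁻¹ * nsf f := by
    have h1 := norm_inner_le_norm (𝕜 := ℂ) (P.starProjection (∫ w, ((b w : ℝ) : ℂ) • e w)) Bf
    have h2 := vec_cs b hbi hb1 f (ft_sq hf)
    rw [← hBf] at h2
    set X := ‖P.starProjection (∫ w, ((b w : ℝ) : ℂ) • e w)‖
    have h3 : s' * (2 * (X * ‖Bf‖)) ≤ s' * (s' * X ^ 2 + s'⁻¹ * ‖Bf‖ ^ 2) := by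
      rw [mul_add, ← mul_assoc s' s'⁻¹, mul_inv_cancel₀ hs'.ne', one_mul]
      nlinarith [sq_nonneg (s' * X - ‖Bf‖)]
    have h4 := le_of_mul_le_mul_left h3 hs'
    have h5 := mul_le_mul_of_nonneg_left h2 (inv_nonneg.2 hs'.le)
    linarith
  rw [hsplit, h2nd]
  have h6 := norm_add_le (∫ w, inner ℂ (e w) (f w - ((b w : ℝ) : ℂ) • c))
    (inner ℂ (P.starProjection (∫ w, ((b w : ℝ) : ℂ) • e w)) Bf)
  linarith

theorem PR_eq [FiniteDimensional ℂ F] (S : Setup d F) (φ : Spl dh dm d)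
    (D : Fin 9 → Matrix (Fin dm) (Fin dm) ℝ) (Om : Matrix (Fin dm) (Fin dm) ℝ) (f : Wsp dm → F)
    (w : Wsp dm) :
    S.PR φ D Om 1 f w = ((gR D Om 1 w / Real.sqrt (∫ w', gR D Om 1 w' ^ 2) : ℝ) : ℂ) •
      (S.F0 φ D Om).starProjection
        (∫ w', ((gR D Om 1 w' / Real.sqrt (∫ w', gR D Om 1 w' ^ 2) : ℝ) : ℂ) • f w') := by
  set G := ∫ w', gR D Om 1 w' ^ 2 with hG
  have hG0 : 0 ≤ G := integral_nonneg fun w => sq_nonneg _
  have h1 : ∫ w', ((gR D Om 1 w' / Real.sqrt G : ℝ) : ℂ) • f w' =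
      (((Real.sqrt G)⁻¹ : ℝ) : ℂ) • ∫ w', ((gR D Om 1 w' : ℝ) : ℂ) • f w' := by
    rw [← integral_smul]
    congr 1
    funext w'
    rw [smul_smul, ← Complex.ofReal_mul]
    congr 2
    rw [div_eq_mul_inv, mul_comm]
  rw [h1, map_smul, smul_smul, ← Complex.ofReal_mul, div_mul_eq_mul_div, ← div_eq_mul_inv,
    div_div, Real.mul_self_sqrt hG0]
  rfl

theorem zpt_cont (ψ : Spl r ds dh) : Continuous (zpt ψ) := by
  unfold zpt
  fun_prop

theorem spt_norm_sq (ψ : Spl r ds dh) (x : Cfg dh) :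
    ‖spt ψ x‖ ^ 2 = ∑ p : Fin 9 × Fin ds, x (p.1, ψ (Sum.inr p.2)) ^ 2 := by
  rw [EuclideanSpace.norm_sq_eq]
  exact Finset.sum_congr rfl fun p _ => by rw [Real.norm_eq_abs, sq_abs]; rfl

theorem spt_smooth (ψ : Spl r ds dh) : ContDiff ℝ ∞ fun x : Cfg dh => ‖spt ψ x‖ ^ 2 := by
  simp only [spt_norm_sq]
  refine ContDiff.sum fun p _ => ContDiff.pow ?_ 2
  exact (EuclideanSpace.proj (𝕜 := ℝ) (p.1, ψ (Sum.inr p.2))).contDiff

theorem zpt_le (ψ : Spl r ds dh) (z : Cfg dh) : ‖zpt ψ z‖ ≤ ‖z‖ := by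
  refine le_of_sq_le_sq ?_ (norm_nonneg _)
  rw [EuclideanSpace.norm_sq_eq, EuclideanSpace.norm_sq_eq, Fintype.sum_prod_type,
    Fintype.sum_prod_type]
  refine Finset.sum_le_sum fun i _ => ?_
  rw [← ψ.sum_comp, Fintype.sum_sum_type]
  have : ∑ a : Fin r, ‖zpt ψ z (i, a)‖ ^ 2 = ∑ a : Fin r, ‖z (i, ψ (Sum.inl a))‖ ^ 2 := rfl
  rw [this]
  have h2 : 0 ≤ ∑ b : Fin ds, ‖z (i, ψ (Sum.inr b))‖ ^ 2 :=
    Finset.sum_nonneg fun b _ => sq_nonneg _
  linarith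

theorem zpt_near (ψ : Spl r ds dh) (x : Cfg dh) (y₀ : Cfg r) (R : ℝ) :
    ‖zpt ψ x - R • y₀‖ ≤ ‖x - R • cmb ψ y₀ 0‖ := by
  have h : zpt ψ x - R • y₀ = zpt ψ (x - R • cmb ψ y₀ 0) := by
    ext p
    simp [zpt, cmb]
  rw [h]
  exact zpt_le ψ _

theorem inner_iso {V : F →L[ℂ] F} (hn : ∀ v, ‖V v‖ = ‖v‖) (u v : F) :
    inner ℂ (V u) (V v) = inner ℂ u v := by
  let L : F →ₗᵢ[ℂ] F := ⟨V.toLinearMap, hn⟩
  exact L.inner_map_map u v

theorem proj_eq [FiniteDimensional ℂ F] [CompleteSpace F] {V : F →L[ℂ] F} (hn : ∀ v, ‖V v‖ = ‖v‖)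
    (hs : ∀ w, ∃ v, V v = w) {K K' : Submodule ℂ F} (hm : ∀ v, v ∈ K ↔ V v ∈ K') (w : F) :
    K'.starProjection w = V (K.starProjection (ContinuousLinearMap.adjoint V w)) := by
  obtain ⟨u, rfl⟩ := hs w
  have h1 : ContinuousLinearMap.adjoint V (V u) = u := by
    refine ext_inner_right ℂ fun v => ?_
    rw [ContinuousLinearMap.adjoint_inner_left, inner_iso hn]
  rw [h1]
  refine Submodule.eq_starProjection_of_mem_of_inner_eq_zero
    ((hm _).1 (Submodule.starProjection_apply_mem _ _)) ?_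
  intro w' hw'
  obtain ⟨k, rfl⟩ := hs w'
  rw [← map_sub, inner_iso hn]
  exact Submodule.starProjection_inner_eq_zero u k ((hm k).2 hw')

theorem vc_meas [FiniteDimensional ℂ F] {S : Setup d F} {φ : Spl dh dm d} {ψ : Spl r ds dh}
    {U : Set (Cfg r)} {Om : Cfg r → Matrix (Fin dm) (Fin dm) ℝ} {V : Cfg r → F →L[ℂ] F}
    {K : Submodule ℂ F} (hV : S.VFr φ ψ U Om V K)
    (hsm : ContDiffOn ℝ ∞ (fun p : Cfg r × Wsp dm => S.bz φ ψ Om p.1 p.2) (U ×ˢ Set.univ))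
    {E : Cfg dh → Wsp dm → F} (hE : Tst2 E) :
    AEStronglyMeasurable (vc S φ ψ Om E) (volume.restrict (zpt ψ ⁻¹' U)) := by
  have : CompleteSpace F := FiniteDimensional.complete ℂ F
  have hAo : IsOpen (zpt ψ ⁻¹' U) := hV.opn.preimage (zpt_cont ψ)
  have hAm := hAo.measurableSet
  have h1 : ContinuousOn (fun p : Cfg dh × Wsp dm =>
      ((S.bz φ ψ Om (zpt ψ p.1) p.2 : ℝ) : ℂ) • E p.1 p.2) ((zpt ψ ⁻¹' U) ×ˢ Set.univ) := by
    have h2 : ContinuousOn (fun p : Cfg dh × Wsp dm => S.bz φ ψ Om (zpt ψ p.1) p.2)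
        ((zpt ψ ⁻¹' U) ×ˢ Set.univ) := by
      refine hsm.continuousOn.comp (f := fun p : Cfg dh × Wsp dm => (zpt ψ p.1, p.2))
        (((zpt_cont ψ).comp continuous_fst).prodMk continuous_snd).continuousOn ?_
      rintro p ⟨hp, -⟩
      exact ⟨hp, Set.mem_univ _⟩
    exact (Complex.continuous_ofReal.comp_continuousOn h2).smul hE.1.continuous.continuousOn
  have h2 : AEStronglyMeasurable (fun p : Cfg dh × Wsp dm =>
      ((S.bz φ ψ Om (zpt ψ p.1) p.2 : ℝ) : ℂ) • E p.1 p.2)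
      (((volume : Measure (Cfg dh)).restrict (zpt ψ ⁻¹' U)).prod (volume : Measure (Wsp dm))) := by
    have h3 := h1.aestronglyMeasurable (μ := (volume : Measure (Cfg dh)).prod
      (volume : Measure (Wsp dm))) (hAm.prod MeasurableSet.univ)
    rwa [← Measure.prod_restrict, Measure.restrict_univ] at h3
  have h3 := h2.integral_prod_right'
  have h4 : ContinuousOn (fun x => V (zpt ψ x)) (zpt ψ ⁻¹' U) :=
    hV.v_c.continuousOn.comp (zpt_cont ψ).continuousOn fun x hx => hx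
  have h5 : ContinuousOn (fun x => ContinuousLinearMap.adjoint (V (zpt ψ x))) (zpt ψ ⁻¹' U) :=
    (ContinuousLinearMap.adjoint (𝕜 := ℂ) (E := F) (F := F)).continuous.comp_continuousOn h4
  have hap : Continuous (Function.uncurry fun (T : F →L[ℂ] F) (v : F) => T v) :=
    (isBoundedBilinearMap_apply (𝕜 := ℂ) (E := F) (F := F)).continuous
  have h6 := hap.comp_aestronglyMeasurable₂ (h5.aestronglyMeasurable hAm) h3
  have h7 := K.starProjection.continuous.comp_aestronglyMeasurable h6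
  have h8 := hap.comp_aestronglyMeasurable₂ (h4.aestronglyMeasurable hAm) h7
  refine h8.congr ?_
  filter_upwards [ae_restrict_mem hAm] with x hx
  exact (proj_eq (hV.v_n _ hx) (hV.v_s _ hx) (hV.v_m _ hx) _).symm

theorem bz_PR [FiniteDimensional ℂ F] (S : Setup d F) (φ : Spl dh dm d) (ψ : Spl r ds dh)
    (Om : Cfg r → Matrix (Fin dm) (Fin dm) ℝ) (y : Cfg r) (f : Wsp dm → F) (w : Wsp dm) :
    S.PR φ (S.Dz φ ψ y) (Om y) 1 f w = ((S.bz φ ψ Om y w : ℝ) : ℂ) •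
      (S.F0 φ (S.Dz φ ψ y) (Om y)).starProjection (∫ w', ((S.bz φ ψ Om y w' : ℝ) : ℂ) • f w') :=
  PR_eq S φ (S.Dz φ ψ y) (Om y) f w

theorem bz_int {S : Setup d F} {φ : Spl dh dm d} {ψ : Spl r ds dh}
    {U : Set (Cfg r)} {Om : Cfg r → Matrix (Fin dm) (Fin dm) ℝ} {y₀ : Cfg r} {ε C : ℝ}
    (hb : BzFacts S φ ψ U Om y₀ ε C) {y : Cfg r} (hy : y ∈ U) :
    Integrable fun w => S.bz φ ψ Om y w ^ 2 := by
  have := hb.int y hy 0
  simpa using this

theorem bz_cont {S : Setup d F} {φ : Spl dh dm d} {ψ : Spl r ds dh}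
    {U : Set (Cfg r)} {Om : Cfg r → Matrix (Fin dm) (Fin dm) ℝ} {y₀ : Cfg r} {ε C : ℝ}
    (hb : BzFacts S φ ψ U Om y₀ ε C) {y : Cfg r} (hy : y ∈ U) :
    Continuous fun w => S.bz φ ψ Om y w := by
  have h1 : ContinuousOn (fun w : Wsp dm => S.bz φ ψ Om y w) Set.univ :=
    hb.sm.continuousOn.comp (f := fun w : Wsp dm => (y, w))
      (continuous_const.prodMk continuous_id).continuousOn fun w _ => ⟨hy, Set.mem_univ _⟩
  exact continuousOn_univ.1 h1

theorem vc_le [FiniteDimensional ℂ F] {S : Setup d F} {φ : Spl dh dm d} {ψ : Spl r ds dh}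
    {U : Set (Cfg r)} {Om : Cfg r → Matrix (Fin dm) (Fin dm) ℝ} {y₀ : Cfg r} {ε C : ℝ}
    (hb : BzFacts S φ ψ U Om y₀ ε C) {E : Cfg dh → Wsp dm → F} {x : Cfg dh} (hE : FT (E x))
    (hx : zpt ψ x ∈ U) : ‖vc S φ ψ Om E x‖ ^ 2 ≤ nsf (E x) := by
  refine le_trans ?_ (vec_cs _ (bz_int hb hx) (hb.norm _ hx) (E x) (ft_sq hE))
  exact pow_le_pow_left₀ (norm_nonneg _) (Submodule.norm_starProjection_apply_le _ _) 2

theorem vc_int [FiniteDimensional ℂ F] (hA : AN.CalcA dh dm F) (hB : AN.CalcB dh dm F)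
    {S : Setup d F} {φ : Spl dh dm d} {ψ : Spl r ds dh}
    {U : Set (Cfg r)} {Om : Cfg r → Matrix (Fin dm) (Fin dm) ℝ} {V : Cfg r → F →L[ℂ] F}
    {K : Submodule ℂ F} (hV : S.VFr φ ψ U Om V K) {y₀ : Cfg r} {ε C : ℝ}
    (hb : BzFacts S φ ψ U Om y₀ ε C) {E : Cfg dh → Wsp dm → F} (hE : Tst2 E) {R : ℝ} (hR : 0 < R)
    (hEs : Sup2 (cmb ψ y₀ 0) ε R E) : Integrable fun x => ‖vc S φ ψ Om E x‖ ^ 2 := by
  have hAm : MeasurableSet (zpt ψ ⁻¹' U) := (hV.opn.preimage (zpt_cont ψ)).measurableSet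
  have hsupp : Function.support (fun x => ‖vc S φ ψ Om E x‖ ^ 2) ⊆ zpt ψ ⁻¹' U := by
    intro x hx
    by_contra hcon
    apply hx
    have h0 : ∀ w, E x w = 0 := by
      intro w
      by_contra h1
      exact hcon (hb.inU R hR _ ((zpt_near ψ x y₀ R).trans (hEs x w h1).1))
    have h2 : vc S φ ψ Om E x = 0 := by simp [vc, h0]
    simp [h2]
  rw [← integrableOn_iff_integrable_of_support_subset hsupp]
  refine Integrable.mono' ((hB.yw E hE).1.integrableOn) ((vc_meas hV hb.sm hE).norm.pow 2) ?_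
  filter_upwards [ae_restrict_mem hAm] with x hx
  rw [Real.norm_eq_abs, abs_of_nonneg (sq_nonneg _)]
  exact vc_le hb (hA.slw E hE x) hx

/-- a cutoff function -/
noncomputable def ct (t : ℝ) : ℝ := Real.smoothTransition ((1 - t) * (4 / 3))

theorem ct_sm : ContDiff ℝ ∞ ct := by
  refine Real.smoothTransition.contDiff.comp ?_
  fun_prop

theorem ct_one {t : ℝ} (h : t ≤ 1 / 4) : ct t = 1 :=
  Real.smoothTransition.one_of_one_le (by linarith)

theorem ct_zero {t : ℝ} (h : 1 ≤ t) : ct t = 0 :=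
  Real.smoothTransition.zero_of_nonpos (by linarith)

theorem ct_nonneg (t : ℝ) : 0 ≤ ct t := Real.smoothTransition.nonneg _

theorem ct_le (t : ℝ) : ct t ≤ 1 := Real.smoothTransition.le_one _

theorem Q1_mul (hA : AN.CalcA dh dm F) (S : Setup d F) (φ : Spl dh dm d) (β : Fin 16)
    (c : Cfg dh → ℝ) {v : Cfg dh → Wsp dm → F} (hv : Tst2 v) (x : Cfg dh) (w : Wsp dm) :
    S.Q1 φ β (mul2 (fun y _ => c y) v) x w = ((c x : ℝ) : ℂ) • S.Q1 φ β v x w := by
  have h1 : ∀ j B, pw j B (mul2 (fun y _ => c y) v) x w = ((c x : ℝ) : ℂ) • pw j B v x w :=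
    fun j B => hA.pw_mul j B c v hv x w
  have h2 : mul2 (fun y _ => c y) v x w = ((c x : ℝ) : ℂ) • v x w := rfl
  unfold Setup.Q1
  simp only [h1, h2]
  generalize ((c x : ℝ) : ℂ) = z
  simp only [map_smul, smul_add, Finset.smul_sum, smul_comm z, map_sum]

theorem E1_mul_le (hA : AN.CalcA dh dm F) (hB : AN.CalcB dh dm F) (S : Setup d F)
    (φ : Spl dh dm d) (c : Cfg dh → ℝ) (hc0 : ∀ x, 0 ≤ c x) (hc1 : ∀ x, c x ≤ 1)
    {v : Cfg dh → Wsp dm → F} (hv : Tst2 v)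
    (h1 : ∀ β, Tst2 (S.Q1 φ β (mul2 (fun y _ => c y) v))) (h2 : ∀ β, Tst2 (S.Q1 φ β v)) :
    S.E1 φ (mul2 (fun y _ => c y) v) ≤ S.E1 φ v := by
  refine Finset.sum_le_sum fun β _ => ?_
  have := hB.mono 1 _ _ (h1 β) (h2 β) (fun x w => by
    rw [Q1_mul hA S φ β c hv, norm_smul, Complex.norm_real, Real.norm_eq_abs,
      abs_of_nonneg (hc0 x), one_mul]
    refine pow_le_pow_left₀ (mul_nonneg (hc0 x) (norm_nonneg _)) ?_ 2
    exact mul_le_of_le_one_left (norm_nonneg _) (hc1 x))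
  rwa [one_mul] at this

theorem one_n [FiniteDimensional ℂ F] (hA : AN.CalcA dh dm F) (hB : AN.CalcB dh dm F)
    {S : Setup d F} {φ : Spl dh dm d} {ψ : Spl r ds dh}
    {U : Set (Cfg r)} {Om : Cfg r → Matrix (Fin dm) (Fin dm) ℝ} {V : Cfg r → F →L[ℂ] F}
    {K : Submodule ℂ F} (hV : S.VFr φ ψ U Om V K) {y₀ : Cfg r} {ε εb Cb C0 Cg : ℝ}
    (hb : BzFacts S φ ψ U Om y₀ εb Cb) (hεb : ε ≤ εb) (hCg : 0 < Cg) (hε : 0 < ε)
    (hco : S.CoefBd φ (cmb ψ y₀ 0) ε C0)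
    (hgap : ∀ R : ℝ, 1 ≤ R → ∀ x : Cfg dh, ‖x - R • cmb ψ y₀ 0‖ ≤ ε * R → ∀ f : Wsp dm → F,
      FT f → R * nsf (fun w => f w - S.PR φ (S.Dz φ ψ (zpt ψ x)) (Om (zpt ψ x)) 1 f w) ≤
        Cg * (S.e1 φ (S.DY φ x) f + (‖spt ψ x‖ / R) ^ 2 * R * nsf f))
    {R η : ℝ} (hR : 1 ≤ R) (hη : 0 < η) {E v : Cfg dh → Wsp dm → F} (hE : Tst2 E)
    (hEs : Sup2 (cmb ψ y₀ 0) ε R E) (hv : Tst2 v) (hvs : Sup2 (cmb ψ y₀ 0) ε R v)
    (hEη : ∀ x w, E x w ≠ 0 → ‖spt ψ x‖ ≤ η * R) :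
    (R * ‖ip2 E v‖) ^ 2 ≤ (R ^ 2 * ns2 E + ns2 v) *
      (Cg * (S.E1 φ v / R + 4 * η ^ 2 * ns2 v) + R ^ 2 * ∫ x, ‖vc S φ ψ Om E x‖ ^ 2) := by
  have hRpos : 0 < R := by linarith
  have hηR : 0 < 2 * η * R := by positivity
  set χ : Cfg dh → ℝ := fun x => ct (‖spt ψ x‖ ^ 2 / (2 * η * R) ^ 2) with hχ
  have hχ0 : ∀ x, 0 ≤ χ x := fun x => ct_nonneg _
  have hχ1 : ∀ x, χ x ≤ 1 := fun x => ct_le _
  have hχs : ContDiff ℝ ∞ χ := ct_sm.comp ((spt_smooth ψ).div_const _)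
  set v' : Cfg dh → Wsp dm → F := mul2 (fun y _ => χ y) v with hv'
  have hv't : Tst2 v' := hA.mul _ v (hχs.comp contDiff_fst) hv
  have hv's : Sup2 (cmb ψ y₀ 0) ε R v' := by
    intro x w h
    refine hvs x w fun h0 => h ?_
    simp [hv', mul2, h0]
  have hop := AN.op_stmt S φ hA hB (fun _ => 0) (by simp) (cmb ψ y₀ 0) ε C0 hε hco
  have hQ := fun β => hop.t1 R hRpos v hv hvs β
  have hQ' := fun β => hop.t1 R hRpos v' hv't hv's β
  have hE1 : S.E1 φ v' ≤ S.E1 φ v := E1_mul_le hA hB S φ χ hχ0 hχ1 hv hQ' hQ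
  have hns : ns2 v' ≤ ns2 v := by
    have := hB.mono 1 v' v hv't hv (fun x w => by
      rw [one_mul, hv']
      change ‖((χ x : ℝ) : ℂ) • v x w‖ ^ 2 ≤ _
      rw [norm_smul, Complex.norm_real, Real.norm_eq_abs, abs_of_nonneg (hχ0 x)]
      refine pow_le_pow_left₀ (mul_nonneg (hχ0 x) (norm_nonneg _)) ?_ 2
      exact mul_le_of_le_one_left (norm_nonneg _) (hχ1 x))
    rwa [one_mul] at this
  have hip : ip2 E v = ip2 E v' := by
    unfold ip2
    congr 1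
    funext p
    by_cases h0 : E p.1 p.2 = 0
    · rw [h0, inner_zero_left, inner_zero_left]
    · have h1 := hEη _ _ h0
      have h2 : χ p.1 = 1 := by
        refine ct_one ?_
        rw [div_le_iff₀ (by positivity)]
        have := pow_le_pow_left₀ (norm_nonneg _) h1 2
        nlinarith
      have h3 : v' p.1 p.2 = v p.1 p.2 := by
        change ((χ p.1 : ℝ) : ℂ) • v p.1 p.2 = _
        rw [h2, Complex.ofReal_one, one_smul]
      rw [h3]
  have hnsE := hB.nonneg E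
  have hnsv := hB.nonneg v
  have hnsv' := hB.nonneg v'
  have hE10 : 0 ≤ S.E1 φ v := Finset.sum_nonneg fun β _ => hB.nonneg _
  have hE10' : 0 ≤ S.E1 φ v' := Finset.sum_nonneg fun β _ => hB.nonneg _
  have hvcI := vc_int hA hB hV (ε := εb) hb hE hRpos (AN.su359_mono hEs hRpos hεb)
  set q := ∫ x, ‖vc S φ ψ Om E x‖ ^ 2 with hq
  have hq0 : 0 ≤ q := integral_nonneg fun x => sq_nonneg _
  -- energy densities
  have hQi : ∀ β, Integrable (fun y => nsf (S.Q1 φ β v' y)) ∧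
      ns2 (S.Q1 φ β v') = ∫ y, nsf (S.Q1 φ β v' y) := fun β => hB.yw _ (hQ' β)
  have he1i : Integrable (fun y => S.e1 φ (S.DY φ y) (v' y)) := by
    have : Integrable (fun y => ∑ β, nsf (S.Q1 φ β v' y)) :=
      integrable_finsetSum _ fun β _ => (hQi β).1
    exact this.const_mul (1 / 16 : ℝ)
  have he1e : ∫ y, S.e1 φ (S.DY φ y) (v' y) = (1 / 16) * S.E1 φ v' := by
    have h1 : (fun y => S.e1 φ (S.DY φ y) (v' y)) =
        fun y => (1 / 16 : ℝ) * ∑ β, nsf (S.Q1 φ β v' y) := rfl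
    rw [h1, integral_const_mul, integral_finsetSum _ fun β _ => (hQi β).1]
    unfold Setup.E1
    congr 1
    exact Finset.sum_congr rfl fun β _ => ((hQi β).2).symm
  have hvi := hB.yw v' hv't
  have hEi := hB.yw E hE
  rw [hip]
  refine real_cs (by positivity) (by positivity) (by positivity) fun s hs => ?_
  -- pointwise bound
  have hpt : ∀ x, ‖∫ w, inner ℂ (E x w) (v' x w)‖ ≤
      (R * s) / 2 * nsf (E x) + (R * s)⁻¹ / 2 * (R⁻¹ * (Cg * (S.e1 φ (S.DY φ x) (v' x) +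
        4 * η ^ 2 * R * nsf (v' x)))) + ((R * s⁻¹) / 2 * ‖vc S φ ψ Om E x‖ ^ 2 +
        (R * s⁻¹)⁻¹ / 2 * nsf (v' x)) := by
    intro x
    have n1 := AN.e1359_nonneg S φ (S.DY φ x) (v' x)
    have n2 := nsf_nonneg (v' x)
    have n3 := nsf_nonneg (E x)
    by_cases hx : ‖x - R • cmb ψ y₀ 0‖ ≤ ε * R
    swap
    · have h0 : ∀ w, E x w = 0 := by
        intro w
        by_contra h
        exact hx (hEs x w h).1
      simp only [h0, inner_zero_left, integral_zero, norm_zero]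
      have h1 : nsf (E x) = 0 := by simp [nsf, h0]
      positivity
    have hxU : zpt ψ x ∈ U := hb.inU R hRpos _ ((zpt_near ψ x y₀ R).trans
      (hx.trans (mul_le_mul_of_nonneg_right hεb hRpos.le)))
    have h1 := fib_est (S.F0 φ (S.Dz φ ψ (zpt ψ x)) (Om (zpt ψ x)))
      (fun w => S.bz φ ψ Om (zpt ψ x) w) (bz_cont hb hxU) (bz_int hb hxU) (hb.norm _ hxU)
      (E x) (v' x) (hA.slw E hE x) (hA.slw v' hv't x) (s := R * s) (s' := R * s⁻¹)
      (by positivity) (by positivity)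
    have h2 := hgap R hR x hx (v' x) (hA.slw v' hv't x)
    simp only [bz_PR] at h2
    have h3 : (‖spt ψ x‖ / R) ^ 2 * R * nsf (v' x) ≤ 4 * η ^ 2 * R * nsf (v' x) := by
      by_cases h4 : 1 ≤ ‖spt ψ x‖ ^ 2 / (2 * η * R) ^ 2
      · have h5 : ∀ w, v' x w = 0 := by
          intro w
          change ((χ x : ℝ) : ℂ) • v x w = 0
          have : χ x = 0 := ct_zero h4
          rw [this, Complex.ofReal_zero, zero_smul]
        have h6 : nsf (v' x) = 0 := by simp [nsf, h5]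
        rw [h6, mul_zero, mul_zero]
      · push Not at h4
        rw [div_lt_one (by positivity)] at h4
        have h5 : (‖spt ψ x‖ / R) ^ 2 ≤ 4 * η ^ 2 := by
          rw [div_pow, div_le_iff₀ (by positivity)]
          nlinarith
        exact mul_le_mul_of_nonneg_right (mul_le_mul_of_nonneg_right h5 hRpos.le) n2
    have h4 : nsf (fun w => v' x w - ((S.bz φ ψ Om (zpt ψ x) w : ℝ) : ℂ) •
        (S.F0 φ (S.Dz φ ψ (zpt ψ x)) (Om (zpt ψ x))).starProjection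
          (∫ w', ((S.bz φ ψ Om (zpt ψ x) w' : ℝ) : ℂ) • v' x w')) ≤
        R⁻¹ * (Cg * (S.e1 φ (S.DY φ x) (v' x) + 4 * η ^ 2 * R * nsf (v' x))) := by
      rw [inv_mul_eq_div, le_div_iff₀ hRpos, mul_comm]
      exact h2.trans (mul_le_mul_of_nonneg_left (by linarith) hCg.le)
    have h5 := mul_le_mul_of_nonneg_left h4 (inv_nonneg.2 (mul_nonneg hRpos.le hs.le))
    have h6 : vc S φ ψ Om E x = (S.F0 φ (S.Dz φ ψ (zpt ψ x)) (Om (zpt ψ x))).starProjection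
      (∫ w, ((S.bz φ ψ Om (zpt ψ x) w : ℝ) : ℂ) • E x w) := rfl
    rw [h6]
    linarith
  have hipe : ip2 E v' = ∫ x, ∫ w, inner ℂ (E x w) (v' x w) := by
    unfold ip2
    exact integral_prod _ (hB.int_ip E v' hE hv't)
  have hI1 : Integrable fun x => (R * s) / 2 * nsf (E x) := hEi.1.const_mul _
  have hI2 : Integrable fun x => (R * s)⁻¹ / 2 * (R⁻¹ * (Cg * (S.e1 φ (S.DY φ x) (v' x) +
      4 * η ^ 2 * R * nsf (v' x)))) :=
    (((he1i.add (hvi.1.const_mul (4 * η ^ 2 * R))).const_mul Cg).const_mul R⁻¹).const_mul _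
  have hI3 : Integrable fun x => (R * s⁻¹) / 2 * ‖vc S φ ψ Om E x‖ ^ 2 := hvcI.const_mul _
  have hI4 : Integrable fun x => (R * s⁻¹)⁻¹ / 2 * nsf (v' x) := hvi.1.const_mul _
  have hI12 : Integrable fun x => (R * s) / 2 * nsf (E x) + (R * s)⁻¹ / 2 * (R⁻¹ * (Cg *
      (S.e1 φ (S.DY φ x) (v' x) + 4 * η ^ 2 * R * nsf (v' x)))) := hI1.add hI2
  have hI34 : Integrable fun x => (R * s⁻¹) / 2 * ‖vc S φ ψ Om E x‖ ^ 2 +
      (R * s⁻¹)⁻¹ / 2 * nsf (v' x) := hI3.add hI4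
  have hbound := norm_integral_le_of_norm_le (hI12.add hI34) (ae_of_all _ hpt)
  rw [← hipe] at hbound
  have hval : ∫ x, ((R * s) / 2 * nsf (E x) + (R * s)⁻¹ / 2 * (R⁻¹ * (Cg *
        (S.e1 φ (S.DY φ x) (v' x) + 4 * η ^ 2 * R * nsf (v' x)))) +
        ((R * s⁻¹) / 2 * ‖vc S φ ψ Om E x‖ ^ 2 + (R * s⁻¹)⁻¹ / 2 * nsf (v' x))) =
      (R * s) / 2 * ns2 E + (R * s)⁻¹ / 2 * (R⁻¹ * (Cg * ((1 / 16) * S.E1 φ v' +
        4 * η ^ 2 * R * ns2 v'))) + ((R * s⁻¹) / 2 * q + (R * s⁻¹)⁻¹ / 2 * ns2 v') := by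
    rw [integral_add hI12 hI34, integral_add hI1 hI2, integral_add hI3 hI4,
      integral_const_mul, integral_const_mul, integral_const_mul, integral_const_mul,
      integral_const_mul, integral_const_mul, integral_add he1i (hvi.1.const_mul _),
      integral_const_mul, he1e, ← hvi.2, ← hEi.2]
  have hbound' : ‖ip2 E v'‖ ≤ (R * s) / 2 * ns2 E + (R * s)⁻¹ / 2 * (R⁻¹ * (Cg * ((1 / 16) *
      S.E1 φ v' + 4 * η ^ 2 * R * ns2 v'))) + ((R * s⁻¹) / 2 * q + (R * s⁻¹)⁻¹ / 2 * ns2 v') := by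
    rw [← hval]
    exact hbound
  have h7 := mul_le_mul_of_nonneg_left hbound' (by positivity : 0 ≤ 2 * R)
  have h8 : 2 * R * ((R * s) / 2 * ns2 E + (R * s)⁻¹ / 2 * (R⁻¹ * (Cg * ((1 / 16) *
      S.E1 φ v' + 4 * η ^ 2 * R * ns2 v'))) + ((R * s⁻¹) / 2 * q + (R * s⁻¹)⁻¹ / 2 * ns2 v')) =
      s * (R ^ 2 * ns2 E + ns2 v') + s⁻¹ * (Cg * ((1 / 16) * S.E1 φ v' / R +
        4 * η ^ 2 * ns2 v') + R ^ 2 * q) := by
    field_simp
    ring
  rw [h8] at h7
  have h9 : s * (R ^ 2 * ns2 E + ns2 v') ≤ s * (R ^ 2 * ns2 E + ns2 v) :=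
    mul_le_mul_of_nonneg_left (by linarith) hs.le
  have h10 : (1 / 16) * S.E1 φ v' / R ≤ S.E1 φ v / R :=
    div_le_div_of_nonneg_right (by linarith) hRpos.le
  have h11 : 4 * η ^ 2 * ns2 v' ≤ 4 * η ^ 2 * ns2 v :=
    mul_le_mul_of_nonneg_left hns (by positivity)
  have h12 : s⁻¹ * (Cg * ((1 / 16) * S.E1 φ v' / R + 4 * η ^ 2 * ns2 v') + R ^ 2 * q) ≤
      s⁻¹ * (Cg * (S.E1 φ v / R + 4 * η ^ 2 * ns2 v) + R ^ 2 * q) := by
    refine mul_le_mul_of_nonneg_left ?_ (inv_nonneg.2 hs.le)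
    have := mul_le_mul_of_nonneg_left (add_le_add h10 h11) hCg.le
    linarith
  linarith

theorem ip_neg (u v : Cfg dh → Wsp dm → F) : ip2 (fun y w => -u y w) v = -ip2 u v := by
  unfold ip2
  simp only [inner_neg_left, integral_neg]

/-- an odd function only sees the odd part -/
theorem ip_odd (hB : AN.CalcB dh dm F) {E v : Cfg dh → Wsp dm → F} (hE : Tst2 E)
    (hev : Tst2 (evp v)) (hod : Tst2 (odp v)) (hodd : ∀ x w, E x (-w) = -E x w) :
    ip2 E v = ip2 E (odp v) := by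
  have h1 : ip2 E v = ip2 E (evp v) + ip2 E (odp v) := by
    rw [← hB.ip_add E (evp v) (odp v) hE hev hod]
    congr 1
    funext y w
    unfold evp odp
    module
  have h2 : ip2 E (evp v) = 0 := by
    have h3 := hB.refl E (evp v)
    have h4 : (fun y w => E y (-w)) = fun y w => -E y w := by
      funext y w
      exact hodd y w
    have h5 : (fun y w => evp v y (-w)) = evp v := by
      funext y w
      unfold evp
      rw [neg_neg, add_comm]
    rw [h4, h5, ip_neg] at h3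
    have h6 : (2 : ℂ) * ip2 E (evp v) = 0 := by
      linear_combination -h3
    simpa using h6
  rw [h1, h2, zero_add]

end Neg817

open Neg817

/-- **E-Neg** -/
theorem neg {d dh dm r ds : ℕ} {F : Type*} [NormedAddCommGroup F] [InnerProductSpace ℂ F]
    (S : Setup d F) (φ : Spl dh dm d) (ψ : Spl r ds dh) : UGapStmt S φ ψ →
    AN.CalcA dh dm F → AN.CalcB dh dm F → AN.FIntStmt S φ → AN.ParStmt S φ → AN.CoefStmt S φ →
    AN.FibOutStmt S φ → BzStmt S φ ψ → NegStmt S φ ψ := by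
  intro hUG hA hB hFI hPar hCoef hFib hBz fd hsub hcen U Om V K hV y₀ hy₀ hStd
  obtain ⟨εg, Cg, hεg, hCg, hgap⟩ := hUG fd hsub hcen U Om V K hV y₀ hy₀ hStd
  obtain ⟨εb, Cb, hεb, hCb, hb⟩ := hBz hsub hcen U Om V K hV y₀ hy₀
  obtain ⟨εc, C0, hεc, hC0, hco⟩ := hCoef _ hStd
  obtain ⟨Om', εf, C1, hOm', hFrz, hεf, hC1, hff, -⟩ := hFib fd _ hStd
  set ε := min (min εg εb) (min εc εf) with hεdef
  have hε : 0 < ε := lt_min (lt_min hεg hεb) (lt_min hεc hεf)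
  have l1 : ε ≤ εg := (min_le_left _ _).trans (min_le_left _ _)
  have l2 : ε ≤ εb := (min_le_left _ _).trans (min_le_right _ _)
  have l3 : ε ≤ εc := (min_le_right _ _).trans (min_le_left _ _)
  have l4 : ε ≤ εf := (min_le_right _ _).trans (min_le_right _ _)
  have hco' := AN.co359_mono hco l3
  have hff' := AN.ff359_mono hff l4
  refine ⟨ε, hε, ?_⟩
  intro R η E v C hRt hη hηt hR hE hEs hv hvs hnv hE1 hcond
  have hC : 0 ≤ C := (hB.nonneg (v 0)).trans (hnv 0)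
  have hRp : ∀ n, 0 < R n := fun n => lt_of_lt_of_le one_pos (hR n)
  rw [tendsto_zero_iff_norm_tendsto_zero]
  have hnorm : (fun n => ‖(R n : ℂ) * ip2 (E n) (v n)‖) = fun n => R n * ‖ip2 (E n) (v n)‖ := by
    funext n
    rw [norm_mul, Complex.norm_real, Real.norm_eq_abs, abs_of_pos (hRp n)]
  rw [hnorm]
  have hz : ∀ n, 0 ≤ R n * ‖ip2 (E n) (v n)‖ := fun n => mul_nonneg (hRp n).le (norm_nonneg _)
  have hE1' : ∀ n, S.E1 φ (v n) ≤ C := by
    intro n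
    have h0 : 0 ≤ S.E1 φ (v n) := Finset.sum_nonneg fun β _ => hB.nonneg _
    have h1 : 1 ≤ R n ^ 2 := one_le_pow₀ (hR n)
    have := hE1 n
    nlinarith
  rcases hcond with h1 | ⟨h2a, h2b, h2c⟩ | ⟨h3a, h3b⟩
  · refine lim_of C hz (fun n => ?_) h1
    have h2 := ip_cs hA hB (hE n) (hv n)
    have h3 := hB.nonneg (E n)
    rw [mul_pow]
    have h4 : ns2 (E n) * ns2 (v n) ≤ ns2 (E n) * C := mul_le_mul_of_nonneg_left (hnv n) h3
    have h5 := mul_le_mul_of_nonneg_left (h2.trans h4) (sq_nonneg (R n))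
    linarith
  · have hlim : Tendsto (fun n => Cg * (C * (R n)⁻¹ + 4 * (η n ^ 2 * C)) +
        R n ^ 2 * ∫ x, ‖vc S φ ψ Om (E n) x‖ ^ 2) atTop (𝓝 0) := by
      have e1 : Tendsto (fun n => (R n)⁻¹) atTop (𝓝 0) := tendsto_inv_atTop_zero.comp hRt
      have e2 : Tendsto (fun n => η n ^ 2) atTop (𝓝 0) := by simpa using hηt.pow 2
      have e3 := (((e1.const_mul C).add ((e2.mul_const C).const_mul 4)).const_mul Cg).add h2c
      simpa using e3
    refine lim_of (2 * C) hz (fun n => ?_) hlim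
    have h3 := one_n hA hB hV hb l2 hCg hε hco'
      (fun R hR x hx f hf => hgap R hR x (hx.trans (mul_le_mul_of_nonneg_right l1
        (by linarith))) f hf) (hR n) (hη n) (hE n) (hEs n) (hv n) (hvs n) (h2b n)
    have n1 := hB.nonneg (E n)
    have n2 := hB.nonneg (v n)
    have n3 : 0 ≤ S.E1 φ (v n) := Finset.sum_nonneg fun β _ => hB.nonneg _
    have n4 : 0 ≤ ∫ x, ‖vc S φ ψ Om (E n) x‖ ^ 2 := integral_nonneg fun x => sq_nonneg _
    have h4 : R n ^ 2 * ns2 (E n) + ns2 (v n) ≤ 2 * C := by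
      have := h2a n
      have := hnv n
      linarith
    have h5 : Cg * (S.E1 φ (v n) / R n + 4 * η n ^ 2 * ns2 (v n)) +
        R n ^ 2 * ∫ x, ‖vc S φ ψ Om (E n) x‖ ^ 2 ≤
        Cg * (C * (R n)⁻¹ + 4 * (η n ^ 2 * C)) + R n ^ 2 * ∫ x, ‖vc S φ ψ Om (E n) x‖ ^ 2 := by
      have e1 : S.E1 φ (v n) / R n ≤ C * (R n)⁻¹ := by
        rw [div_eq_mul_inv]
        exact mul_le_mul_of_nonneg_right (hE1' n) (inv_nonneg.2 (hRp n).le)
      have e2 : 4 * η n ^ 2 * ns2 (v n) ≤ 4 * (η n ^ 2 * C) := by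
        have := mul_le_mul_of_nonneg_left (hnv n) (sq_nonneg (η n))
        linarith
      have := mul_le_mul_of_nonneg_left (add_le_add e1 e2) hCg.le
      linarith
    have hRn := hRp n
    refine h3.trans (mul_le_mul h4 h5 ?_ (by positivity))
    positivity
  · have h3b' : Tendsto (fun n => ns2 (E n) / R n) atTop (𝓝 0) := h3b
    refine lim_of (C1 * C) hz (fun n => ?_) h3b'
    obtain ⟨p1, p2, p3, p4, p5, p6, p7, -⟩ := hPar (fun _ => 0) (by simp) (cmb ψ y₀ 0) ε C0 hε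
      hco' (R n) (hRp n) 0 (v n) (hv n) (hvs n)
    rw [ip_odd hB (hE n) p1 p2 (h3a n)]
    have h2 := ip_cs hA hB (hE n) p2
    have h4 := (hFI (cmb ψ y₀ 0) ε C0 C1 hε hco' hff' hC1 (R n) (hRp n) (odp (v n)) p2 p4).2 p5
    have n1 := hB.nonneg (E n)
    have n3 : 0 ≤ S.E1 φ (evp (v n)) := Finset.sum_nonneg fun β _ => hB.nonneg _
    have h5 : R n * ns2 (odp (v n)) ≤ C1 * S.E1 φ (v n) :=
      h4.trans (mul_le_mul_of_nonneg_left (by linarith) hC1)
    have hRn := hRp n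
    have h6 : R n ^ 3 * ns2 (odp (v n)) ≤ C1 * C := by
      have e1 := mul_le_mul_of_nonneg_left h5 (sq_nonneg (R n))
      have e2 := mul_le_mul_of_nonneg_left (hE1 n) hC1
      nlinarith
    rw [mul_pow]
    have h7 := mul_le_mul_of_nonneg_left h2 (sq_nonneg (R n))
    have h8 : R n ^ 2 * (ns2 (E n) * ns2 (odp (v n))) =
        ns2 (E n) / R n * (R n ^ 3 * ns2 (odp (v n))) := by
      field_simp
    have h9 := mul_le_mul_of_nonneg_left h6 (div_nonneg n1 hRn.le)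
    linarith

end Vale.Agent.P353.Z.AE
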