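import Vale.Agent.P353.AN.E.Stmt

/-! # P353, all `N`, block E: Lipschitz dependence of the fibre supercharge on the internal part -/

open MeasureTheory Filter Topology Matrix
open scoped ContDiff

namespace Vale.Agent.P353.Z.AE

variable {d dh dm r ds : ℕ} {F : Type*} [NormedAddCommGroup F] [InnerProductSpace ℂ F]

/-- Lipschitz bound for the entries of the inverse -/
private lemma pert2_inv_lip (M M' : Matrix (Fin dm) (Fin dm) ℝ) (hM : M.det ≠ 0) (hM' : M'.det ≠ 0)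
    {K ε : ℝ} (hK : 0 ≤ K) (hε : 0 ≤ ε) (h1 : ∀ A B, |M⁻¹ A B| ≤ K) (h2 : ∀ A B, |M'⁻¹ A B| ≤ K)
    (h3 : ∀ A B, |M' A B - M A B| ≤ ε) (A B : Fin dm) :
    |M'⁻¹ A B - M⁻¹ A B| ≤ dm * (dm * (K * K)) * ε := by
  have key : M'⁻¹ - M⁻¹ = M'⁻¹ * (M - M') * M⁻¹ := by
    rw [Matrix.mul_sub, Matrix.sub_mul, Matrix.nonsing_inv_mul _ (isUnit_iff_ne_zero.2 hM'),
      Matrix.one_mul, Matrix.mul_assoc, Matrix.mul_nonsing_inv _ (isUnit_iff_ne_zero.2 hM),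
      Matrix.mul_one]
  have h4 : M'⁻¹ A B - M⁻¹ A B = ∑ Q, (∑ P, M'⁻¹ A P * (M - M') P Q) * M⁻¹ Q B := by
    rw [← Matrix.sub_apply, key, Matrix.mul_apply]
    simp only [Matrix.mul_apply]
  rw [h4]
  refine (Finset.abs_sum_le_sum_abs _ _).trans ?_
  have h5 : ∀ Q, |(∑ P, M'⁻¹ A P * (M - M') P Q) * M⁻¹ Q B| ≤ (dm * (K * ε)) * K := by
    intro Q
    rw [abs_mul]
    refine mul_le_mul ?_ (h1 Q B) (abs_nonneg _) (by positivity)
    refine (Finset.abs_sum_le_sum_abs _ _).trans ?_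
    have h6 : ∀ P, |M'⁻¹ A P * (M - M') P Q| ≤ K * ε := by
      intro P
      rw [abs_mul, Matrix.sub_apply, abs_sub_comm]
      exact mul_le_mul (h2 A P) (h3 P Q) (abs_nonneg _) hK
    refine (Finset.sum_le_sum fun P _ => h6 P).trans ?_
    rw [Finset.sum_const, Finset.card_univ, Fintype.card_fin, nsmul_eq_mul]
  refine (Finset.sum_le_sum fun Q _ => h5 Q).trans ?_
  rw [Finset.sum_const, Finset.card_univ, Fintype.card_fin, nsmul_eq_mul]
  apply le_of_eq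
  ring

private lemma pert2_wt (w : Wsp dm) (i : Fin 9) (B : Fin dm) : |wt w i B| ≤ ‖w‖ := by
  unfold wt
  refine Fin.lastCases ?_ (fun j => ?_) i
  · rw [Fin.lastCases_last, abs_zero]
    exact norm_nonneg _
  · rw [Fin.lastCases_castSucc, ← Real.norm_eq_abs]
    exact PiLp.norm_apply_le w (j, B)

/-- difference of the coefficients of the derivative term -/
private lemma pert2_coef {K1 K2 e1 e2 a a' b b' : ℝ} (hK1 : 0 ≤ K1) (he1 : 0 ≤ e1)
    (h1 : |a'| ≤ K1) (h2 : |b| ≤ K2) (h3 : |a' - a| ≤ e1) (h4 : |b' - b| ≤ e2) :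
    |a' * b' - a * b| ≤ K1 * e2 + e1 * K2 := by
  have : a' * b' - a * b = a' * (b' - b) + (a' - a) * b := by ring
  rw [this]
  refine (abs_add_le _ _).trans ?_
  rw [abs_mul, abs_mul]
  have g1 : |a'| * |b' - b| ≤ K1 * e2 := mul_le_mul h1 h4 (abs_nonneg _) hK1
  have g2 : |a' - a| * |b| ≤ e1 * K2 := mul_le_mul h3 h2 (abs_nonneg _) he1
  exact add_le_add g1 g2

/-- the pointwise estimate -/
private lemma pert2_point (S : Setup d F) (φ : Spl dh dm d) (D D' : Fin 9 → Matrix (Fin dm) (Fin dm) ℝ)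
    {q ε V : ℝ} (hε : 0 ≤ ε) (hV : 0 ≤ V) (β : Fin 16)
    (hV8 : ∀ B, ‖S.vec (S.g 8) (φ (Sum.inr B)) β‖ ≤ V)
    (hV2 : ∀ B i j, ‖S.vec (S.g2 i j) (φ (Sum.inr B)) β‖ ≤ V)
    (hcf : ∀ (B C : Fin dm) (j : Fin 8) (E : Fin dm),
      |(D' 8)⁻¹ B C * D' j.castSucc C E - (D 8)⁻¹ B C * D j.castSucc C E| ≤ q)
    (hDD : ∀ i A B, |D' i A B - D i A B| ≤ ε) (f : Wsp dm → F) (w : Wsp dm) :
    ‖S.q1 φ D' β f w - S.q1 φ D β f w‖ ≤
      (dm * (V * (dm * q))) * (∑ j, ∑ E, ‖pf j E f w‖) +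
      (dm * (9 * (9 * (S.κ * (dm * ε + dm * ε) * V)))) * ‖((‖w‖ : ℝ) : ℂ) • f w‖ := by
  have hsplit : S.q1 φ D' β f w - S.q1 φ D β f w =
      Complex.I • (∑ B, S.vec (S.g 8) (φ (Sum.inr B)) β (∑ C, ∑ j : Fin 8, ∑ E,
        ((((D' 8)⁻¹ B C * D' j.castSucc C E - (D 8)⁻¹ B C * D j.castSucc C E : ℝ)) : ℂ) • pf j E f w)) +
      (1 / 2 : ℂ) • ∑ B, ∑ i, ∑ j,
        ((S.κ * ((∑ C, (D' i B C - D i B C) * wt w j C) - ∑ C, (D' j B C - D j B C) * wt w i C) : ℝ) : ℂ) •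
          S.vec (S.g2 i j) (φ (Sum.inr B)) β (f w) := by
    have e1 : ∀ B, (∑ C, ∑ j : Fin 8, ∑ E,
        ((((D' 8)⁻¹ B C * D' j.castSucc C E - (D 8)⁻¹ B C * D j.castSucc C E : ℝ)) : ℂ) • pf j E f w) =
        (∑ C, (((D' 8)⁻¹ B C : ℝ) : ℂ) • ∑ j : Fin 8, ∑ E, ((D' j.castSucc C E : ℝ) : ℂ) • pf j E f w) -
        ∑ C, (((D 8)⁻¹ B C : ℝ) : ℂ) • ∑ j : Fin 8, ∑ E, ((D j.castSucc C E : ℝ) : ℂ) • pf j E f w := by
      intro B
      rw [← Finset.sum_sub_distrib]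
      refine Finset.sum_congr rfl fun C _ => ?_
      simp only [Finset.smul_sum, smul_smul, ← Finset.sum_sub_distrib, ← sub_smul]
      refine Finset.sum_congr rfl fun j _ => Finset.sum_congr rfl fun E _ => ?_
      push_cast
      rfl
    have e2 : ∀ B i j, ((S.κ * ((∑ C, (D' i B C - D i B C) * wt w j C) -
        ∑ C, (D' j B C - D j B C) * wt w i C) : ℝ) : ℂ) • S.vec (S.g2 i j) (φ (Sum.inr B)) β (f w) =
        ((S.κ * ((∑ C, D' i B C * wt w j C) - ∑ C, D' j B C * wt w i C) : ℝ) : ℂ) •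
          S.vec (S.g2 i j) (φ (Sum.inr B)) β (f w) -
        ((S.κ * ((∑ C, D i B C * wt w j C) - ∑ C, D j B C * wt w i C) : ℝ) : ℂ) •
          S.vec (S.g2 i j) (φ (Sum.inr B)) β (f w) := by
      intro B i j
      rw [← sub_smul, ← Complex.ofReal_sub]
      congr 2
      simp only [sub_mul, Finset.sum_sub_distrib]
      ring
    simp only [e1, e2, map_sub, Finset.sum_sub_distrib, smul_sub]
    unfold Setup.q1
    abel
  rw [hsplit]
  refine (norm_add_le _ _).trans (add_le_add ?_ ?_)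
  · rw [norm_smul, Complex.norm_I, one_mul]
    have a1 : ∀ B, ‖S.vec (S.g 8) (φ (Sum.inr B)) β (∑ C, ∑ j : Fin 8, ∑ E,
        ((((D' 8)⁻¹ B C * D' j.castSucc C E - (D 8)⁻¹ B C * D j.castSucc C E : ℝ)) : ℂ) • pf j E f w)‖ ≤
        V * (dm * (q * ∑ j, ∑ E, ‖pf j E f w‖)) := by
      intro B
      refine (ContinuousLinearMap.le_opNorm _ _).trans (mul_le_mul (hV8 B) ?_ (norm_nonneg _) hV)
      refine (norm_sum_le _ _).trans ?_
      have a2 : ∀ C, ‖∑ j : Fin 8, ∑ E,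
          ((((D' 8)⁻¹ B C * D' j.castSucc C E - (D 8)⁻¹ B C * D j.castSucc C E : ℝ)) : ℂ) • pf j E f w‖ ≤
          q * ∑ j, ∑ E, ‖pf j E f w‖ := by
        intro C
        refine (norm_sum_le _ _).trans ?_
        rw [Finset.mul_sum]
        refine Finset.sum_le_sum fun j _ => ?_
        refine (norm_sum_le _ _).trans ?_
        rw [Finset.mul_sum]
        refine Finset.sum_le_sum fun E _ => ?_
        rw [norm_smul, Complex.norm_real, Real.norm_eq_abs]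
        refine mul_le_mul_of_nonneg_right ?_ (norm_nonneg _)
        exact hcf B C j E
      refine (Finset.sum_le_sum fun C _ => a2 C).trans ?_
      rw [Finset.sum_const, Finset.card_univ, Fintype.card_fin, nsmul_eq_mul]
    refine (norm_sum_le _ _).trans ((Finset.sum_le_sum fun B _ => a1 B).trans ?_)
    rw [Finset.sum_const, Finset.card_univ, Fintype.card_fin, nsmul_eq_mul]
    apply le_of_eq
    ring
  · rw [norm_smul]
    have b0 : ‖(1 / 2 : ℂ)‖ ≤ 1 := by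
      rw [norm_div, norm_one, Complex.norm_ofNat]; norm_num
    have b1 : ∀ i B j, |∑ C, (D' i B C - D i B C) * wt w j C| ≤ dm * ε * ‖w‖ := by
      intro i B j
      refine (Finset.abs_sum_le_sum_abs _ _).trans ?_
      have : ∀ C, |(D' i B C - D i B C) * wt w j C| ≤ ε * ‖w‖ := by
        intro C
        rw [abs_mul]
        exact mul_le_mul (hDD i B C) (pert2_wt w j C) (abs_nonneg _) hε
      refine (Finset.sum_le_sum fun C _ => this C).trans ?_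
      rw [Finset.sum_const, Finset.card_univ, Fintype.card_fin, nsmul_eq_mul]
      apply le_of_eq
      ring
    have hnw : ‖((‖w‖ : ℝ) : ℂ) • f w‖ = ‖w‖ * ‖f w‖ := by
      rw [norm_smul, Complex.norm_real, norm_norm]
    have b2 : ∀ B i j, ‖((S.κ * ((∑ C, (D' i B C - D i B C) * wt w j C) -
        ∑ C, (D' j B C - D j B C) * wt w i C) : ℝ) : ℂ) • S.vec (S.g2 i j) (φ (Sum.inr B)) β (f w)‖ ≤
        (S.κ * (dm * ε + dm * ε) * V) * ‖((‖w‖ : ℝ) : ℂ) • f w‖ := by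
      intro B i j
      rw [norm_smul, Complex.norm_real, Real.norm_eq_abs, abs_mul, abs_of_pos S.κ_pos, hnw]
      have c1 : |(∑ C, (D' i B C - D i B C) * wt w j C) - ∑ C, (D' j B C - D j B C) * wt w i C| ≤
          (dm * ε + dm * ε) * ‖w‖ := by
        refine (abs_sub _ _).trans ?_
        have := b1 i B j
        have := b1 j B i
        linarith
      have c2 : ‖S.vec (S.g2 i j) (φ (Sum.inr B)) β (f w)‖ ≤ V * ‖f w‖ :=
        (ContinuousLinearMap.le_opNorm _ _).trans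
          (mul_le_mul_of_nonneg_right (hV2 B i j) (norm_nonneg _))
      calc _ ≤ (S.κ * ((dm * ε + dm * ε) * ‖w‖)) * (V * ‖f w‖) :=
            mul_le_mul (mul_le_mul_of_nonneg_left c1 S.κ_pos.le) c2 (norm_nonneg _)
              (mul_nonneg S.κ_pos.le (by positivity))
        _ = _ := by ring
    have b3 : ‖∑ B, ∑ i, ∑ j,
        ((S.κ * ((∑ C, (D' i B C - D i B C) * wt w j C) - ∑ C, (D' j B C - D j B C) * wt w i C) : ℝ) : ℂ) •
          S.vec (S.g2 i j) (φ (Sum.inr B)) β (f w)‖ ≤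
        (dm * (9 * (9 * (S.κ * (dm * ε + dm * ε) * V)))) * ‖((‖w‖ : ℝ) : ℂ) • f w‖ := by
      refine (norm_sum_le _ _).trans ?_
      have : ∀ B, ‖∑ i, ∑ j,
        ((S.κ * ((∑ C, (D' i B C - D i B C) * wt w j C) - ∑ C, (D' j B C - D j B C) * wt w i C) : ℝ) : ℂ) •
          S.vec (S.g2 i j) (φ (Sum.inr B)) β (f w)‖ ≤
          9 * (9 * ((S.κ * (dm * ε + dm * ε) * V) * ‖((‖w‖ : ℝ) : ℂ) • f w‖)) := by
        intro B
        refine (norm_sum_le _ _).trans ((Finset.sum_le_sum fun i _ => (norm_sum_le _ _).trans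
          (Finset.sum_le_sum fun j _ => b2 B i j)).trans ?_)
        simp only [Finset.sum_const, Finset.card_univ, Fintype.card_fin, nsmul_eq_mul]
        norm_num
      refine (Finset.sum_le_sum fun B _ => this B).trans ?_
      rw [Finset.sum_const, Finset.card_univ, Fintype.card_fin, nsmul_eq_mul]
      apply le_of_eq
      ring
    calc _ ≤ 1 * _ := mul_le_mul_of_nonneg_right b0 (norm_nonneg _)
      _ = _ := one_mul _
      _ ≤ _ := b3

private lemma pert2_fin {ι : Type*} [Finite ι] (g : ι → ℝ) : ∃ V : ℝ, 0 ≤ V ∧ ∀ i, g i ≤ V := by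
  obtain ⟨M, hM⟩ := Finite.exists_le g
  exact ⟨max M 0, le_max_right _ _, fun i => (hM i).trans (le_max_left _ _)⟩

private lemma pert2_V (S : Setup d F) (φ : Spl dh dm d) : ∃ V : ℝ, 0 ≤ V ∧
    (∀ β B, ‖S.vec (S.g 8) (φ (Sum.inr B)) β‖ ≤ V) ∧
    (∀ β B i j, ‖S.vec (S.g2 i j) (φ (Sum.inr B)) β‖ ≤ V) := by
  obtain ⟨V1, h1, h1'⟩ := pert2_fin fun p : Fin 16 × Fin dm =>
    ‖S.vec (S.g 8) (φ (Sum.inr p.2)) p.1‖
  obtain ⟨V2, h2, h2'⟩ := pert2_fin fun p : Fin 16 × Fin dm × Fin 9 × Fin 9 =>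
    ‖S.vec (S.g2 p.2.2.1 p.2.2.2) (φ (Sum.inr p.2.1)) p.1‖
  exact ⟨max V1 V2, le_max_of_le_left h1, fun β B => (h1' (β, B)).trans (le_max_left _ _),
    fun β B i j => (h2' (β, B, i, j)).trans (le_max_right _ _)⟩


/-- coordinates of `x` minus its centre part -/
private lemma pert2_coord (ψ : Spl r ds dh) (x : Cfg dh) (p : Fin 9 × Fin dh) :
    |x p - cmb ψ (zpt ψ x) 0 p| ≤ ‖spt ψ x‖ := by
  obtain ⟨i, A⟩ := p
  obtain ⟨t, rfl⟩ := ψ.surjective A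
  rcases t with a | b
  · have h1 : cmb ψ (zpt ψ x) 0 (i, ψ (Sum.inl a)) = x (i, ψ (Sum.inl a)) := by
      simp [cmb, zpt]
    rw [h1, sub_self, abs_zero]
    exact norm_nonneg _
  · have h1 : cmb ψ (zpt ψ x) 0 (i, ψ (Sum.inr b)) = 0 := by
      simp [cmb]
    have h2 : spt ψ x (i, b) = x (i, ψ (Sum.inr b)) := rfl
    rw [h1, sub_zero, ← h2, ← Real.norm_eq_abs]
    exact PiLp.norm_apply_le (spt ψ x) (i, b)

/-- the centre part is closer to the ray -/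
private lemma pert2_norm (ψ : Spl r ds dh) (x : Cfg dh) (y₀ : Cfg r) (R : ℝ) :
    ‖cmb ψ (zpt ψ x) 0 - R • cmb ψ y₀ 0‖ ≤ ‖x - R • cmb ψ y₀ 0‖ := by
  rw [EuclideanSpace.norm_eq, EuclideanSpace.norm_eq]
  refine Real.sqrt_le_sqrt (Finset.sum_le_sum fun p _ => ?_)
  obtain ⟨i, A⟩ := p
  obtain ⟨t, rfl⟩ := ψ.surjective A
  refine pow_le_pow_left₀ (norm_nonneg _) ?_ 2
  rcases t with a | b
  · have h1 : cmb ψ (zpt ψ x) 0 (i, ψ (Sum.inl a)) = x (i, ψ (Sum.inl a)) := by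
      simp [cmb, zpt]
    rw [PiLp.sub_apply, PiLp.sub_apply, h1]
  · have h1 : ∀ y : Cfg r, cmb ψ y 0 (i, ψ (Sum.inr b)) = 0 := by
      intro y
      simp [cmb]
    rw [PiLp.sub_apply, PiLp.smul_apply, h1, h1, smul_zero, sub_zero, norm_zero]
    exact norm_nonneg _

/-- the matrices depend in a Lipschitz way on the internal part -/
private lemma pert2_dy (S : Setup d F) (φ : Spl dh dm d) (ψ : Spl r ds dh) : ∃ c : ℝ, 0 ≤ c ∧
    ∀ (x : Cfg dh) (i : Fin 9) (B E : Fin dm),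
      |S.Dy φ i x B E - S.Dz φ ψ (zpt ψ x) i B E| ≤ c * ‖spt ψ x‖ := by
  obtain ⟨c, hc, hc'⟩ := pert2_fin fun p : Fin dm × Fin dm =>
    ∑ A, |S.f (φ (Sum.inr p.1)) (φ (Sum.inl A)) (φ (Sum.inr p.2))|
  refine ⟨c, hc, fun x i B E => ?_⟩
  have h1 : S.Dy φ i x B E - S.Dz φ ψ (zpt ψ x) i B E =
      ∑ A, S.f (φ (Sum.inr B)) (φ (Sum.inl A)) (φ (Sum.inr E)) *
        (x (i, A) - cmb ψ (zpt ψ x) 0 (i, A)) := by
    simp only [Setup.Dz, Setup.Dy, Setup.Dm, Matrix.of_apply, mul_sub, Finset.sum_sub_distrib]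
  rw [h1]
  refine (Finset.abs_sum_le_sum_abs _ _).trans ?_
  refine (Finset.sum_le_sum fun A _ => ?_ :
    _ ≤ ∑ A, |S.f (φ (Sum.inr B)) (φ (Sum.inl A)) (φ (Sum.inr E))| * ‖spt ψ x‖).trans ?_
  · rw [abs_mul]
    exact mul_le_mul_of_nonneg_left (pert2_coord ψ x (i, A)) (abs_nonneg _)
  · rw [← Finset.sum_mul]
    exact mul_le_mul_of_nonneg_right (hc' (B, E)) (norm_nonneg _)

/-- **E-Pert2** -/
theorem pert2 (S : Setup d F) (φ : Spl dh dm d) (ψ : Spl r ds dh) : Pert2Stmt S φ ψ := by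
  intro _ _ y₀ ε0 C0 _ hC0 hB
  obtain ⟨V, hV, hV8, hV2⟩ := pert2_V S φ
  obtain ⟨c, hc, hc'⟩ := pert2_dy S φ ψ
  obtain ⟨a, ha⟩ : ∃ a : ℝ, a = dm * (V * (dm * (C0 * c + dm * (dm * (C0 * C0)) * c * C0))) :=
    ⟨_, rfl⟩
  obtain ⟨b, hb⟩ : ∃ b : ℝ, b = dm * (9 * (9 * (S.κ * (dm * c + dm * c) * V))) := ⟨_, rfl⟩
  have ha0 : 0 ≤ a := by rw [ha]; positivity
  have hb0 : 0 ≤ b := by
    rw [hb]
    have := S.κ_pos.le
    positivity
  refine ⟨a + b, by positivity, fun R hR x hx f β w => ?_⟩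
  have hx' : ‖cmb ψ (zpt ψ x) 0 - R • cmb ψ y₀ 0‖ ≤ ε0 * R := (pert2_norm ψ x y₀ R).trans hx
  have hd1 := hB.det R hR x hx
  have hd2 := hB.det R hR _ hx'
  have hi1 := hB.inv R hR x hx
  have hi2 := hB.inv R hR _ hx'
  have hy2 := hB.dy R hR _ hx'
  obtain ⟨s, hs⟩ : ∃ s : ℝ, s = ‖spt ψ x‖ := ⟨_, rfl⟩
  have hs0 : 0 ≤ s := by rw [hs]; exact norm_nonneg _
  have hDD : ∀ i A B, |S.DY φ x i A B - S.Dz φ ψ (zpt ψ x) i A B| ≤ c * s := by
    intro i A B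
    rw [hs]
    exact hc' x i A B
  have hCR : 0 ≤ C0 / R := by positivity
  have hcs : 0 ≤ c * s := by positivity
  have hI : ∀ A B, |(S.DY φ x 8)⁻¹ A B - (S.Dz φ ψ (zpt ψ x) 8)⁻¹ A B| ≤
      dm * (dm * (C0 / R * (C0 / R))) * (c * s) :=
    pert2_inv_lip (S.Dz φ ψ (zpt ψ x) 8) (S.DY φ x 8) hd2 hd1 hCR hcs hi2 hi1 (hDD 8)
  have hcf : ∀ (B C : Fin dm) (j : Fin 8) (E : Fin dm),
      |(S.DY φ x 8)⁻¹ B C * S.DY φ x j.castSucc C E -
        (S.Dz φ ψ (zpt ψ x) 8)⁻¹ B C * S.Dz φ ψ (zpt ψ x) j.castSucc C E| ≤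
        C0 / R * (c * s) + dm * (dm * (C0 / R * (C0 / R))) * (c * s) * (C0 * R) := by
    intro B C j E
    exact pert2_coef hCR (by positivity) (hi1 B C) (hy2 _ _ _) (hI B C) (hDD _ _ _)
  have hpt := pert2_point S φ (S.Dz φ ψ (zpt ψ x)) (S.DY φ x) hcs hV β (hV8 β) (hV2 β) hcf hDD f w
  refine hpt.trans ?_
  have hnw : ‖((‖w‖ : ℝ) : ℂ) • f w‖ = ‖w‖ * ‖f w‖ := by
    rw [norm_smul, Complex.norm_real, norm_norm]
  rw [hnw, ← hs]
  have e1 : (dm * (V * (dm * (C0 / R * (c * s) +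
      dm * (dm * (C0 / R * (C0 / R))) * (c * s) * (C0 * R))))) = a * (s / R) := by
    rw [ha]
    field_simp
  have e2 : (dm * (9 * (9 * (S.κ * (dm * (c * s) + dm * (c * s)) * V)))) = b * (s / R) * R := by
    rw [hb]
    field_simp
  rw [e1, e2]
  have hS : 0 ≤ ∑ j, ∑ E, ‖pf j E f w‖ :=
    Finset.sum_nonneg fun _ _ => Finset.sum_nonneg fun _ _ => norm_nonneg _
  have hW : 0 ≤ R * ‖w‖ * ‖f w‖ := by positivity
  have hsR : 0 ≤ s / R := by positivity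
  have e3 : 0 ≤ b * (s / R) * ∑ j, ∑ E, ‖pf j E f w‖ := by positivity
  have e4 : 0 ≤ a * (s / R) * (R * ‖w‖ * ‖f w‖) := by positivity
  nlinarith

end Vale.Agent.P353.Z.AE
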