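import Vale.Agent.P353.AN.E.Stmt

/-! # P353, all `N`, block E: the vacuum projection depends continuously on the central point (`PrCStmt`) -/

open MeasureTheory Filter Topology Matrix
open scoped ContDiff

namespace Vale.Agent.P353.Z.AE

variable {d dh dm r ds : ℕ} {F : Type*} [NormedAddCommGroup F] [InnerProductSpace ℂ F]

namespace PrCAux

/-! ### projections onto images of isometries -/

lemma prc_inner (T : F →L[ℂ] F) (hT : ∀ v, ‖T v‖ = ‖v‖) (v w : F) :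
    inner ℂ (T v) (T w) = inner ℂ v w := by
  let L : F →ₗᵢ[ℂ] F := ⟨T.toLinearMap, hT⟩
  exact L.inner_map_map v w

lemma prc_proj [FiniteDimensional ℂ F] (T : F →L[ℂ] F) (hT : ∀ v, ‖T v‖ = ‖v‖)
    (hs : ∀ w, ∃ v, T v = w) (K K' : Submodule ℂ F) (hm : ∀ v, v ∈ K ↔ T v ∈ K') (u : F) :
    K'.starProjection (T u) = T (K.starProjection u) := by
  refine Submodule.eq_starProjection_of_mem_of_inner_eq_zero
    ((hm _).1 (Submodule.coe_mem (K.orthogonalProjectionOnto u))) ?_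
  intro w hw
  obtain ⟨w', rfl⟩ := hs w
  have hw' : w' ∈ K := (hm _).2 hw
  rw [← map_sub, prc_inner T hT]
  exact Submodule.starProjection_inner_eq_zero _ _ hw'

lemma prc_pd [FiniteDimensional ℂ F] (T₁ T₀ : F →L[ℂ] F) (h1 : ∀ v, ‖T₁ v‖ = ‖v‖)
    (h0 : ∀ v, ‖T₀ v‖ = ‖v‖) (s1 : ∀ w, ∃ v, T₁ v = w) (s0 : ∀ w, ∃ v, T₀ v = w)
    (K K₁ K₀ : Submodule ℂ F) (m1 : ∀ v, v ∈ K ↔ T₁ v ∈ K₁) (m0 : ∀ v, v ∈ K ↔ T₀ v ∈ K₀) (u : F) :
    ‖K₁.starProjection u - K₀.starProjection u‖ ≤ 2 * ‖T₁ - T₀‖ * ‖u‖ := by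
  obtain ⟨a, ha⟩ := s1 u
  obtain ⟨b, hb⟩ := s0 u
  have e1 : K₁.starProjection u = T₁ (K.starProjection a) := by
    rw [← ha]
    exact prc_proj T₁ h1 s1 K K₁ m1 a
  have e0 : K₀.starProjection u = T₀ (K.starProjection b) := by
    rw [← hb]
    exact prc_proj T₀ h0 s0 K K₀ m0 b
  have hbu : ‖b‖ = ‖u‖ := by rw [← h0, hb]
  have hab : ‖a - b‖ ≤ ‖T₁ - T₀‖ * ‖u‖ := by
    have h2 : T₁ (a - b) = -((T₁ - T₀) b) := by
      rw [map_sub, ha, _root_.sub_apply, hb]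
      abel
    rw [← h1, h2, norm_neg, ← hbu]
    exact ContinuousLinearMap.le_opNorm _ _
  have h3 : K₁.starProjection u - K₀.starProjection u =
      T₁ (K.starProjection (a - b)) + (T₁ - T₀) (K.starProjection b) := by
    rw [e1, e0, map_sub, map_sub, _root_.sub_apply]
    abel
  rw [h3]
  refine (norm_add_le _ _).trans ?_
  have h4 : ‖T₁ (K.starProjection (a - b))‖ ≤ ‖T₁ - T₀‖ * ‖u‖ := by
    rw [h1]
    exact (Submodule.norm_starProjection_apply_le K _).trans hab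
  have h5 : ‖(T₁ - T₀) (K.starProjection b)‖ ≤ ‖T₁ - T₀‖ * ‖u‖ := by
    refine (ContinuousLinearMap.le_opNorm _ _).trans ?_
    rw [← hbu]
    exact mul_le_mul_of_nonneg_left (Submodule.norm_starProjection_apply_le K _) (norm_nonneg _)
  linarith

/-! ### Cauchy–Schwarz -/

lemma prc_cs {X : Type*} [MeasurableSpace X] {μ : Measure X} {a c : X → ℝ}
    (ha : Integrable (fun x => a x ^ 2) μ) (hc : Integrable (fun x => c x ^ 2) μ)
    (hac : Integrable (fun x => a x * c x) μ) :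
    (∫ x, a x * c x ∂μ) ^ 2 ≤ (∫ x, a x ^ 2 ∂μ) * ∫ x, c x ^ 2 ∂μ := by
  have h : ∀ t : ℝ, 0 ≤ (∫ x, a x ^ 2 ∂μ) * (t * t) + (-2 * ∫ x, a x * c x ∂μ) * t +
      ∫ x, c x ^ 2 ∂μ := by
    intro t
    have e : (∫ x, a x ^ 2 ∂μ) * (t * t) + (-2 * ∫ x, a x * c x ∂μ) * t + ∫ x, c x ^ 2 ∂μ =
        ∫ x, (t * a x - c x) ^ 2 ∂μ := by
      have e1 : ∀ x, (t * a x - c x) ^ 2 = (t * t) * a x ^ 2 + (-2 * t) * (a x * c x) + c x ^ 2 := by
        intro x; ring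
      simp only [e1]
      rw [integral_add (by exact (ha.const_mul _).add (hac.const_mul _)) hc,
        integral_add (ha.const_mul _) (hac.const_mul _), integral_const_mul, integral_const_mul]
      ring
    rw [e]
    exact integral_nonneg fun x => sq_nonneg _
  have h2 := discrim_le_zero h
  unfold discrim at h2
  nlinarith

lemma prc_csv {b : Wsp dm → ℝ} {f : Wsp dm → F} (hb : Continuous b)
    (hb2 : Integrable fun w => b w ^ 2) (hf : Continuous f) (hs : HasCompactSupport f) :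
    ‖∫ w, ((b w : ℝ) : ℂ) • f w‖ ^ 2 ≤ (∫ w, b w ^ 2) * nsf f := by
  have i1 : Integrable fun w => |b w| * ‖f w‖ := by
    refine Continuous.integrable_of_hasCompactSupport (hb.abs.mul hf.norm) ?_
    refine HasCompactSupport.intro hs fun w hw => ?_
    rw [image_eq_zero_of_notMem_tsupport hw, norm_zero, mul_zero]
  have i2 : Integrable fun w => ‖f w‖ ^ 2 := by
    refine Continuous.integrable_of_hasCompactSupport (hf.norm.pow 2) ?_
    refine HasCompactSupport.intro hs fun w hw => ?_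
    rw [image_eq_zero_of_notMem_tsupport hw, norm_zero]
    norm_num
  have i3 : Integrable fun w => |b w| ^ 2 := by
    simpa only [sq_abs] using hb2
  have h1 : ‖∫ w, ((b w : ℝ) : ℂ) • f w‖ ≤ ∫ w, |b w| * ‖f w‖ := by
    refine (norm_integral_le_integral_norm _).trans (le_of_eq ?_)
    refine integral_congr_ae (ae_of_all _ fun w => ?_)
    simp only [norm_smul, Complex.norm_real, Real.norm_eq_abs]
  have h2 := prc_cs i3 i2 i1
  simp only [sq_abs] at h2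
  refine le_trans ?_ h2
  exact pow_le_pow_left₀ (norm_nonneg _) h1 2

/-! ### difference of two rank-type projections -/

lemma prc_diff [FiniteDimensional ℂ F] {b₁ b₀ : Wsp dm → ℝ} (c1 : Continuous b₁) (c0 : Continuous b₀)
    (i1 : Integrable fun w => b₁ w ^ 2) (i0 : Integrable fun w => b₀ w ^ 2)
    (n1 : ∫ w, b₁ w ^ 2 = 1) (n0 : ∫ w, b₀ w ^ 2 = 1) (P₁ P₀ : F →L[ℂ] F) (hP0 : ∀ u, ‖P₀ u‖ ≤ ‖u‖)
    (hP1 : ∀ u, ‖P₁ u‖ ≤ ‖u‖)
    {τ : ℝ} (hP : ∀ u, ‖P₁ u - P₀ u‖ ≤ τ * ‖u‖) {f : Wsp dm → F} (hf : FT f) :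
    nsf (fun w => ((b₁ w : ℝ) : ℂ) • P₁ (∫ w', ((b₁ w' : ℝ) : ℂ) • f w') -
      ((b₀ w : ℝ) : ℂ) • P₀ (∫ w', ((b₀ w' : ℝ) : ℂ) • f w')) ≤
      (6 * (∫ w, (b₁ w - b₀ w) ^ 2) + 3 * τ ^ 2) * nsf f := by
  have hfc := hf.1.continuous
  have hprod : Integrable fun w => b₁ w * b₀ w := by
    refine Integrable.mono' (i1.add i0) (c1.mul c0).aestronglyMeasurable (ae_of_all _ fun w => ?_)
    rw [Real.norm_eq_abs]
    simp only [Pi.add_apply]
    rw [abs_le]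
    constructor <;> nlinarith [sq_nonneg (b₁ w + b₀ w), sq_nonneg (b₁ w - b₀ w), sq_nonneg (b₁ w),
      sq_nonneg (b₀ w)]
  have id : Integrable fun w => (b₁ w - b₀ w) ^ 2 := by
    have e : ∀ w, (b₁ w - b₀ w) ^ 2 = b₁ w ^ 2 + b₀ w ^ 2 + (-2) * (b₁ w * b₀ w) := by
      intro w; ring
    simp only [e]
    exact (i1.add i0).add (hprod.const_mul _)
  set a₁ := ∫ w', ((b₁ w' : ℝ) : ℂ) • f w' with ha₁
  set a₀ := ∫ w', ((b₀ w' : ℝ) : ℂ) • f w' with ha₀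
  set β := ∫ w, (b₁ w - b₀ w) ^ 2 with hβ
  have hβ0 : 0 ≤ β := integral_nonneg fun w => sq_nonneg _
  have hN : 0 ≤ nsf f := integral_nonneg fun w => sq_nonneg _
  have A1 : ‖a₁‖ ^ 2 ≤ nsf f := by
    have := prc_csv c1 i1 hfc hf.2
    rwa [n1, one_mul] at this
  have hint : ∀ {b : Wsp dm → ℝ}, Continuous b → Integrable fun w => ((b w : ℝ) : ℂ) • f w := by
    intro b hb
    refine Continuous.integrable_of_hasCompactSupport ((Complex.continuous_ofReal.comp hb).smul hfc) ?_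
    refine HasCompactSupport.intro hf.2 fun w hw => ?_
    rw [image_eq_zero_of_notMem_tsupport hw, smul_zero]
  have A2 : ‖a₁ - a₀‖ ^ 2 ≤ β * nsf f := by
    have h := prc_csv (b := fun w => b₁ w - b₀ w) (c1.sub c0) id hfc hf.2
    have e : (∫ w, ((b₁ w - b₀ w : ℝ) : ℂ) • f w) = a₁ - a₀ := by
      rw [ha₁, ha₀, ← integral_sub (hint c1) (hint c0)]
      refine integral_congr_ae (ae_of_all _ fun w => ?_)
      simp only [Complex.ofReal_sub, sub_smul]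
    rwa [e] at h
  have hpt : ∀ w, ‖((b₁ w : ℝ) : ℂ) • P₁ a₁ - ((b₀ w : ℝ) : ℂ) • P₀ a₀‖ ^ 2 ≤
      3 * ‖a₁‖ ^ 2 * (b₁ w - b₀ w) ^ 2 + (3 * τ ^ 2 * ‖a₁‖ ^ 2 + 3 * ‖a₁ - a₀‖ ^ 2) * b₀ w ^ 2 := by
    intro w
    have e : ((b₁ w : ℝ) : ℂ) • P₁ a₁ - ((b₀ w : ℝ) : ℂ) • P₀ a₀ =
        ((b₁ w - b₀ w : ℝ) : ℂ) • P₁ a₁ + ((b₀ w : ℝ) : ℂ) • (P₁ a₁ - P₀ a₁) +
          ((b₀ w : ℝ) : ℂ) • P₀ (a₁ - a₀) := by
      rw [map_sub, Complex.ofReal_sub, sub_smul, smul_sub, smul_sub]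
      abel
    rw [e]
    have t1 : ‖((b₁ w - b₀ w : ℝ) : ℂ) • P₁ a₁‖ ≤ |b₁ w - b₀ w| * ‖a₁‖ := by
      rw [norm_smul, Complex.norm_real, Real.norm_eq_abs]
      exact mul_le_mul_of_nonneg_left (hP1 _) (abs_nonneg _)
    have t2 : ‖((b₀ w : ℝ) : ℂ) • (P₁ a₁ - P₀ a₁)‖ ≤ |b₀ w| * (τ * ‖a₁‖) := by
      rw [norm_smul, Complex.norm_real, Real.norm_eq_abs]
      exact mul_le_mul_of_nonneg_left (hP _) (abs_nonneg _)
    have t3 : ‖((b₀ w : ℝ) : ℂ) • P₀ (a₁ - a₀)‖ ≤ |b₀ w| * ‖a₁ - a₀‖ := by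
      rw [norm_smul, Complex.norm_real, Real.norm_eq_abs]
      exact mul_le_mul_of_nonneg_left (hP0 _) (abs_nonneg _)
    have t4 : ‖((b₁ w - b₀ w : ℝ) : ℂ) • P₁ a₁ + ((b₀ w : ℝ) : ℂ) • (P₁ a₁ - P₀ a₁) +
          ((b₀ w : ℝ) : ℂ) • P₀ (a₁ - a₀)‖ ≤
        |b₁ w - b₀ w| * ‖a₁‖ + |b₀ w| * (τ * ‖a₁‖) + |b₀ w| * ‖a₁ - a₀‖ :=
      (norm_add₃_le).trans (add_le_add (add_le_add t1 t2) t3)
    refine (pow_le_pow_left₀ (norm_nonneg _) t4 2).trans ?_
    have key : ∀ x y z : ℝ, (x + y + z) ^ 2 ≤ 3 * (x ^ 2 + y ^ 2 + z ^ 2) := by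
      intro x y z
      nlinarith [sq_nonneg (x - y), sq_nonneg (y - z), sq_nonneg (x - z)]
    refine (key _ _ _).trans (le_of_eq ?_)
    rw [mul_pow, mul_pow, mul_pow, mul_pow, sq_abs, sq_abs]
    ring
  have hmono : nsf (fun w => ((b₁ w : ℝ) : ℂ) • P₁ a₁ - ((b₀ w : ℝ) : ℂ) • P₀ a₀) ≤
      ∫ w, (3 * ‖a₁‖ ^ 2 * (b₁ w - b₀ w) ^ 2 + (3 * τ ^ 2 * ‖a₁‖ ^ 2 + 3 * ‖a₁ - a₀‖ ^ 2) * b₀ w ^ 2) := by
    unfold nsf
    exact integral_mono_of_nonneg (ae_of_all _ fun w => sq_nonneg _)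
      ((id.const_mul _).add (i0.const_mul _)) (ae_of_all _ hpt)
  refine hmono.trans ?_
  rw [integral_add (id.const_mul _) (i0.const_mul _), integral_const_mul, integral_const_mul, n0, ← hβ]
  have hτ2 : 0 ≤ τ ^ 2 := sq_nonneg _
  nlinarith [mul_le_mul_of_nonneg_left A1 hβ0, mul_le_mul_of_nonneg_left A1 hτ2]

/-! ### Gaussians -/

lemma prc_int_exp {c : ℝ} (hc : 0 < c) : Integrable fun w : Wsp dm => Real.exp (-c * ‖w‖ ^ 2) := by
  have h := GaussianFourier.integrable_cexp_neg_mul_sq_norm_add (V := Wsp dm) (b := (c : ℂ))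
    (by simpa using hc) 0 (0 : Wsp dm)
  have h2 := h.re
  refine h2.congr (ae_of_all _ fun w => ?_)
  simp only [zero_mul, add_zero]
  have : (-(c : ℂ) * (‖w‖ : ℂ) ^ 2) = ((-c * ‖w‖ ^ 2 : ℝ) : ℂ) := by push_cast; ring
  rw [this, ← Complex.ofReal_exp, RCLike.re_to_complex, Complex.ofReal_re]

lemma prc_int_q {q : Wsp dm → ℝ} (hq : Continuous q) {c : ℝ} (hc : 0 < c) (h : ∀ w, c * ‖w‖ ^ 2 ≤ q w) :
    Integrable fun w => Real.exp (-q w) := by
  refine (prc_int_exp hc).mono' (Real.continuous_exp.comp hq.neg).aestronglyMeasurable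
    (ae_of_all _ fun w => ?_)
  rw [Real.norm_eq_abs, abs_of_pos (Real.exp_pos _)]
  refine Real.exp_le_exp.2 ?_
  have := h w
  linarith

/-- scaling of the Gaussian integral -/
lemma prc_scale {Q : Wsp dm → ℝ} (hQ : ∀ (s : ℝ) w, Q (s • w) = s ^ 2 * Q w) {t : ℝ} (ht : 0 < t) :
    ∫ w, Real.exp (-(t * Q w)) =
      (Real.sqrt t ^ (Module.finrank ℝ (Wsp dm)))⁻¹ * ∫ w, Real.exp (-Q w) := by
  have h := Measure.integral_comp_smul (volume : Measure (Wsp dm)) (fun w => Real.exp (-Q w)) (Real.sqrt t)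
  have e : ∀ w, Real.exp (-Q (Real.sqrt t • w)) = Real.exp (-(t * Q w)) := by
    intro w
    rw [hQ, Real.sq_sqrt ht.le]
  simp only [e] at h
  rw [h, smul_eq_mul, abs_of_nonneg]
  exact inv_nonneg.2 (pow_nonneg (Real.sqrt_nonneg _) _)

/-- overlap of two nearby normalised Gaussians -/
lemma prc_over {Q q : Wsp dm → ℝ} (hQc : Continuous Q) (hqc : Continuous q)
    (hQ : ∀ (s : ℝ) w, Q (s • w) = s ^ 2 * Q w) {c : ℝ} (hc : 0 < c) (hlow : ∀ w, c * ‖w‖ ^ 2 ≤ Q w)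
    {η : ℝ} (h0 : 0 ≤ η) (h1 : η < 1) (hcl : ∀ w, |q w - Q w| ≤ η * Q w) :
    (Real.sqrt (1 + η / 2) ^ (Module.finrank ℝ (Wsp dm)))⁻¹ *
        Real.sqrt (Real.sqrt (1 - η) ^ (Module.finrank ℝ (Wsp dm))) ≤
      ∫ w, (Real.exp (-(1 / 2) * q w) / Real.sqrt (∫ w', Real.exp (-q w'))) *
        (Real.exp (-(1 / 2) * Q w) / Real.sqrt (∫ w', Real.exp (-Q w'))) := by
  have hQ0 : ∀ w, 0 ≤ Q w := fun w => (mul_nonneg hc.le (sq_nonneg _)).trans (hlow w)
  have hqlow : ∀ w, ((1 - η) * c) * ‖w‖ ^ 2 ≤ q w := by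
    intro w
    have h2 := (abs_le.1 (hcl w)).1
    have h3 := hlow w
    nlinarith [sub_pos.2 h1]
  have hc1 : 0 < (1 - η) * c := mul_pos (sub_pos.2 h1) hc
  have iQ := prc_int_q hQc hc hlow
  have iq := prc_int_q hqc hc1 hqlow
  set N₀ := ∫ w', Real.exp (-Q w') with hN₀
  set N₁ := ∫ w', Real.exp (-q w') with hN₁
  have pN₀ : 0 < N₀ := integral_exp_pos iQ
  have pN₁ : 0 < N₁ := integral_exp_pos iq
  have it : ∀ {t : ℝ}, 0 < t → Integrable fun w => Real.exp (-(t * Q w)) := by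
    intro t ht
    refine prc_int_q (q := fun w => t * Q w) (continuous_const.mul hQc) (mul_pos ht hc) fun w => ?_
    have := mul_le_mul_of_nonneg_left (hlow w) ht.le
    linarith
  set n := Module.finrank ℝ (Wsp dm) with hn
  set A := Real.sqrt (1 + η / 2) ^ n with hA
  set B := Real.sqrt (1 - η) ^ n with hB
  have pA : 0 < A := pow_pos (Real.sqrt_pos.2 (by linarith)) _
  have pB : 0 < B := pow_pos (Real.sqrt_pos.2 (by linarith)) _
  have e1 : N₁ ≤ B⁻¹ * N₀ := by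
    rw [hB, hN₀, ← prc_scale hQ (sub_pos.2 h1)]
    refine integral_mono iq (it (sub_pos.2 h1)) fun w => ?_
    refine Real.exp_le_exp.2 ?_
    have h2 := (abs_le.1 (hcl w)).1
    linarith
  have e2 : A⁻¹ * N₀ ≤ ∫ w, Real.exp (-(1 / 2) * q w) * Real.exp (-(1 / 2) * Q w) := by
    rw [hA, hN₀, ← prc_scale hQ (by linarith : (0 : ℝ) < 1 + η / 2)]
    refine integral_mono (it (by linarith)) ?_ fun w => ?_
    · have hI : Integrable fun w => Real.exp (-((1 / 2) * q w + (1 / 2) * Q w)) := by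
        refine prc_int_q (q := fun w => (1 / 2) * q w + (1 / 2) * Q w)
          ((continuous_const.mul hqc).add (continuous_const.mul hQc)) (mul_pos one_half_pos hc) fun w => ?_
        have h2 := hlow w
        have h3 : 0 ≤ q w := (mul_nonneg hc1.le (sq_nonneg _)).trans (hqlow w)
        linarith
      refine hI.congr (ae_of_all _ fun w => ?_)
      simp only
      rw [← Real.exp_add]
      congr 1
      ring
    · simp only
      rw [← Real.exp_add]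
      refine Real.exp_le_exp.2 ?_
      have h2 := (abs_le.1 (hcl w)).2
      linarith
  have e3 : (∫ w, (Real.exp (-(1 / 2) * q w) / Real.sqrt N₁) * (Real.exp (-(1 / 2) * Q w) / Real.sqrt N₀)) =
      (∫ w, Real.exp (-(1 / 2) * q w) * Real.exp (-(1 / 2) * Q w)) / (Real.sqrt N₁ * Real.sqrt N₀) := by
    rw [← integral_div]
    refine integral_congr_ae (ae_of_all _ fun w => ?_)
    simp only
    rw [div_mul_div_comm]
  rw [e3]
  have s0 : 0 < Real.sqrt N₀ := Real.sqrt_pos.2 pN₀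
  have s1 : 0 < Real.sqrt N₁ := Real.sqrt_pos.2 pN₁
  have e4 : Real.sqrt N₁ * Real.sqrt B ≤ Real.sqrt N₀ := by
    rw [← Real.sqrt_mul pN₁.le]
    refine Real.sqrt_le_sqrt ?_
    calc N₁ * B ≤ (B⁻¹ * N₀) * B := mul_le_mul_of_nonneg_right e1 pB.le
      _ = N₀ := by field_simp
  rw [le_div_iff₀ (mul_pos s1 s0)]
  refine le_trans ?_ e2
  have e5 : A⁻¹ * Real.sqrt B * (Real.sqrt N₁ * Real.sqrt N₀) =
      A⁻¹ * ((Real.sqrt N₁ * Real.sqrt B) * Real.sqrt N₀) := by ring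
  rw [e5]
  refine mul_le_mul_of_nonneg_left ?_ (inv_nonneg.2 pA.le)
  calc (Real.sqrt N₁ * Real.sqrt B) * Real.sqrt N₀ ≤ Real.sqrt N₀ * Real.sqrt N₀ :=
        mul_le_mul_of_nonneg_right e4 s0.le
    _ = N₀ := Real.mul_self_sqrt pN₀.le

/-- the constant tends to one -/
lemma prc_const (n : ℕ) {δ : ℝ} (hδ : 0 < δ) : ∃ η : ℝ, 0 < η ∧ η < 1 ∧
    1 - δ ≤ (Real.sqrt (1 + η / 2) ^ n)⁻¹ * Real.sqrt (Real.sqrt (1 - η) ^ n) := by
  have hc : ContinuousAt (fun η : ℝ => (Real.sqrt (1 + η / 2) ^ n)⁻¹ * Real.sqrt (Real.sqrt (1 - η) ^ n)) 0 := by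
    refine ContinuousAt.mul (ContinuousAt.inv₀ ?_ ?_) ?_
    · exact Continuous.continuousAt (by fun_prop)
    · simp
    · exact Continuous.continuousAt (by fun_prop)
  have h1 : (fun η : ℝ => (Real.sqrt (1 + η / 2) ^ n)⁻¹ * Real.sqrt (Real.sqrt (1 - η) ^ n)) 0 = 1 := by
    simp
  have h2 : ∀ᶠ η in 𝓝 (0 : ℝ), 1 - δ < (Real.sqrt (1 + η / 2) ^ n)⁻¹ * Real.sqrt (Real.sqrt (1 - η) ^ n) := by
    refine hc.eventually (lt_mem_nhds ?_)
    rw [h1]
    linarith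
  obtain ⟨ρ, hρ, h3⟩ := Metric.eventually_nhds_iff.1 h2
  refine ⟨min (ρ / 2) (1 / 2), lt_min (by linarith) (by norm_num), (min_le_right _ _).trans_lt (by norm_num), ?_⟩
  refine (h3 ?_).le
  rw [Real.dist_eq, sub_zero, abs_of_pos (lt_min (by linarith) (by norm_num))]
  exact (min_le_left _ _).trans_lt (by linarith)

/-- `PR` in terms of the normalised Gaussian -/
lemma prc_PR [FiniteDimensional ℂ F] (S : Setup d F) (φ : Spl dh dm d)
    (D : Fin 9 → Matrix (Fin dm) (Fin dm) ℝ) (Om : Matrix (Fin dm) (Fin dm) ℝ) (R : ℝ)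
    (hN : 0 < ∫ w', gR D Om R w' ^ 2) (f : Wsp dm → F) (w : Wsp dm) :
    S.PR φ D Om R f w = ((gR D Om R w / Real.sqrt (∫ w', gR D Om R w' ^ 2) : ℝ) : ℂ) •
      (S.F0 φ D Om).starProjection
        (∫ w', ((gR D Om R w' / Real.sqrt (∫ w', gR D Om R w' ^ 2) : ℝ) : ℂ) • f w') := by
  set N := ∫ w', gR D Om R w' ^ 2 with hNd
  have hs : 0 < Real.sqrt N := Real.sqrt_pos.2 hN
  have e1 : (∫ w', ((gR D Om R w' / Real.sqrt N : ℝ) : ℂ) • f w') =
      (((Real.sqrt N)⁻¹ : ℝ) : ℂ) • ∫ w', ((gR D Om R w' : ℝ) : ℂ) • f w' := by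
    rw [← integral_smul]
    refine integral_congr_ae (ae_of_all _ fun w' => ?_)
    simp only
    rw [smul_smul, ← Complex.ofReal_mul, div_eq_inv_mul]
  unfold Setup.PR
  rw [e1, map_smul, smul_smul, ← Complex.ofReal_mul, ← hNd]
  congr 2
  rw [div_eq_mul_inv, div_eq_mul_inv, mul_assoc, ← mul_inv, Real.mul_self_sqrt hN.le]

lemma prc_sq (q : Wsp dm → ℝ) (N : ℝ) (hN : 0 < N) (w : Wsp dm) :
    (Real.exp (-(1 / 2) * q w) / Real.sqrt N) ^ 2 = Real.exp (-q w) / N := by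
  rw [div_pow, Real.sq_sqrt hN.le, ← Real.exp_nat_mul]
  congr 2
  push_cast
  ring

lemma prc_nint {q : Wsp dm → ℝ} (hi : Integrable fun w => Real.exp (-q w)) :
    Integrable fun w => (Real.exp (-(1 / 2) * q w) / Real.sqrt (∫ w', Real.exp (-q w'))) ^ 2 := by
  simp only [prc_sq q _ (integral_exp_pos hi)]
  exact hi.div_const _

lemma prc_none {q : Wsp dm → ℝ} (hi : Integrable fun w => Real.exp (-q w)) :
    ∫ w, (Real.exp (-(1 / 2) * q w) / Real.sqrt (∫ w', Real.exp (-q w'))) ^ 2 = 1 := by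
  simp only [prc_sq q _ (integral_exp_pos hi)]
  rw [integral_div, div_self (integral_exp_pos hi).ne']

lemma prc_beta {b₁ b₀ : Wsp dm → ℝ} (c1 : Continuous b₁) (c0 : Continuous b₀)
    (i1 : Integrable fun w => b₁ w ^ 2) (i0 : Integrable fun w => b₀ w ^ 2)
    (n1 : ∫ w, b₁ w ^ 2 = 1) (n0 : ∫ w, b₀ w ^ 2 = 1) :
    ∫ w, (b₁ w - b₀ w) ^ 2 = 2 - 2 * ∫ w, b₁ w * b₀ w := by
  have hprod : Integrable fun w => b₁ w * b₀ w := by
    refine Integrable.mono' (i1.add i0) (c1.mul c0).aestronglyMeasurable (ae_of_all _ fun w => ?_)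
    rw [Real.norm_eq_abs]
    simp only [Pi.add_apply]
    rw [abs_le]
    constructor <;> nlinarith [sq_nonneg (b₁ w + b₀ w), sq_nonneg (b₁ w - b₀ w), sq_nonneg (b₁ w),
      sq_nonneg (b₀ w)]
  have e : ∀ w, (b₁ w - b₀ w) ^ 2 = b₁ w ^ 2 + b₀ w ^ 2 + (-2) * (b₁ w * b₀ w) := by
    intro w; ring
  simp only [e]
  rw [integral_add (by exact i1.add i0) (hprod.const_mul _), integral_add i1 i0, integral_const_mul, n1, n0]
  ring

end PrCAux

open PrCAux in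
/-- **E-PrC** -/
theorem prC (S : Setup d F) (φ : Spl dh dm d) (ψ : Spl r ds dh) :
    MzStmt S φ ψ → BzStmt S φ ψ → PrCStmt S φ ψ := by
  intro hM _ hF hφ hc U Om V K hV y₀ hy₀ δ hδ
  obtain ⟨hFrz, M, hMc, hMs, hMq, hMh, -, hMp⟩ := hM hφ hc U Om V K hV
  obtain ⟨c, hcp, hlow⟩ := hMp y₀ hy₀
  obtain ⟨η, η0, η1, hη⟩ := prc_const (Module.finrank ℝ (Wsp dm)) (δ := δ / 24) (by positivity)
  set τ : ℝ := min 1 (δ / 6) with hτ
  have τ0 : 0 < τ := lt_min one_pos (by positivity)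
  have τ2 : τ ^ 2 ≤ δ / 6 := by
    have t1 : τ ≤ 1 := min_le_left _ _
    have t2 : τ ≤ δ / 6 := min_le_right _ _
    nlinarith
  have cM : ContinuousAt M y₀ := hMc.continuousOn.continuousAt (hV.opn.mem_nhds hy₀)
  have cV : ContinuousAt V y₀ := hV.v_c.continuousOn.continuousAt (hV.opn.mem_nhds hy₀)
  have eM : ∀ᶠ y in 𝓝 y₀, ‖M y - M y₀‖ < η * c := by
    have h := Metric.continuousAt_iff'.1 cM (η * c) (mul_pos η0 hcp)
    simpa only [dist_eq_norm] using h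
  have eV : ∀ᶠ y in 𝓝 y₀, ‖V y - V y₀‖ < τ / 2 := by
    have h := Metric.continuousAt_iff'.1 cV (τ / 2) (by linarith)
    simpa only [dist_eq_norm] using h
  obtain ⟨ρ, hρ, hball⟩ := Metric.eventually_nhds_iff.1 ((hV.opn.eventually_mem hy₀).and (eM.and eV))
  refine ⟨ρ / 2, by linarith, ?_⟩
  intro R hR y hy f hf
  obtain ⟨y', hyy⟩ : ∃ y' : Cfg r, y = R • y' := ⟨R⁻¹ • y, by rw [smul_smul, mul_inv_cancel₀ hR.ne', one_smul]⟩
  have hd : dist y' y₀ < ρ := by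
    rw [hyy, ← smul_sub, norm_smul, Real.norm_eq_abs, abs_of_pos hR, mul_comm] at hy
    rw [dist_eq_norm]
    have := le_of_mul_le_mul_right hy hR
    linarith
  obtain ⟨hU', hM', hV'⟩ := hball hd
  have hyU : y ∈ U := by
    rw [hyy]
    exact hV.cone y' hU' R hR
  -- the quadratic forms
  set Q : Wsp dm → ℝ := fun w => R * inner ℝ w (M y₀ w) with hQd
  set q : Wsp dm → ℝ := fun w => R * inner ℝ w (M y' w) with hqd
  have hQc : Continuous Q := continuous_const.mul (continuous_id.inner (M y₀).continuous)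
  have hqc : Continuous q := continuous_const.mul (continuous_id.inner (M y').continuous)
  have hQh : ∀ (s : ℝ) w, Q (s • w) = s ^ 2 * Q w := by
    intro s w
    simp only [hQd, map_smul, real_inner_smul_left, real_inner_smul_right]
    ring
  have hQlow : ∀ w, (R * c) * ‖w‖ ^ 2 ≤ Q w := by
    intro w
    have := mul_le_mul_of_nonneg_left (hlow w) hR.le
    simp only [hQd]
    linarith
  have hcl : ∀ w, |q w - Q w| ≤ η * Q w := by
    intro w
    have e : q w - Q w = R * inner ℝ w ((M y' - M y₀) w) := by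
      simp only [hqd, hQd, _root_.sub_apply, inner_sub_right]
      ring
    rw [e, abs_mul, abs_of_pos hR]
    have h1 : |inner ℝ w ((M y' - M y₀) w)| ≤ (η * c) * ‖w‖ ^ 2 := by
      refine (abs_real_inner_le_norm _ _).trans ?_
      have h2 := ContinuousLinearMap.le_opNorm (M y' - M y₀) w
      have h3 := mul_le_mul_of_nonneg_right hM'.le (norm_nonneg w)
      have h4 := mul_le_mul_of_nonneg_left (h2.trans h3) (norm_nonneg w)
      refine h4.trans (le_of_eq ?_)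
      ring
    have h5 := mul_le_mul_of_nonneg_left (hlow w) η0.le
    have h6 := mul_le_mul_of_nonneg_left (h1.trans (by linarith : η * c * ‖w‖ ^ 2 ≤ η * inner ℝ w (M y₀ w))) hR.le
    refine h6.trans (le_of_eq ?_)
    simp only [hQd]
    ring
  have hRc : 0 < R * c := mul_pos hR hcp
  have hqlow : ∀ w, ((1 - η) * (R * c)) * ‖w‖ ^ 2 ≤ q w := by
    intro w
    have h2 := (abs_le.1 (hcl w)).1
    have h3 := hQlow w
    nlinarith [sub_pos.2 η1]
  have iQ := prc_int_q hQc hRc hQlow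
  have iq := prc_int_q hqc (mul_pos (sub_pos.2 η1) hRc) hqlow
  -- the two Gaussians
  have g1 : ∀ w, gR (S.Dz φ ψ y) (Om y) 1 w = Real.exp (-(1 / 2) * q w) := by
    intro w
    unfold gR
    rw [hMq y hyU, hyy, hMh y' hU' R hR]
    simp only [hqd, _root_.smul_apply, real_inner_smul_right]
  have g0 : ∀ w, gR (S.Dz φ ψ y₀) (Om y₀) R w = Real.exp (-(1 / 2) * Q w) := by
    intro w
    unfold gR
    rw [hMq y₀ hy₀]
    simp only [hQd]
    congr 1
    ring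
  have hsq : ∀ (q : Wsp dm → ℝ) w, Real.exp (-(1 / 2) * q w) ^ 2 = Real.exp (-q w) := by
    intro q w
    rw [← Real.exp_nat_mul]
    congr 1
    push_cast
    ring
  have N1 : (∫ w', gR (S.Dz φ ψ y) (Om y) 1 w' ^ 2) = ∫ w', Real.exp (-q w') := by
    simp only [g1, hsq q]
  have N0 : (∫ w', gR (S.Dz φ ψ y₀) (Om y₀) R w' ^ 2) = ∫ w', Real.exp (-Q w') := by
    simp only [g0, hsq Q]
  have p1 : 0 < ∫ w', gR (S.Dz φ ψ y) (Om y) 1 w' ^ 2 := by
    rw [N1]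
    exact integral_exp_pos iq
  have p0 : 0 < ∫ w', gR (S.Dz φ ψ y₀) (Om y₀) R w' ^ 2 := by
    rw [N0]
    exact integral_exp_pos iQ
  have P1 := prc_PR S φ (S.Dz φ ψ y) (Om y) 1 p1 f
  have P0 := prc_PR S φ (S.Dz φ ψ y₀) (Om y₀) R p0 f
  simp only [g1, hsq q] at P1
  simp only [g0, hsq Q] at P0
  simp only [P1, P0]
  have cb1 : Continuous fun w => Real.exp (-(1 / 2) * q w) / Real.sqrt (∫ w', Real.exp (-q w')) :=
    (Real.continuous_exp.comp (continuous_const.mul hqc)).div_const _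
  have cb0 : Continuous fun w => Real.exp (-(1 / 2) * Q w) / Real.sqrt (∫ w', Real.exp (-Q w')) :=
    (Real.continuous_exp.comp (continuous_const.mul hQc)).div_const _
  have hVy : V y = V y' := by rw [hyy]; exact hV.v_h y' hU' R hR
  have hP : ∀ u, ‖(S.F0 φ (S.Dz φ ψ y) (Om y)).starProjection u -
      (S.F0 φ (S.Dz φ ψ y₀) (Om y₀)).starProjection u‖ ≤ τ * ‖u‖ := by
    intro u
    refine (prc_pd (V y) (V y₀) (hV.v_n y hyU) (hV.v_n y₀ hy₀) (hV.v_s y hyU) (hV.v_s y₀ hy₀) K _ _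
      (hV.v_m y hyU) (hV.v_m y₀ hy₀) u).trans ?_
    refine mul_le_mul_of_nonneg_right ?_ (norm_nonneg _)
    rw [hVy]
    linarith
  refine (prc_diff cb1 cb0 (prc_nint iq) (prc_nint iQ) (prc_none iq) (prc_none iQ) _ _
    (Submodule.norm_starProjection_apply_le _) (Submodule.norm_starProjection_apply_le _) hP hf).trans ?_
  refine mul_le_mul_of_nonneg_right ?_ (integral_nonneg fun w => sq_nonneg _)
  rw [prc_beta cb1 cb0 (prc_nint iq) (prc_nint iQ) (prc_none iq) (prc_none iQ)]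
  have hov := prc_over hQc hqc hQh hRc hQlow η0.le η1 hcl
  linarith

end Vale.Agent.P353.Z.AE
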