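import Vale.Agent.P353.AN.E.Stmt
import Vale.Agent.P353.AN.A.SymCoef
import Vale.Agent.P353.AN.B.AlgQF
import Vale.Agent.P353.AN.B.FZero
import Vale.Agent.P353.AN.B.Poi

/-! # P353, all `N`, block E: the remainder at a central point has no vacuum-vacuum part (task E-QrVac) -/

open MeasureTheory Filter Topology Matrix
open scoped ContDiff

namespace Vale.Agent.P353.Z.AE

variable {d dh dm r ds : ℕ} {F : Type*} [NormedAddCommGroup F] [InnerProductSpace ℂ F]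

/-! ### the frozen data at a central point -/

/-- `ad` of the central basis vector `a` on `m` -/
private noncomputable def qv_Mz (S : Setup d F) (φ : Spl dh dm d) (ψ : Spl r ds dh) (a : Fin r) :
    Matrix (Fin dm) (Fin dm) ℝ :=
  Matrix.of fun B C => S.f (φ (Sum.inr B)) (φ (Sum.inl (ψ (Sum.inl a)))) (φ (Sum.inr C))

private theorem qv_Dz (S : Setup d F) (φ : Spl dh dm d) (ψ : Spl r ds dh) (y : Cfg r) (i : Fin 9) :
    S.Dz φ ψ y i = ∑ a, y (i, a) • qv_Mz S φ ψ a := by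
  ext B C
  simp only [qv_Mz, Setup.Dz, Setup.Dy, Setup.Dm, cmb, Matrix.sum_apply, Matrix.smul_apply, Matrix.of_apply,
    smul_eq_mul]
  rw [← ψ.sum_comp, Fintype.sum_sum_type]
  simp [mul_comm]

private theorem qv_Mz_anti (S : Setup d F) (φ : Spl dh dm d) (ψ : Spl r ds dh) (a : Fin r) :
    (qv_Mz S φ ψ a)ᵀ = -qv_Mz S φ ψ a := by
  ext B C
  simp only [qv_Mz, Matrix.transpose_apply, Matrix.of_apply, Matrix.neg_apply]
  rw [S.f_cyc, S.f_swap]

private theorem qv_Mz_comm (S : Setup d F) (φ : Spl dh dm d) (ψ : Spl r ds dh) (hs : S.IsSub φ)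
    (hc : S.IsCen φ ψ) (a b : Fin r) : qv_Mz S φ ψ a * qv_Mz S φ ψ b = qv_Mz S φ ψ b * qv_Mz S φ ψ a := by
  ext B D
  simp only [qv_Mz, Matrix.mul_apply, Matrix.of_apply]
  have hj := S.f_jac (φ (Sum.inl (ψ (Sum.inl a)))) (φ (Sum.inr B)) (φ (Sum.inl (ψ (Sum.inl b)))) (φ (Sum.inr D))
  rw [← φ.sum_comp, Fintype.sum_sum_type] at hj
  have h1 : ∀ E : Fin dh, S.f (φ (Sum.inl (ψ (Sum.inl a)))) (φ (Sum.inr B)) (φ (Sum.inl E)) = 0 := by
    intro E
    rw [S.f_cyc, S.f_cyc]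
    exact hs _ _ _
  have h2 : ∀ E : Fin dh, S.f (φ (Sum.inr B)) (φ (Sum.inl (ψ (Sum.inl b)))) (φ (Sum.inl E)) = 0 := by
    intro E
    rw [S.f_cyc]
    exact hs _ _ _
  have h3 : ∀ E : Fin dh, S.f (φ (Sum.inl (ψ (Sum.inl b)))) (φ (Sum.inl (ψ (Sum.inl a)))) (φ (Sum.inl E)) = 0 :=
    fun E => hc _ _ _
  have h4 : ∀ E : Fin dm, S.f (φ (Sum.inl (ψ (Sum.inl b)))) (φ (Sum.inl (ψ (Sum.inl a)))) (φ (Sum.inr E)) = 0 :=
    fun E => hs _ _ _
  simp only [h1, h2, h3, h4, zero_mul, add_zero, Finset.sum_const_zero, zero_add] at hj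
  have h5 : ∀ E : Fin dm, S.f (φ (Sum.inl (ψ (Sum.inl a)))) (φ (Sum.inr B)) (φ (Sum.inr E)) =
      -S.f (φ (Sum.inr B)) (φ (Sum.inl (ψ (Sum.inl a)))) (φ (Sum.inr E)) := fun E => S.f_swap _ _ _
  simp only [h5, Finset.sum_add_distrib, neg_mul, Finset.sum_neg_distrib] at hj
  linarith

/-- the matrices `D_i` at a central point with `D_8` invertible are frozen -/
theorem qv_frz (S : Setup d F) (φ : Spl dh dm d) (ψ : Spl r ds dh) (hs : S.IsSub φ) (hc : S.IsCen φ ψ)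
    (y : Cfg r) (hy : (S.Dz φ ψ y 8).det ≠ 0) : Frz (S.Dz φ ψ y) := by
  refine ⟨?_, ?_, hy⟩
  · intro i
    simp only [qv_Dz, Matrix.transpose_sum, Matrix.transpose_smul, qv_Mz_anti, smul_neg, Finset.sum_neg_distrib]
  · intro i j
    simp only [qv_Dz, Finset.sum_mul_sum, smul_mul_smul_comm]
    rw [Finset.sum_comm]
    refine Finset.sum_congr rfl fun a _ => Finset.sum_congr rfl fun b _ => ?_
    rw [qv_Mz_comm S φ ψ hs hc, mul_comm]

/-! ### the trace identity -/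

private theorem qv_inv_comm {n : ℕ} {A B : Matrix (Fin n) (Fin n) ℝ} (hA : A.det ≠ 0) (h : A * B = B * A) :
    A⁻¹ * B = B * A⁻¹ := by
  have hu : IsUnit A.det := isUnit_iff_ne_zero.2 hA
  calc A⁻¹ * B = A⁻¹ * (B * A) * A⁻¹ := by
        rw [Matrix.mul_assoc, Matrix.mul_assoc, Matrix.mul_nonsing_inv _ hu, Matrix.mul_one]
    _ = A⁻¹ * (A * B) * A⁻¹ := by rw [h]
    _ = B * A⁻¹ := by rw [← Matrix.mul_assoc A⁻¹, Matrix.nonsing_inv_mul _ hu, Matrix.one_mul]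

private theorem qv_Om_det {κ : ℝ} {D : Fin 9 → Matrix (Fin dm) (Fin dm) ℝ} {Om : Matrix (Fin dm) (Fin dm) ℝ}
    (hO : IsOm κ D Om) : Om.det ≠ 0 := by
  intro h0
  obtain ⟨w, hw, hw0⟩ := Matrix.exists_mulVec_eq_zero_iff.2 h0
  have := hO.pos w hw
  rw [hw0, dotProduct_zero] at this
  exact lt_irrefl _ this

/-- `X = D_8⁻¹ Ω⁻¹ D_k` is symmetric -/
private theorem qv_X {κ : ℝ} {D : Fin 9 → Matrix (Fin dm) (Fin dm) ℝ} {Om : Matrix (Fin dm) (Fin dm) ℝ}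
    (hF : Frz D) (hO : IsOm κ D Om) (k : Fin 9) :
    (((D 8)⁻¹)ᵀ * (Om⁻¹ * D k))ᵀ = ((D 8)⁻¹)ᵀ * (Om⁻¹ * D k) := by
  have hOd := qv_Om_det hO
  have hDD : ∀ i, D i * (∑ i, D i * D i) = (∑ i, D i * D i) * D i := by
    intro i
    rw [Finset.mul_sum, Finset.sum_mul]
    refine Finset.sum_congr rfl fun j _ => ?_
    rw [← Matrix.mul_assoc, hF.comm i j, Matrix.mul_assoc, hF.comm i j, Matrix.mul_assoc]
  have hDO : ∀ i, D i * Om = Om * D i := fun i => hO.comm _ (hDD i)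
  have h1 : Om⁻¹ * D k = D k * Om⁻¹ := qv_inv_comm hOd (hDO k).symm
  have h2 : Om⁻¹ * D 8 = D 8 * Om⁻¹ := qv_inv_comm hOd (hDO 8).symm
  have h3 : (D 8)⁻¹ * Om⁻¹ = Om⁻¹ * (D 8)⁻¹ := qv_inv_comm hF.inv h2.symm
  have h4 : (D 8)⁻¹ * D k = D k * (D 8)⁻¹ := qv_inv_comm hF.inv (hF.comm 8 k)
  have hOt : (Om⁻¹)ᵀ = Om⁻¹ := by rw [Matrix.transpose_nonsing_inv, hO.symm]
  have hu : IsUnit (D 8).det := isUnit_iff_ne_zero.2 hF.inv
  have hDt : ((D 8)⁻¹)ᵀ = -(D 8)⁻¹ := by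
    rw [Matrix.transpose_nonsing_inv, hF.anti]
    refine Matrix.inv_eq_left_inv ?_
    rw [neg_mul_neg, Matrix.nonsing_inv_mul _ hu]
  rw [Matrix.transpose_mul, Matrix.transpose_mul, Matrix.transpose_transpose, hF.anti, hOt, hDt,
    Matrix.neg_mul, Matrix.neg_mul, Matrix.neg_mul]
  congr 1
  calc D k * Om⁻¹ * (D 8)⁻¹ = D k * (Om⁻¹ * (D 8)⁻¹) := Matrix.mul_assoc _ _ _
    _ = D k * ((D 8)⁻¹ * Om⁻¹) := by rw [h3]
    _ = (D k * (D 8)⁻¹) * Om⁻¹ := (Matrix.mul_assoc _ _ _).symm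
    _ = ((D 8)⁻¹ * D k) * Om⁻¹ := by rw [h4]
    _ = (D 8)⁻¹ * (D k * Om⁻¹) := Matrix.mul_assoc _ _ _
    _ = (D 8)⁻¹ * (Om⁻¹ * D k) := by rw [h1]

/-- a symmetric matrix is orthogonal to an antisymmetric one -/
private theorem qv_sa {n : ℕ} (X M : Matrix (Fin n) (Fin n) ℝ) (hX : Xᵀ = X) (hM : ∀ B C, M B C = -M C B) :
    ∑ C, ∑ E, M C E * X C E = 0 := by
  have h1 : ∑ C, ∑ E, M C E * X C E = -∑ C, ∑ E, M C E * X C E := by
    conv_lhs => rw [Finset.sum_comm]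
    rw [← Finset.sum_neg_distrib]
    refine Finset.sum_congr rfl fun C _ => ?_
    rw [← Finset.sum_neg_distrib]
    refine Finset.sum_congr rfl fun E _ => ?_
    have h2 : X E C = X C E := by
      conv_lhs => rw [← hX]
      rfl
    rw [hM E C, h2]
    ring
  linarith

private theorem qv_tr {κ : ℝ} {D : Fin 9 → Matrix (Fin dm) (Fin dm) ℝ} {Om : Matrix (Fin dm) (Fin dm) ℝ}
    (hF : Frz D) (hO : IsOm κ D Om) (k : Fin 9) (M : Matrix (Fin dm) (Fin dm) ℝ) (hM : ∀ B C, M B C = -M C B) :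
    ∑ B, ∑ C, (D 8)⁻¹ B C * ∑ E, M C E * ∑ B', Om⁻¹ B B' * D k B' E = 0 := by
  have h1 := qv_sa (((D 8)⁻¹)ᵀ * (Om⁻¹ * D k)) M (qv_X hF hO k) hM
  rw [← h1, Finset.sum_comm]
  refine Finset.sum_congr rfl fun C _ => ?_
  simp only [Finset.mul_sum, Matrix.mul_apply, Matrix.transpose_apply]
  rw [Finset.sum_comm]
  refine Finset.sum_congr rfl fun E _ => Finset.sum_congr rfl fun B _ => Finset.sum_congr rfl fun B' _ => ?_
  ring

/-! ### the spin part -/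

private theorem qv_anti (S : Setup d F) (φ : Spl dh dm d) (γ : Fin 16) (B : Fin dm) (α : Fin 16) (A : Fin dh) (u : F) :
    S.th γ (φ (Sum.inr B)) (S.th α (φ (Sum.inl A)) u) =
      -S.th α (φ (Sum.inl A)) (S.th γ (φ (Sum.inr B)) u) := by
  have h := congrArg (fun T : F →L[ℂ] F => T u) (S.th_anti γ (φ (Sum.inr B)) α (φ (Sum.inl A)))
  have h2 : ¬ (γ = α ∧ φ (Sum.inr B) = φ (Sum.inl A)) := by
    rintro ⟨_, h⟩
    exact absurd (φ.injective h) (by simp)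
  rw [if_neg h2] at h
  exact eq_neg_of_add_eq_zero_left h

private theorem qv_vec (S : Setup d F) (N : Matrix (Fin 16) (Fin 16) ℂ) (A : Fin d) (β : Fin 16) (u v' : F) :
    inner ℂ v' (S.vec N A β u) = ∑ γ, N β γ * inner ℂ v' (S.th γ A u) := by
  simp only [CS.vec, _root_.sum_apply, _root_.smul_apply, inner_sum, inner_smul_right]

private theorem qv_cSa (S : Setup d F) (C : Fin d) (v : F) :
    S.cS C v = (-Complex.I / 2) • ∑ D, ∑ E, (S.f C D E : ℂ) • ∑ α, S.th α D (S.th α E v) := by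
  simp only [Setup.cS, CS.bil, CS.vec_one, _root_.sum_apply, _root_.smul_apply]
  rfl

private theorem qv_ex {n : ℕ} (d : Fin n → Fin n → ℂ) (c : ℂ) (g : Fin 9 → ℂ) (t : Fin n → Fin n → Fin 9 → ℂ) :
    ∑ B, ∑ C, d B C * (c * ∑ k, g k * t B C k) = c * ∑ k, g k * ∑ B, ∑ C, d B C * t B C k := by
  simp only [Finset.mul_sum]
  rw [Finset.sum_comm_cycle]
  refine Finset.sum_congr rfl fun k _ => Finset.sum_congr rfl fun B _ => Finset.sum_congr rfl fun C _ => ?_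
  ring

private theorem qv_ex2 {n m : ℕ} (d : Fin n → Fin n → ℂ) (c : ℂ) (f : Fin n → Fin m → Fin n → ℂ)
    (g : Fin 16 → ℂ) (b : Fin 16 → Fin n → Fin 16 → Fin n → ℂ) (a : Fin 16 → Fin m → ℂ) :
    ∑ B, ∑ C, d B C * (c * ∑ A, ∑ E, f C A E * ∑ γ, g γ * ∑ α, b γ B α E * a α A) =
      c * ∑ A, ∑ γ, g γ * ∑ α, a α A * ∑ B, ∑ C, d B C * ∑ E, f C A E * b γ B α E := by
  have h1 : ∀ B C, d B C * (c * ∑ A, ∑ E, f C A E * ∑ γ, g γ * ∑ α, b γ B α E * a α A) =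
      ∑ A, ∑ γ, ∑ α, (c * (g γ * a α A)) * (d B C * ∑ E, f C A E * b γ B α E) := by
    intro B C
    simp only [Finset.mul_sum]
    refine Finset.sum_congr rfl fun A _ => ?_
    rw [Finset.sum_comm]
    refine Finset.sum_congr rfl fun γ _ => ?_
    rw [Finset.sum_comm]
    refine Finset.sum_congr rfl fun α _ => Finset.sum_congr rfl fun E _ => ?_
    ring
  simp only [h1]
  rw [Finset.sum_comm_cycle, Finset.mul_sum]
  refine Finset.sum_congr rfl fun A _ => ?_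
  rw [Finset.sum_comm_cycle, Finset.mul_sum]
  refine Finset.sum_congr rfl fun γ _ => ?_
  rw [Finset.sum_comm_cycle, Finset.mul_sum, Finset.mul_sum]
  refine Finset.sum_congr rfl fun α _ => ?_
  rw [Finset.mul_sum, Finset.mul_sum, Finset.mul_sum]
  refine Finset.sum_congr rfl fun B _ => ?_
  rw [Finset.mul_sum, Finset.mul_sum, Finset.mul_sum]
  refine Finset.sum_congr rfl fun C _ => ?_
  ring

section Spin

variable (S : Setup d F) (φ : Spl dh dm d) {D : Fin 9 → Matrix (Fin dm) (Fin dm) ℝ}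
  {Om : Matrix (Fin dm) (Fin dm) ℝ} {v v' : F}

private theorem qv_three (hW : WickStmt S φ) (hF : Frz D) (hO : IsOm S.κ D Om) (hv : v ∈ S.F0 φ D Om)
    (hv' : v' ∈ S.F0 φ D Om) (γ : Fin 16) (B : Fin dm) (α : Fin 16) (A : Fin dh) (E : Fin dm) :
    inner ℂ v' (S.th γ (φ (Sum.inr B)) (S.th α (φ (Sum.inl A)) (S.th α (φ (Sum.inr E)) v))) =
      -((1 / 2 : ℂ) * ((if (γ, B) = (α, E) then 1 else 0) -
        Complex.I * ∑ B', ((Om⁻¹ B B' : ℝ) : ℂ) * S.PP D (γ, B') (α, E)) *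
        inner ℂ v' (S.th α (φ (Sum.inl A)) v)) := by
  rw [qv_anti, inner_neg_right, ← S.th_sa]
  have h1 := (f0S S φ D Om).1 α A v' hv'
  have h2 := (hW D Om hF hO v hv _ h1 (γ, B) (α, E) (γ, B)).2.1
  rw [S.th_sa α (φ (Sum.inl A)) v' v] at h2
  rw [← h2]

/-- the spin part of the Gauss law between vacua -/
private theorem qv_cS (hs : S.IsSub φ) (hW : WickStmt S φ) (hF : Frz D) (hO : IsOm S.κ D Om)
    (hv : v ∈ S.F0 φ D Om) (hv' : v' ∈ S.F0 φ D Om) (β : Fin 16) (B C : Fin dm) :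
    inner ℂ v' (S.vec (S.g 8) (φ (Sum.inr B)) β (S.cS (φ (Sum.inr C)) v)) =
      (Complex.I / 2) * ∑ A, ∑ E, (S.f (φ (Sum.inr C)) (φ (Sum.inl A)) (φ (Sum.inr E)) : ℂ) *
        ∑ γ, S.g 8 β γ * ∑ α, ((if (γ, B) = (α, E) then 1 else 0) -
          Complex.I * ∑ B', ((Om⁻¹ B B' : ℝ) : ℂ) * S.PP D (γ, B') (α, E)) *
            inner ℂ v' (S.th α (φ (Sum.inl A)) v) := by
  set J : Fin d → Fin d → ℂ := fun G E => ∑ γ, S.g 8 β γ * ∑ α,
    inner ℂ v' (S.th γ (φ (Sum.inr B)) (S.th α G (S.th α E v))) with hJ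
  have h1 : inner ℂ v' (S.vec (S.g 8) (φ (Sum.inr B)) β (S.cS (φ (Sum.inr C)) v)) =
      (-Complex.I / 2) * ∑ G, ∑ E, (S.f (φ (Sum.inr C)) G E : ℂ) * J G E := by
    rw [qv_cSa, map_smul, inner_smul_right]
    congr 1
    simp only [map_sum, map_smul, inner_sum, inner_smul_right]
    refine Finset.sum_congr rfl fun G _ => Finset.sum_congr rfl fun E _ => ?_
    congr 1
    simp only [qv_vec, hJ, Finset.mul_sum]
    rw [Finset.sum_comm]
  have h2 : ∀ (G E : Fin dm), J (φ (Sum.inr G)) (φ (Sum.inr E)) = 0 := by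
    intro G E
    simp only [hJ]
    refine Finset.sum_eq_zero fun γ _ => ?_
    rw [Finset.sum_eq_zero, mul_zero]
    intro α _
    exact (hW D Om hF hO v hv v' hv' (γ, B) (α, G) (α, E)).2.2
  have h3 : ∀ (A : Fin dh) (E : Fin dm), J (φ (Sum.inr E)) (φ (Sum.inl A)) = -J (φ (Sum.inl A)) (φ (Sum.inr E)) := by
    intro A E
    simp only [hJ]
    rw [← Finset.sum_neg_distrib]
    refine Finset.sum_congr rfl fun γ _ => ?_
    rw [← mul_neg, ← Finset.sum_neg_distrib]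
    congr 1
    refine Finset.sum_congr rfl fun α _ => ?_
    rw [qv_anti S φ α E α A v, map_neg, inner_neg_right]
  have h4 : ∀ (A A' : Fin dh), S.f (φ (Sum.inr C)) (φ (Sum.inl A)) (φ (Sum.inl A')) = 0 := by
    intro A A'
    rw [S.f_cyc]
    exact hs _ _ _
  have h5 : ∀ (A : Fin dh) (E : Fin dm), S.f (φ (Sum.inr C)) (φ (Sum.inr E)) (φ (Sum.inl A)) =
      -S.f (φ (Sum.inr C)) (φ (Sum.inl A)) (φ (Sum.inr E)) := fun A E => S.f_swap' _ _ _
  have h6 : ∑ G, ∑ E, (S.f (φ (Sum.inr C)) G E : ℂ) * J G E =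
      2 * ∑ A, ∑ E, (S.f (φ (Sum.inr C)) (φ (Sum.inl A)) (φ (Sum.inr E)) : ℂ) * J (φ (Sum.inl A)) (φ (Sum.inr E)) := by
    rw [← φ.sum_comp, Fintype.sum_sum_type]
    have h7 : ∀ G : Fin d, ∑ E, (S.f (φ (Sum.inr C)) G E : ℂ) * J G E =
        (∑ A, (S.f (φ (Sum.inr C)) G (φ (Sum.inl A)) : ℂ) * J G (φ (Sum.inl A))) +
          ∑ E, (S.f (φ (Sum.inr C)) G (φ (Sum.inr E)) : ℂ) * J G (φ (Sum.inr E)) := by
      intro G
      rw [← φ.sum_comp, Fintype.sum_sum_type]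
    simp only [h7, h4, h2, h3, h5, Complex.ofReal_zero, zero_mul, mul_zero, Finset.sum_const_zero, zero_add, add_zero,
      Complex.ofReal_neg, neg_mul_neg]
    rw [Finset.sum_comm (s := (Finset.univ : Finset (Fin dm))) (t := (Finset.univ : Finset (Fin dh))), two_mul]
  rw [h1, h6]
  simp only [hJ, qv_three S φ hW hF hO hv hv']
  rw [← mul_assoc, Finset.mul_sum, Finset.mul_sum]
  refine Finset.sum_congr rfl fun A _ => ?_
  rw [Finset.mul_sum, Finset.mul_sum]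
  refine Finset.sum_congr rfl fun E _ => ?_
  simp only [Finset.mul_sum]
  refine Finset.sum_congr rfl fun γ _ => Finset.sum_congr rfl fun α _ => ?_
  ring

private theorem qv_spin (hs : S.IsSub φ) (hW : WickStmt S φ) (hF : Frz D) (hO : IsOm S.κ D Om)
    (hv : v ∈ S.F0 φ D Om) (hv' : v' ∈ S.F0 φ D Om) (β : Fin 16) :
    ∑ B, ∑ C, (((D 8)⁻¹ B C : ℝ) : ℂ) *
        inner ℂ v' (S.vec (S.g 8) (φ (Sum.inr B)) β (S.cS (φ (Sum.inr C)) v)) =
      (Complex.I / 2) * ∑ A, ((∑ B, ∑ C, (D 8)⁻¹ B C *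
        S.f (φ (Sum.inr C)) (φ (Sum.inl A)) (φ (Sum.inr B)) : ℝ) : ℂ) *
          inner ℂ v' (S.vec (S.g 8) (φ (Sum.inl A)) β v) := by
  -- the bracket
  have hb : ∀ (A : Fin dh) (γ α : Fin 16), ∑ B, ∑ C, (((D 8)⁻¹ B C : ℝ) : ℂ) *
      ∑ E, (S.f (φ (Sum.inr C)) (φ (Sum.inl A)) (φ (Sum.inr E)) : ℂ) * ((if (γ, B) = (α, E) then 1 else 0) -
          Complex.I * ∑ B', ((Om⁻¹ B B' : ℝ) : ℂ) * S.PP D (γ, B') (α, E)) =
      if γ = α then ((∑ B, ∑ C, (D 8)⁻¹ B C * S.f (φ (Sum.inr C)) (φ (Sum.inl A)) (φ (Sum.inr B)) : ℝ) : ℂ) else 0 := by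
    intro A γ α
    have e1 : ∀ B C, ∑ E, (S.f (φ (Sum.inr C)) (φ (Sum.inl A)) (φ (Sum.inr E)) : ℂ) *
        ((if (γ, B) = (α, E) then 1 else 0) -
          Complex.I * ∑ B', ((Om⁻¹ B B' : ℝ) : ℂ) * S.PP D (γ, B') (α, E)) =
        (if γ = α then (S.f (φ (Sum.inr C)) (φ (Sum.inl A)) (φ (Sum.inr B)) : ℂ) else 0) -
          Complex.I * S.κ * ∑ k, S.g k γ α * ((∑ E, S.f (φ (Sum.inr C)) (φ (Sum.inl A)) (φ (Sum.inr E)) *
            ∑ B', Om⁻¹ B B' * D k B' E : ℝ) : ℂ) := by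
      intro B C
      simp only [mul_sub, Finset.sum_sub_distrib]
      congr 1
      · by_cases h : γ = α
        · subst h
          rw [if_pos rfl, Finset.sum_eq_single B]
          · simp
          · intro E _ hE
            rw [if_neg (by simpa using fun h => hE h.symm), mul_zero]
          · intro h; exact absurd (Finset.mem_univ _) h
        · rw [if_neg h]
          refine Finset.sum_eq_zero fun E _ => ?_
          rw [if_neg (fun e => h (congrArg Prod.fst e)), mul_zero]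
      · simp only [Setup.PP, Matrix.of_apply]
        push_cast
        simp only [Finset.mul_sum]
        rw [Finset.sum_comm_cycle]
        refine Finset.sum_congr rfl fun k _ => Finset.sum_congr rfl fun E _ =>
          Finset.sum_congr rfl fun B' _ => ?_
        ring
    have e2 : ∑ B, ∑ C, (((D 8)⁻¹ B C : ℝ) : ℂ) *
        ∑ E, (S.f (φ (Sum.inr C)) (φ (Sum.inl A)) (φ (Sum.inr E)) : ℂ) * ((if (γ, B) = (α, E) then 1 else 0) -
          Complex.I * ∑ B', ((Om⁻¹ B B' : ℝ) : ℂ) * S.PP D (γ, B') (α, E)) =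
        (∑ B, ∑ C, (((D 8)⁻¹ B C : ℝ) : ℂ) *
          (if γ = α then (S.f (φ (Sum.inr C)) (φ (Sum.inl A)) (φ (Sum.inr B)) : ℂ) else 0)) -
        ∑ B, ∑ C, (((D 8)⁻¹ B C : ℝ) : ℂ) * (Complex.I * S.κ * ∑ k, S.g k γ α *
          ((∑ E, S.f (φ (Sum.inr C)) (φ (Sum.inl A)) (φ (Sum.inr E)) * ∑ B', Om⁻¹ B B' * D k B' E : ℝ) : ℂ)) := by
      rw [← Finset.sum_sub_distrib]
      refine Finset.sum_congr rfl fun B _ => ?_
      rw [← Finset.sum_sub_distrib]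
      refine Finset.sum_congr rfl fun C _ => ?_
      rw [e1, mul_sub]
    rw [e2, qv_ex]
    have e3 : ∀ k, ∑ B, ∑ C, (((D 8)⁻¹ B C : ℝ) : ℂ) *
        ((∑ E, S.f (φ (Sum.inr C)) (φ (Sum.inl A)) (φ (Sum.inr E)) * ∑ B', Om⁻¹ B B' * D k B' E : ℝ) : ℂ) = 0 := by
      intro k
      have e4 := qv_tr hF hO k (Matrix.of fun C E => S.f (φ (Sum.inr C)) (φ (Sum.inl A)) (φ (Sum.inr E)))
        (fun B C => by
          simp only [Matrix.of_apply]
          rw [S.f_cyc, S.f_swap])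
      simp only [Matrix.of_apply] at e4
      rw [← Complex.ofReal_zero, ← e4, Complex.ofReal_sum]
      refine Finset.sum_congr rfl fun B _ => ?_
      rw [Complex.ofReal_sum]
      refine Finset.sum_congr rfl fun C _ => ?_
      rw [Complex.ofReal_mul]
    simp only [e3, mul_zero, Finset.sum_const_zero, sub_zero]
    by_cases h : γ = α
    · simp only [if_pos h]
      push_cast
      rfl
    · simp only [if_neg h, mul_zero, Finset.sum_const_zero]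
  simp only [qv_cS S φ hs hW hF hO hv hv']
  rw [qv_ex2 (fun B C => (((D 8)⁻¹ B C : ℝ) : ℂ)) (Complex.I / 2)
    (fun C A E => (S.f (φ (Sum.inr C)) (φ (Sum.inl A)) (φ (Sum.inr E)) : ℂ)) (fun γ => S.g 8 β γ)
    (fun γ B α E => ((if (γ, B) = (α, E) then 1 else 0) -
          Complex.I * ∑ B', ((Om⁻¹ B B' : ℝ) : ℂ) * S.PP D (γ, B') (α, E)))
    (fun α A => inner ℂ v' (S.th α (φ (Sum.inl A)) v))]
  simp only [hb]
  congr 1
  refine Finset.sum_congr rfl fun A _ => ?_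
  rw [qv_vec, Finset.mul_sum]
  refine Finset.sum_congr rfl fun γ _ => ?_
  rw [Finset.sum_eq_single γ]
  · rw [if_pos rfl]
    ring
  · intro α _ hα
    rw [if_neg (fun h => hα h.symm), mul_zero]
  · intro h; exact absurd (Finset.mem_univ _) h

end Spin

/-! ### the Gaussian -/

private theorem qv_gR {κ : ℝ} (hκ : 0 < κ) {D : Fin 9 → Matrix (Fin dm) (Fin dm) ℝ} {Om : Matrix (Fin dm) (Fin dm) ℝ}
    (hF : Frz D) (hO : IsOm κ D Om) : (∀ w, DifferentiableAt ℝ (fun w => gR D Om 1 w) w) ∧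
    ∀ (i j : Fin 9) (B C : Fin dm), Integrable (fun w : Wsp dm => wt w i B * wt w j C * gR D Om 1 w ^ 2) := by
  obtain ⟨M, -, hM2, -, c, hc, hM4⟩ := qfS dm κ D Om hκ hF hO
  have hg0 : ∀ w, gR D Om 1 w = Real.exp (-(1 / 2) * inner ℝ w (M w)) := fun w => by rw [gR, hM2]
  have hwt : ∀ (w : Wsp dm) i B, |wt w i B| ≤ ‖w‖ := by
    intro w i B
    induction i using Fin.lastCases with
    | last => simp only [wt, Fin.lastCases_last, abs_zero]; exact norm_nonneg _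
    | cast j =>
      simp only [wt, Fin.lastCases_castSucc]
      exact PiLp.norm_apply_le w (j, B)
  have hwc : ∀ i B, Continuous fun w : Wsp dm => wt w i B := by
    intro i B
    induction i using Fin.lastCases with
    | last => simp only [wt, Fin.lastCases_last]; exact continuous_const
    | cast j => simp only [wt, Fin.lastCases_castSucc]; exact (EuclideanSpace.proj (𝕜 := ℝ) (j, B)).continuous
  refine ⟨fun w => ?_, fun i j B C => ?_⟩
  · simp only [hg0]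
    exact ((DifferentiableAt.inner ℝ differentiableAt_id M.differentiableAt).const_mul _).exp
  · have h1 := (Poi.gauss_facts M hc hM4).2.1
    have hg : ∀ w, gR D Om 1 w ^ 2 = Real.exp (-inner ℝ w (M w)) := by
      intro w
      rw [hg0, ← Real.exp_nat_mul]
      congr 1
      push_cast
      ring
    simp only [hg]
    have hq : Continuous fun w : Wsp dm => inner ℝ w (M w) := by fun_prop
    refine h1.mono' (((hwc i B).mul (hwc j C)).mul hq.neg.rexp).aestronglyMeasurable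
      (Eventually.of_forall fun w => ?_)
    rw [Real.norm_eq_abs, abs_mul, abs_mul, abs_of_pos (Real.exp_pos _), mul_comm, pow_two]
    exact mul_le_mul_of_nonneg_left
      (mul_le_mul (hwt w i B) (hwt w j C) (abs_nonneg _) (norm_nonneg _)) (Real.exp_pos _).le

private theorem qv_pw {g : Wsp dm → ℝ} (hg : ∀ w, DifferentiableAt ℝ g w) (v : F) (j : Fin 8) (G : Fin dm)
    (y : Cfg dh) (w : Wsp dm) : pw j G (fun _ w' => ((g w' : ℝ) : ℂ) • v) y w =
      ((fderiv ℝ g w (EuclideanSpace.single (j, G) 1) : ℝ) : ℂ) • v := by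
  unfold pw
  have h1 : (fun w' => ((g w' : ℝ) : ℂ) • v) = fun w' => g w' • v := by
    funext w'
    exact Complex.coe_smul _ _
  have h2 : fderiv ℝ (fun w' => g w' • v) w = (fderiv ℝ g w).smulRight v := fderiv_smul_const (hg w) v
  rw [h1, h2, Complex.coe_smul]
  rfl

private theorem qv_py {g : Wsp dm → ℝ} (v : F) (i : Fin 9) (A : Fin dh)
    (y : Cfg dh) (w : Wsp dm) : py i A (fun _ w' => ((g w' : ℝ) : ℂ) • v) y w = 0 := by
  unfold py pd
  simp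

section Pt

variable (S : Setup d F) (φ : Spl dh dm d) {D : Fin 9 → Matrix (Fin dm) (Fin dm) ℝ}
  {Om : Matrix (Fin dm) (Fin dm) ℝ} {v v' : F}

/-- the remainder between vacua, pointwise: only the `w w θ^h` term survives -/
private theorem qv_pt (hs : S.IsSub φ) (hW : WickStmt S φ) (hF : Frz D) (hO : IsOm S.κ D Om)
    (hv : v ∈ S.F0 φ D Om) (hv' : v' ∈ S.F0 φ D Om) (y : Cfg dh) (hD : ∀ i, S.Dy φ i y = D i) (β : Fin 16)
    (g : Wsp dm → ℝ) (hg : ∀ w, DifferentiableAt ℝ g w) (w : Wsp dm) :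
    inner ℂ (((g w : ℝ) : ℂ) • v') (S.Qr φ β (fun _ w' => ((g w' : ℝ) : ℂ) • v) y w) =
      (1 / 2 : ℂ) * ∑ A, ∑ i, ∑ j, ((S.κ * ∑ B, ∑ C, S.f (φ (Sum.inl A)) (φ (Sum.inr B)) (φ (Sum.inr C)) *
        (wt w i B * wt w j C * g w ^ 2) : ℝ) : ℂ) * inner ℂ v' (S.vec (S.g2 i j) (φ (Sum.inl A)) β v) := by
  have h1 : ∀ (N : Matrix (Fin 16) (Fin 16) ℂ) (B : Fin dm), inner ℂ v' (S.vec N (φ (Sum.inr B)) β v) = 0 := by
    intro N B
    rw [qv_vec]
    refine Finset.sum_eq_zero fun γ _ => ?_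
    rw [(hW D Om hF hO v hv v' hv' (γ, B) (γ, B) (γ, B)).1, mul_zero]
  have h2 : ∀ A, fderiv ℝ (fun y' => Real.log (S.Jd φ y')) y (EuclideanSpace.single ((8 : Fin 9), A) 1) =
      ∑ B, ∑ C, (D 8)⁻¹ B C * S.f (φ (Sum.inr C)) (φ (Sum.inl A)) (φ (Sum.inr B)) := by
    intro A
    rw [AN.Sy.logJ S φ (by rw [hD]; exact hF.inv) A, hD]
  have h3 := qv_spin S φ hs hW hF hO hv hv' β
  unfold Setup.Qr
  simp only [qv_py, qv_pw hg, hD, h2, smul_zero, Finset.sum_const_zero, zero_add]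
  rw [inner_smul_left, Complex.conj_ofReal]
  simp only [inner_add_right, inner_smul_right, map_add, map_sum, map_smul, smul_add, inner_sum, h1, mul_zero,
    Finset.sum_const_zero, zero_add, add_zero]
  have e1 : ∑ B, ∑ C, (((D 8)⁻¹ B C : ℝ) : ℂ) * (Complex.I * (((g w : ℝ) : ℂ) *
      inner ℂ v' (S.vec (S.g 8) (φ (Sum.inr B)) β (S.cS (φ (Sum.inr C)) v)))) =
      Complex.I * ((g w : ℝ) : ℂ) * ∑ B, ∑ C, (((D 8)⁻¹ B C : ℝ) : ℂ) *
        inner ℂ v' (S.vec (S.g 8) (φ (Sum.inr B)) β (S.cS (φ (Sum.inr C)) v)) := by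
    simp only [Finset.mul_sum]
    refine Finset.sum_congr rfl fun B _ => Finset.sum_congr rfl fun C _ => ?_
    ring
  have e2 : ∑ A, ((∑ B, ∑ C, (D 8)⁻¹ B C *
        S.f (φ (Sum.inr C)) (φ (Sum.inl A)) (φ (Sum.inr B)) : ℝ) : ℂ) *
          (((g w : ℝ) : ℂ) * inner ℂ v' (S.vec (S.g 8) (φ (Sum.inl A)) β v)) =
      ((g w : ℝ) : ℂ) * ∑ A, ((∑ B, ∑ C, (D 8)⁻¹ B C *
        S.f (φ (Sum.inr C)) (φ (Sum.inl A)) (φ (Sum.inr B)) : ℝ) : ℂ) *
          inner ℂ v' (S.vec (S.g 8) (φ (Sum.inl A)) β v) := by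
    rw [Finset.mul_sum]
    refine Finset.sum_congr rfl fun A _ => ?_
    ring
  have e3 : ∑ A, ∑ i, ∑ j, ((S.κ * ∑ B, ∑ C, S.f (φ (Sum.inl A)) (φ (Sum.inr B)) (φ (Sum.inr C)) *
        (wt w i B * wt w j C * g w ^ 2) : ℝ) : ℂ) * inner ℂ v' (S.vec (S.g2 i j) (φ (Sum.inl A)) β v) =
      ((g w : ℝ) : ℂ) * ∑ A, ∑ i, ∑ j, ((S.κ * ∑ B, ∑ C, S.f (φ (Sum.inl A)) (φ (Sum.inr B)) (φ (Sum.inr C)) *
        wt w i B * wt w j C : ℝ) : ℂ) * (((g w : ℝ) : ℂ) * inner ℂ v' (S.vec (S.g2 i j) (φ (Sum.inl A)) β v)) := by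
    simp only [Finset.mul_sum (s := (Finset.univ : Finset (Fin dh))),
      Finset.mul_sum (s := (Finset.univ : Finset (Fin 9)))]
    refine Finset.sum_congr rfl fun A _ => Finset.sum_congr rfl fun i _ => Finset.sum_congr rfl fun j _ => ?_
    have e4 : (S.κ * ∑ B, ∑ C, S.f (φ (Sum.inl A)) (φ (Sum.inr B)) (φ (Sum.inr C)) *
        (wt w i B * wt w j C * g w ^ 2)) = (S.κ * ∑ B, ∑ C, S.f (φ (Sum.inl A)) (φ (Sum.inr B)) (φ (Sum.inr C)) *
        wt w i B * wt w j C) * g w ^ 2 := by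
      simp only [Finset.mul_sum, Finset.sum_mul]
      refine Finset.sum_congr rfl fun B _ => Finset.sum_congr rfl fun C _ => ?_
      ring
    rw [e4, Complex.ofReal_mul, Complex.ofReal_pow]
    ring
  rw [e1, h3, e2, e3]
  set T := ∑ A, ((∑ B, ∑ C, (D 8)⁻¹ B C *
        S.f (φ (Sum.inr C)) (φ (Sum.inl A)) (φ (Sum.inr B)) : ℝ) : ℂ) *
          inner ℂ v' (S.vec (S.g 8) (φ (Sum.inl A)) β v)
  linear_combination (((g w : ℝ) : ℂ) ^ 2 * (Complex.I / 2) * T) * Complex.I_mul_I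

end Pt

/-- **E-QrVac** -/
theorem qrVac (S : Setup d F) (φ : Spl dh dm d) (ψ : Spl r ds dh) :
    CovStmt S φ → WickStmt S φ → QrVacStmt S φ ψ := by
  intro hCov hW hs hc y Om hy hO v hv v' hv' β
  have hF : Frz (S.Dz φ ψ y) := qv_frz S φ ψ hs hc y hy
  obtain ⟨hd, hi⟩ := qv_gR S.κ_pos hF hO
  have h1 : ∀ w, inner ℂ (((gR (S.Dz φ ψ y) Om 1 w : ℝ) : ℂ) • v')
      (S.Qr φ β (fun _ w' => ((gR (S.Dz φ ψ y) Om 1 w' : ℝ) : ℂ) • v) (cmb ψ y 0) w) =
      ∑ A, ∑ i, ∑ j, ((S.κ * ∑ B, ∑ C, S.f (φ (Sum.inl A)) (φ (Sum.inr B)) (φ (Sum.inr C)) *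
        (wt w i B * wt w j C * gR (S.Dz φ ψ y) Om 1 w ^ 2) : ℝ) : ℂ) *
          ((1 / 2 : ℂ) * inner ℂ v' (S.vec (S.g2 i j) (φ (Sum.inl A)) β v)) := by
    intro w
    rw [qv_pt S φ hs hW hF hO hv hv' (cmb ψ y 0) (fun i => rfl) β _ hd w]
    simp only [Finset.mul_sum (s := (Finset.univ : Finset (Fin dh))),
      Finset.mul_sum (s := (Finset.univ : Finset (Fin 9)))]
    refine Finset.sum_congr rfl fun A _ => Finset.sum_congr rfl fun i _ => Finset.sum_congr rfl fun j _ => ?_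
    ring
  have h2 : ∀ (A : Fin dh) (i j : Fin 9) (B C : Fin dm), Integrable fun w : Wsp dm =>
      S.f (φ (Sum.inl A)) (φ (Sum.inr B)) (φ (Sum.inr C)) * (wt w i B * wt w j C * gR (S.Dz φ ψ y) Om 1 w ^ 2) :=
    fun A i j B C => (hi i j B C).const_mul _
  have h3 : ∀ (A : Fin dh) (i j : Fin 9), Integrable fun w : Wsp dm =>
      S.κ * ∑ B, ∑ C, S.f (φ (Sum.inl A)) (φ (Sum.inr B)) (φ (Sum.inr C)) *
        (wt w i B * wt w j C * gR (S.Dz φ ψ y) Om 1 w ^ 2) := fun A i j =>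
    (integrable_finsetSum _ fun B _ => integrable_finsetSum _ fun C _ => h2 A i j B C).const_mul _
  have h4 : ∀ (A : Fin dh) (i j : Fin 9), ∫ w : Wsp dm,
      S.κ * ∑ B, ∑ C, S.f (φ (Sum.inl A)) (φ (Sum.inr B)) (φ (Sum.inr C)) *
        (wt w i B * wt w j C * gR (S.Dz φ ψ y) Om 1 w ^ 2) = 0 := by
    intro A i j
    rw [integral_const_mul, integral_finsetSum _ fun B _ => integrable_finsetSum _ fun C _ => h2 A i j B C]
    simp only [integral_finsetSum _ fun C _ => h2 A i j _ C, integral_const_mul]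
    rw [mul_eq_zero]
    right
    have h5 := qv_sa (Matrix.of fun B C : Fin dm => ∫ w, wt w i B * wt w j C * gR (S.Dz φ ψ y) Om 1 w ^ 2)
      (Matrix.of fun B C : Fin dm => S.f (φ (Sum.inl A)) (φ (Sum.inr B)) (φ (Sum.inr C)))
      (by
        ext B C
        exact hCov _ _ hF hO i j C B)
      (fun B C => S.f_swap' _ _ _)
    exact h5
  simp only [h1]
  have h6 : ∀ (A : Fin dh) (i j : Fin 9), Integrable fun w : Wsp dm =>
      ((S.κ * ∑ B, ∑ C, S.f (φ (Sum.inl A)) (φ (Sum.inr B)) (φ (Sum.inr C)) *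
        (wt w i B * wt w j C * gR (S.Dz φ ψ y) Om 1 w ^ 2) : ℝ) : ℂ) *
          ((1 / 2 : ℂ) * inner ℂ v' (S.vec (S.g2 i j) (φ (Sum.inl A)) β v)) := fun A i j =>
    ((h3 A i j).ofReal (𝕜 := ℂ)).mul_const _
  rw [integral_finsetSum _ fun A _ => integrable_finsetSum _ fun i _ => integrable_finsetSum _ fun j _ =>
    h6 A i j]
  refine Finset.sum_eq_zero fun A _ => ?_
  rw [integral_finsetSum _ fun i _ => integrable_finsetSum _ fun j _ => h6 A i j]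
  refine Finset.sum_eq_zero fun i _ => ?_
  rw [integral_finsetSum _ fun j _ => h6 A i j]
  refine Finset.sum_eq_zero fun j _ => ?_
  rw [integral_mul_const, integral_complex_ofReal, h4, Complex.ofReal_zero, zero_mul]

end Vale.Agent.P353.Z.AE
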