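import Vale.Agent.P353.AN.E.StmtO
import Vale.Agent.P353.AN.D.Tr

/-! # P353, all `N`, block E: transport of the limit equation by a colour rotation (EG-RotO, EG-LimO) -/

open MeasureTheory Filter Topology Matrix
open scoped ContDiff

namespace Vale.Agent.P353.Z.AE

variable {d : ℕ} {F : Type*} [NormedAddCommGroup F] [InnerProductSpace ℂ F]

lemma ro471_g (S : Setup d F) (h9 : (1 : Matrix (Fin 9) (Fin 9) ℝ) * (1 : Matrix (Fin 9) (Fin 9) ℝ)ᵀ = 1)
    (O : Matrix (Fin d) (Fin d) ℝ) (hO : O * Oᵀ = 1) : (S.rot 1 h9 O hO).g = S.g := by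
  funext i
  show ∑ j, ((1 : Matrix (Fin 9) (Fin 9) ℝ) i j : ℂ) • S.g j = S.g i
  rw [Finset.sum_eq_single i]
  · simp
  · intro j _ hj
    rw [Matrix.one_apply_ne hj.symm]
    simp
  · simp

lemma ro471_Gam (S : Setup d F) (h9 : (1 : Matrix (Fin 9) (Fin 9) ℝ) * (1 : Matrix (Fin 9) (Fin 9) ℝ)ᵀ = 1)
    (O : Matrix (Fin d) (Fin d) ℝ) (hO : O * Oᵀ = 1) : (S.rot 1 h9 O hO).Gam = S.Gam := by
  unfold Setup.Gam
  rw [ro471_g]

lemma ro471_N0 (S : Setup d F) (h9 : (1 : Matrix (Fin 9) (Fin 9) ℝ) * (1 : Matrix (Fin 9) (Fin 9) ℝ)ᵀ = 1)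
    (O : Matrix (Fin d) (Fin d) ℝ) (hO : O * Oᵀ = 1) :
    AN.N0 (S.rot 1 h9 O hO) = AN.rotN 1 (AN.N0 S) := by
  funext i
  have h1 : AN.rotN 1 (AN.N0 S) i = AN.N0 S i := by
    show ∑ j, (((1 : Matrix (Fin 9) (Fin 9) ℝ) i j : ℝ) : ℂ) • AN.N0 S j = AN.N0 S i
    rw [Finset.sum_eq_single i]
    · simp
    · intro j _ hj
      rw [Matrix.one_apply_ne hj.symm]
      simp
    · simp
  rw [h1]
  unfold AN.N0
  rw [ro471_g, ro471_Gam]

/-- the mass operator in terms of the mass matrices -/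
lemma ro471_MM (S : Setup d F) (β : Fin 16) (x : Cfg d) : S.MM β x = S.Mx (AN.N0 S) β x := by
  simp only [Setup.MM, Setup.Mx, AN.N0, S.vec_smul, smul_smul]
  refine Finset.sum_congr rfl fun i _ => Finset.sum_congr rfl fun A _ => ?_
  rw [Complex.ofReal_mul, mul_comm]

/-- facts about the colour rotation -/
structure Ro471 (O : Matrix (Fin d) (Fin d) ℝ) : Prop where
  l : ∀ x, rox 1 Oᵀ (rox 1 O x) = x
  r : ∀ x, rox 1 O (rox 1 Oᵀ x) = x
  mp : MeasurePreserving (rox 1 O : Cfg d → Cfg d) volume volume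
  em : MeasurableEmbedding (rox 1 O : Cfg d → Cfg d)

lemma ro471_mk {S : Setup d F} (hR : AN.RotStmt S)
    (h9 : (1 : Matrix (Fin 9) (Fin 9) ℝ) * (1 : Matrix (Fin 9) (Fin 9) ℝ)ᵀ = 1)
    {O : Matrix (Fin d) (Fin d) ℝ} (hO : O * Oᵀ = 1) : Ro471 O := by
  have h := AD.Tr.mkFx hR h9 hO
  have hl := h.l
  have hr := h.r
  simp only [Matrix.transpose_one] at hl hr
  exact ⟨hl, hr, h.mp, h.em⟩

/-- **EG-RotO** -/
theorem rotO (S : Setup d F) (hR : AN.RotStmt S) (hF : AN.FrameStmt S) : RotOStmt S := by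
  intro h9 O hO
  have hX := AD.Tr.mkFx hR h9 hO
  have hY := ro471_mk hR h9 hO
  obtain ⟨-, -, -, -, -, hQ, hG⟩ := hR 1 h9 O hO
  have htst : ∀ u : Cfg d → F, Setup.Tst u → Setup.Tst fun x => u (rox 1 Oᵀ x) := by
    intro u hu
    have := hX.tst hu
    simpa only [Matrix.transpose_one] using this
  have hback : ∀ u : Cfg d → F, (fun z => (fun x => u (rox 1 Oᵀ x)) (rox 1 O z)) = u := by
    intro u
    funext z
    show u (rox 1 Oᵀ (rox 1 O z)) = u z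
    rw [hY.l]
  have hMM : ∀ β x, (S.rot 1 h9 O hO).MM β (rox 1 O x) = S.MM β x := by
    intro β x
    rw [ro471_MM, ro471_MM, ro471_N0]
    exact ((hF.2.2 (AN.N0 S)).1 1 h9 O hO hF.1).2 β x
  have hnsq : ∀ u : Cfg d → F, nsq (fun x => u (rox 1 Oᵀ x)) = nsq u := by
    intro u
    unfold nsq
    rw [← hY.mp.integral_comp hY.em (fun x => ‖u (rox 1 Oᵀ x)‖ ^ 2)]
    simp only [hY.l]
  have hQm : ∀ u : Cfg d → F, Setup.Tst u → ∀ (m : ℝ) (β : Fin 16),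
      (S.rot 1 h9 O hO).Qm m β (fun x => u (rox 1 Oᵀ x)) = fun x => S.Qm m β u (rox 1 Oᵀ x) := by
    intro u hu m β
    funext x
    have h1 : (S.rot 1 h9 O hO).Qm m β (fun x => u (rox 1 Oᵀ x)) (rox 1 O (rox 1 Oᵀ x)) =
        S.Qm m β u (rox 1 Oᵀ x) := by
      unfold Setup.Qm
      rw [hQ _ ((htst u hu).1.differentiable (by simp)) β (rox 1 Oᵀ x), hback, hMM]
      simp only [hY.l]
    rw [hY.r] at h1
    exact h1
  refine ⟨?_, ?_, ?_⟩
  · intro u hu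
    refine ⟨⟨htst u hu.1, ?_⟩, hnsq u, hQm u hu.1⟩
    intro C x
    have h1 := hG _ ((htst u hu.1).1.differentiable (by simp)) C (rox 1 Oᵀ x)
    rw [hY.r, hback] at h1
    rw [h1]
    refine Finset.sum_eq_zero fun C' _ => ?_
    rw [hu.2, smul_zero]
  · intro R Ψ C hB
    refine ⟨hB.R_lim, ?_, ?_, ?_⟩
    · intro n
      refine ⟨htst _ (hB.inv n).1, ?_⟩
      intro C x
      have h1 := hG _ ((htst _ (hB.inv n).1).1.differentiable (by simp)) C (rox 1 Oᵀ x)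
      rw [hY.r, hback] at h1
      rw [h1]
      refine Finset.sum_eq_zero fun C' _ => ?_
      rw [(hB.inv n).2, smul_zero]
    · intro n
      rw [hnsq]
      exact hB.norm n
    · intro n
      have h1 : (S.rot 1 h9 O hO).en ((R n)⁻¹ ^ 2) (fun x => Ψ n (rox 1 Oᵀ x)) = S.en ((R n)⁻¹ ^ 2) (Ψ n) := by
        unfold Setup.en
        refine Finset.sum_congr rfl fun β _ => ?_
        rw [hQm _ (hB.inv n).1, hnsq]
      rw [h1]
      exact hB.energy n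
  · intro Z u
    unfold ipr
    rw [← hY.mp.integral_comp hY.em (fun x => inner ℂ (Z x) (u (rox 1 Oᵀ x)))]
    simp only [hY.l]

/-- **EG-LimO** -/
theorem limO (S : Setup d F) (hL : ∀ S' : Setup d F, LimDStmt S') (hO : RotOStmt S) : LimOStmt S := by
  intro hfd h9 O hOO dh dm r ds n φ ψ L Om K U o T hD χ hχ R Ψ C hB β b hb
  obtain ⟨h1, h2, h3⟩ := hO h9 O hOO
  have h4 := hL (S.rot 1 h9 O hOO) hfd dh dm r ds n φ ψ L Om K U o T hD χ hχ R _ C (h2 R Ψ C hB) β b hb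
  refine h4.congr fun k => ?_
  rw [h3, h3]
  have h5 := (h1 (Ψ k) (hB.inv k)).2.2 ((R k)⁻¹ ^ 2) β
  rw [h5]
  rfl

end Vale.Agent.P353.Z.AE
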