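import Vale.Agent.P353.AN.E.Stmt

/-! # P353, all `N`, block E: E-TR, basic facts on the trial functions (helper922) -/

open MeasureTheory Filter Topology
open scoped ContDiff

namespace Vale.Agent.P353.Z.AE

variable {d dh dm r ds : ℕ} {F : Type*} [NormedAddCommGroup F] [InnerProductSpace ℂ F]

/-- index map of the splitting `h = z + s` -/
def trfIdx (ψ : Spl r ds dh) : (Fin 9 × Fin r) ⊕ (Fin 9 × Fin ds) → Fin 9 × Fin dh :=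
  Sum.elim (fun p => (p.1, ψ (Sum.inl p.2))) fun p => (p.1, ψ (Sum.inr p.2))

theorem trfIdx_bijective (ψ : Spl r ds dh) : Function.Bijective (trfIdx ψ) := by
  constructor
  · rintro (⟨i, A⟩ | ⟨i, A⟩) (⟨i', A'⟩ | ⟨i', A'⟩) h
    all_goals simp only [trfIdx, Sum.elim_inl, Sum.elim_inr, Prod.mk.injEq,
      EmbeddingLike.apply_eq_iff_eq, Sum.inr.injEq, Sum.inl.injEq, reduceCtorEq, and_false] at h
    · rw [h.1, h.2]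
    · rw [h.1, h.2]
  · rintro ⟨i, A⟩
    obtain ⟨s, rfl⟩ := ψ.surjective A
    rcases s with A | B
    · exact ⟨Sum.inl (i, A), rfl⟩
    · exact ⟨Sum.inr (i, B), rfl⟩

/-- the index equivalence -/
noncomputable def trfEquiv (ψ : Spl r ds dh) : (Fin 9 × Fin r) ⊕ (Fin 9 × Fin ds) ≃ Fin 9 × Fin dh :=
  Equiv.ofBijective _ (trfIdx_bijective ψ)

theorem trf_mp (ψ : Spl r ds dh) :
    MeasurePreserving (fun x : Cfg dh => (zpt ψ x, spt ψ x)) volume (volume.prod volume) := by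
  have m1 := PiLp.volume_preserving_ofLp (Fin 9 × Fin dh)
  have m2 := (volume_measurePreserving_piCongrLeft (fun _ : Fin 9 × Fin dh => ℝ)
    (trfEquiv ψ)).symm
  have m3 := volume_measurePreserving_sumPiEquivProdPi
    (fun _ : (Fin 9 × Fin r) ⊕ (Fin 9 × Fin ds) => ℝ)
  have n1 := PiLp.volume_preserving_toLp (Fin 9 × Fin r)
  have n2 := PiLp.volume_preserving_toLp (Fin 9 × Fin ds)
  exact (n1.prod n2).comp (m3.comp (m2.comp m1))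

theorem trf_norm (ψ : Spl r ds dh) (x : Cfg dh) : ‖x‖ ^ 2 = ‖zpt ψ x‖ ^ 2 + ‖spt ψ x‖ ^ 2 := by
  rw [EuclideanSpace.real_norm_sq_eq, EuclideanSpace.real_norm_sq_eq, EuclideanSpace.real_norm_sq_eq,
    ← Equiv.sum_comp (trfEquiv ψ) (fun p => x p ^ 2), Fintype.sum_sum_type]
  rfl

theorem trf_zpt_sub (ψ : Spl r ds dh) (x : Cfg dh) (R : ℝ) (y₀ : Cfg r) :
    zpt ψ (x - R • cmb ψ y₀ 0) = zpt ψ x - R • y₀ := by
  ext p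
  simp [zpt, cmb]

theorem trf_spt_sub (ψ : Spl r ds dh) (x : Cfg dh) (R : ℝ) (y₀ : Cfg r) :
    spt ψ (x - R • cmb ψ y₀ 0) = spt ψ x := by
  ext p
  simp [spt, cmb]

theorem trf_zpt_c (ψ : Spl r ds dh) : ContDiff ℝ ∞ (fun x : Cfg dh => zpt ψ x) := by
  rw [contDiff_euclidean]
  intro p
  change ContDiff ℝ ∞ (fun x : Cfg dh => x (p.1, ψ (Sum.inl p.2)))
  fun_prop

theorem trf_spt_c (ψ : Spl r ds dh) : ContDiff ℝ ∞ (fun x : Cfg dh => spt ψ x) := by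
  rw [contDiff_euclidean]
  intro p
  change ContDiff ℝ ∞ (fun x : Cfg dh => x (p.1, ψ (Sum.inr p.2)))
  fun_prop


/-- the three supports of a trial function -/
theorem trf_supp (S : Setup d F) (φ : Spl dh dm d) (ψ : Spl r ds dh)
    (Om : Cfg r → Matrix (Fin dm) (Fin dm) ℝ) (V : Cfg r → F →L[ℂ] F) (K : Submodule ℂ F) (y₀ : Cfg r)
    (c : ℝ → ℝ) (hc : IsCt c) (ε : ℝ) (hε : 0 < ε) (ζ : Cfg r → ℂ)
    (hζs : tsupport ζ ⊆ Metric.ball y₀ (ε / 2)) (R η : ℝ) (hR : 1 ≤ R)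
    (Φ : Cfg ds → F) (hΦ : IntF K η R Φ) (x : Cfg dh) (w : Wsp dm)
    (h : S.TR φ ψ Om V c ε R (pp ζ Φ) x w ≠ 0) :
    ‖zpt ψ x - R • y₀‖ ≤ ε / 2 * R ∧ ‖spt ψ x‖ ≤ η * R ∧ ‖w‖ ≤ ε * R := by
  have hR0 : 0 < R := lt_of_lt_of_le one_pos hR
  have h1 : V (zpt ψ x) (pp ζ Φ (R⁻¹ • zpt ψ x) (spt ψ x)) ≠ 0 := right_ne_zero_of_smul h
  have h2 : pp ζ Φ (R⁻¹ • zpt ψ x) (spt ψ x) ≠ 0 := fun h0 => h1 (by rw [h0, map_zero])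
  have h3 : ζ (R⁻¹ • zpt ψ x) ≠ 0 := left_ne_zero_of_smul h2
  have h4 : Φ (spt ψ x) ≠ 0 := right_ne_zero_of_smul h2
  have h5 : (Real.sqrt R ^ (9 * r))⁻¹ * c (‖w‖ ^ 2 / (ε * R) ^ 2) * S.bz φ ψ Om (zpt ψ x) w ≠ 0 := by
    intro h0
    apply h
    show (((Real.sqrt R ^ (9 * r))⁻¹ * c (‖w‖ ^ 2 / (ε * R) ^ 2) * S.bz φ ψ Om (zpt ψ x) w : ℝ) : ℂ) • _ = _
    rw [h0, Complex.ofReal_zero, zero_smul]
  have h6 : c (‖w‖ ^ 2 / (ε * R) ^ 2) ≠ 0 := right_ne_zero_of_mul (left_ne_zero_of_mul h5)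
  refine ⟨?_, hΦ.sup _ h4, ?_⟩
  · have h7 : R⁻¹ • zpt ψ x ∈ Metric.ball y₀ (ε / 2) := hζs (subset_tsupport _ h3)
    rw [Metric.mem_ball, dist_eq_norm] at h7
    have h8 : zpt ψ x - R • y₀ = R • (R⁻¹ • zpt ψ x - y₀) := by
      rw [smul_sub, smul_smul, mul_inv_cancel₀ hR0.ne', one_smul]
    rw [h8, norm_smul, Real.norm_of_nonneg hR0.le, mul_comm]
    exact mul_le_mul_of_nonneg_right h7.le hR0.le
  · by_contra h9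
    push Not at h9
    apply h6
    apply hc.zero
    have h10 : 0 < ε * R := mul_pos hε hR0
    rw [le_div_iff₀ (by positivity), one_mul]
    exact pow_le_pow_left₀ h10.le h9.le 2

/-- the support lies in the tube -/
theorem trf_sup2 (S : Setup d F) (φ : Spl dh dm d) (ψ : Spl r ds dh)
    (Om : Cfg r → Matrix (Fin dm) (Fin dm) ℝ) (V : Cfg r → F →L[ℂ] F) (K : Submodule ℂ F) (y₀ : Cfg r)
    (c : ℝ → ℝ) (hc : IsCt c) (ε : ℝ) (hε : 0 < ε) (ζ : Cfg r → ℂ)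
    (hζs : tsupport ζ ⊆ Metric.ball y₀ (ε / 2)) (R η : ℝ) (hR : 1 ≤ R) (hηε : η ≤ ε / 2)
    (Φ : Cfg ds → F) (hΦ : IntF K η R Φ) :
    Sup2 (cmb ψ y₀ 0) ε R (S.TR φ ψ Om V c ε R (pp ζ Φ)) := by
  intro x w h
  obtain ⟨h1, h2, h3⟩ := trf_supp S φ ψ Om V K y₀ c hc ε hε ζ hζs R η hR Φ hΦ x w h
  refine ⟨?_, h3⟩
  have hR0 : 0 < R := lt_of_lt_of_le one_pos hR
  have h10 : 0 < ε * R := mul_pos hε hR0
  have h4 : ‖spt ψ x‖ ≤ ε / 2 * R := h2.trans (mul_le_mul_of_nonneg_right hηε hR0.le)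
  have h5 := trf_norm ψ (x - R • cmb ψ y₀ 0)
  rw [trf_zpt_sub, trf_spt_sub] at h5
  have h6 : ‖zpt ψ x - R • y₀‖ ^ 2 ≤ (ε / 2 * R) ^ 2 := pow_le_pow_left₀ (norm_nonneg _) h1 2
  have h7 : ‖spt ψ x‖ ^ 2 ≤ (ε / 2 * R) ^ 2 := pow_le_pow_left₀ (norm_nonneg _) h4 2
  apply le_of_sq_le_sq _ h10.le
  nlinarith [sq_nonneg (ε * R)]

/-- the support of the centre part lies over `U` -/
theorem trf_inU (S : Setup d F) (φ : Spl dh dm d) (ψ : Spl r ds dh) (U : Set (Cfg r))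
    (Om : Cfg r → Matrix (Fin dm) (Fin dm) ℝ) (y₀ : Cfg r) (ε0 C0 : ℝ) (hB : BzFacts S φ ψ U Om y₀ ε0 C0)
    (ε : ℝ) (hε : 0 < ε) (hε0 : ε ≤ ε0) (R : ℝ) (hR : 1 ≤ R) (y : Cfg r)
    (h : R⁻¹ • y ∈ Metric.ball y₀ (ε / 2)) : y ∈ U := by
  have hR0 : 0 < R := lt_of_lt_of_le one_pos hR
  apply hB.inU R hR0
  rw [Metric.mem_ball, dist_eq_norm] at h
  have h8 : y - R • y₀ = R • (R⁻¹ • y - y₀) := by
    rw [smul_sub, smul_smul, mul_inv_cancel₀ hR0.ne', one_smul]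
  rw [h8, norm_smul, Real.norm_of_nonneg hR0.le, mul_comm]
  apply mul_le_mul_of_nonneg_right _ hR0.le
  linarith


/-- evaluation of the frame on a vector is smooth -/
theorem trf_V {E : Type*} [NormedAddCommGroup E] [NormedSpace ℝ E] (V : Cfg r → F →L[ℂ] F)
    (U : Set (Cfg r)) (hU : IsOpen U) (hV : ContDiffOn ℝ ∞ V U) (g : E → Cfg r) (u : E → F) (p : E)
    (hg : ContDiffAt ℝ ∞ g p) (hu : ContDiffAt ℝ ∞ u p) (hp : g p ∈ U) :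
    ContDiffAt ℝ ∞ (fun q => V (g q) (u q)) p := by
  have h1 : ContDiffAt ℝ ∞ V (g p) := hV.contDiffAt (hU.mem_nhds hp)
  have h2 : ContDiffAt ℝ ∞ (fun q => V (g q)) p := h1.comp p hg
  have h3 : ContDiffAt ℝ ∞ (fun q => ContinuousLinearMap.restrictScalarsL ℂ F F ℝ ℝ (V (g q))) p :=
    (ContinuousLinearMap.restrictScalarsL ℂ F F ℝ ℝ).contDiff.contDiffAt.comp p h2
  exact h3.clm_apply hu

theorem trf_sm (S : Setup d F) (φ : Spl dh dm d) (ψ : Spl r ds dh) (U : Set (Cfg r))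
    (Om : Cfg r → Matrix (Fin dm) (Fin dm) ℝ) (V : Cfg r → F →L[ℂ] F) (hU : IsOpen U)
    (hV : ContDiffOn ℝ ∞ V U) (y₀ : Cfg r) (ε0 C0 : ℝ) (hB : BzFacts S φ ψ U Om y₀ ε0 C0)
    (c : ℝ → ℝ) (hc : IsCt c) (ε : ℝ) (hε : 0 < ε) (hε0 : ε ≤ ε0) (ζ : Cfg r → ℂ) (hζ : ContDiff ℝ ∞ ζ)
    (hζs : tsupport ζ ⊆ Metric.ball y₀ (ε / 2)) (R : ℝ) (hR : 1 ≤ R)
    (Φ : Cfg ds → F) (hΦ : ContDiff ℝ ∞ Φ) :
    ContDiff ℝ ∞ (fun p : Cfg dh × Wsp dm => S.TR φ ψ Om V c ε R (pp ζ Φ) p.1 p.2) := by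
  rw [contDiff_iff_contDiffAt]
  intro p
  have hz : ContDiff ℝ ∞ (fun q : Cfg dh × Wsp dm => zpt ψ q.1) := (trf_zpt_c ψ).comp contDiff_fst
  have hs : ContDiff ℝ ∞ (fun q : Cfg dh × Wsp dm => spt ψ q.1) := (trf_spt_c ψ).comp contDiff_fst
  have hRz : ContDiff ℝ ∞ (fun q : Cfg dh × Wsp dm => R⁻¹ • zpt ψ q.1) := hz.const_smul R⁻¹
  by_cases hp : R⁻¹ • zpt ψ p.1 ∈ tsupport ζ
  · have hpU : zpt ψ p.1 ∈ U := trf_inU S φ ψ U Om y₀ ε0 C0 hB ε hε hε0 R hR _ (hζs hp)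
    have h1 : ContDiff ℝ ∞ (fun q : Cfg dh × Wsp dm => c (‖q.2‖ ^ 2 / (ε * R) ^ 2)) :=
      hc.sm.comp (((contDiff_norm_sq ℝ).comp contDiff_snd).div_const _)
    have h2 : ContDiffAt ℝ ∞ (fun q : Cfg r × Wsp dm => S.bz φ ψ Om q.1 q.2) (zpt ψ p.1, p.2) :=
      hB.sm.contDiffAt ((hU.prod isOpen_univ).mem_nhds ⟨hpU, Set.mem_univ _⟩)
    have h3 : ContDiffAt ℝ ∞ (fun q : Cfg dh × Wsp dm => S.bz φ ψ Om (zpt ψ q.1) q.2) p :=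
      ContDiffAt.comp (g := fun q : Cfg r × Wsp dm => S.bz φ ψ Om q.1 q.2)
        (f := fun q : Cfg dh × Wsp dm => (zpt ψ q.1, q.2)) p h2 ((hz.prodMk contDiff_snd).contDiffAt)
    have h4 : ContDiffAt ℝ ∞ (fun q : Cfg dh × Wsp dm =>
        (Real.sqrt R ^ (9 * r))⁻¹ * c (‖q.2‖ ^ 2 / (ε * R) ^ 2) * S.bz φ ψ Om (zpt ψ q.1) q.2) p :=
      (contDiffAt_const.mul h1.contDiffAt).mul h3
    have h5 : ContDiffAt ℝ ∞ (fun q : Cfg dh × Wsp dm =>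
        (((Real.sqrt R ^ (9 * r))⁻¹ * c (‖q.2‖ ^ 2 / (ε * R) ^ 2) * S.bz φ ψ Om (zpt ψ q.1) q.2 : ℝ) : ℂ)) p :=
      Complex.ofRealCLM.contDiff.contDiffAt.comp p h4
    have h6 : ContDiff ℝ ∞ (fun q : Cfg dh × Wsp dm => ζ (R⁻¹ • zpt ψ q.1)) := hζ.comp hRz
    have h7 : ContDiff ℝ ∞ (fun q : Cfg dh × Wsp dm => Φ (spt ψ q.1)) := hΦ.comp hs
    have h8 : ContDiffAt ℝ ∞ (fun q : Cfg dh × Wsp dm => ζ (R⁻¹ • zpt ψ q.1) • Φ (spt ψ q.1)) p :=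
      (h6.smul h7).contDiffAt
    have h9 : ContDiffAt ℝ ∞ (fun q : Cfg dh × Wsp dm =>
        V (zpt ψ q.1) (ζ (R⁻¹ • zpt ψ q.1) • Φ (spt ψ q.1))) p :=
      trf_V V U hU hV (fun q : Cfg dh × Wsp dm => zpt ψ q.1) _ p hz.contDiffAt h8 hpU
    exact h5.smul h9
  · have h1 : IsOpen {q : Cfg dh × Wsp dm | R⁻¹ • zpt ψ q.1 ∈ (tsupport ζ)ᶜ} :=
      (isClosed_tsupport ζ).isOpen_compl.preimage hRz.continuous
    have h2 : (fun q : Cfg dh × Wsp dm => S.TR φ ψ Om V c ε R (pp ζ Φ) q.1 q.2) =ᶠ[𝓝 p] fun _ => 0 := by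
      filter_upwards [h1.mem_nhds hp] with q hq
      have h3 : ζ (R⁻¹ • zpt ψ q.1) = 0 := image_eq_zero_of_notMem_tsupport hq
      show _ • V (zpt ψ q.1) (ζ (R⁻¹ • zpt ψ q.1) • Φ (spt ψ q.1)) = 0
      rw [h3, zero_smul, map_zero, smul_zero]
    exact contDiffAt_const.congr_of_eventuallyEq h2


theorem trf_int {X E : Type*} [TopologicalSpace X] [T2Space X] [MeasurableSpace X]
    [OpensMeasurableSpace X]
    [NormedAddCommGroup E] (μ : Measure X) [IsFiniteMeasureOnCompacts μ] (f : X → E)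
    (hf : Continuous f) (hc : HasCompactSupport f) : Integrable (fun x => ‖f x‖ ^ 2) μ := by
  have h1 : Continuous (fun x => ‖f x‖ ^ 2) := hf.norm.pow 2
  have h2 : HasCompactSupport (fun x => ‖f x‖ ^ 2) :=
    HasCompactSupport.intro hc fun x hx => by
      rw [image_eq_zero_of_notMem_tsupport hx, norm_zero, zero_pow two_ne_zero]
  exact h1.integrable_of_hasCompactSupport h2

omit [InnerProductSpace ℂ F] in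
/-- compact support -/
theorem trf_cs {T : Cfg dh → Wsp dm → F} {Y : Cfg dh} {ε R : ℝ} (h : Sup2 Y ε R T) :
    HasCompactSupport (fun p : Cfg dh × Wsp dm => T p.1 p.2) := by
  have hK : IsCompact (Metric.closedBall (R • Y) (ε * R) ×ˢ Metric.closedBall (0 : Wsp dm) (ε * R)) :=
    (isCompact_closedBall _ _).prod (isCompact_closedBall _ _)
  refine HasCompactSupport.intro hK fun p hp => ?_
  by_contra h0
  obtain ⟨h1, h2⟩ := h p.1 p.2 h0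
  apply hp
  refine ⟨?_, ?_⟩
  · rw [Metric.mem_closedBall, dist_eq_norm]
    exact h1
  · rw [Metric.mem_closedBall, dist_zero_right]
    exact h2

/-- fibre norm -/
theorem trf_fib (S : Setup d F) (φ : Spl dh dm d) (ψ : Spl r ds dh) (U : Set (Cfg r))
    (Om : Cfg r → Matrix (Fin dm) (Fin dm) ℝ) (V : Cfg r → F →L[ℂ] F)
    (hV : ∀ y ∈ U, ∀ v, ‖V y v‖ = ‖v‖) (y₀ : Cfg r) (ε0 C0 : ℝ) (hB : BzFacts S φ ψ U Om y₀ ε0 C0)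
    (c : ℝ → ℝ) (hc : IsCt c) (ε : ℝ) (hε : 0 < ε) (hε0 : ε ≤ ε0) (ζ : Cfg r → ℂ)
    (hζs : tsupport ζ ⊆ Metric.ball y₀ (ε / 2)) (R : ℝ) (hR : 1 ≤ R) (Φ : Cfg ds → F) (x : Cfg dh) :
    ∫ w, ‖S.TR φ ψ Om V c ε R (pp ζ Φ) x w‖ ^ 2 ≤
      (R ^ (9 * r))⁻¹ * (‖ζ (R⁻¹ • zpt ψ x)‖ ^ 2 * ‖Φ (spt ψ x)‖ ^ 2) := by
  have hR0 : 0 < R := lt_of_lt_of_le one_pos hR
  by_cases hz : ζ (R⁻¹ • zpt ψ x) = 0
  · have h1 : ∀ w, S.TR φ ψ Om V c ε R (pp ζ Φ) x w = 0 := by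
      intro w
      show _ • V (zpt ψ x) (ζ (R⁻¹ • zpt ψ x) • Φ (spt ψ x)) = 0
      rw [hz, zero_smul, map_zero, smul_zero]
    simp only [h1, norm_zero, hz]
    simp
  · have hU : zpt ψ x ∈ U :=
      trf_inU S φ ψ U Om y₀ ε0 C0 hB ε hε hε0 R hR _ (hζs (subset_tsupport _ hz))
    have h1 : ∀ w, ‖S.TR φ ψ Om V c ε R (pp ζ Φ) x w‖ ^ 2 ≤
        (R ^ (9 * r))⁻¹ * (‖ζ (R⁻¹ • zpt ψ x)‖ ^ 2 * ‖Φ (spt ψ x)‖ ^ 2) * S.bz φ ψ Om (zpt ψ x) w ^ 2 := by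
      intro w
      have h2 : ‖S.TR φ ψ Om V c ε R (pp ζ Φ) x w‖ =
          (Real.sqrt R ^ (9 * r))⁻¹ * c (‖w‖ ^ 2 / (ε * R) ^ 2) * S.bz φ ψ Om (zpt ψ x) w *
            (‖ζ (R⁻¹ • zpt ψ x)‖ * ‖Φ (spt ψ x)‖) := by
        have h3 : S.TR φ ψ Om V c ε R (pp ζ Φ) x w =
          (((Real.sqrt R ^ (9 * r))⁻¹ * c (‖w‖ ^ 2 / (ε * R) ^ 2) * S.bz φ ψ Om (zpt ψ x) w : ℝ) : ℂ) •
            V (zpt ψ x) (ζ (R⁻¹ • zpt ψ x) • Φ (spt ψ x)) := rfl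
        have h4 : 0 ≤ (Real.sqrt R ^ (9 * r))⁻¹ * c (‖w‖ ^ 2 / (ε * R) ^ 2) * S.bz φ ψ Om (zpt ψ x) w :=
          mul_nonneg (mul_nonneg (inv_nonneg.2 (pow_nonneg (Real.sqrt_nonneg _) _)) (hc.bd _).1)
            (hB.pos _ hU w).le
        rw [h3, norm_smul, hV _ hU, norm_smul, Complex.norm_real, Real.norm_of_nonneg h4]
      have h5 : (Real.sqrt R ^ (9 * r)) ^ 2 = R ^ (9 * r) := by
        rw [← pow_mul, mul_comm, pow_mul, Real.sq_sqrt hR0.le]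
      have h6 : c (‖w‖ ^ 2 / (ε * R) ^ 2) ^ 2 ≤ 1 :=
        pow_le_one₀ (hc.bd _).1 (hc.bd _).2
      have h7 : ‖S.TR φ ψ Om V c ε R (pp ζ Φ) x w‖ ^ 2 =
          (R ^ (9 * r))⁻¹ * (‖ζ (R⁻¹ • zpt ψ x)‖ ^ 2 * ‖Φ (spt ψ x)‖ ^ 2) * S.bz φ ψ Om (zpt ψ x) w ^ 2 *
            c (‖w‖ ^ 2 / (ε * R) ^ 2) ^ 2 := by
        rw [h2, ← h5]
        ring
      rw [h7]
      have h8 : 0 ≤ (R ^ (9 * r))⁻¹ * (‖ζ (R⁻¹ • zpt ψ x)‖ ^ 2 * ‖Φ (spt ψ x)‖ ^ 2) *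
          S.bz φ ψ Om (zpt ψ x) w ^ 2 := by positivity
      exact mul_le_of_le_one_right h8 h6
    have h2 : Integrable fun w : Wsp dm => S.bz φ ψ Om (zpt ψ x) w ^ 2 := by
      have h3 := hB.int _ hU 0
      simpa only [pow_zero, one_mul] using h3
    calc ∫ w, ‖S.TR φ ψ Om V c ε R (pp ζ Φ) x w‖ ^ 2
        ≤ ∫ w, (R ^ (9 * r))⁻¹ * (‖ζ (R⁻¹ • zpt ψ x)‖ ^ 2 * ‖Φ (spt ψ x)‖ ^ 2) *
            S.bz φ ψ Om (zpt ψ x) w ^ 2 :=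
          integral_mono_of_nonneg (Eventually.of_forall fun w => by positivity) (h2.const_mul _)
            (Eventually.of_forall h1)
      _ = (R ^ (9 * r))⁻¹ * (‖ζ (R⁻¹ • zpt ψ x)‖ ^ 2 * ‖Φ (spt ψ x)‖ ^ 2) := by
          rw [integral_const_mul, hB.norm _ hU, mul_one]

/-- substitution -/
theorem trf_sub (ζ : Cfg r → ℂ) (R : ℝ) (hR : 0 < R) :
    (R ^ (9 * r))⁻¹ * (∫ y : Cfg r, ‖ζ (R⁻¹ • y)‖ ^ 2) = ∫ y : Cfg r, ‖ζ y‖ ^ 2 := by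
  have h1 := Measure.integral_comp_inv_smul_of_nonneg (volume : Measure (Cfg r)) (fun y => ‖ζ y‖ ^ 2) hR.le
  have h2 : Module.finrank ℝ (Cfg r) = 9 * r := by
    rw [finrank_euclideanSpace]
    simp
  rw [h1, h2, smul_eq_mul, ← mul_assoc, inv_mul_cancel₀ (pow_ne_zero _ hR.ne'), one_mul]

theorem trf_nrm (S : Setup d F) (φ : Spl dh dm d) (ψ : Spl r ds dh) (U : Set (Cfg r))
    (Om : Cfg r → Matrix (Fin dm) (Fin dm) ℝ) (V : Cfg r → F →L[ℂ] F)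
    (hV : ∀ y ∈ U, ∀ v, ‖V y v‖ = ‖v‖) (y₀ : Cfg r) (ε0 C0 : ℝ) (hB : BzFacts S φ ψ U Om y₀ ε0 C0)
    (c : ℝ → ℝ) (hc : IsCt c) (ε : ℝ) (hε : 0 < ε) (hε0 : ε ≤ ε0) (ζ : Cfg r → ℂ) (hζ : ContDiff ℝ ∞ ζ)
    (hζs : tsupport ζ ⊆ Metric.ball y₀ (ε / 2)) (R : ℝ) (hR : 1 ≤ R) (Φ : Cfg ds → F)
    (hΦ : Setup.Tst Φ) (hT : Tst2 (S.TR φ ψ Om V c ε R (pp ζ Φ))) :
    ns2 (S.TR φ ψ Om V c ε R (pp ζ Φ)) ≤ (∫ y, ‖ζ y‖ ^ 2) * nsq Φ := by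
  have hR0 : 0 < R := lt_of_lt_of_le one_pos hR
  -- integrability of the trial function
  have hTi : Integrable (fun p : Cfg dh × Wsp dm => ‖S.TR φ ψ Om V c ε R (pp ζ Φ) p.1 p.2‖ ^ 2)
      ((volume : Measure (Cfg dh)).prod (volume : Measure (Wsp dm))) :=
    trf_int _ _ hT.1.continuous hT.2
  -- the product function on `Cfg r × Cfg ds`
  have hζc : HasCompactSupport ζ :=
    HasCompactSupport.intro (isCompact_closedBall y₀ (ε / 2)) fun y hy => by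
      by_contra h0
      exact hy (Metric.ball_subset_closedBall (hζs (subset_tsupport _ h0)))
  have hi1 : Integrable (fun y : Cfg r => ‖ζ y‖ ^ 2) := trf_int _ _ hζ.continuous hζc
  have hi2 : Integrable (fun y : Cfg r => ‖ζ (R⁻¹ • y)‖ ^ 2) := by
    exact hi1.comp_smul (inv_ne_zero hR0.ne')
  have hi3 : Integrable (fun s : Cfg ds => ‖Φ s‖ ^ 2) := trf_int _ _ hΦ.1.continuous hΦ.2
  have hi4 : Integrable (fun q : Cfg r × Cfg ds => (R ^ (9 * r))⁻¹ * (‖ζ (R⁻¹ • q.1)‖ ^ 2 * ‖Φ q.2‖ ^ 2))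
      ((volume : Measure (Cfg r)).prod (volume : Measure (Cfg ds))) :=
    (hi2.mul_prod hi3).const_mul _
  have hi5 : Integrable (fun x : Cfg dh =>
      (R ^ (9 * r))⁻¹ * (‖ζ (R⁻¹ • zpt ψ x)‖ ^ 2 * ‖Φ (spt ψ x)‖ ^ 2)) :=
    (trf_mp ψ).integrable_comp_of_integrable hi4
  have h1 : ∫ x : Cfg dh, (R ^ (9 * r))⁻¹ * (‖ζ (R⁻¹ • zpt ψ x)‖ ^ 2 * ‖Φ (spt ψ x)‖ ^ 2) =
      ∫ q : Cfg r × Cfg ds, (R ^ (9 * r))⁻¹ * (‖ζ (R⁻¹ • q.1)‖ ^ 2 * ‖Φ q.2‖ ^ 2)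
        ∂((volume : Measure (Cfg r)).prod (volume : Measure (Cfg ds))) := by
    have h2 := (trf_mp ψ).map_eq
    rw [← h2]
    rw [integral_map (trf_mp ψ).measurable.aemeasurable]
    rw [h2]
    exact hi4.aestronglyMeasurable
  have h2 : ∫ q : Cfg r × Cfg ds, (R ^ (9 * r))⁻¹ * (‖ζ (R⁻¹ • q.1)‖ ^ 2 * ‖Φ q.2‖ ^ 2)
        ∂((volume : Measure (Cfg r)).prod (volume : Measure (Cfg ds))) =
      (R ^ (9 * r))⁻¹ * ((∫ y : Cfg r, ‖ζ (R⁻¹ • y)‖ ^ 2) * ∫ s : Cfg ds, ‖Φ s‖ ^ 2) := by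
    rw [integral_const_mul, integral_prod_mul (fun y : Cfg r => ‖ζ (R⁻¹ • y)‖ ^ 2) (fun s : Cfg ds => ‖Φ s‖ ^ 2)]
  calc ns2 (S.TR φ ψ Om V c ε R (pp ζ Φ))
      = ∫ x, ∫ w, ‖S.TR φ ψ Om V c ε R (pp ζ Φ) x w‖ ^ 2 := integral_prod _ hTi
    _ ≤ ∫ x : Cfg dh, (R ^ (9 * r))⁻¹ * (‖ζ (R⁻¹ • zpt ψ x)‖ ^ 2 * ‖Φ (spt ψ x)‖ ^ 2) :=
        integral_mono hTi.integral_prod_left hi5
          (trf_fib S φ ψ U Om V hV y₀ ε0 C0 hB c hc ε hε hε0 ζ hζs R hR Φ)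
    _ = (R ^ (9 * r))⁻¹ * ((∫ y : Cfg r, ‖ζ (R⁻¹ • y)‖ ^ 2) * ∫ s : Cfg ds, ‖Φ s‖ ^ 2) := h1.trans h2
    _ = (∫ y, ‖ζ y‖ ^ 2) * nsq Φ := by
        rw [← mul_assoc, trf_sub ζ R hR0]
        rfl

/-- **E-TR** basic facts on the trial functions -/
theorem trf (S : Setup d F) (φ : Spl dh dm d) (ψ : Spl r ds dh) : TRStmt S φ ψ := by
  intro _ _ U Om V K hF y₀ ε0 C0 _ hB c hc ε hε hε0 ζ hζ hζs R η hR _ hηε Φ hΦ
  have h1 := trf_sup2 S φ ψ Om V K y₀ c hc ε hε ζ hζs R η hR hηε Φ hΦ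
  have h2 : Tst2 (S.TR φ ψ Om V c ε R (pp ζ Φ)) :=
    ⟨trf_sm S φ ψ U Om V hF.opn hF.v_c y₀ ε0 C0 hB c hc ε hε hε0 ζ hζ hζs R hR Φ hΦ.tst.1, trf_cs h1⟩
  exact ⟨h2, h1, fun x w h => (trf_supp S φ ψ Om V K y₀ c hc ε hε ζ hζs R η hR Φ hΦ x w h).2.1,
    trf_nrm S φ ψ U Om V hF.v_n y₀ ε0 C0 hB c hc ε hε hε0 ζ hζ hζs R hR Φ hΦ.tst h2⟩

end Vale.Agent.P353.Z.AE
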