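import Vale.Agent.P353.AN.E.Tool
import Vale.Agent.P353.AN.E.TR

/-! # P353, all `N`, block E: shared tools, part 2 (helper213)

T3: derivatives of the trial functions; T4: bounds for the derivative of the frame; T5: functions supported over `ζ`, `Φ` and the
cutoff are test functions. -/

open MeasureTheory Filter Topology Matrix
open scoped ContDiff

namespace Vale.Agent.P353.Z.AE

variable {d dh dm r ds : ℕ} {F : Type*} [NormedAddCommGroup F] [InnerProductSpace ℂ F]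

section T4

/-- derivative of a map which is homogeneous of degree zero -/
lemma fderiv_hom0 {E : Type*} [NormedAddCommGroup E] [NormedSpace ℝ E] {U : Set (Cfg r)} (hU : IsOpen U)
    {V : Cfg r → E} (hV : ∀ y ∈ U, ∀ t : ℝ, 0 < t → V (t • y) = V y) {y : Cfg r} (hy : y ∈ U) {t : ℝ} (ht : 0 < t) :
    fderiv ℝ V (t • y) = t⁻¹ • fderiv ℝ V y := by
  have h1 : (fun z => V (t • z)) =ᶠ[𝓝 y] V := by
    filter_upwards [hU.mem_nhds hy] with z hz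
    exact hV z hz t ht
  have h2 := h1.fderiv_eq (𝕜 := ℝ)
  have h3 : fderiv ℝ (fun z => V (t • z)) y = t • fderiv ℝ V (t • y) := fderiv_comp_smul (f := V) t
  rw [← h2, h3, smul_smul, inv_mul_cancel₀ ht.ne', one_smul]

/-- **T4** bound for the derivative of the frame over a compact set of directions -/
theorem V_bd {S : Setup d F} {φ : Spl dh dm d} {ψ : Spl r ds dh} {U : Set (Cfg r)}
    {Om : Cfg r → Matrix (Fin dm) (Fin dm) ℝ} {V : Cfg r → F →L[ℂ] F} {K : Submodule ℂ F}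
    (hV : S.VFr φ ψ U Om V K) {Kc : Set (Cfg r)} (hK : IsCompact Kc) (hKU : Kc ⊆ U) :
    ∃ C : ℝ, 0 ≤ C ∧ ∀ R : ℝ, 0 < R → ∀ y : Cfg r, R⁻¹ • y ∈ Kc → ∀ (e : Cfg r) (v : F),
      ‖(fderiv ℝ V y e) v‖ ≤ C / R * ‖e‖ * ‖v‖ := by
  have hc : ContinuousOn (fun y => ‖fderiv ℝ V y‖) Kc :=
    ((hV.v_c.continuousOn_fderiv_of_isOpen hV.opn (by simp)).mono hKU).norm
  obtain ⟨C, hC⟩ := hK.exists_bound_of_continuousOn hc
  refine ⟨max C 0, le_max_right _ _, fun R hR y hy e v => ?_⟩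
  have h1 := fderiv_hom0 hV.opn hV.v_h (hKU hy) hR
  rw [smul_smul, mul_inv_cancel₀ hR.ne', one_smul] at h1
  have h2 : (fderiv ℝ V y e) v = R⁻¹ • ((fderiv ℝ V (R⁻¹ • y) e) v) := by
    rw [h1]
    rfl
  have h3 : ‖fderiv ℝ V (R⁻¹ • y)‖ ≤ max C 0 := by
    have := hC _ hy
    rw [Real.norm_eq_abs] at this
    exact ((le_abs_self _).trans this).trans (le_max_left _ _)
  rw [h2, norm_smul, norm_inv, Real.norm_of_nonneg hR.le, div_eq_inv_mul, mul_assoc, mul_assoc]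
  refine mul_le_mul_of_nonneg_left ?_ (inv_nonneg.2 hR.le)
  calc ‖(fderiv ℝ V (R⁻¹ • y) e) v‖ ≤ ‖fderiv ℝ V (R⁻¹ • y) e‖ * ‖v‖ := ContinuousLinearMap.le_opNorm _ _
    _ ≤ ‖fderiv ℝ V (R⁻¹ • y)‖ * ‖e‖ * ‖v‖ :=
        mul_le_mul_of_nonneg_right (ContinuousLinearMap.le_opNorm _ _) (norm_nonneg _)
    _ ≤ max C 0 * (‖e‖ * ‖v‖) := by
        rw [mul_assoc]
        exact mul_le_mul_of_nonneg_right h3 (by positivity)

lemma tsupp_compact {ζ : Cfg r → ℂ} {y₀ : Cfg r} {ρ : ℝ} (h : tsupport ζ ⊆ Metric.ball y₀ ρ) :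
    IsCompact (tsupport ζ) :=
  Metric.isCompact_of_isClosed_isBounded (isClosed_tsupport ζ) (Metric.isBounded_ball.subset h)

end T4

section T3

variable {S : Setup d F} {φ : Spl dh dm d} {ψ : Spl r ds dh} {U : Set (Cfg r)}
  {Om : Cfg r → Matrix (Fin dm) (Fin dm) ℝ} {V : Cfg r → F →L[ℂ] F} {K : Submodule ℂ F}

/-- derivative of `V(y) u` in a direction -/
lemma hasFDerivAt_V {E : Type*} [NormedAddCommGroup E] [NormedSpace ℝ E] {V : Cfg r → F →L[ℂ] F} {g : E → Cfg r}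
    {g' : E →L[ℝ] Cfg r} {u : E → F} {u' : E →L[ℝ] F} {p : E} (hV : DifferentiableAt ℝ V (g p))
    (hg : HasFDerivAt g g' p) (hu : HasFDerivAt u u' p) (e : E) :
    DifferentiableAt ℝ (fun q => V (g q) (u q)) p ∧
    fderiv ℝ (fun q => V (g q) (u q)) p e = (fderiv ℝ V (g p) (g' e)) (u p) + V (g p) (u' e) := by
  have h1 : HasFDerivAt (fun q => V (g q)) ((fderiv ℝ V (g p)).comp g') p := hV.hasFDerivAt.comp p hg
  have h2 : HasFDerivAt (fun q => ContinuousLinearMap.restrictScalarsL ℂ F F ℝ ℝ (V (g q)))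
      ((ContinuousLinearMap.restrictScalarsL ℂ F F ℝ ℝ).comp ((fderiv ℝ V (g p)).comp g')) p :=
    (ContinuousLinearMap.restrictScalarsL ℂ F F ℝ ℝ).hasFDerivAt.comp p h1
  have h3 := h2.clm_apply hu
  refine ⟨h3.differentiableAt, ?_⟩
  have h4 : fderiv ℝ (fun q => V (g q) (u q)) p = _ := h3.fderiv
  rw [h4]
  simp only [_root_.add_apply, ContinuousLinearMap.comp_apply, ContinuousLinearMap.flip_apply]
  rw [add_comm]
  rfl

/-- **T3** derivative of the trial function in the slice direction `e` -/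
theorem TR_fderiv (hV : S.VFr φ ψ U Om V K) {y₀ : Cfg r} {ε0 C0 : ℝ} (bf : BzFacts S φ ψ U Om y₀ ε0 C0) {ε : ℝ}
    (hε : 0 < ε) (hε0 : ε ≤ ε0) {ζ : Cfg r → ℂ} (hζ : ContDiff ℝ ∞ ζ) (hζs : tsupport ζ ⊆ Metric.ball y₀ (ε / 2))
    {Φ : Cfg ds → F} (hΦ : ContDiff ℝ ∞ Φ) {R : ℝ} (hR : 1 ≤ R) (c : ℝ → ℝ) (x : Cfg dh) (w : Wsp dm) (e : Cfg dh) :
    fderiv ℝ (fun x' => S.TR φ ψ Om V c ε R (pp ζ Φ) x' w) x e =
      (((Real.sqrt R ^ (9 * r))⁻¹ * c (‖w‖ ^ 2 / (ε * R) ^ 2) *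
        fderiv ℝ (fun y' => S.bz φ ψ Om y' w) (zpt ψ x) (zpt ψ e) : ℝ) : ℂ) •
          V (zpt ψ x) (ζ (R⁻¹ • zpt ψ x) • Φ (spt ψ x)) +
      (((Real.sqrt R ^ (9 * r))⁻¹ * c (‖w‖ ^ 2 / (ε * R) ^ 2) * S.bz φ ψ Om (zpt ψ x) w : ℝ) : ℂ) •
        ((fderiv ℝ V (zpt ψ x) (zpt ψ e)) (ζ (R⁻¹ • zpt ψ x) • Φ (spt ψ x)) +
          V (zpt ψ x) (((R⁻¹ : ℝ) : ℂ) • fderiv ℝ ζ (R⁻¹ • zpt ψ x) (zpt ψ e) • Φ (spt ψ x)) +
          V (zpt ψ x) (ζ (R⁻¹ • zpt ψ x) • fderiv ℝ Φ (spt ψ x) (spt ψ e))) := by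
  have hR0 : 0 < R := lt_of_lt_of_le one_pos hR
  by_cases hp : R⁻¹ • zpt ψ x ∈ tsupport ζ
  · have hyU : zpt ψ x ∈ U := trf_inU S φ ψ U Om y₀ ε0 C0 bf ε hε hε0 R hR _ (hζs hp)
    have hVd : DifferentiableAt ℝ V (zpt ψ x) :=
      (hV.v_c.contDiffAt (hV.opn.mem_nhds hyU)).differentiableAt (by simp)
    have hbd : DifferentiableAt ℝ (fun y' => S.bz φ ψ Om y' w) (zpt ψ x) := by
      have h2 : ContDiffAt ℝ ∞ (fun q : Cfg r × Wsp dm => S.bz φ ψ Om q.1 q.2) (zpt ψ x, w) :=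
        bf.sm.contDiffAt ((hV.opn.prod isOpen_univ).mem_nhds ⟨hyU, Set.mem_univ _⟩)
      have h3 : ContDiffAt ℝ ∞ (fun y' : Cfg r => S.bz φ ψ Om y' w) (zpt ψ x) :=
        ContDiffAt.comp (g := fun q : Cfg r × Wsp dm => S.bz φ ψ Om q.1 q.2)
          (f := fun y' : Cfg r => (y', w)) (zpt ψ x) h2 (contDiffAt_id.prodMk contDiffAt_const)
      exact h3.differentiableAt (by simp)
    have hz : HasFDerivAt (fun x' : Cfg dh => zpt ψ x') (zptL ψ) x := (zptL ψ).hasFDerivAt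
    have hs : HasFDerivAt (fun x' : Cfg dh => spt ψ x') (sptL ψ) x := (sptL ψ).hasFDerivAt
    have hb : HasFDerivAt (fun x' : Cfg dh => S.bz φ ψ Om (zpt ψ x') w)
        ((fderiv ℝ (fun y' => S.bz φ ψ Om y' w) (zpt ψ x)).comp (zptL ψ)) x :=
      HasFDerivAt.comp (g := fun y' => S.bz φ ψ Om y' w) x hbd.hasFDerivAt hz
    have hk : HasFDerivAt (fun x' : Cfg dh => (Real.sqrt R ^ (9 * r))⁻¹ * c (‖w‖ ^ 2 / (ε * R) ^ 2) *
        S.bz φ ψ Om (zpt ψ x') w) (((Real.sqrt R ^ (9 * r))⁻¹ * c (‖w‖ ^ 2 / (ε * R) ^ 2)) •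
          ((fderiv ℝ (fun y' => S.bz φ ψ Om y' w) (zpt ψ x)).comp (zptL ψ))) x := hb.const_mul _
    have hkc : HasFDerivAt (fun x' : Cfg dh => (((Real.sqrt R ^ (9 * r))⁻¹ * c (‖w‖ ^ 2 / (ε * R) ^ 2) *
        S.bz φ ψ Om (zpt ψ x') w : ℝ) : ℂ)) (Complex.ofRealCLM.comp
          (((Real.sqrt R ^ (9 * r))⁻¹ * c (‖w‖ ^ 2 / (ε * R) ^ 2)) •
          ((fderiv ℝ (fun y' => S.bz φ ψ Om y' w) (zpt ψ x)).comp (zptL ψ)))) x :=
      Complex.ofRealCLM.hasFDerivAt.comp x hk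
    have hζd : HasFDerivAt (fun x' : Cfg dh => ζ (R⁻¹ • zpt ψ x'))
        ((fderiv ℝ ζ (R⁻¹ • zpt ψ x)).comp (R⁻¹ • zptL ψ)) x :=
      HasFDerivAt.comp (g := ζ) x ((hζ.differentiable (by simp)) _).hasFDerivAt (hz.const_smul R⁻¹)
    have hΦd : HasFDerivAt (fun x' : Cfg dh => Φ (spt ψ x')) ((fderiv ℝ Φ (spt ψ x)).comp (sptL ψ)) x :=
      HasFDerivAt.comp (g := Φ) x ((hΦ.differentiable (by simp)) _).hasFDerivAt hs
    have hu : HasFDerivAt (fun x' : Cfg dh => ζ (R⁻¹ • zpt ψ x') • Φ (spt ψ x')) _ x := hζd.smul hΦd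
    obtain ⟨hv1, hv2⟩ := hasFDerivAt_V hVd hz hu e
    have hT : HasFDerivAt (fun x' : Cfg dh => (((Real.sqrt R ^ (9 * r))⁻¹ * c (‖w‖ ^ 2 / (ε * R) ^ 2) *
        S.bz φ ψ Om (zpt ψ x') w : ℝ) : ℂ) • V (zpt ψ x') (ζ (R⁻¹ • zpt ψ x') • Φ (spt ψ x'))) _ x :=
      hkc.smul hv1.hasFDerivAt
    have h4 : fderiv ℝ (fun x' => S.TR φ ψ Om V c ε R (pp ζ Φ) x' w) x = _ := hT.fderiv
    rw [h4]
    simp only [_root_.add_apply, _root_.smul_apply, ContinuousLinearMap.smulRight_apply,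
      ContinuousLinearMap.comp_apply, zptL_apply, Complex.ofRealCLM_apply, smul_eq_mul]
    rw [hv2]
    simp only [_root_.add_apply, _root_.smul_apply, ContinuousLinearMap.smulRight_apply,
      ContinuousLinearMap.comp_apply, zptL_apply, sptL_apply, map_add, smul_add, map_smul]
    rw [add_comm]
    congr 1
    rw [add_assoc]
    congr 1
    rw [add_comm]
    congr 2
    rw [Complex.real_smul, mul_smul]
  · have h0 : ζ (R⁻¹ • zpt ψ x) = 0 := image_eq_zero_of_notMem_tsupport hp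
    have h1 : fderiv ℝ ζ (R⁻¹ • zpt ψ x) = 0 := fderiv_of_notMem_tsupport (𝕜 := ℝ) hp
    have hRz : Continuous fun q : Cfg dh => R⁻¹ • zpt ψ q := (R⁻¹ • zptL ψ).continuous
    have h2 : IsOpen {q : Cfg dh | R⁻¹ • zpt ψ q ∈ (tsupport ζ)ᶜ} :=
      (isClosed_tsupport ζ).isOpen_compl.preimage hRz
    have h3 : (fun x' => S.TR φ ψ Om V c ε R (pp ζ Φ) x' w) =ᶠ[𝓝 x] fun _ => 0 := by
      filter_upwards [h2.mem_nhds hp] with q hq
      have h3 : ζ (R⁻¹ • zpt ψ q) = 0 := image_eq_zero_of_notMem_tsupport hq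
      show _ • V (zpt ψ q) (ζ (R⁻¹ • zpt ψ q) • Φ (spt ψ q)) = 0
      rw [h3, zero_smul, map_zero, smul_zero]
    rw [h3.fderiv_eq, h0, h1]
    simp

/-- **T3b** derivative of the trial function in the fibre direction `e` -/
theorem TR_fderiv_w (hV : S.VFr φ ψ U Om V K) {y₀ : Cfg r} {ε0 C0 : ℝ} (bf : BzFacts S φ ψ U Om y₀ ε0 C0) {ε : ℝ}
    (hε : 0 < ε) (hε0 : ε ≤ ε0) {ζ : Cfg r → ℂ} (hζs : tsupport ζ ⊆ Metric.ball y₀ (ε / 2))
    {Φ : Cfg ds → F} {R : ℝ} (hR : 1 ≤ R) {c : ℝ → ℝ} (hct : IsCt c) (x : Cfg dh) (w e : Wsp dm) :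
    fderiv ℝ (fun w' => S.TR φ ψ Om V c ε R (pp ζ Φ) x w') w e =
      (((Real.sqrt R ^ (9 * r))⁻¹ *
        fderiv ℝ (fun w' => c (‖w'‖ ^ 2 / (ε * R) ^ 2) * S.bz φ ψ Om (zpt ψ x) w') w e : ℝ) : ℂ) •
          V (zpt ψ x) (ζ (R⁻¹ • zpt ψ x) • Φ (spt ψ x)) := by
  by_cases hp : R⁻¹ • zpt ψ x ∈ tsupport ζ
  · have hyU : zpt ψ x ∈ U := trf_inU S φ ψ U Om y₀ ε0 C0 bf ε hε hε0 R hR _ (hζs hp)
    have hbd : DifferentiableAt ℝ (fun w' => S.bz φ ψ Om (zpt ψ x) w') w := by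
      have h2 : ContDiffAt ℝ ∞ (fun q : Cfg r × Wsp dm => S.bz φ ψ Om q.1 q.2) (zpt ψ x, w) :=
        bf.sm.contDiffAt ((hV.opn.prod isOpen_univ).mem_nhds ⟨hyU, Set.mem_univ _⟩)
      have h3 : ContDiffAt ℝ ∞ (fun w' : Wsp dm => S.bz φ ψ Om (zpt ψ x) w') w :=
        ContDiffAt.comp (g := fun q : Cfg r × Wsp dm => S.bz φ ψ Om q.1 q.2)
          (f := fun w' : Wsp dm => (zpt ψ x, w')) w h2 (contDiffAt_const.prodMk contDiffAt_id)
      exact h3.differentiableAt (by simp)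
    have hcd : DifferentiableAt ℝ (fun w' : Wsp dm => c (‖w'‖ ^ 2 / (ε * R) ^ 2)) w := by
      have : ContDiff ℝ ∞ (fun w' : Wsp dm => c (‖w'‖ ^ 2 / (ε * R) ^ 2)) :=
        hct.sm.comp ((contDiff_norm_sq ℝ).div_const _)
      exact this.differentiable (by simp) w
    have hm : DifferentiableAt ℝ (fun w' : Wsp dm => c (‖w'‖ ^ 2 / (ε * R) ^ 2) * S.bz φ ψ Om (zpt ψ x) w') w :=
      hcd.mul hbd
    have hk : HasFDerivAt (fun w' : Wsp dm => (Real.sqrt R ^ (9 * r))⁻¹ *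
        (c (‖w'‖ ^ 2 / (ε * R) ^ 2) * S.bz φ ψ Om (zpt ψ x) w')) _ w :=
      hm.hasFDerivAt.const_mul _
    have hkc := (Complex.ofRealCLM.hasFDerivAt.comp w hk).smul_const
      (V (zpt ψ x) (ζ (R⁻¹ • zpt ψ x) • Φ (spt ψ x)))
    have h4 : (fun w' => S.TR φ ψ Om V c ε R (pp ζ Φ) x w') = fun w' => (Complex.ofRealCLM ∘ fun w' : Wsp dm =>
        (Real.sqrt R ^ (9 * r))⁻¹ * (c (‖w'‖ ^ 2 / (ε * R) ^ 2) * S.bz φ ψ Om (zpt ψ x) w')) w' •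
          V (zpt ψ x) (ζ (R⁻¹ • zpt ψ x) • Φ (spt ψ x)) := by
      funext w'
      unfold Setup.TR pp
      simp only [Function.comp_apply, Complex.ofRealCLM_apply, mul_assoc]
    rw [h4, hkc.fderiv]
    simp
  · have h0 : ζ (R⁻¹ • zpt ψ x) = 0 := image_eq_zero_of_notMem_tsupport hp
    have h4 : (fun w' => S.TR φ ψ Om V c ε R (pp ζ Φ) x w') = fun _ => 0 := by
      funext w'
      show _ • V (zpt ψ x) (ζ (R⁻¹ • zpt ψ x) • Φ (spt ψ x)) = 0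
      rw [h0, zero_smul, map_zero, smul_zero]
    rw [h4, h0]
    simp

end T3

section T5

variable {ψ : Spl r ds dh}

/-- **T5** functions which are smooth over `U` and supported over `ζ`, `Φ` and the cutoff are test functions -/
theorem tst2_of {U : Set (Cfg r)} {ζ : Cfg r → ℂ} {y₀ : Cfg r} {ρ : ℝ}
    (hζs : tsupport ζ ⊆ Metric.ball y₀ ρ) {R ε : ℝ} (hR : 0 < R) (hUR : ∀ y, R⁻¹ • y ∈ tsupport ζ → y ∈ U)
    {Φ : Cfg ds → F} (hΦ : HasCompactSupport Φ) {X : Cfg dh → Wsp dm → F}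
    (hX : ∀ p : Cfg dh × Wsp dm, zpt ψ p.1 ∈ U → ContDiffAt ℝ ∞ (fun p : Cfg dh × Wsp dm => X p.1 p.2) p)
    (h0 : ∀ x w, X x w ≠ 0 → R⁻¹ • zpt ψ x ∈ tsupport ζ ∧ spt ψ x ∈ tsupport Φ ∧ ‖w‖ ≤ ε * R) : Tst2 X := by
  set Kc : Set (Cfg dh × Wsp dm) := {p | R⁻¹ • zpt ψ p.1 ∈ tsupport ζ ∧ spt ψ p.1 ∈ tsupport Φ ∧ ‖p.2‖ ≤ ε * R}
    with hKc
  have hcl : IsClosed Kc := by
    refine IsClosed.inter ?_ (IsClosed.inter ?_ ?_)
    · exact (isClosed_tsupport ζ).preimage ((R⁻¹ • zptL ψ).continuous.comp continuous_fst)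
    · exact (isClosed_tsupport Φ).preimage ((spt_cont ψ).comp continuous_fst)
    · exact isClosed_le (continuous_snd.norm) continuous_const
  have hsub : Function.support (fun p : Cfg dh × Wsp dm => X p.1 p.2) ⊆ Kc := fun p hp => h0 p.1 p.2 hp
  have hts : tsupport (fun p : Cfg dh × Wsp dm => X p.1 p.2) ⊆ Kc := closure_minimal hsub hcl
  obtain ⟨M, hM⟩ := hΦ.isCompact.isBounded.subset_closedBall (0 : Cfg ds)
  have hbd : Kc ⊆ Metric.closedBall (0 : Cfg dh) (R * (‖y₀‖ + |ρ|) + M) ×ˢ Metric.closedBall (0 : Wsp dm) (ε * R) := by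
    rintro ⟨x, w⟩ ⟨h1, h2, h3⟩
    refine ⟨?_, by simpa using h3⟩
    have h4 := hζs h1
    rw [Metric.mem_ball, dist_eq_norm] at h4
    have h5 := hM h2
    rw [mem_closedBall_zero_iff] at h5 ⊢
    have h6 : ‖R⁻¹ • zpt ψ x‖ ≤ ‖y₀‖ + |ρ| := by
      calc ‖R⁻¹ • zpt ψ x‖ = ‖(R⁻¹ • zpt ψ x - y₀) + y₀‖ := by rw [sub_add_cancel]
        _ ≤ ‖R⁻¹ • zpt ψ x - y₀‖ + ‖y₀‖ := norm_add_le _ _
        _ ≤ ‖y₀‖ + |ρ| := by
            rw [add_comm]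
            exact add_le_add_right (h4.le.trans (le_abs_self ρ)) _
    rw [norm_smul, norm_inv, Real.norm_of_nonneg hR.le, inv_mul_le_iff₀ hR] at h6
    exact (norm_le_zs ψ x).trans (add_le_add h6 h5)
  have hcomp : IsCompact Kc :=
    ((isCompact_closedBall _ _).prod (isCompact_closedBall _ _)).of_isClosed_subset hcl hbd
  have hcs : HasCompactSupport (fun p : Cfg dh × Wsp dm => X p.1 p.2) :=
    hcomp.of_isClosed_subset (isClosed_tsupport _) hts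
  refine ⟨?_, hcs⟩
  rw [contDiff_iff_contDiffAt]
  intro p
  by_cases hp : p ∈ tsupport (fun p : Cfg dh × Wsp dm => X p.1 p.2)
  · exact hX p (hUR _ (hts hp).1)
  · exact contDiffAt_const.congr_of_eventuallyEq (notMem_tsupport_iff_eventuallyEq.1 hp)

omit [InnerProductSpace ℂ F] in
/-- support in the tube -/
theorem sup2_of {ζ : Cfg r → ℂ} {y₀ : Cfg r} {ε : ℝ} (hζs : tsupport ζ ⊆ Metric.ball y₀ (ε / 2)) {R η : ℝ}
    (hR : 0 < R) (hη : η ≤ ε / 2) {X : Cfg dh → Wsp dm → F}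
    (h0 : ∀ x w, X x w ≠ 0 → R⁻¹ • zpt ψ x ∈ tsupport ζ ∧ ‖spt ψ x‖ ≤ η * R ∧ ‖w‖ ≤ ε * R) :
    Sup2 (cmb ψ y₀ 0) ε R X := by
  intro x w h
  obtain ⟨h1, h2, h3⟩ := h0 x w h
  refine ⟨?_, h3⟩
  have h4 := hζs h1
  rw [Metric.mem_ball, dist_eq_norm] at h4
  have h8 : zpt ψ x - R • y₀ = R • (R⁻¹ • zpt ψ x - y₀) := by
    rw [smul_sub, smul_smul, mul_inv_cancel₀ hR.ne', one_smul]
  have h5 : ‖zpt ψ x - R • y₀‖ ≤ ε / 2 * R := by
    rw [h8, norm_smul, Real.norm_of_nonneg hR.le, mul_comm]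
    exact mul_le_mul_of_nonneg_right h4.le hR.le
  have h6 : ‖spt ψ x‖ ≤ ε / 2 * R := h2.trans (mul_le_mul_of_nonneg_right hη hR.le)
  have h7 := norm_sub_ray ψ x y₀ R
  have h9 : 0 ≤ ε * R := by
    have := norm_nonneg (zpt ψ x - R • y₀)
    nlinarith
  have h10 : ‖zpt ψ x - R • y₀‖ ^ 2 ≤ (ε / 2 * R) ^ 2 := pow_le_pow_left₀ (norm_nonneg _) h5 2
  have h11 : ‖spt ψ x‖ ^ 2 ≤ (ε / 2 * R) ^ 2 := pow_le_pow_left₀ (norm_nonneg _) h6 2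
  refine le_of_sq_le_sq ?_ h9
  nlinarith [sq_nonneg (ε * R)]

end T5

end Vale.Agent.P353.Z.AE
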