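import Vale.Agent.P353.AN.E.StmtG
import Vale.Agent.P353.AN.E.Tool2
import Vale.Agent.P353.AN.GL.SfuA

/-! # P353, all `N`, block E: EG-TL, trial functions and slice sections (helper397) -/

open MeasureTheory Filter Topology Matrix
open scoped ContDiff

namespace Vale.Agent.P353.Z.AE

variable {d dh dm r ds : ℕ} {F : Type*} [NormedAddCommGroup F] [InnerProductSpace ℂ F]

section Int

private theorem tlp_int (ψ : Spl r ds dh) {R M : ℝ} (hR : 0 < R) {a : Cfg r → ℝ} {b : Cfg ds → ℝ}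
    {G : Cfg r → Wsp dm → ℝ} (ha0 : ∀ y, 0 ≤ a y) (hb0 : ∀ s, 0 ≤ b s)
    (ha : Integrable a) (hb : Integrable b) (hGm : Measurable (fun p : Cfg r × Wsp dm => G p.1 p.2))
    (hG0 : ∀ y w, 0 ≤ G y w) (hGi : ∀ y, a (R⁻¹ • y) ≠ 0 → Integrable (G y))
    (hG : ∀ y, a (R⁻¹ • y) ≠ 0 → ∫ w, G y w ≤ M) :
    Integrable (fun p : Cfg dh × Wsp dm => ((Real.sqrt R ^ (9 * r))⁻¹) ^ 2 *
      (a (R⁻¹ • zpt ψ p.1) * b (spt ψ p.1)) * G (zpt ψ p.1) p.2)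
      ((volume : Measure (Cfg dh)).prod (volume : Measure (Wsp dm))) ∧
    ∫ p : Cfg dh × Wsp dm, ((Real.sqrt R ^ (9 * r))⁻¹) ^ 2 *
      (a (R⁻¹ • zpt ψ p.1) * b (spt ψ p.1)) * G (zpt ψ p.1) p.2
      ∂((volume : Measure (Cfg dh)).prod (volume : Measure (Wsp dm))) ≤ M * ((∫ y, a y) * ∫ s, b s) := by
  obtain ⟨hi, he⟩ := int_prod_eq ψ hR ha hb
  have hk : 0 ≤ ((Real.sqrt R ^ (9 * r))⁻¹) ^ 2 := sq_nonneg _
  have hA0 : ∀ x : Cfg dh, 0 ≤ ((Real.sqrt R ^ (9 * r))⁻¹) ^ 2 * (a (R⁻¹ • zpt ψ x) * b (spt ψ x)) :=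
    fun x => mul_nonneg hk (mul_nonneg (ha0 _) (hb0 _))
  have hm : AEStronglyMeasurable (fun p : Cfg dh × Wsp dm => ((Real.sqrt R ^ (9 * r))⁻¹) ^ 2 *
      (a (R⁻¹ • zpt ψ p.1) * b (spt ψ p.1)) * G (zpt ψ p.1) p.2)
      ((volume : Measure (Cfg dh)).prod (volume : Measure (Wsp dm))) := by
    refine AEStronglyMeasurable.mul (hi.aestronglyMeasurable.comp_fst) ?_
    have h1 : Measurable (fun p : Cfg dh × Wsp dm => (zpt ψ p.1, p.2)) :=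
      ((zpt_cont ψ).measurable.comp measurable_fst).prodMk measurable_snd
    exact (hGm.comp h1).aestronglyMeasurable
  have hfib : ∀ x : Cfg dh, Integrable (fun w => ((Real.sqrt R ^ (9 * r))⁻¹) ^ 2 *
      (a (R⁻¹ • zpt ψ x) * b (spt ψ x)) * G (zpt ψ x) w) ∧
      ∫ w, ((Real.sqrt R ^ (9 * r))⁻¹) ^ 2 * (a (R⁻¹ • zpt ψ x) * b (spt ψ x)) * G (zpt ψ x) w ≤
        M * (((Real.sqrt R ^ (9 * r))⁻¹) ^ 2 * (a (R⁻¹ • zpt ψ x) * b (spt ψ x))) := by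
    intro x
    by_cases h0 : a (R⁻¹ • zpt ψ x) = 0
    · simp [h0]
    · refine ⟨(hGi _ h0).const_mul _, ?_⟩
      rw [integral_const_mul, mul_comm]
      exact mul_le_mul_of_nonneg_right (hG _ h0) (hA0 x)
  have hint : Integrable (fun p : Cfg dh × Wsp dm => ((Real.sqrt R ^ (9 * r))⁻¹) ^ 2 *
      (a (R⁻¹ • zpt ψ p.1) * b (spt ψ p.1)) * G (zpt ψ p.1) p.2)
      ((volume : Measure (Cfg dh)).prod (volume : Measure (Wsp dm))) := by
    rw [integrable_prod_iff hm]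
    refine ⟨Eventually.of_forall fun x => (hfib x).1, ?_⟩
    refine Integrable.mono' (hi.const_mul M) (hm.norm.integral_prod_right') (Eventually.of_forall fun x => ?_)
    have h1 : ∀ w, ‖((Real.sqrt R ^ (9 * r))⁻¹) ^ 2 * (a (R⁻¹ • zpt ψ x) * b (spt ψ x)) * G (zpt ψ x) w‖ =
        ((Real.sqrt R ^ (9 * r))⁻¹) ^ 2 * (a (R⁻¹ • zpt ψ x) * b (spt ψ x)) * G (zpt ψ x) w := fun w =>
      Real.norm_of_nonneg (mul_nonneg (hA0 x) (hG0 _ _))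
    simp only [h1]
    rw [Real.norm_of_nonneg (integral_nonneg fun w => mul_nonneg (hA0 x) (hG0 _ _))]
    exact (hfib x).2
  refine ⟨hint, ?_⟩
  rw [integral_prod _ hint, ← he, ← integral_const_mul]
  exact integral_mono hint.integral_prod_left (hi.const_mul M) fun x => (hfib x).2

end Int

section Scal

variable (S : Setup d F) (φ : Spl dh dm d) (ψ : Spl r ds dh)

private theorem tlp_Dz_smul (y : Cfg r) (t : ℝ) : S.Dz φ ψ (t • y) = fun i => t • S.Dz φ ψ y i := by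
  funext i
  ext B C
  simp only [Setup.Dz, Setup.Dy, Setup.Dm, Matrix.of_apply, Matrix.smul_apply, smul_eq_mul, Finset.mul_sum]
  refine Finset.sum_congr rfl fun A _ => ?_
  have h1 : cmb ψ (t • y) 0 (i, A) = t * cmb ψ y 0 (i, A) := by
    obtain ⟨a, rfl⟩ := ψ.surjective A
    rcases a with a | a <;> simp [cmb]
  rw [h1]
  ring

private theorem tlp_bz {U : Set (Cfg r)} {Om : Cfg r → Matrix (Fin dm) (Fin dm) ℝ}
    (hom : ∀ y ∈ U, ∀ t : ℝ, 0 < t → Om (t • y) = t • Om y) {y : Cfg r} (hy : y ∈ U) {R : ℝ} (hR : 0 < R)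
    (w : Wsp dm) : S.bz φ ψ Om (R • y) w = R ^ (2 * dm) * S.bz φ ψ Om y (Real.sqrt R • w) := by
  have h := AN.SfuA.gh_scale hR (S.Dz φ ψ y) (Om y) w
  unfold AN.SfuA.gh at h
  unfold Setup.bz
  rw [tlp_Dz_smul, hom y hy R hR]
  exact h

private theorem tlp_rpow {R : ℝ} (hR : 0 < R) :
    R ^ (2 * (dm : ℝ) - 9 * (r : ℝ) / 2) = (Real.sqrt R ^ (9 * r))⁻¹ * R ^ (2 * dm) := by
  rw [Real.rpow_sub hR, Real.sqrt_eq_rpow, ← Real.rpow_natCast, ← Real.rpow_natCast, ← Real.rpow_mul hR.le,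
    div_eq_inv_mul]
  congr 2
  · congr 1
    push_cast
    ring
  · push_cast
    ring

/-- the slice section in terms of the Gaussian at scale `R` -/
private theorem tlp_Ts0 {U : Set (Cfg r)} {Om : Cfg r → Matrix (Fin dm) (Fin dm) ℝ} {V : Cfg r → F →L[ℂ] F}
    (hom : ∀ y ∈ U, ∀ t : ℝ, 0 < t → Om (t • y) = t • Om y)
    (hV : ∀ y ∈ U, ∀ t : ℝ, 0 < t → V (t • y) = V y) {L : Cfg r → F →L[ℂ] F} (hL : ∀ y, L y ≠ 0 → y ∈ U)
    (o : Cfg ds → F) {R : ℝ} (hR : 0 < R) (x : Cfg dh) (w : Wsp dm) :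
    AN.Ts0 ψ (AN.vG S φ ψ Om (fun η s => V η (L η (o s)))) R x w =
      (((Real.sqrt R ^ (9 * r))⁻¹ * S.bz φ ψ Om (zpt ψ x) w : ℝ) : ℂ) •
        V (zpt ψ x) (L (R⁻¹ • zpt ψ x) (o (spt ψ x))) := by
  have e1 : AN.Ts0 ψ (AN.vG S φ ψ Om (fun η s => V η (L η (o s)))) R x w =
      ((R ^ (2 * (dm : ℝ) - 9 * (r : ℝ) / 2) : ℝ) : ℂ) •
        (((S.bz φ ψ Om (R⁻¹ • zpt ψ x) (Real.sqrt R • w) : ℝ) : ℂ) •
          V (R⁻¹ • zpt ψ x) (L (R⁻¹ • zpt ψ x) (o (spt ψ x)))) := rfl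
  rw [e1]
  by_cases h0 : L (R⁻¹ • zpt ψ x) = 0
  · rw [h0]
    simp
  · have hU := hL _ h0
    have h1 : R • (R⁻¹ • zpt ψ x) = zpt ψ x := by rw [smul_smul, mul_inv_cancel₀ hR.ne', one_smul]
    have h2 := tlp_bz S φ ψ hom hU hR w
    have h3 := hV _ hU R hR
    rw [h1] at h2 h3
    rw [← h3, h2, tlp_rpow hR, smul_smul, ← Complex.ofReal_mul]
    congr 2
    ring

end Scal

section Core

/-- context of the estimates -/
private structure TlpCtx (S : Setup d F) (φ : Spl dh dm d) (ψ : Spl r ds dh) (U : Set (Cfg r))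
    (Om : Cfg r → Matrix (Fin dm) (Fin dm) ℝ) (V : Cfg r → F →L[ℂ] F) (y₀ : Cfg r) (ε0 C0 : ℝ) (c : ℝ → ℝ)
    (ε : ℝ) (L : Cfg r → F →L[ℂ] F) : Prop where
  opn : IsOpen U
  hom : ∀ y ∈ U, ∀ t : ℝ, 0 < t → Om (t • y) = t • Om y
  v_c : ContinuousOn V U
  v_h : ∀ y ∈ U, ∀ t : ℝ, 0 < t → V (t • y) = V y
  v_n : ∀ y ∈ U, ∀ v, ‖V y v‖ = ‖v‖
  bz : BzFacts S φ ψ U Om y₀ ε0 C0
  ct : IsCt c
  eps : 0 < ε
  epsl : ε ≤ ε0
  l_c : Continuous L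
  l_s : ∀ y, L y ≠ 0 → y ∈ Metric.ball y₀ (ε / 2)

variable {S : Setup d F} {φ : Spl dh dm d} {ψ : Spl r ds dh} {U : Set (Cfg r)}
  {Om : Cfg r → Matrix (Fin dm) (Fin dm) ℝ} {V : Cfg r → F →L[ℂ] F} {y₀ : Cfg r} {ε0 C0 : ℝ} {c : ℝ → ℝ}
  {ε : ℝ} {L : Cfg r → F →L[ℂ] F}

private theorem TlpCtx.ray (h : TlpCtx S φ ψ U Om V y₀ ε0 C0 c ε L) {R : ℝ} (hR : 0 < R) {y : Cfg r}
    (hy : L (R⁻¹ • y) ≠ 0) : y ∈ U ∧ ‖y - R • y₀‖ ≤ ε0 * R := by
  have h1 := h.l_s _ hy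
  rw [Metric.mem_ball, dist_eq_norm] at h1
  have h8 : y - R • y₀ = R • (R⁻¹ • y - y₀) := by
    rw [smul_sub, smul_smul, mul_inv_cancel₀ hR.ne', one_smul]
  have h9 : ‖y - R • y₀‖ ≤ ε0 * R := by
    rw [h8, norm_smul, Real.norm_of_nonneg hR.le, mul_comm]
    refine mul_le_mul_of_nonneg_right ?_ hR.le
    have := h.eps
    have := h.epsl
    linarith
  exact ⟨h.bz.inU R hR y h9, h9⟩

private theorem TlpCtx.inU (h : TlpCtx S φ ψ U Om V y₀ ε0 C0 c ε L) {y : Cfg r} (hy : L y ≠ 0) : y ∈ U := by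
  have h1 : L ((1 : ℝ)⁻¹ • y) ≠ 0 := by rwa [inv_one, one_smul]
  exact (h.ray one_pos h1).1

private theorem TlpCtx.cs (h : TlpCtx S φ ψ U Om V y₀ ε0 C0 c ε L) : HasCompactSupport L :=
  HasCompactSupport.intro (isCompact_closedBall y₀ (ε / 2)) fun y hy => by
    by_contra h0
    exact hy (Metric.ball_subset_closedBall (h.l_s y h0))

private theorem TlpCtx.aI (h : TlpCtx S φ ψ U Om V y₀ ε0 C0 c ε L) : Integrable fun y => ‖L y‖ ^ 2 := by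
  refine (h.l_c.norm.pow 2).integrable_of_hasCompactSupport ?_
  refine HasCompactSupport.intro h.cs fun x hx => ?_
  show ‖L x‖ ^ 2 = 0
  rw [image_eq_zero_of_notMem_tsupport hx, norm_zero, zero_pow two_ne_zero]

/-- squared Gaussian, cut off to `U` -/
private noncomputable def tlpG (S : Setup d F) (φ : Spl dh dm d) (ψ : Spl r ds dh) (U : Set (Cfg r))
    (Om : Cfg r → Matrix (Fin dm) (Fin dm) ℝ) (δ : ℝ) (y : Cfg r) (w : Wsp dm) : ℝ :=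
  (U ×ˢ {w : Wsp dm | δ ≤ ‖w‖}).indicator (fun p : Cfg r × Wsp dm => S.bz φ ψ Om p.1 p.2 ^ 2) (y, w)

private theorem tlpG_m (h : TlpCtx S φ ψ U Om V y₀ ε0 C0 c ε L) (δ : ℝ) :
    Measurable (fun p : Cfg r × Wsp dm => tlpG S φ ψ U Om δ p.1 p.2) := by
  classical
  have hc : IsClosed {w : Wsp dm | δ ≤ ‖w‖} := isClosed_le continuous_const continuous_norm
  have hm : MeasurableSet (U ×ˢ {w : Wsp dm | δ ≤ ‖w‖}) := h.opn.measurableSet.prod hc.measurableSet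
  have h1 : ContinuousOn (fun p : Cfg r × Wsp dm => S.bz φ ψ Om p.1 p.2 ^ 2) (U ×ˢ {w : Wsp dm | δ ≤ ‖w‖}) :=
    (h.bz.sm.continuousOn.pow 2).mono (Set.prod_mono le_rfl (Set.subset_univ _))
  have h2 : (fun p : Cfg r × Wsp dm => tlpG S φ ψ U Om δ p.1 p.2) =
      (U ×ˢ {w : Wsp dm | δ ≤ ‖w‖}).piecewise (fun p : Cfg r × Wsp dm => S.bz φ ψ Om p.1 p.2 ^ 2) (fun _ => 0) := by
    funext p
    by_cases hp : p ∈ U ×ˢ {w : Wsp dm | δ ≤ ‖w‖}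
    · rw [Set.piecewise_eq_of_mem _ _ _ hp]
      exact Set.indicator_of_mem hp _
    · rw [Set.piecewise_eq_of_notMem _ _ _ hp]
      exact Set.indicator_of_notMem hp _
  rw [h2]
  exact h1.measurable_piecewise continuousOn_const hm

private theorem tlpG_0 (δ : ℝ) (y : Cfg r) (w : Wsp dm) : 0 ≤ tlpG S φ ψ U Om δ y w :=
  Set.indicator_nonneg (fun _ _ => sq_nonneg _) _

private theorem tlpG_in {δ : ℝ} {y : Cfg r} {w : Wsp dm} (hy : y ∈ U) (hw : δ ≤ ‖w‖) :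
    tlpG S φ ψ U Om δ y w = S.bz φ ψ Om y w ^ 2 :=
  Set.indicator_of_mem (show (y, w) ∈ U ×ˢ {w : Wsp dm | δ ≤ ‖w‖} from ⟨hy, hw⟩) _

private theorem tlpG_eq {δ : ℝ} {y : Cfg r} (hy : y ∈ U) (w : Wsp dm) :
    tlpG S φ ψ U Om δ y w = if δ ≤ ‖w‖ then (‖w‖ ^ 0 * S.bz φ ψ Om y w) ^ 2 else 0 := by
  split_ifs with hw
  · rw [tlpG_in hy hw, pow_zero, one_mul]
  · exact Set.indicator_of_notMem (fun h => hw h.2) _

private theorem tlpG_i (h : TlpCtx S φ ψ U Om V y₀ ε0 C0 c ε L) (δ : ℝ) {y : Cfg r} (hy : y ∈ U) :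
    Integrable (tlpG S φ ψ U Om δ y) := by
  have h1 : Integrable fun w : Wsp dm => S.bz φ ψ Om y w ^ 2 := by
    have h3 := h.bz.int _ hy 0
    simpa only [pow_zero, one_mul] using h3
  refine Integrable.mono' h1 ?_ (Eventually.of_forall fun w => ?_)
  · exact ((tlpG_m h δ).comp (measurable_const.prodMk measurable_id)).aestronglyMeasurable
  · rw [Real.norm_of_nonneg (tlpG_0 δ y w), tlpG_eq hy w]
    split_ifs
    · rw [pow_zero, one_mul]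
    · exact sq_nonneg _

private theorem tlpG_1 (h : TlpCtx S φ ψ U Om V y₀ ε0 C0 c ε L) {y : Cfg r} (hy : y ∈ U) :
    ∫ w, tlpG S φ ψ U Om 0 y w ≤ 1 := by
  rw [← h.bz.norm y hy]
  refine le_of_eq (integral_congr_ae (Eventually.of_forall fun w => ?_))
  exact tlpG_in hy (norm_nonneg _)

/-- pointwise norm of a scaled trial function -/
private theorem tlp_pt (h : TlpCtx S φ ψ U Om V y₀ ε0 C0 c ε L) {R : ℝ} (hR : 0 < R) (x : Cfg dh) (w : Wsp dm)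
    (t : ℝ) (v : F) :
    ‖(((Real.sqrt R ^ (9 * r))⁻¹ * t * S.bz φ ψ Om (zpt ψ x) w : ℝ) : ℂ) • V (zpt ψ x) (L (R⁻¹ • zpt ψ x) v)‖ ^ 2 ≤
      ((Real.sqrt R ^ (9 * r))⁻¹) ^ 2 * (‖L (R⁻¹ • zpt ψ x)‖ ^ 2 * ‖v‖ ^ 2) *
        (t ^ 2 * S.bz φ ψ Om (zpt ψ x) w ^ 2) := by
  by_cases h0 : L (R⁻¹ • zpt ψ x) = 0
  · rw [h0]
    simp
  · have hU := (h.ray hR h0).1
    rw [norm_smul, h.v_n _ hU, Complex.norm_real, mul_pow, Real.norm_eq_abs, sq_abs]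
    have h1 : ‖L (R⁻¹ • zpt ψ x) v‖ ^ 2 ≤ (‖L (R⁻¹ • zpt ψ x)‖ * ‖v‖) ^ 2 :=
      pow_le_pow_left₀ (norm_nonneg _) ((L (R⁻¹ • zpt ψ x)).le_opNorm v) 2
    calc ((Real.sqrt R ^ (9 * r))⁻¹ * t * S.bz φ ψ Om (zpt ψ x) w) ^ 2 * ‖L (R⁻¹ • zpt ψ x) v‖ ^ 2
        ≤ ((Real.sqrt R ^ (9 * r))⁻¹ * t * S.bz φ ψ Om (zpt ψ x) w) ^ 2 * (‖L (R⁻¹ • zpt ψ x)‖ * ‖v‖) ^ 2 :=
          mul_le_mul_of_nonneg_left h1 (sq_nonneg _)
      _ = _ := by ring

/-- the bound of the difference for one scale -/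
private theorem tlp_dif (h : TlpCtx S φ ψ U Om V y₀ ε0 C0 c ε L) {M : ℝ} {R : ℝ} (hR : 1 ≤ R)
    (hM : ∀ y : Cfg r, ‖y - R • y₀‖ ≤ ε0 * R → ∫ w, tlpG S φ ψ U Om (1 / 2 * ε * R) y w ≤ M)
    {o Φ : Cfg ds → F} (ho : MemLp o 2 (volume : Measure (Cfg ds))) (hΦ : MemLp Φ 2 (volume : Measure (Cfg ds))) :
    ∫ p, ‖AN.Ts0 ψ (AN.vG S φ ψ Om (fun η s => V η (L η (o s)))) R p.1 p.2 -
      S.TR φ ψ Om V c ε R (fun y s => L y (Φ s)) p.1 p.2‖ ^ 2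
        ∂((volume : Measure (Cfg dh)).prod (volume : Measure (Wsp dm))) ≤
      2 * (1 * ((∫ y, ‖L y‖ ^ 2) * nsq (fun s => Φ s - o s))) + 2 * (M * ((∫ y, ‖L y‖ ^ 2) * nsq o)) := by
  have hR0 : 0 < R := lt_of_lt_of_le one_pos hR
  have hb1 : Integrable fun s => ‖Φ s - o s‖ ^ 2 := (hΦ.sub ho).integrable_norm_pow two_ne_zero
  have hb2 : Integrable fun s => ‖o s‖ ^ 2 := ho.integrable_norm_pow two_ne_zero
  have hL0 : ∀ y : Cfg r, ‖L y‖ ^ 2 ≠ 0 → L y ≠ 0 := fun y hy h0 => hy (by rw [h0, norm_zero, zero_pow two_ne_zero])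
  obtain ⟨i1, j1⟩ := tlp_int ψ (dm := dm) (M := 1) hR0 (fun y => sq_nonneg ‖L y‖) (fun s => sq_nonneg ‖Φ s - o s‖) h.aI hb1
    (tlpG_m h 0) (tlpG_0 0) (fun y hy => tlpG_i h 0 (h.ray hR0 (hL0 _ hy)).1)
    (fun y hy => tlpG_1 h (h.ray hR0 (hL0 _ hy)).1)
  obtain ⟨i2, j2⟩ := tlp_int ψ (dm := dm) (M := M) hR0 (fun y => sq_nonneg ‖L y‖) (fun s => sq_nonneg ‖o s‖) h.aI hb2
    (tlpG_m h (1 / 2 * ε * R)) (tlpG_0 _) (fun y hy => tlpG_i h _ (h.ray hR0 (hL0 _ hy)).1)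
    (fun y hy => hM y (h.ray hR0 (hL0 _ hy)).2)
  have hpt : ∀ p : Cfg dh × Wsp dm, ‖AN.Ts0 ψ (AN.vG S φ ψ Om (fun η s => V η (L η (o s)))) R p.1 p.2 -
      S.TR φ ψ Om V c ε R (fun y s => L y (Φ s)) p.1 p.2‖ ^ 2 ≤
      2 * (((Real.sqrt R ^ (9 * r))⁻¹) ^ 2 * (‖L (R⁻¹ • zpt ψ p.1)‖ ^ 2 * ‖Φ (spt ψ p.1) - o (spt ψ p.1)‖ ^ 2) *
        tlpG S φ ψ U Om 0 (zpt ψ p.1) p.2) +
      2 * (((Real.sqrt R ^ (9 * r))⁻¹) ^ 2 * (‖L (R⁻¹ • zpt ψ p.1)‖ ^ 2 * ‖o (spt ψ p.1)‖ ^ 2) *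
        tlpG S φ ψ U Om (1 / 2 * ε * R) (zpt ψ p.1) p.2) := by
    rintro ⟨x, w⟩
    obtain ⟨cc, hcc⟩ : ∃ cc, cc = c (‖w‖ ^ 2 / (ε * R) ^ 2) := ⟨_, rfl⟩
    have hc0 : 0 ≤ cc := by rw [hcc]; exact (h.ct.bd _).1
    have hc1 : cc ≤ 1 := by rw [hcc]; exact (h.ct.bd _).2
    have e1 := tlp_Ts0 S φ ψ h.hom h.v_h (fun y hy => h.inU hy) o hR0 x w
    have e2 : S.TR φ ψ Om V c ε R (fun y s => L y (Φ s)) x w =
        (((Real.sqrt R ^ (9 * r))⁻¹ * cc * S.bz φ ψ Om (zpt ψ x) w : ℝ) : ℂ) •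
          V (zpt ψ x) (L (R⁻¹ • zpt ψ x) (Φ (spt ψ x))) := by rw [hcc]; rfl
    have e3 : AN.Ts0 ψ (AN.vG S φ ψ Om (fun η s => V η (L η (o s)))) R x w -
        S.TR φ ψ Om V c ε R (fun y s => L y (Φ s)) x w =
        (((Real.sqrt R ^ (9 * r))⁻¹ * (1 - cc) * S.bz φ ψ Om (zpt ψ x) w : ℝ) : ℂ) •
          V (zpt ψ x) (L (R⁻¹ • zpt ψ x) (o (spt ψ x))) -
        (((Real.sqrt R ^ (9 * r))⁻¹ * cc * S.bz φ ψ Om (zpt ψ x) w : ℝ) : ℂ) •
          V (zpt ψ x) (L (R⁻¹ • zpt ψ x) (Φ (spt ψ x) - o (spt ψ x))) := by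
      rw [e1, e2, map_sub, map_sub, smul_sub]
      have : (((Real.sqrt R ^ (9 * r))⁻¹ * S.bz φ ψ Om (zpt ψ x) w : ℝ) : ℂ) =
        (((Real.sqrt R ^ (9 * r))⁻¹ * (1 - cc) * S.bz φ ψ Om (zpt ψ x) w : ℝ) : ℂ) +
        (((Real.sqrt R ^ (9 * r))⁻¹ * cc * S.bz φ ψ Om (zpt ψ x) w : ℝ) : ℂ) := by
        rw [← Complex.ofReal_add]
        congr 1
        ring
      rw [this, add_smul]
      abel
    show ‖AN.Ts0 ψ (AN.vG S φ ψ Om (fun η s => V η (L η (o s)))) R x w -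
        S.TR φ ψ Om V c ε R (fun y s => L y (Φ s)) x w‖ ^ 2 ≤ _
    rw [e3]
    have p1 := tlp_pt h hR0 x w (1 - cc) (o (spt ψ x))
    have p2 := tlp_pt h hR0 x w cc (Φ (spt ψ x) - o (spt ψ x))
    have hsub : ∀ u v : F, ‖u - v‖ ^ 2 ≤ 2 * ‖v‖ ^ 2 + 2 * ‖u‖ ^ 2 := by
      intro u v
      have h1 := norm_sub_le u v
      have h2 : ‖u - v‖ ^ 2 ≤ (‖u‖ + ‖v‖) ^ 2 := pow_le_pow_left₀ (norm_nonneg _) h1 2
      nlinarith [sq_nonneg (‖u‖ - ‖v‖)]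
    refine (hsub _ _).trans ?_
    refine add_le_add (mul_le_mul_of_nonneg_left (p2.trans ?_) zero_le_two)
      (mul_le_mul_of_nonneg_left (p1.trans ?_) zero_le_two)
    · by_cases h0 : L (R⁻¹ • zpt ψ x) = 0
      · rw [h0]; simp
      · refine mul_le_mul_of_nonneg_left ?_ (by positivity)
        rw [tlpG_in (h.ray hR0 h0).1 (norm_nonneg _)]
        refine mul_le_of_le_one_left (sq_nonneg _) (pow_le_one₀ hc0 hc1)
    · by_cases h0 : L (R⁻¹ • zpt ψ x) = 0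
      · rw [h0]; simp
      · refine mul_le_mul_of_nonneg_left ?_ (by positivity)
        by_cases hw : 1 / 2 * ε * R ≤ ‖w‖
        · rw [tlpG_in (h.ray hR0 h0).1 hw]
          refine mul_le_of_le_one_left (sq_nonneg _) (pow_le_one₀ (by linarith) (by linarith))
        · have hcc1 : cc = 1 := by
            rw [hcc]
            refine h.ct.one _ ?_
            have h10 : 0 < ε * R := mul_pos h.eps hR0
            rw [div_le_iff₀ (by positivity)]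
            push Not at hw
            have : ‖w‖ ^ 2 ≤ (1 / 2 * ε * R) ^ 2 := pow_le_pow_left₀ (norm_nonneg _) hw.le 2
            nlinarith
          rw [hcc1, sub_self, zero_pow two_ne_zero, zero_mul]
          exact tlpG_0 _ _ _
  calc _ ≤ ∫ p : Cfg dh × Wsp dm, (2 * (((Real.sqrt R ^ (9 * r))⁻¹) ^ 2 * (‖L (R⁻¹ • zpt ψ p.1)‖ ^ 2 *
          ‖Φ (spt ψ p.1) - o (spt ψ p.1)‖ ^ 2) * tlpG S φ ψ U Om 0 (zpt ψ p.1) p.2) +
        2 * (((Real.sqrt R ^ (9 * r))⁻¹) ^ 2 * (‖L (R⁻¹ • zpt ψ p.1)‖ ^ 2 * ‖o (spt ψ p.1)‖ ^ 2) *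
          tlpG S φ ψ U Om (1 / 2 * ε * R) (zpt ψ p.1) p.2))
          ∂((volume : Measure (Cfg dh)).prod (volume : Measure (Wsp dm))) :=
        integral_mono_of_nonneg (Eventually.of_forall fun p => by positivity)
          ((i1.const_mul 2).add (i2.const_mul 2)) (Eventually.of_forall hpt)
    _ ≤ _ := by
        rw [integral_add (i1.const_mul 2) (i2.const_mul 2), integral_const_mul, integral_const_mul]
        exact add_le_add (mul_le_mul_of_nonneg_left j1 zero_le_two) (mul_le_mul_of_nonneg_left j2 zero_le_two)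

/-- tail of the trial function -/
private theorem tlp_tail (h : TlpCtx S φ ψ U Om V y₀ ε0 C0 c ε L) {M : ℝ} {R : ℝ} (hR : 1 ≤ R)
    (hM : ∀ y : Cfg r, ‖y - R • y₀‖ ≤ ε0 * R → ∫ w, tlpG S φ ψ U Om (1 / 2 * ε * R) y w ≤ M)
    {Φ : Cfg ds → F} (hΦ : MemLp Φ 2 (volume : Measure (Cfg ds))) :
    ∫ p in {p : Cfg dh × Wsp dm | 1 / 2 * ε * R ≤ ‖p.2‖}, ‖S.TR φ ψ Om V c ε R (fun y s => L y (Φ s)) p.1 p.2‖ ^ 2
        ∂((volume : Measure (Cfg dh)).prod (volume : Measure (Wsp dm))) ≤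
      M * ((∫ y, ‖L y‖ ^ 2) * nsq Φ) := by
  have hR0 : 0 < R := lt_of_lt_of_le one_pos hR
  have hb2 : Integrable fun s => ‖Φ s‖ ^ 2 := hΦ.integrable_norm_pow two_ne_zero
  have hL0 : ∀ y : Cfg r, ‖L y‖ ^ 2 ≠ 0 → L y ≠ 0 := fun y hy h0 => hy (by rw [h0, norm_zero, zero_pow two_ne_zero])
  obtain ⟨i2, j2⟩ := tlp_int ψ (dm := dm) (M := M) hR0 (fun y => sq_nonneg ‖L y‖) (fun s => sq_nonneg ‖Φ s‖) h.aI hb2
    (tlpG_m h (1 / 2 * ε * R)) (tlpG_0 _) (fun y hy => tlpG_i h _ (h.ray hR0 (hL0 _ hy)).1)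
    (fun y hy => hM y (h.ray hR0 (hL0 _ hy)).2)
  have hms : MeasurableSet {p : Cfg dh × Wsp dm | 1 / 2 * ε * R ≤ ‖p.2‖} :=
    (isClosed_le continuous_const continuous_snd.norm).measurableSet
  rw [← integral_indicator hms]
  refine (integral_mono_of_nonneg (Eventually.of_forall fun p => Set.indicator_nonneg (fun _ _ => by positivity) _)
    i2 (Eventually.of_forall ?_)).trans j2
  rintro ⟨x, w⟩
  by_cases hw : 1 / 2 * ε * R ≤ ‖w‖
  · show Set.indicator _ _ _ ≤ _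
    rw [Set.indicator_of_mem (show (x, w) ∈ {p : Cfg dh × Wsp dm | 1 / 2 * ε * R ≤ ‖p.2‖} from hw)]
    have e2 : S.TR φ ψ Om V c ε R (fun y s => L y (Φ s)) x w =
        (((Real.sqrt R ^ (9 * r))⁻¹ * c (‖w‖ ^ 2 / (ε * R) ^ 2) * S.bz φ ψ Om (zpt ψ x) w : ℝ) : ℂ) •
          V (zpt ψ x) (L (R⁻¹ • zpt ψ x) (Φ (spt ψ x))) := rfl
    show ‖S.TR φ ψ Om V c ε R (fun y s => L y (Φ s)) x w‖ ^ 2 ≤ _
    rw [e2]
    refine (tlp_pt h hR0 x w _ (Φ (spt ψ x))).trans ?_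
    by_cases h0 : L (R⁻¹ • zpt ψ x) = 0
    · show _ ≤ ((Real.sqrt R ^ (9 * r))⁻¹) ^ 2 * (‖L (R⁻¹ • zpt ψ x)‖ ^ 2 * ‖Φ (spt ψ x)‖ ^ 2) *
        tlpG S φ ψ U Om (1 / 2 * ε * R) (zpt ψ x) w
      rw [h0]; simp
    · refine mul_le_mul_of_nonneg_left ?_ (by positivity)
      rw [tlpG_in (h.ray hR0 h0).1 hw]
      exact mul_le_of_le_one_left (sq_nonneg _) (pow_le_one₀ (h.ct.bd _).1 (h.ct.bd _).2)
  · show Set.indicator _ _ _ ≤ _
    rw [Set.indicator_of_notMem (show (x, w) ∉ {p : Cfg dh × Wsp dm | 1 / 2 * ε * R ≤ ‖p.2‖} from hw)]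
    exact mul_nonneg (by positivity) (tlpG_0 _ _ _)

private theorem tlp_mem [FiniteDimensional ℂ F] (h : TlpCtx S φ ψ U Om V y₀ ε0 C0 c ε L)
    {o : Cfg ds → F} (ho : MemLp o 2 (volume : Measure (Cfg ds))) :
    MemLp (fun q : Cfg r × Cfg ds => V q.1 (L q.1 (o q.2))) 2 (volume.prod volume) := by
  have hW : AEStronglyMeasurable (fun y : Cfg r => (V y).comp (L y)) volume := by
    have h1 : (fun y : Cfg r => (V y).comp (L y)) = U.indicator (fun y : Cfg r => (V y).comp (L y)) := by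
      funext y
      by_cases hy : y ∈ U
      · rw [Set.indicator_of_mem hy]
      · rw [Set.indicator_of_notMem hy]
        have h2 : L y = 0 := by
          by_contra h0
          exact hy (h.inU h0)
        rw [h2, ContinuousLinearMap.comp_zero]
    rw [h1, aestronglyMeasurable_indicator_iff h.opn.measurableSet]
    exact (h.v_c.clm_comp h.l_c.continuousOn).aestronglyMeasurable h.opn.measurableSet
  have hm : AEStronglyMeasurable (fun q : Cfg r × Cfg ds => V q.1 (L q.1 (o q.2)))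
      ((volume : Measure (Cfg r)).prod (volume : Measure (Cfg ds))) := by
    have h1 := (hW.comp_fst (ν := (volume : Measure (Cfg ds)))).prodMk (ho.1.comp_snd (μ := (volume : Measure (Cfg r))))
    exact (isBoundedBilinearMap_apply (𝕜 := ℂ) (E := F) (F := F)).continuous.comp_aestronglyMeasurable h1
  rw [memLp_two_iff_integrable_sq_norm hm]
  refine Integrable.mono' (h.aI.mul_prod (ho.integrable_norm_pow two_ne_zero)) (hm.norm.pow 2) (Eventually.of_forall ?_)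
  rintro ⟨y, s⟩
  show ‖‖V y (L y (o s))‖ ^ 2‖ ≤ ‖L y‖ ^ 2 * ‖o s‖ ^ 2
  rw [Real.norm_of_nonneg (by positivity)]
  by_cases h0 : L y = 0
  · rw [h0]; simp
  · rw [h.v_n _ (h.inU h0), ← mul_pow]
    exact pow_le_pow_left₀ (norm_nonneg _) ((L y).le_opNorm _) 2

private theorem tlp_lim (h : TlpCtx S φ ψ U Om V y₀ ε0 C0 c ε L) {R : ℕ → ℝ} {Φ : ℕ → Cfg ds → F} {o : Cfg ds → F}
    (hR : ∀ n, 1 ≤ R n) (hRl : Tendsto R atTop atTop) (ho : MemLp o 2 (volume : Measure (Cfg ds)))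
    (hΦ : ∀ n, Setup.Tst (Φ n)) (hl : Tendsto (fun n => nsq (fun s => Φ n s - o s)) atTop (𝓝 0)) :
    Tendsto (fun n => ∫ p, ‖AN.Ts0 ψ (AN.vG S φ ψ Om (fun η s => V η (L η (o s)))) (R n) p.1 p.2 -
      S.TR φ ψ Om V c ε (R n) (fun y s => L y (Φ n s)) p.1 p.2‖ ^ 2
        ∂((volume : Measure (Cfg dh)).prod (volume : Measure (Wsp dm)))) atTop (𝓝 0) ∧
    Tendsto (fun n => R n ^ 2 * ∫ p in {p : Cfg dh × Wsp dm | 1 / 2 * ε * R n ≤ ‖p.2‖},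
      ‖S.TR φ ψ Om V c ε (R n) (fun y s => L y (Φ n s)) p.1 p.2‖ ^ 2
        ∂((volume : Measure (Cfg dh)).prod (volume : Measure (Wsp dm)))) atTop (𝓝 0) := by
  obtain ⟨C', hC'⟩ := h.bz.tail (1 / 2 * ε) (by have := h.eps; positivity)
  have hM : ∀ R : ℝ, 1 ≤ R → ∀ y : Cfg r, ‖y - R • y₀‖ ≤ ε0 * R →
      ∫ w, tlpG S φ ψ U Om (1 / 2 * ε * R) y w ≤ C' * (1 / R) ^ 8 := by
    intro R hR y hy
    have h1 := hC' R hR y hy 0 (by norm_num)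
    have hyU := h.bz.inU R (by linarith) y hy
    refine le_trans (le_of_eq (integral_congr_ae (Eventually.of_forall fun w => ?_))) h1
    exact tlpG_eq hyU w
  have hΦm : ∀ n, MemLp (Φ n) 2 (volume : Measure (Cfg ds)) := fun n =>
    (hΦ n).1.continuous.memLp_of_hasCompactSupport (hΦ n).2
  have hinv : Tendsto (fun n => 1 / R n) atTop (𝓝 0) := by
    simp only [one_div]
    exact tendsto_inv_atTop_zero.comp hRl
  have hp8 : Tendsto (fun n => (1 / R n) ^ 8) atTop (𝓝 0) := by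
    have := hinv.pow 8
    simpa using this
  have hp6 : Tendsto (fun n => R n ^ 2 * (1 / R n) ^ 8) atTop (𝓝 0) := by
    have h6 : Tendsto (fun n => (1 / R n) ^ 6) atTop (𝓝 0) := by
      have := hinv.pow 6
      simpa using this
    refine h6.congr fun n => ?_
    have : R n ≠ 0 := by have := hR n; positivity
    field_simp
  -- `nsq (Φ n)` bounded
  have hnb : ∀ n, nsq (Φ n) ≤ 2 * nsq (fun s => Φ n s - o s) + 2 * nsq o := by
    intro n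
    have h1 : Integrable fun s => ‖Φ n s - o s‖ ^ 2 := ((hΦm n).sub ho).integrable_norm_pow two_ne_zero
    have h2 : Integrable fun s => ‖o s‖ ^ 2 := ho.integrable_norm_pow two_ne_zero
    unfold nsq
    rw [← integral_const_mul, ← integral_const_mul, ← integral_add (h1.const_mul 2) (h2.const_mul 2)]
    refine integral_mono_of_nonneg (Eventually.of_forall fun s => by positivity)
      ((h1.const_mul 2).add (h2.const_mul 2)) (Eventually.of_forall fun s => ?_)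
    have h3 : ‖Φ n s‖ ≤ ‖Φ n s - o s‖ + ‖o s‖ := by
      have := norm_add_le (Φ n s - o s) (o s)
      rwa [sub_add_cancel] at this
    have h4 : ‖Φ n s‖ ^ 2 ≤ (‖Φ n s - o s‖ + ‖o s‖) ^ 2 := pow_le_pow_left₀ (norm_nonneg _) h3 2
    show ‖Φ n s‖ ^ 2 ≤ 2 * ‖Φ n s - o s‖ ^ 2 + 2 * ‖o s‖ ^ 2
    nlinarith [sq_nonneg (‖Φ n s - o s‖ - ‖o s‖)]
  have ha0 : 0 ≤ ∫ y, ‖L y‖ ^ 2 := integral_nonneg fun y => by positivity
  constructor
  · have hlim : Tendsto (fun n => 2 * (1 * ((∫ y, ‖L y‖ ^ 2) * nsq (fun s => Φ n s - o s))) +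
        2 * (C' * (1 / R n) ^ 8 * ((∫ y, ‖L y‖ ^ 2) * nsq o))) atTop (𝓝 0) := by
      have h1 := ((hl.const_mul (∫ y, ‖L y‖ ^ 2)).const_mul 1).const_mul 2
      have h2 := (((hp8.const_mul C').mul_const ((∫ y, ‖L y‖ ^ 2) * nsq o))).const_mul 2
      have h3 := h1.add h2
      simpa using h3
    refine squeeze_zero (fun n => integral_nonneg fun p => by positivity) (fun n => ?_) hlim
    exact tlp_dif h (hR n) (hM (R n) (hR n)) ho (hΦm n)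
  · have hlim : Tendsto (fun n => (R n ^ 2 * (1 / R n) ^ 8) * (|C'| * ((∫ y, ‖L y‖ ^ 2) *
        (2 * nsq (fun s => Φ n s - o s) + 2 * nsq o)))) atTop (𝓝 0) := by
      have h1 := ((((hl.const_mul 2).add_const (2 * nsq o)).const_mul (∫ y, ‖L y‖ ^ 2)).const_mul |C'|)
      have h3 := hp6.mul h1
      simpa using h3
    refine squeeze_zero (fun n => mul_nonneg (by positivity) (integral_nonneg fun p => by positivity)) (fun n => ?_) hlim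
    have h1 := tlp_tail h (hR n) (hM (R n) (hR n)) (hΦm n)
    have hR0 : 0 < R n := lt_of_lt_of_le one_pos (hR n)
    have h2 : C' * (1 / R n) ^ 8 * ((∫ y, ‖L y‖ ^ 2) * nsq (Φ n)) ≤
        |C'| * (1 / R n) ^ 8 * ((∫ y, ‖L y‖ ^ 2) * (2 * nsq (fun s => Φ n s - o s) + 2 * nsq o)) := by
      have h3 : 0 ≤ nsq (Φ n) := nsq_nonneg _
      refine mul_le_mul (mul_le_mul_of_nonneg_right (le_abs_self _) (by positivity))
        (mul_le_mul_of_nonneg_left (hnb n) ha0) (mul_nonneg ha0 h3) (by positivity)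
    calc _ ≤ R n ^ 2 * (|C'| * (1 / R n) ^ 8 * ((∫ y, ‖L y‖ ^ 2) * (2 * nsq (fun s => Φ n s - o s) + 2 * nsq o))) :=
          mul_le_mul_of_nonneg_left (h1.trans h2) (by positivity)
      _ = _ := by ring

end Core

section DFp

variable (S : Setup d F) (φ : Spl dh dm d) (ψ : Spl r ds dh)

/-- the profile `DF (pp ζ ·)` as a field of linear maps -/
private noncomputable def tlpL (N : Fin 9 → Matrix (Fin 16) (Fin 16) ℂ) (μ : ℝ) (β : Fin 16) (ζ : Cfg r → ℂ)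
    (y : Cfg r) : F →L[ℂ] F :=
  (-Complex.I) • ∑ i, ∑ A, (fderiv ℝ ζ y (EuclideanSpace.single (i, A) 1)) •
      S.vec (S.g i) (φ (Sum.inl (ψ (Sum.inl A)))) β +
    (μ : ℂ) • ∑ i, ∑ A, (((y (i, A) : ℝ) : ℂ) * ζ y) • S.vec (N i) (φ (Sum.inl (ψ (Sum.inl A)))) β

private theorem tlpL_eq (N : Fin 9 → Matrix (Fin 16) (Fin 16) ℂ) (μ : ℝ) (β : Fin 16) {ζ : Cfg r → ℂ}
    (hζ : ContDiff ℝ ∞ ζ) (Φ : Cfg ds → F) :
    S.DF φ ψ N μ β (pp ζ Φ) = fun y s => tlpL S φ ψ N μ β ζ y (Φ s) := by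
  funext y s
  have hd : DifferentiableAt ℝ ζ y := hζ.differentiable (by simp) y
  have h1 : ∀ (i : Fin 9) (A : Fin r), pd i A (fun y' => pp ζ Φ y' s) y =
      (fderiv ℝ ζ y (EuclideanSpace.single (i, A) 1)) • Φ s := by
    intro i A
    show fderiv ℝ (fun y' => ζ y' • Φ s) y (EuclideanSpace.single (i, A) 1) = _
    rw [(hd.hasFDerivAt.smul_const (Φ s)).fderiv]
    rfl
  unfold Setup.DF tlpL
  simp only [h1]
  simp only [pp, map_smul, _root_.add_apply, _root_.smul_apply, _root_.sum_apply, smul_smul]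

private theorem tlpL_c (N : Fin 9 → Matrix (Fin 16) (Fin 16) ℂ) (μ : ℝ) (β : Fin 16) {ζ : Cfg r → ℂ}
    (hζ : ContDiff ℝ ∞ ζ) : Continuous (tlpL S φ ψ N μ β ζ) := by
  unfold tlpL
  have h1 : Continuous (fderiv ℝ ζ) := hζ.continuous_fderiv (by simp)
  have h2 := hζ.continuous
  have h3 : ∀ (i : Fin 9) (A : Fin r), Continuous fun y : Cfg r => y (i, A) := fun i A => by fun_prop
  have hA : Continuous fun y : Cfg r => (∑ i : Fin 9, ∑ A : Fin r,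
      (fderiv ℝ ζ y (EuclideanSpace.single (i, A) 1)) • S.vec (S.g i) (φ (Sum.inl (ψ (Sum.inl A)))) β : F →L[ℂ] F) :=
    continuous_finsetSum _ fun i _ => continuous_finsetSum _ fun A _ =>
      (h1.clm_apply continuous_const).smul continuous_const
  have hB : Continuous fun y : Cfg r => (∑ i : Fin 9, ∑ A : Fin r,
      (((y (i, A) : ℝ) : ℂ) * ζ y) • S.vec (N i) (φ (Sum.inl (ψ (Sum.inl A)))) β : F →L[ℂ] F) :=
    continuous_finsetSum _ fun i _ => continuous_finsetSum _ fun A _ =>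
      ((Complex.continuous_ofReal.comp (h3 i A)).mul h2).smul continuous_const
  exact (hA.const_smul (-Complex.I)).add (hB.const_smul (μ : ℂ))

private theorem tlpL_s (N : Fin 9 → Matrix (Fin 16) (Fin 16) ℂ) (μ : ℝ) (β : Fin 16) {ζ : Cfg r → ℂ}
    (y : Cfg r) (h : tlpL S φ ψ N μ β ζ y ≠ 0) : y ∈ tsupport ζ := by
  by_contra h0
  apply h
  have h1 : ζ y = 0 := image_eq_zero_of_notMem_tsupport h0
  have h2 : fderiv ℝ ζ y = 0 := by
    by_contra h3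
    exact h0 (support_fderiv_subset ℝ (Function.mem_support.2 h3))
  unfold tlpL
  simp [h1, h2]

end DFp

/-- **EG-TL** -/
theorem tlS (S : Setup d F) (φ : Spl dh dm d) (ψ : Spl r ds dh) : TLStmt S φ ψ := by
  intro _ _ _ N U Om V K hF y₀ ε0 C0 _ hB c hc ε hε hε0 ζ hζ hζs μ R Φ o hR hRl ho hΦ hl
  have ctx : ∀ L : Cfg r → F →L[ℂ] F, Continuous L → (∀ y, L y ≠ 0 → y ∈ tsupport ζ) →
      TlpCtx S φ ψ U Om V y₀ ε0 C0 c ε L := fun L h1 h2 =>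
    ⟨hF.opn, hF.om_h, hF.v_c.continuousOn, hF.v_h, hF.v_n, hB, hc, hε, hε0, h1, fun y hy => hζs (h2 y hy)⟩
  have c1 : TlpCtx S φ ψ U Om V y₀ ε0 C0 c ε (fun y => ζ y • ContinuousLinearMap.id ℂ F) := by
    refine ctx _ (hζ.continuous.smul continuous_const) fun y hy => ?_
    by_contra h0
    exact hy (by rw [image_eq_zero_of_notMem_tsupport h0, zero_smul])
  have c2 : ∀ β, TlpCtx S φ ψ U Om V y₀ ε0 C0 c ε (tlpL S φ ψ N μ β ζ) := fun β =>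
    ctx _ (tlpL_c S φ ψ N μ β hζ) fun y hy => tlpL_s S φ ψ N μ β y hy
  obtain ⟨a1, a2⟩ := tlp_lim c1 hR hRl ho hΦ hl
  refine ⟨a1, fun β => ?_, a2, tlp_mem c1 ho, fun β => ?_⟩
  · simp only [tlpL_eq S φ ψ N μ β hζ]
    exact (tlp_lim (c2 β) hR hRl ho hΦ hl).1
  · simp only [tlpL_eq S φ ψ N μ β hζ]
    exact tlp_mem (c2 β) ho

end Vale.Agent.P353.Z.AE
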