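import Vale.Agent.P353.AN.E.Stmt
import Vale.Agent.P353.AN.B.Fib

/-! # P353, all `N`, block E: the gap near the ray from the gap at central points (`UGapStmt`) -/

open MeasureTheory Filter Topology Matrix
open scoped ContDiff

namespace Vale.Agent.P353.Z.AE

variable {d dh dm r ds : ℕ} {F : Type*} [NormedAddCommGroup F] [InnerProductSpace ℂ F]

/-- Pythagoras for the splitting of `h` -/
lemma ug655_norm_sq (ψ : Spl r ds dh) (x : Cfg dh) : ‖x‖ ^ 2 = ‖zpt ψ x‖ ^ 2 + ‖spt ψ x‖ ^ 2 := by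
  rw [EuclideanSpace.norm_sq_eq, EuclideanSpace.norm_sq_eq, EuclideanSpace.norm_sq_eq,
    Fintype.sum_prod_type, Fintype.sum_prod_type, Fintype.sum_prod_type, ← Finset.sum_add_distrib]
  refine Finset.sum_congr rfl fun i _ => ?_
  rw [← ψ.sum_comp, Fintype.sum_sum_type]
  rfl

lemma ug655_zpt_le (ψ : Spl r ds dh) (x : Cfg dh) : ‖zpt ψ x‖ ≤ ‖x‖ := by
  have h := ug655_norm_sq ψ x
  refine (sq_le_sq₀ (norm_nonneg _) (norm_nonneg _)).mp ?_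
  nlinarith [sq_nonneg ‖spt ψ x‖]

lemma ug655_spt_le (ψ : Spl r ds dh) (x : Cfg dh) : ‖spt ψ x‖ ≤ ‖x‖ := by
  have h := ug655_norm_sq ψ x
  refine (sq_le_sq₀ (norm_nonneg _) (norm_nonneg _)).mp ?_
  nlinarith [sq_nonneg ‖zpt ψ x‖]

lemma ug655_zpt_sub (ψ : Spl r ds dh) (x : Cfg dh) (y₀ : Cfg r) (R : ℝ) :
    zpt ψ (x - R • cmb ψ y₀ 0) = zpt ψ x - R • y₀ := by
  ext p
  simp [zpt, cmb]

lemma ug655_spt_sub (ψ : Spl r ds dh) (x : Cfg dh) (y₀ : Cfg r) (R : ℝ) :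
    spt ψ (x - R • cmb ψ y₀ 0) = spt ψ x := by
  ext p
  simp [spt, cmb]

/-- Cauchy–Schwarz for the right hand side of `Pert2Stmt` -/
lemma ug655_cs (a : Fin 8 → Fin dm → ℝ) (b : ℝ) :
    ((∑ j, ∑ B, a j B) + b) ^ 2 ≤ 2 * (8 * dm + 1) * ((∑ j, ∑ B, a j B ^ 2) + b ^ 2) := by
  have h1 : (∑ j, ∑ B, a j B) ^ 2 ≤ (8 * dm) * ∑ j, ∑ B, a j B ^ 2 := by
    have h2 := sq_sum_le_card_mul_sum_sq (s := (Finset.univ : Finset (Fin 8 × Fin dm)))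
      (f := fun p => a p.1 p.2)
    rw [Fintype.sum_prod_type, Fintype.sum_prod_type] at h2
    simpa using h2
  have h3 : 0 ≤ ∑ j, ∑ B, a j B ^ 2 :=
    Finset.sum_nonneg fun j _ => Finset.sum_nonneg fun B _ => sq_nonneg _
  have h4 : (0 : ℝ) ≤ dm := Nat.cast_nonneg _
  nlinarith [sq_nonneg ((∑ j, ∑ B, a j B) - b), sq_nonneg b, mul_nonneg h4 (sq_nonneg b)]

omit [InnerProductSpace ℂ F] in
lemma ug655_int {k : Wsp dm → F} (hk : Continuous k) (hks : HasCompactSupport k) :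
    Integrable (fun w => ‖k w‖ ^ 2) := by
  have c1 : Continuous fun w => ‖k w‖ ^ 2 := hk.norm.pow 2
  have c2 : HasCompactSupport fun w => ‖k w‖ ^ 2 := by
    refine HasCompactSupport.intro hks fun w hw => ?_
    rw [image_eq_zero_of_notMem_tsupport hw, norm_zero]
    norm_num
  exact c1.integrable_of_hasCompactSupport c2

/-- integrated form of `Pert2Stmt` -/
lemma ug655_pert (S : Setup d F) (φ : Spl dh dm d) (D D' : Fin 9 → Matrix (Fin dm) (Fin dm) ℝ)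
    (β : Fin 16) {f : Wsp dm → F} (hf : FT f) {c R : ℝ} (_hc : 0 ≤ c)
    (h : ∀ w, ‖S.q1 φ D β f w - S.q1 φ D' β f w‖ ≤ c * ((∑ j, ∑ B, ‖pf j B f w‖) + R * ‖w‖ * ‖f w‖)) :
    nsf (fun w => S.q1 φ D β f w - S.q1 φ D' β f w) ≤ c ^ 2 * (2 * (8 * dm + 1)) *
      ((∑ j, ∑ B, nsf (pf j B f)) + R ^ 2 * nsf (fun w => ((‖w‖ : ℝ) : ℂ) • f w)) := by
  have hfc : Continuous f := hf.1.continuous
  have ip : ∀ j B, Integrable (fun w => ‖pf j B f w‖ ^ 2) := fun j B =>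
    ug655_int (fib_pf_cont hf j B) (HasCompactSupport.intro hf.2 fun w hw => fib_pf_zero hw j B)
  have iw : Integrable (fun w => ‖((‖w‖ : ℝ) : ℂ) • f w‖ ^ 2) := by
    refine ug655_int (Continuous.smul (Complex.continuous_ofReal.comp continuous_norm) hfc) ?_
    refine HasCompactSupport.intro hf.2 fun w hw => ?_
    rw [image_eq_zero_of_notMem_tsupport hw, smul_zero]
  have iq : Integrable (fun w => ‖S.q1 φ D β f w - S.q1 φ D' β f w‖ ^ 2) := by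
    refine ug655_int ((fib_q1_cont S φ D β hf).sub (fib_q1_cont S φ D' β hf)) ?_
    exact (fib_q1_supp S φ D β hf).sub (fib_q1_supp S φ D' β hf)
  unfold nsf
  have e1 : (∑ j, ∑ B, ∫ w, ‖pf j B f w‖ ^ 2) + R ^ 2 * ∫ w, ‖((‖w‖ : ℝ) : ℂ) • f w‖ ^ 2 =
      ∫ w, (∑ j, ∑ B, ‖pf j B f w‖ ^ 2) + R ^ 2 * ‖((‖w‖ : ℝ) : ℂ) • f w‖ ^ 2 := by
    rw [integral_add (integrable_finsetSum _ fun j _ => integrable_finsetSum _ fun B _ => ip j B)
      (iw.const_mul _), integral_const_mul, integral_finsetSum _ fun j _ =>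
        integrable_finsetSum _ fun B _ => ip j B]
    congr 1
    refine Finset.sum_congr rfl fun j _ => ?_
    rw [integral_finsetSum _ fun B _ => ip j B]
  rw [e1, ← integral_const_mul]
  refine integral_mono iq ?_ fun w => ?_
  · exact ((integrable_finsetSum _ fun j _ => integrable_finsetSum _ fun B _ => ip j B).add
      (iw.const_mul _)).const_mul _
  · show ‖S.q1 φ D β f w - S.q1 φ D' β f w‖ ^ 2 ≤ c ^ 2 * (2 * (8 * dm + 1)) *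
      ((∑ j, ∑ B, ‖pf j B f w‖ ^ 2) + R ^ 2 * ‖((‖w‖ : ℝ) : ℂ) • f w‖ ^ 2)
    have h1 : ‖S.q1 φ D β f w - S.q1 φ D' β f w‖ ^ 2 ≤
        (c * ((∑ j, ∑ B, ‖pf j B f w‖) + R * ‖w‖ * ‖f w‖)) ^ 2 :=
      pow_le_pow_left₀ (norm_nonneg _) (h w) 2
    have h2 := ug655_cs (fun j B => ‖pf j B f w‖) (R * ‖w‖ * ‖f w‖)
    have h3 : ‖((‖w‖ : ℝ) : ℂ) • f w‖ = ‖w‖ * ‖f w‖ := by
      rw [norm_smul, Complex.norm_real, norm_norm]
    rw [h3]
    calc _ ≤ _ := h1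
      _ = c ^ 2 * ((∑ j, ∑ B, ‖pf j B f w‖) + R * ‖w‖ * ‖f w‖) ^ 2 := by ring
      _ ≤ c ^ 2 * (2 * (8 * dm + 1) * ((∑ j, ∑ B, ‖pf j B f w‖ ^ 2) + (R * ‖w‖ * ‖f w‖) ^ 2)) :=
        mul_le_mul_of_nonneg_left h2 (sq_nonneg c)
      _ = _ := by ring

/-- **E-UGap**: the gap of the fibre operator above the vacuum, uniformly near the ray. -/
theorem ugap (S : Setup d F) (φ : Spl dh dm d) (ψ : Spl r ds dh) :
    UGapCStmt S φ ψ → Pert2Stmt S φ ψ → AN.CoefStmt S φ → AN.FibOutStmt S φ → UGapStmt S φ ψ := by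
  intro hG hP hCf hFo hF hsub hcen U Om V K hV y₀ hy₀ hStd
  obtain ⟨εc, Cc, hεc, hCc, hCoef⟩ := hCf (cmb ψ y₀ 0) hStd
  obtain ⟨_, εf, Cf, -, -, hεf, hCf0, hFF, -⟩ := hFo hF (cmb ψ y₀ 0) hStd
  obtain ⟨εg, Cg, hεg, hCg, hGap⟩ := hG hF hsub hcen U Om V K hV y₀ hy₀
  obtain ⟨Cp, hCp, hPert⟩ := hP hsub hcen y₀ εc Cc hεc hCc hCoef
  set M : ℝ := Cp ^ 2 * (2 * (8 * dm + 1)) * Cf with hM
  have hM0 : 0 ≤ M := by positivity
  refine ⟨min (min εc εf) (min εg 1), Cg * (2 + 2 * M), by positivity, by positivity, ?_⟩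
  intro R hR x hx f hf
  have hR0 : 0 < R := lt_of_lt_of_le one_pos hR
  have hxc : ‖x - R • cmb ψ y₀ 0‖ ≤ εc * R := hx.trans
    (mul_le_mul_of_nonneg_right ((min_le_left _ _).trans (min_le_left _ _)) hR0.le)
  have hxf : ‖x - R • cmb ψ y₀ 0‖ ≤ εf * R := hx.trans
    (mul_le_mul_of_nonneg_right ((min_le_left _ _).trans (min_le_right _ _)) hR0.le)
  have hxg : ‖x - R • cmb ψ y₀ 0‖ ≤ εg * R := hx.trans
    (mul_le_mul_of_nonneg_right ((min_le_right _ _).trans (min_le_left _ _)) hR0.le)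
  have hx1 : ‖x - R • cmb ψ y₀ 0‖ ≤ 1 * R := hx.trans
    (mul_le_mul_of_nonneg_right ((min_le_right _ _).trans (min_le_right _ _)) hR0.le)
  set y : Cfg r := zpt ψ x with hy
  have hyR : ‖y - R • y₀‖ ≤ εg * R := by
    have h1 := ug655_zpt_le ψ (x - R • cmb ψ y₀ 0)
    rw [ug655_zpt_sub] at h1
    exact h1.trans hxg
  set σ : ℝ := ‖spt ψ x‖ / R with hσ
  have hσ0 : 0 ≤ σ := by positivity
  have hσ1 : σ ≤ 1 := by
    have h1 := ug655_spt_le ψ (x - R • cmb ψ y₀ 0)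
    rw [ug655_spt_sub] at h1
    rw [hσ, div_le_one hR0]
    linarith
  have hσ2 : σ ^ 2 ≤ 1 := pow_le_one₀ hσ0 hσ1
  have hn : 0 ≤ nsf f := fib_nsf_nonneg f
  have he : 0 ≤ S.e1 φ (S.DY φ x) f := by
    unfold Setup.e1
    exact mul_nonneg (by norm_num) (Finset.sum_nonneg fun β _ => fib_nsf_nonneg _)
  have hF1 := hFF.F1 R hR0 x hxf f hf
  have hdiff : ∀ β, nsf (fun w => S.q1 φ (S.DY φ x) β f w - S.q1 φ (S.Dz φ ψ y) β f w) ≤
      M * σ ^ 2 * (S.e1 φ (S.DY φ x) f + R * nsf f) := by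
    intro β
    have h1 := ug655_pert S φ (S.DY φ x) (S.Dz φ ψ y) β hf (c := Cp * σ) (R := R) (by positivity)
      (fun w => hPert R hR0 x hxc f β w)
    refine h1.trans ?_
    have h2 : (Cp * σ) ^ 2 * (2 * (8 * dm + 1)) *
        ((∑ j, ∑ B, nsf (pf j B f)) + R ^ 2 * nsf (fun w => ((‖w‖ : ℝ) : ℂ) • f w)) ≤
        (Cp * σ) ^ 2 * (2 * (8 * dm + 1)) * (Cf * (S.e1 φ (S.DY φ x) f + R * nsf f)) :=
      mul_le_mul_of_nonneg_left hF1 (by positivity)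
    refine h2.trans (le_of_eq ?_)
    rw [hM]
    ring
  have hE : S.e1 φ (S.Dz φ ψ y) f ≤ 2 * S.e1 φ (S.DY φ x) f +
      2 * (M * σ ^ 2 * (S.e1 φ (S.DY φ x) f + R * nsf f)) := by
    have h1 : ∀ β, nsf (S.q1 φ (S.Dz φ ψ y) β f) ≤ 2 * nsf (S.q1 φ (S.DY φ x) β f) +
        2 * (M * σ ^ 2 * (S.e1 φ (S.DY φ x) f + R * nsf f)) := fun β =>
      (fib_nsf_two (fib_q1_cont S φ _ β hf) (fib_q1_supp S φ _ β hf) (fib_q1_cont S φ _ β hf)
        (fib_q1_supp S φ _ β hf)).trans (by linarith [hdiff β])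
    have h2 : ∑ β, nsf (S.q1 φ (S.Dz φ ψ y) β f) ≤ ∑ β : Fin 16, (2 * nsf (S.q1 φ (S.DY φ x) β f) +
        2 * (M * σ ^ 2 * (S.e1 φ (S.DY φ x) f + R * nsf f))) := Finset.sum_le_sum fun β _ => h1 β
    rw [Finset.sum_add_distrib, ← Finset.mul_sum, Finset.sum_const, Finset.card_univ, Fintype.card_fin,
      nsmul_eq_mul] at h2
    have h3 : S.e1 φ (S.Dz φ ψ y) f = (1 / 16) * ∑ β, nsf (S.q1 φ (S.Dz φ ψ y) β f) := rfl
    have h4 : ∑ β, nsf (S.q1 φ (S.DY φ x) β f) = 16 * S.e1 φ (S.DY φ x) f := by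
      have : S.e1 φ (S.DY φ x) f = (1 / 16) * ∑ β, nsf (S.q1 φ (S.DY φ x) β f) := rfl
      rw [this]
      ring
    rw [h4] at h2
    rw [h3]
    push_cast at h2
    linarith
  have hg := hGap R hR0 y hyR f hf
  refine hg.trans ?_
  have h5 : S.e1 φ (S.Dz φ ψ y) f ≤ (2 + 2 * M) * (S.e1 φ (S.DY φ x) f + σ ^ 2 * R * nsf f) := by
    have h6 : M * σ ^ 2 * S.e1 φ (S.DY φ x) f ≤ M * 1 * S.e1 φ (S.DY φ x) f := by gcongr
    have h7 : 0 ≤ σ ^ 2 * R * nsf f := by positivity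
    nlinarith [hE, h6, h7]
  calc Cg * S.e1 φ (S.Dz φ ψ y) f ≤
      Cg * ((2 + 2 * M) * (S.e1 φ (S.DY φ x) f + σ ^ 2 * R * nsf f)) :=
        mul_le_mul_of_nonneg_left h5 hCg.le
    _ = _ := by ring

end Vale.Agent.P353.Z.AE
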