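import Vale.Agent.P353.AN.E.Stmt
import Vale.Agent.P353.AN.B.Fib
import Vale.Agent.P353.AN.B.Gap
import Vale.Agent.P353.AN.C.Fib

/-! # P353, all `N`, block E: the gap at central points (`UGapCStmt`) -/

open MeasureTheory Filter Topology Matrix
open scoped ContDiff

namespace Vale.Agent.P353.Z.AE

variable {d dh dm r ds : ℕ} {F : Type*} [NormedAddCommGroup F] [InnerProductSpace ℂ F]

/-! ### square integrable continuous functions -/

/-- continuous and square integrable -/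
def Ug977L (f : Wsp dm → F) : Prop := Continuous f ∧ Integrable fun w => ‖f w‖ ^ 2

omit [InnerProductSpace ℂ F] in
lemma ug977_ft_int {k : Wsp dm → F} (hk : Continuous k) (hks : HasCompactSupport k) : Ug977L k := by
  refine ⟨hk, ?_⟩
  have c1 : Continuous fun w => ‖k w‖ ^ 2 := hk.norm.pow 2
  have c2 : HasCompactSupport fun w => ‖k w‖ ^ 2 := by
    refine HasCompactSupport.intro hks fun w hw => ?_
    rw [image_eq_zero_of_notMem_tsupport hw, norm_zero]
    norm_num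
  exact c1.integrable_of_hasCompactSupport c2

lemma ug977_ft {f : Wsp dm → F} (hf : FT f) : Ug977L f := ug977_ft_int hf.1.continuous hf.2

omit [InnerProductSpace ℂ F] in
lemma ug977_sub {f g : Wsp dm → F} (hf : Ug977L f) (hg : Ug977L g) : Ug977L fun w => f w - g w := by
  refine ⟨hf.1.sub hg.1, ?_⟩
  refine ((hf.2.const_mul 2).add (hg.2.const_mul 2)).mono'
    ((hf.1.sub hg.1).norm.pow 2).aestronglyMeasurable (Eventually.of_forall fun w => ?_)
  rw [Real.norm_eq_abs, abs_of_nonneg (by positivity)]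
  have h1 : ‖f w - g w‖ ≤ ‖f w‖ + ‖g w‖ := norm_sub_le _ _
  have h2 : ‖f w - g w‖ ^ 2 ≤ (‖f w‖ + ‖g w‖) ^ 2 := by gcongr
  simp only [Pi.add_apply]
  nlinarith [sq_nonneg (‖f w‖ - ‖g w‖)]

omit [InnerProductSpace ℂ F] in
lemma ug977_neg {f : Wsp dm → F} (hf : Ug977L f) : Ug977L fun w => -f w :=
  ⟨hf.1.neg, by simpa using hf.2⟩

omit [InnerProductSpace ℂ F] in
lemma ug977_add {f g : Wsp dm → F} (hf : Ug977L f) (hg : Ug977L g) : Ug977L fun w => f w + g w := by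
  have := ug977_sub hf (ug977_neg hg)
  simpa using this

lemma ug977_gv {g : Wsp dm → ℝ} (hg : Continuous g) (hi : Integrable fun w => g w ^ 2) (v : F) :
    Ug977L fun w => ((g w : ℝ) : ℂ) • v := by
  refine ⟨(Complex.continuous_ofReal.comp hg).smul continuous_const, ?_⟩
  refine (hi.mul_const (‖v‖ ^ 2)).congr (Eventually.of_forall fun w => ?_)
  show g w ^ 2 * ‖v‖ ^ 2 = ‖((g w : ℝ) : ℂ) • v‖ ^ 2
  rw [norm_smul, Complex.norm_real, mul_pow, Real.norm_eq_abs, sq_abs]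

lemma ug977_nsf_gv (g : Wsp dm → ℝ) (v : F) :
    nsf (fun w => ((g w : ℝ) : ℂ) • v) = (∫ w, g w ^ 2) * ‖v‖ ^ 2 := by
  unfold nsf
  rw [← integral_mul_const]
  refine integral_congr_ae (Eventually.of_forall fun w => ?_)
  show ‖((g w : ℝ) : ℂ) • v‖ ^ 2 = g w ^ 2 * ‖v‖ ^ 2
  rw [norm_smul, Complex.norm_real, mul_pow, Real.norm_eq_abs, sq_abs]

omit [InnerProductSpace ℂ F] in
lemma ug977_two {f g : Wsp dm → F} (hf : Ug977L f) (hg : Ug977L g) :
    nsf (fun w => f w + g w) ≤ 2 * nsf f + 2 * nsf g := by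
  have h3 := (ug977_add hf hg).2
  unfold nsf
  rw [← integral_const_mul, ← integral_const_mul,
    ← integral_add (hf.2.const_mul 2) (hg.2.const_mul 2)]
  refine integral_mono h3 ((hf.2.const_mul 2).add (hg.2.const_mul 2)) fun w => ?_
  have h1 : ‖f w + g w‖ ≤ ‖f w‖ + ‖g w‖ := norm_add_le _ _
  have h2 : ‖f w + g w‖ ^ 2 ≤ (‖f w‖ + ‖g w‖) ^ 2 := by gcongr
  show ‖f w + g w‖ ^ 2 ≤ 2 * ‖f w‖ ^ 2 + 2 * ‖g w‖ ^ 2
  nlinarith [sq_nonneg (‖f w‖ - ‖g w‖)]

omit [InnerProductSpace ℂ F] in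
lemma ug977_three {f g h : Wsp dm → F} (hf : Ug977L f) (hg : Ug977L g) (hh : Ug977L h) :
    nsf (fun w => f w + g w + h w) ≤ 3 * nsf f + 3 * nsf g + 3 * nsf h := by
  have h3 := (ug977_add (ug977_add hf hg) hh).2
  have e1 : 3 * nsf f + 3 * nsf g + 3 * nsf h =
      ∫ w, (3 * ‖f w‖ ^ 2 + 3 * ‖g w‖ ^ 2) + 3 * ‖h w‖ ^ 2 := by
    unfold nsf
    have e2 : Integrable fun w => 3 * ‖f w‖ ^ 2 + 3 * ‖g w‖ ^ 2 :=
      (hf.2.const_mul 3).add (hg.2.const_mul 3)
    rw [integral_add e2 (hh.2.const_mul 3), integral_add (hf.2.const_mul 3) (hg.2.const_mul 3),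
      integral_const_mul, integral_const_mul, integral_const_mul]
  rw [e1]
  unfold nsf
  refine integral_mono h3 (((hf.2.const_mul 3).add (hg.2.const_mul 3)).add (hh.2.const_mul 3))
    fun w => ?_
  have h1 : ‖f w + g w + h w‖ ≤ ‖f w‖ + ‖g w‖ + ‖h w‖ := norm_add₃_le
  have h2 : ‖f w + g w + h w‖ ^ 2 ≤ (‖f w‖ + ‖g w‖ + ‖h w‖) ^ 2 := by gcongr
  show ‖f w + g w + h w‖ ^ 2 ≤ 3 * ‖f w‖ ^ 2 + 3 * ‖g w‖ ^ 2 + 3 * ‖h w‖ ^ 2
  nlinarith [sq_nonneg (‖f w‖ - ‖g w‖), sq_nonneg (‖f w‖ - ‖h w‖), sq_nonneg (‖g w‖ - ‖h w‖)]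

/-! ### the Gaussian -/

/-- data on the Gaussian at a frozen point -/
structure Ug977G (D : Fin 9 → Matrix (Fin dm) (Fin dm) ℝ) (Om : Matrix (Fin dm) (Fin dm) ℝ) : Prop where
  ex : ∃ M : Wsp dm →L[ℝ] Wsp dm, (∀ w, qf D Om w = inner ℝ w (M w)) ∧
    ∃ c : ℝ, 0 < c ∧ ∀ w, c * ‖w‖ ^ 2 ≤ inner ℝ w (M w)

variable {D : Fin 9 → Matrix (Fin dm) (Fin dm) ℝ} {Om : Matrix (Fin dm) (Fin dm) ℝ}

lemma ug977_g_smooth (hG : Ug977G D Om) (R : ℝ) : ContDiff ℝ ∞ (gR D Om R) := by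
  obtain ⟨M, hM, -⟩ := hG.ex
  have h1 : gR D Om R = fun w => Real.exp (-(R / 2) * inner ℝ w (M w)) := by
    funext w
    unfold gR
    rw [hM]
  rw [h1]
  exact (contDiff_const.mul (contDiff_id.inner ℝ M.contDiff)).exp

lemma ug977_g_int (hG : Ug977G D Om) {R : ℝ} (hR : 0 < R) :
    Integrable fun w => gR D Om R w ^ 2 := by
  obtain ⟨M, hM, c, hc, hpos⟩ := hG.ex
  have h1 := gapF_gauss (R • M) (c := R * c) (by positivity) (fun w => by
    rw [_root_.smul_apply, real_inner_smul_right, mul_assoc]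
    exact mul_le_mul_of_nonneg_left (hpos w) hR.le)
  refine h1.congr (Eventually.of_forall fun w => ?_)
  show Real.exp (-(1 / 2) * inner ℝ w ((R • M) w)) ^ 2 = gR D Om R w ^ 2
  unfold gR
  rw [hM, _root_.smul_apply, real_inner_smul_right]
  congr 2
  ring

lemma ug977_g_pos (hG : Ug977G D Om) {R : ℝ} (hR : 0 < R) : 0 < ∫ w, gR D Om R w ^ 2 := by
  have h1 := ug977_g_int hG hR
  have h2 : ∀ w, 0 < gR D Om R w ^ 2 := fun w => pow_pos (Real.exp_pos _) 2
  exact (integral_pos_iff_support_of_nonneg (fun w => (h2 w).le) h1).2 (by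
    have : Function.support (fun w => gR D Om R w ^ 2) = Set.univ :=
      Set.eq_univ_of_forall fun w => (h2 w).ne'
    rw [this]
    exact Measure.measure_univ_pos.2 (NeZero.ne _))

lemma ug977_PR (S : Setup d F) (φ : Spl dh dm d) [FiniteDimensional ℂ F] (R : ℝ) (f : Wsp dm → F) :
    S.PR φ D Om R f = fun w => ((gR D Om R w : ℝ) : ℂ) •
      (((∫ w', gR D Om R w' ^ 2 : ℝ) : ℂ)⁻¹ • (S.F0 φ D Om).starProjection
        (∫ w', ((gR D Om R w' : ℝ) : ℂ) • f w')) := by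
  funext w
  unfold Setup.PR
  rw [smul_smul]
  congr 1
  push_cast
  rw [div_eq_mul_inv]

/-! ### the supercharge: principal part and potential -/

/-- the component map -/
noncomputable def ug977P (F : Type*) [NormedAddCommGroup F] [InnerProductSpace ℂ F] (j : Fin 8) (B : Fin dm) :
    (Fin 8 → Fin dm → F) →L[ℂ] F :=
  (ContinuousLinearMap.proj (R := ℂ) (φ := fun _ : Fin dm => F) B).comp
    (ContinuousLinearMap.proj (R := ℂ) (φ := fun _ : Fin 8 => Fin dm → F) j)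

/-- principal part of the supercharge -/
noncomputable def ug977S (S : Setup d F) (φ : Spl dh dm d) (D : Fin 9 → Matrix (Fin dm) (Fin dm) ℝ)
    (β : Fin 16) : (Fin 8 → Fin dm → F) →L[ℂ] F :=
  (-Complex.I) • (∑ j : Fin 8, ∑ B, (S.vec (S.g j.castSucc) (φ (Sum.inr B)) β).comp (ug977P F j B)) +
    Complex.I • (∑ B, (S.vec (S.g 8) (φ (Sum.inr B)) β).comp
      (∑ C, (((D 8)⁻¹ B C : ℝ) : ℂ) • ∑ j : Fin 8, ∑ E, ((D j.castSucc C E : ℝ) : ℂ) • ug977P F j E))

/-- potential of the supercharge -/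
noncomputable def ug977T (S : Setup d F) (φ : Spl dh dm d) (D : Fin 9 → Matrix (Fin dm) (Fin dm) ℝ)
    (β : Fin 16) (w : Wsp dm) : F →L[ℂ] F :=
  (1 / 2 : ℂ) • ∑ B, ∑ i, ∑ j, ((S.κ * ((∑ C, D i B C * wt w j C) - ∑ C, D j B C * wt w i C) : ℝ) : ℂ) •
      S.vec (S.g2 i j) (φ (Sum.inr B)) β

lemma ug977_q1 (S : Setup d F) (φ : Spl dh dm d) (D : Fin 9 → Matrix (Fin dm) (Fin dm) ℝ)
    (β : Fin 16) (f : Wsp dm → F) (w : Wsp dm) :
    S.q1 φ D β f w = ug977S S φ D β (fun j B => pf j B f w) + ug977T S φ D β w (f w) := by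
  unfold Setup.q1 ug977S ug977T ug977P
  simp only [_root_.add_apply, _root_.smul_apply, _root_.sum_apply, ContinuousLinearMap.comp_apply,
    ContinuousLinearMap.proj_apply]

lemma ug977_q1_sub (S : Setup d F) (φ : Spl dh dm d) (D : Fin 9 → Matrix (Fin dm) (Fin dm) ℝ)
    (β : Fin 16) {f g : Wsp dm → F} (hf : FT f) (hg : FT g) (w : Wsp dm) :
    S.q1 φ D β (fun w => f w - g w) w = S.q1 φ D β f w - S.q1 φ D β g w := by
  have h1 : (fun (j : Fin 8) (B : Fin dm) => pf j B (fun w => f w - g w) w) =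
      (fun (j : Fin 8) (B : Fin dm) => pf j B f w) - fun (j : Fin 8) (B : Fin dm) => pf j B g w := by
    funext j B
    show pf j B (fun w => f w - g w) w = pf j B f w - pf j B g w
    unfold pf
    rw [fderiv_fun_sub (hf.1.differentiable (by simp) w) (hg.1.differentiable (by simp) w)]
    rfl
  rw [ug977_q1, ug977_q1, ug977_q1, h1, map_sub, map_sub]
  abel

lemma ug977_pf_real {c : Wsp dm → ℝ} {w : Wsp dm} (hc : DifferentiableAt ℝ c w) (v : F) (j : Fin 8)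
    (B : Fin dm) : pf j B (fun w => ((c w : ℝ) : ℂ) • v) w =
      ((fderiv ℝ c w (EuclideanSpace.single (j, B) 1) : ℝ) : ℂ) • v := by
  unfold pf
  have h1 : (fun w => ((c w : ℝ) : ℂ) • v) = fun w => c w • v := by
    funext w
    exact Complex.coe_smul _ _
  rw [h1, fderiv_smul_const hc v, ContinuousLinearMap.smulRight_apply, Complex.coe_smul]

lemma ug977_q1_cut (S : Setup d F) (φ : Spl dh dm d) (D : Fin 9 → Matrix (Fin dm) (Fin dm) ℝ)
    (β : Fin 16) {χ g : Wsp dm → ℝ} (hχ : Differentiable ℝ χ) (hg : Differentiable ℝ g) (v : F) (w : Wsp dm)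
    (h0 : S.q1 φ D β (fun w => ((g w : ℝ) : ℂ) • v) w = 0) :
    S.q1 φ D β (fun w => ((χ w * g w : ℝ) : ℂ) • v) w = ((g w : ℝ) : ℂ) •
      ug977S S φ D β (fun j B => ((fderiv ℝ χ w (EuclideanSpace.single (j, B) 1) : ℝ) : ℂ) • v) := by
  have h1 : (fun (j : Fin 8) (B : Fin dm) => pf j B (fun w => ((χ w * g w : ℝ) : ℂ) • v) w) =
      ((χ w : ℝ) : ℂ) • (fun (j : Fin 8) (B : Fin dm) => pf j B (fun w => ((g w : ℝ) : ℂ) • v) w) +
      ((g w : ℝ) : ℂ) • fun (j : Fin 8) (B : Fin dm) =>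
        ((fderiv ℝ χ w (EuclideanSpace.single (j, B) 1) : ℝ) : ℂ) • v := by
    funext j B
    show pf j B (fun w => ((χ w * g w : ℝ) : ℂ) • v) w = ((χ w : ℝ) : ℂ) • pf j B (fun w => ((g w : ℝ) : ℂ) • v) w +
      ((g w : ℝ) : ℂ) • ((fderiv ℝ χ w (EuclideanSpace.single (j, B) 1) : ℝ) : ℂ) • v
    rw [ug977_pf_real ((hχ w).fun_mul (hg w)), ug977_pf_real (hg w), fderiv_fun_mul (hχ w) (hg w), smul_smul,
      smul_smul, ← add_smul]
    congr 1
    simp only [_root_.add_apply, _root_.smul_apply, smul_eq_mul]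
    push_cast
    ring
  have h2 : ((χ w * g w : ℝ) : ℂ) • v = ((χ w : ℝ) : ℂ) • ((g w : ℝ) : ℂ) • v := by
    rw [smul_smul]
    push_cast
    rfl
  rw [ug977_q1, h1, h2, map_add, map_smul, map_smul, map_smul]
  rw [ug977_q1] at h0
  have h3 := congrArg (fun x => ((χ w : ℝ) : ℂ) • x) h0
  simp only [smul_add, smul_zero] at h3
  rw [add_right_comm, h3, zero_add]

/-! ### cutoffs -/

lemma ug977_cut (dm : ℕ) : ∃ (χ : ℕ → Wsp dm → ℝ) (K : ℝ), 0 ≤ K ∧ (∀ n, ContDiff ℝ ∞ (χ n)) ∧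
    (∀ n, HasCompactSupport (χ n)) ∧ (∀ n w, 0 ≤ χ n w) ∧ (∀ n w, χ n w ≤ 1) ∧
    (∀ w, Tendsto (fun n => χ n w) atTop (𝓝 1)) ∧
    ∀ n w (j : Fin 8) (B : Fin dm), |fderiv ℝ (χ n) w (EuclideanSpace.single (j, B) 1)| ≤ K / ((n : ℝ) + 1) := by
  set b : ContDiffBump (0 : Wsp dm) := ⟨1, 2, one_pos, one_lt_two⟩ with hb
  have hbc : ContDiff ℝ ∞ (b : Wsp dm → ℝ) := b.contDiff
  have hfc : Continuous (fderiv ℝ (b : Wsp dm → ℝ)) := hbc.continuous_fderiv (by simp)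
  obtain ⟨K, hK⟩ := hfc.bounded_above_of_compact_support (b.hasCompactSupport.fderiv ℝ)
  have hK0 : 0 ≤ K := (norm_nonneg _).trans (hK 0)
  have hpos : ∀ n : ℕ, (0 : ℝ) < (n : ℝ) + 1 := fun n => by positivity
  refine ⟨fun n w => b (((n : ℝ) + 1)⁻¹ • w), K, hK0, fun n => ?_, fun n => ?_, fun n w => b.nonneg,
    fun n w => b.le_one, fun w => ?_, fun n w j B => ?_⟩
  · exact hbc.comp (contDiff_const_smul _)
  · exact b.hasCompactSupport.comp_smul (inv_ne_zero (hpos n).ne')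
  · refine tendsto_const_nhds.congr' ?_
    obtain ⟨N, hN⟩ := exists_nat_ge ‖w‖
    filter_upwards [eventually_ge_atTop N] with n hn
    symm
    refine b.one_of_mem_closedBall ?_
    rw [mem_closedBall_zero_iff, norm_smul, norm_inv, Real.norm_of_nonneg (hpos n).le]
    show ((n : ℝ) + 1)⁻¹ * ‖w‖ ≤ 1
    rw [inv_mul_le_iff₀ (hpos n)]
    have : (N : ℝ) ≤ n := by exact_mod_cast hn
    linarith
  · rw [fderiv_comp_smul, _root_.smul_apply, smul_eq_mul, abs_mul, abs_of_pos (inv_pos.2 (hpos n)),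
      div_eq_inv_mul]
    refine mul_le_mul_of_nonneg_left ?_ (inv_pos.2 (hpos n)).le
    have h1 := (fderiv ℝ (b : Wsp dm → ℝ) (((n : ℝ) + 1)⁻¹ • w)).le_opNorm (EuclideanSpace.single (j, B) 1)
    rw [Real.norm_eq_abs] at h1
    refine h1.trans ?_
    have h2 : ‖(EuclideanSpace.single (j, B) (1 : ℝ) : Wsp dm)‖ = 1 := by simp
    rw [h2, mul_one]
    exact hK _

/-! ### removing the vacuum part -/

omit [InnerProductSpace ℂ F] in
lemma ug977_two_sub {f g : Wsp dm → F} (hf : Ug977L f) (hg : Ug977L g) :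
    nsf (fun w => f w - g w) ≤ 2 * nsf f + 2 * nsf g := by
  have h1 := ug977_two hf (ug977_neg hg)
  have h2 : nsf (fun w => -g w) = nsf g := by
    unfold nsf
    simp only [norm_neg]
  rw [h2] at h1
  simpa only [sub_eq_add_neg] using h1

lemma ug977_e1_nonneg (S : Setup d F) (φ : Spl dh dm d) (D : Fin 9 → Matrix (Fin dm) (Fin dm) ℝ)
    (f : Wsp dm → F) : 0 ≤ S.e1 φ D f := by
  unfold Setup.e1
  exact mul_nonneg (by norm_num) (Finset.sum_nonneg fun β _ => fib_nsf_nonneg _)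

lemma ug977_e1_sub (S : Setup d F) (φ : Spl dh dm d) (D : Fin 9 → Matrix (Fin dm) (Fin dm) ℝ)
    {f g : Wsp dm → F} (hf : FT f) (hg : FT g) :
    S.e1 φ D (fun w => f w - g w) ≤ 2 * S.e1 φ D f + 2 * S.e1 φ D g := by
  have h1 : ∀ β, nsf (S.q1 φ D β (fun w => f w - g w)) ≤
      2 * nsf (S.q1 φ D β f) + 2 * nsf (S.q1 φ D β g) := by
    intro β
    have e : S.q1 φ D β (fun w => f w - g w) = fun w => S.q1 φ D β f w - S.q1 φ D β g w :=
      funext fun w => ug977_q1_sub S φ D β hf hg w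
    rw [e]
    exact ug977_two_sub (ug977_ft_int (fib_q1_cont S φ D β hf) (fib_q1_supp S φ D β hf))
      (ug977_ft_int (fib_q1_cont S φ D β hg) (fib_q1_supp S φ D β hg))
  have h2 : ∑ β, nsf (S.q1 φ D β (fun w => f w - g w)) ≤
      ∑ β, (2 * nsf (S.q1 φ D β f) + 2 * nsf (S.q1 φ D β g)) := Finset.sum_le_sum fun β _ => h1 β
  rw [Finset.sum_add_distrib, ← Finset.mul_sum, ← Finset.mul_sum] at h2
  unfold Setup.e1
  linarith

lemma ug977_step (S : Setup d F) (φ : Spl dh dm d) [FiniteDimensional ℂ F] (hV : VacQ1Stmt S φ)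
    (hD : Frz D) (hOm : IsOm S.κ D Om) (hG : Ug977G D Om) {R A : ℝ} (hR : 0 < R) (hA : 0 ≤ A)
    (H : ∀ h : Wsp dm → F, FT h → R * nsf h ≤ A * S.e1 φ D h + 6 * R * nsf (S.PR φ D Om 1 h))
    {f : Wsp dm → F} (hf : FT f) :
    R * nsf (fun w => f w - S.PR φ D Om 1 f w) ≤ 4 * A * S.e1 φ D f := by
  obtain ⟨χ, K, hK, hχc, hχs, hχ0, hχ1, hχt, hχd⟩ := ug977_cut dm
  set g : Wsp dm → ℝ := gR D Om 1 with hg
  have hgc : ContDiff ℝ ∞ g := ug977_g_smooth hG 1
  have hgi : Integrable fun w => g w ^ 2 := ug977_g_int hG one_pos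
  set Z : ℝ := ∫ w, g w ^ 2 with hZ
  have hZ0 : 0 < Z := ug977_g_pos hG one_pos
  set Pr := (S.F0 φ D Om).starProjection with hPr
  set v0 : F := ((Z : ℝ) : ℂ)⁻¹ • Pr (∫ w', ((g w' : ℝ) : ℂ) • f w') with hv0
  have hv0F : v0 ∈ S.F0 φ D Om := Submodule.smul_mem _ _ (Submodule.starProjection_apply_mem _ _)
  have hPv : Pr v0 = v0 := Submodule.starProjection_eq_self_iff.2 hv0F
  have hPRf : S.PR φ D Om 1 f = fun w => ((g w : ℝ) : ℂ) • v0 := ug977_PR S φ 1 f
  -- the truncated vacuum part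
  set u : ℕ → Wsp dm → F := fun n w => ((χ n w * g w : ℝ) : ℂ) • v0 with hu
  have huT : ∀ n, FT (u n) := by
    intro n
    refine ⟨?_, ?_⟩
    · exact (Complex.ofRealCLM.contDiff.comp ((hχc n).mul hgc)).smul contDiff_const
    · refine HasCompactSupport.intro (hχs n) fun w hw => ?_
      have : χ n w = 0 := image_eq_zero_of_notMem_tsupport hw
      show ((χ n w * g w : ℝ) : ℂ) • v0 = 0
      rw [this, zero_mul, Complex.ofReal_zero, zero_smul]
  have hhT : ∀ n, FT fun w => f w - u n w := fun n =>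
    ⟨hf.1.sub (huT n).1, hf.2.sub (huT n).2⟩
  have hgc' : Continuous g := hgc.continuous
  have hχc' : ∀ n, Continuous (χ n) := fun n => (hχc n).continuous
  -- (a) energy of the truncated vacuum part
  set E : ℕ → ℝ := fun n => (1 / 16) * ∑ β, Z * (‖ug977S S φ D β‖ * (K / ((n : ℝ) + 1) * ‖v0‖)) ^ 2 with hE
  have ha : ∀ n, S.e1 φ D (u n) ≤ E n := by
    intro n
    have h1 : ∀ β, nsf (S.q1 φ D β (u n)) ≤ Z * (‖ug977S S φ D β‖ * (K / ((n : ℝ) + 1) * ‖v0‖)) ^ 2 := by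
      intro β
      have h2 : ∀ w, ‖S.q1 φ D β (u n) w‖ ^ 2 ≤
          g w ^ 2 * (‖ug977S S φ D β‖ * (K / ((n : ℝ) + 1) * ‖v0‖)) ^ 2 := by
        intro w
        have h3 := hV D Om hD hOm v0 hv0F 1 β w
        simp only [one_mul] at h3
        have h4 := ug977_q1_cut S φ D β ((hχc n).differentiable (by simp)) (hgc.differentiable (by simp))
          v0 w h3
        rw [hu]
        simp only
        rw [h4, norm_smul, Complex.norm_real, mul_pow, Real.norm_eq_abs, sq_abs]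
        refine mul_le_mul_of_nonneg_left ?_ (sq_nonneg _)
        refine pow_le_pow_left₀ (norm_nonneg _) ?_ 2
        refine (ContinuousLinearMap.le_opNorm _ _).trans (mul_le_mul_of_nonneg_left ?_ (norm_nonneg _))
        have h5 : 0 ≤ K / ((n : ℝ) + 1) * ‖v0‖ := by positivity
        refine (pi_norm_le_iff_of_nonneg h5).2 fun j => (pi_norm_le_iff_of_nonneg h5).2 fun B => ?_
        rw [norm_smul, Complex.norm_real, Real.norm_eq_abs]
        exact mul_le_mul_of_nonneg_right (hχd n w j B) (norm_nonneg _)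
      unfold nsf
      rw [hZ, ← integral_mul_const]
      exact integral_mono_of_nonneg (Eventually.of_forall fun w => by positivity)
        (hgi.mul_const _) (Eventually.of_forall h2)
    show S.e1 φ D (u n) ≤ (1 / 16) * ∑ β, Z * (‖ug977S S φ D β‖ * (K / ((n : ℝ) + 1) * ‖v0‖)) ^ 2
    unfold Setup.e1
    exact mul_le_mul_of_nonneg_left (Finset.sum_le_sum fun β _ => h1 β) (by norm_num)
  -- (b) vacuum part of the remainder
  set I : ℕ → ℝ := fun n => ∫ w, χ n w * g w ^ 2 with hI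
  have hb : ∀ n, nsf (S.PR φ D Om 1 fun w => f w - u n w) = Z * ((1 - I n / Z) ^ 2 * ‖v0‖ ^ 2) := by
    intro n
    have h1 : Integrable fun w => ((g w : ℝ) : ℂ) • f w := by
      refine Continuous.integrable_of_hasCompactSupport
        ((Complex.continuous_ofReal.comp hgc').smul hf.1.continuous) ?_
      refine HasCompactSupport.intro hf.2 fun w hw => ?_
      rw [image_eq_zero_of_notMem_tsupport hw, smul_zero]
    have h2 : Integrable fun w => ((g w : ℝ) : ℂ) • u n w := by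
      refine Continuous.integrable_of_hasCompactSupport
        ((Complex.continuous_ofReal.comp hgc').smul (huT n).1.continuous) ?_
      refine HasCompactSupport.intro (huT n).2 fun w hw => ?_
      rw [image_eq_zero_of_notMem_tsupport hw, smul_zero]
    have h3 : ∫ w, ((g w : ℝ) : ℂ) • u n w = ((I n : ℝ) : ℂ) • v0 := by
      have h4 : ∀ w, ((g w : ℝ) : ℂ) • u n w = (χ n w * g w ^ 2) • v0 := by
        intro w
        show ((g w : ℝ) : ℂ) • (((χ n w * g w : ℝ) : ℂ) • v0) = (χ n w * g w ^ 2) • v0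
        rw [smul_smul, ← Complex.ofReal_mul, Complex.coe_smul]
        congr 1
        ring
      simp only [h4]
      rw [integral_smul_const, Complex.coe_smul]
    have h5 : ∫ w, ((g w : ℝ) : ℂ) • (f w - u n w) =
        (∫ w, ((g w : ℝ) : ℂ) • f w) - ((I n : ℝ) : ℂ) • v0 := by
      rw [← h3, ← integral_sub h1 h2]
      simp only [smul_sub]
    have h6 : (S.PR φ D Om 1 fun w => f w - u n w) =
        fun w => ((g w : ℝ) : ℂ) • (((1 - I n / Z : ℝ) : ℂ) • v0) := by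
      rw [ug977_PR S φ 1]
      funext w
      show ((g w : ℝ) : ℂ) • (((Z : ℝ) : ℂ)⁻¹ • Pr (∫ w', ((g w' : ℝ) : ℂ) • (f w' - u n w'))) = _
      rw [h5, map_sub, map_smul, hPv, smul_sub, ← hv0, smul_smul]
      congr 1
      push_cast
      rw [sub_smul, one_smul, div_eq_inv_mul]
    rw [h6, ug977_nsf_gv, norm_smul, Complex.norm_real, mul_pow, Real.norm_eq_abs, sq_abs]
  -- (c) comparison
  set J : ℕ → ℝ := fun n => ∫ w, ((1 - χ n w) * g w) ^ 2 with hJ
  have hJi : ∀ n, Integrable fun w => ((1 - χ n w) * g w) ^ 2 := by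
    intro n
    refine hgi.mono' ((((continuous_const.sub (hχc' n)).mul hgc').pow 2).aestronglyMeasurable)
      (Eventually.of_forall fun w => ?_)
    rw [Real.norm_eq_abs, abs_of_nonneg (sq_nonneg _), mul_pow]
    have h1 : (1 - χ n w) ^ 2 ≤ 1 := by nlinarith [hχ0 n w, hχ1 n w]
    nlinarith [sq_nonneg (g w)]
  have hc : ∀ n, nsf (fun w => f w - S.PR φ D Om 1 f w) ≤
      2 * nsf (fun w => f w - u n w) + 2 * (J n * ‖v0‖ ^ 2) := by
    intro n
    have h1 : (fun w => f w - S.PR φ D Om 1 f w) =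
        fun w => (f w - u n w) - (((1 - χ n w) * g w : ℝ) : ℂ) • v0 := by
      funext w
      rw [hPRf]
      show f w - ((g w : ℝ) : ℂ) • v0 =
        (f w - ((χ n w * g w : ℝ) : ℂ) • v0) - (((1 - χ n w) * g w : ℝ) : ℂ) • v0
      rw [sub_sub, ← add_smul]
      congr 2
      push_cast
      ring
    rw [h1]
    have h2 := ug977_nsf_gv (fun w => (1 - χ n w) * g w) v0
    have h3 : Ug977L fun w => (((1 - χ n w) * g w : ℝ) : ℂ) • v0 :=
      ug977_gv (g := fun w => (1 - χ n w) * g w) ((continuous_const.sub (hχc' n)).mul hgc') (hJi n) v0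
    refine (ug977_two_sub (ug977_ft (hhT n)) h3).trans ?_
    rw [h2]
  -- limits
  have hlI : Tendsto I atTop (𝓝 Z) := by
    refine tendsto_integral_of_dominated_convergence (fun w => g w ^ 2)
      (fun n => ((hχc' n).mul (hgc'.pow 2)).aestronglyMeasurable) hgi
      (fun n => Eventually.of_forall fun w => ?_) (Eventually.of_forall fun w => ?_)
    · rw [Real.norm_eq_abs, abs_of_nonneg (mul_nonneg (hχ0 n w) (sq_nonneg _))]
      nlinarith [sq_nonneg (g w), hχ1 n w]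
    · simpa using (hχt w).mul_const (g w ^ 2)
  have hlJ : Tendsto J atTop (𝓝 0) := by
    have h0 : (0 : ℝ) = ∫ _ : Wsp dm, (0 : ℝ) := by simp
    rw [h0]
    refine tendsto_integral_of_dominated_convergence (fun w => g w ^ 2)
      (fun n => (hJi n).aestronglyMeasurable) hgi
      (fun n => Eventually.of_forall fun w => ?_) (Eventually.of_forall fun w => ?_)
    · rw [Real.norm_eq_abs, abs_of_nonneg (sq_nonneg _), mul_pow]
      have h1 : (1 - χ n w) ^ 2 ≤ 1 := by nlinarith [hχ0 n w, hχ1 n w]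
      nlinarith [sq_nonneg (g w)]
    · have h1 : Tendsto (fun n => ((1 - χ n w) * g w) ^ 2) atTop (𝓝 (((1 - 1) * g w) ^ 2)) :=
        (((tendsto_const_nhds.sub (hχt w)).mul_const (g w)).pow 2)
      simpa using h1
  have hlE : Tendsto E atTop (𝓝 0) := by
    have h0 : Tendsto (fun n : ℕ => K / ((n : ℝ) + 1)) atTop (𝓝 0) :=
      tendsto_const_nhds.div_atTop (tendsto_natCast_atTop_atTop.atTop_add tendsto_const_nhds)
    have h1 : Tendsto E atTop (𝓝 ((1 / 16) * ∑ β : Fin 16, Z * (‖ug977S S φ D β‖ * (0 * ‖v0‖)) ^ 2)) := by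
      refine Tendsto.const_mul _ (tendsto_finsetSum _ fun β _ => Tendsto.const_mul _ ?_)
      exact ((h0.mul_const _).const_mul _).pow 2
    simpa using h1
  -- conclusion
  have hfin : ∀ n, R * nsf (fun w => f w - S.PR φ D Om 1 f w) ≤
      4 * A * S.e1 φ D f + (4 * A * E n + 12 * R * (Z * ((1 - I n / Z) ^ 2 * ‖v0‖ ^ 2)) +
        2 * R * (J n * ‖v0‖ ^ 2)) := by
    intro n
    have h1 := mul_le_mul_of_nonneg_left (hc n) hR.le
    have h2 := H _ (hhT n)
    rw [hb n] at h2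
    have h3 := ug977_e1_sub S φ D hf (huT n)
    have h4 := mul_le_mul_of_nonneg_left (h3.trans (add_le_add le_rfl
      (mul_le_mul_of_nonneg_left (ha n) (by norm_num : (0 : ℝ) ≤ 2)))) hA
    nlinarith [h1, h2, h4]
  have hlim : Tendsto (fun n => 4 * A * S.e1 φ D f + (4 * A * E n +
      12 * R * (Z * ((1 - I n / Z) ^ 2 * ‖v0‖ ^ 2)) + 2 * R * (J n * ‖v0‖ ^ 2))) atTop
      (𝓝 (4 * A * S.e1 φ D f + (4 * A * 0 + 12 * R * (Z * ((1 - Z / Z) ^ 2 * ‖v0‖ ^ 2)) +
        2 * R * (0 * ‖v0‖ ^ 2)))) := by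
    refine tendsto_const_nhds.add (((hlE.const_mul _).add ?_).add ((hlJ.mul_const _).const_mul _))
    exact ((((tendsto_const_nhds.sub (hlI.div_const Z)).pow 2).mul_const _).const_mul _).const_mul _
  have := ge_of_tendsto' hlim hfin
  rw [div_self hZ0.ne'] at this
  simpa using this

/-! ### the gap at central points -/

lemma ug977_cmb_sub (ψ : Spl r ds dh) (y y₀ : Cfg r) (R : ℝ) :
    cmb ψ y 0 - R • cmb ψ y₀ 0 = cmb ψ (y - R • y₀) 0 := by
  ext p
  simp only [cmb, PiLp.sub_apply, PiLp.smul_apply, smul_eq_mul]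
  rcases ψ.symm p.2 with a | b
  · simp only [Sum.elim_inl]
  · simp only [Sum.elim_inr, PiLp.zero_apply, mul_zero, sub_zero]

lemma ug977_cmb_norm (ψ : Spl r ds dh) (y : Cfg r) : ‖cmb ψ y 0‖ = ‖y‖ := by
  have h1 : ‖cmb ψ y 0‖ ^ 2 = ‖y‖ ^ 2 := by
    rw [EuclideanSpace.norm_sq_eq, EuclideanSpace.norm_sq_eq, Fintype.sum_prod_type,
      Fintype.sum_prod_type]
    refine Finset.sum_congr rfl fun i _ => ?_
    rw [← ψ.sum_comp, Fintype.sum_sum_type]
    simp [cmb]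
  exact (sq_eq_sq₀ (norm_nonneg _) (norm_nonneg _)).1 h1

/-- **E-UGapC** the gap of the fibre operator at central points near the ray through `y₀` -/
theorem ugapC (S : Setup d F) (φ : Spl dh dm d) (ψ : Spl r ds dh) (hF : FibStmt S φ) (hM : MzStmt S φ ψ)
    (hP : PrCStmt S φ ψ) (hV : VacQ1Stmt S φ) : UGapCStmt S φ ψ := by
  intro hfd hsub hcen U Om V K hVFr y₀ hy₀
  obtain ⟨hFrz, M, -, -, hMq, -, -, hMpos⟩ := hM hsub hcen U Om V K hVFr
  have hG : ∀ y ∈ U, Ug977G (S.Dz φ ψ y) (Om y) := fun y hy => ⟨M y, hMq y hy, hMpos y hy⟩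
  obtain ⟨c0, C1, ε0, hc0, hC1, hε0, H⟩ := hF hfd (S.Dz φ ψ y₀) (Om y₀) (hFrz y₀ hy₀) (hVFr.om y₀ hy₀)
  obtain ⟨ε1, hε1, H1⟩ := hP hfd hsub hcen U Om V K hVFr y₀ hy₀ (1 / 12) (by norm_num)
  obtain ⟨ρ, hρ, hball⟩ := Metric.isOpen_iff.1 hVFr.opn y₀ hy₀
  have hk := AN.foK_pos S φ
  set k : ℝ := AN.foK S φ with hkd
  set η : ℝ := min ε0 (Real.sqrt (c0 / (12 * C1))) with hη
  have hη0 : 0 < η := lt_min hε0 (Real.sqrt_pos.2 (by positivity))
  have hη2 : 12 * C1 * η ^ 2 ≤ c0 := by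
    have h1 : η ≤ Real.sqrt (c0 / (12 * C1)) := min_le_right _ _
    have h2 : η ^ 2 ≤ c0 / (12 * C1) := by
      calc η ^ 2 ≤ Real.sqrt (c0 / (12 * C1)) ^ 2 := pow_le_pow_left₀ hη0.le h1 2
        _ = _ := Real.sq_sqrt (by positivity)
    calc 12 * C1 * η ^ 2 ≤ 12 * C1 * (c0 / (12 * C1)) := by gcongr
      _ = c0 := by field_simp
  refine ⟨min (min ε1 (ρ / 2)) (η / k), 4 * (6 / c0), by positivity, by positivity, ?_⟩
  intro R hR y hy f hf
  have hy1 : ‖y - R • y₀‖ ≤ ε1 * R := hy.trans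
    (mul_le_mul_of_nonneg_right ((min_le_left _ _).trans (min_le_left _ _)) hR.le)
  have hy2 : ‖y - R • y₀‖ ≤ ρ / 2 * R := hy.trans
    (mul_le_mul_of_nonneg_right ((min_le_left _ _).trans (min_le_right _ _)) hR.le)
  have hy3 : ‖y - R • y₀‖ ≤ η / k * R := hy.trans
    (mul_le_mul_of_nonneg_right (min_le_right _ _) hR.le)
  have hyU : y ∈ U := by
    have h1 : R⁻¹ • y ∈ U := by
      refine hball ?_
      rw [Metric.mem_ball, dist_eq_norm]
      have h2 : R⁻¹ • y - y₀ = R⁻¹ • (y - R • y₀) := by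
        rw [smul_sub, smul_smul, inv_mul_cancel₀ hR.ne', one_smul]
      rw [h2, norm_smul, norm_inv, Real.norm_of_nonneg hR.le, inv_mul_lt_iff₀ hR]
      nlinarith
    have h3 := hVFr.cone _ h1 R hR
    rwa [smul_smul, mul_inv_cancel₀ hR.ne', one_smul] at h3
  have hnear : ∀ i A B, |S.Dz φ ψ y i A B - R * S.Dz φ ψ y₀ i A B| ≤ η * R := by
    intro i A B
    have h1 : ‖cmb ψ y 0 - R • cmb ψ y₀ 0‖ ≤ η / k * R := by
      rw [ug977_cmb_sub, ug977_cmb_norm]
      exact hy3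
    have h2 := AN.fo_near S φ (cmb ψ y 0) (cmb ψ y₀ 0) h1 i A B
    rw [← hkd] at h2
    have h3 : k * (η / k) * R = η * R := by field_simp
    rw [h3] at h2
    exact h2
  obtain ⟨-, H2⟩ := H R hR η hη0.le (min_le_left _ _) (S.Dz φ ψ y) hnear
  refine ug977_step S φ hV (hFrz y hyU) (hVFr.om y hyU) (hG y hyU) hR (by positivity) ?_ hf
  intro h hh
  have h1 := (H2 h hh).2.1
  have h2 := H1 R hR y hy1 h hh
  have hLh : Ug977L h := ug977_ft hh
  have hL0 : Ug977L (S.PR φ (S.Dz φ ψ y₀) (Om y₀) R h) := by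
    rw [ug977_PR]
    exact ug977_gv (ug977_g_smooth (hG y₀ hy₀) R).continuous (ug977_g_int (hG y₀ hy₀) hR) _
  have hLy : Ug977L (S.PR φ (S.Dz φ ψ y) (Om y) 1 h) := by
    rw [ug977_PR]
    exact ug977_gv (ug977_g_smooth (hG y hyU) 1).continuous (ug977_g_int (hG y hyU) one_pos) _
  have h3 := ug977_three (ug977_sub hLh hL0) (ug977_sub hL0 hLy) hLy
  have e1 : (fun w => h w - S.PR φ (S.Dz φ ψ y₀) (Om y₀) R h w +
      (S.PR φ (S.Dz φ ψ y₀) (Om y₀) R h w - S.PR φ (S.Dz φ ψ y) (Om y) 1 h w) +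
      S.PR φ (S.Dz φ ψ y) (Om y) 1 h w) = h := by
    funext w
    abel
  have e2 : nsf (fun w => S.PR φ (S.Dz φ ψ y₀) (Om y₀) R h w - S.PR φ (S.Dz φ ψ y) (Om y) 1 h w) =
      nsf (fun w => S.PR φ (S.Dz φ ψ y) (Om y) 1 h w - S.PR φ (S.Dz φ ψ y₀) (Om y₀) R h w) := by
    unfold nsf
    simp only [norm_sub_rev]
  rw [e1, e2] at h3
  have hn : 0 ≤ nsf h := fib_nsf_nonneg h
  have he : 0 ≤ S.e1 φ (S.Dz φ ψ y) h := ug977_e1_nonneg S φ _ h
  set a := nsf (fun w => h w - S.PR φ (S.Dz φ ψ y₀) (Om y₀) R h w) with ha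
  set b := nsf (fun w => S.PR φ (S.Dz φ ψ y) (Om y) 1 h w - S.PR φ (S.Dz φ ψ y₀) (Om y₀) R h w) with hb
  set p := nsf (S.PR φ (S.Dz φ ψ y) (Om y) 1 h) with hp
  set e := S.e1 φ (S.Dz φ ψ y) h with hed
  set N := nsf h with hN
  have h4 : 3 * (R * a) ≤ 3 / c0 * e + 1 / 4 * (R * N) := by
    have h5 : c0 * (R * a) ≤ e + C1 * η ^ 2 * (R * N) := by nlinarith [h1]
    have h6 : C1 * η ^ 2 * (R * N) ≤ c0 / 12 * (R * N) :=
      mul_le_mul_of_nonneg_right (by linarith) (by positivity)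
    have h7 : R * a ≤ (e + c0 / 12 * (R * N)) / c0 := by
      rw [le_div_iff₀ hc0]
      linarith
    calc 3 * (R * a) ≤ 3 * ((e + c0 / 12 * (R * N)) / c0) := by linarith
      _ = _ := by field_simp; ring
  have h8 : R * b ≤ R * (1 / 12 * N) := mul_le_mul_of_nonneg_left h2 hR.le
  have h9 : R * N ≤ R * (3 * a + 3 * b + 3 * p) := mul_le_mul_of_nonneg_left h3 hR.le
  have h10 : 6 / c0 * e = 2 * (3 / c0 * e) := by ring
  rw [h10]
  nlinarith [h4, h8, h9]

end Vale.Agent.P353.Z.AE
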