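import Vale.Agent.P353.AN.E.Stmt

/-! # P353, all `N`, block E: Wick formulas in the fermionic vacuum (task E-Wick) -/

open Matrix

namespace Vale.Agent.P353.Z.AE

variable {d dh dm : ℕ} {F : Type*} [NormedAddCommGroup F] [InnerProductSpace ℂ F]

private lemma wick_Lth (S : Setup d F) (φ : Spl dh dm d) (D : Fin 9 → Matrix (Fin dm) (Fin dm) ℝ)
    (Om : Matrix (Fin dm) (Fin dm) ℝ) (p : Fin 16 × Fin dm) (u : F) :
    S.Lth φ D Om p u = ∑ q : Fin 16 × Fin dm, S.Lam D Om p q • S.th q.1 (φ (Sum.inr q.2)) u := by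
  simp only [Setup.Lth, _root_.sum_apply, _root_.smul_apply]

private lemma wick_anti (S : Setup d F) (φ : Spl dh dm d) (p q : Fin 16 × Fin dm) (u : F) :
    S.th p.1 (φ (Sum.inr p.2)) (S.th q.1 (φ (Sum.inr q.2)) u) =
      (if p = q then (1 : ℂ) else 0) • u - S.th q.1 (φ (Sum.inr q.2)) (S.th p.1 (φ (Sum.inr p.2)) u) := by
  have h := S.th_anti p.1 (φ (Sum.inr p.2)) q.1 (φ (Sum.inr q.2))
  have h2 := congrArg (fun T : F →L[ℂ] F => T u) h
  have h3 : (p.1 = q.1 ∧ φ (Sum.inr p.2) = φ (Sum.inr q.2)) ↔ p = q := by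
    rw [φ.injective.eq_iff, Sum.inr.injEq, Prod.ext_iff]
  rw [eq_sub_iff_add_eq]
  refine (show _ = _ from h2).trans ?_
  by_cases hpq : p = q
  · rw [if_pos (h3.2 hpq), if_pos hpq, one_smul]; rfl
  · rw [if_neg (fun h => hpq (h3.1 h)), if_neg hpq, zero_smul]; rfl

/-- `(Λθ)_p θ_q u = Λ_{pq} u - θ_q (Λθ)_p u` -/
private lemma wick_comm (S : Setup d F) (φ : Spl dh dm d) (D : Fin 9 → Matrix (Fin dm) (Fin dm) ℝ)
    (Om : Matrix (Fin dm) (Fin dm) ℝ) (p q : Fin 16 × Fin dm) (u : F) :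
    S.Lth φ D Om p (S.th q.1 (φ (Sum.inr q.2)) u) =
      S.Lam D Om p q • u - S.th q.1 (φ (Sum.inr q.2)) (S.Lth φ D Om p u) := by
  rw [wick_Lth, wick_Lth, map_sum]
  simp only [map_smul]
  have h1 : ∀ r : Fin 16 × Fin dm, S.Lam D Om p r • S.th r.1 (φ (Sum.inr r.2)) (S.th q.1 (φ (Sum.inr q.2)) u) =
      (S.Lam D Om p r * (if r = q then (1 : ℂ) else 0)) • u -
        S.Lam D Om p r • S.th q.1 (φ (Sum.inr q.2)) (S.th r.1 (φ (Sum.inr r.2)) u) := by
    intro r
    rw [wick_anti, smul_sub, smul_smul]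
  rw [Finset.sum_congr rfl fun r _ => h1 r, Finset.sum_sub_distrib, ← Finset.sum_smul]
  congr 2
  simp

private lemma wick_conj (S : Setup d F) (D : Fin 9 → Matrix (Fin dm) (Fin dm) ℝ)
    (Om : Matrix (Fin dm) (Fin dm) ℝ) (p q : Fin 16 × Fin dm) :
    S.Lam D Om p q + (starRingEnd ℂ) (S.Lam D Om p q) = if p.1 = q.1 then ((Om p.2 q.2 : ℝ) : ℂ) else 0 := by
  have hg : ∀ i, (starRingEnd ℂ) (S.g i p.1 q.1) = S.g i p.1 q.1 := fun i => Complex.conj_eq_iff_im.2 (S.g_real i _ _)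
  have hP : (starRingEnd ℂ) (S.PP D p q) = S.PP D p q := by
    simp only [Setup.PP, Matrix.of_apply, map_mul, map_sum, Complex.conj_ofReal, hg]
  simp only [Setup.Lam, Matrix.of_apply, map_mul, map_sub, hP, Complex.conj_I]
  have h2 : (starRingEnd ℂ) (1 / 2 : ℂ) = 1 / 2 := by
    rw [map_div₀, map_one, map_ofNat]
  rw [h2]
  split_ifs
  · rw [Complex.conj_ofReal]; ring
  · rw [map_zero]; ring

/-- the general one-step reduction -/
private lemma wick_red (S : Setup d F) (φ : Spl dh dm d) (D : Fin 9 → Matrix (Fin dm) (Fin dm) ℝ)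
    (Om : Matrix (Fin dm) (Fin dm) ℝ) (hOm : Om.det ≠ 0) {v' : F} (hv' : v' ∈ S.F0 φ D Om)
    (p : Fin 16 × Fin dm) (u : F) :
    inner ℂ v' (S.th p.1 (φ (Sum.inr p.2)) u) =
      ∑ B, ((Om⁻¹ p.2 B : ℝ) : ℂ) * inner ℂ v' (S.Lth φ D Om (p.1, B) u) := by
  have h1 : ∀ p : Fin 16 × Fin dm, ∑ q : Fin 16 × Fin dm, (starRingEnd ℂ) (S.Lam D Om p q) *
      inner ℂ v' (S.th q.1 (φ (Sum.inr q.2)) u) = 0 := by
    intro p
    have h2 : inner ℂ (S.Lth φ D Om p v') u = 0 := by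
      rw [show S.Lth φ D Om p v' = 0 from hv' p, inner_zero_left]
    rw [wick_Lth, sum_inner] at h2
    rw [← h2]
    refine Finset.sum_congr rfl fun q _ => ?_
    rw [inner_smul_left, S.th_sa]
  have h3 : ∀ p : Fin 16 × Fin dm, inner ℂ v' (S.Lth φ D Om p u) =
      ∑ C, ((Om p.2 C : ℝ) : ℂ) * inner ℂ v' (S.th p.1 (φ (Sum.inr C)) u) := by
    intro p
    have h4 : inner ℂ v' (S.Lth φ D Om p u) = ∑ q : Fin 16 × Fin dm,
        (S.Lam D Om p q + (starRingEnd ℂ) (S.Lam D Om p q)) * inner ℂ v' (S.th q.1 (φ (Sum.inr q.2)) u) := by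
      simp only [add_mul, Finset.sum_add_distrib, h1 p, add_zero]
      rw [wick_Lth, inner_sum]
      exact Finset.sum_congr rfl fun q _ => by rw [inner_smul_right]
    rw [h4]
    simp only [wick_conj]
    rw [Fintype.sum_prod_type]
    rw [Finset.sum_eq_single p.1]
    · simp
    · intro b _ hb
      refine Finset.sum_eq_zero fun C _ => ?_
      rw [if_neg (by simpa using fun h => hb h.symm), zero_mul]
    · intro h; exact absurd (Finset.mem_univ _) h
  have h5 : (Om⁻¹ * Om) = 1 := Matrix.nonsing_inv_mul _ (isUnit_iff_ne_zero.2 hOm)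
  simp only [h3, Finset.mul_sum]
  rw [Finset.sum_comm]
  have h6 : ∀ C, ∑ B, ((Om⁻¹ p.2 B : ℝ) : ℂ) * (((Om B C : ℝ) : ℂ) * inner ℂ v' (S.th p.1 (φ (Sum.inr C)) u)) =
      (if p.2 = C then (1 : ℂ) else 0) * inner ℂ v' (S.th p.1 (φ (Sum.inr C)) u) := by
    intro C
    have h7 : ∑ B, ((Om⁻¹ p.2 B : ℝ) : ℂ) * ((Om B C : ℝ) : ℂ) = (if p.2 = C then (1 : ℂ) else 0) := by
      have h8 := congrFun (congrFun h5 p.2) C
      rw [Matrix.mul_apply, Matrix.one_apply] at h8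
      rw [← Complex.ofReal_one, ← Complex.ofReal_zero, ← apply_ite Complex.ofReal, ← h8]
      push_cast
      rfl
    rw [← h7, Finset.sum_mul]
    exact Finset.sum_congr rfl fun B _ => by ring
  rw [Finset.sum_congr rfl fun C _ => h6 C]
  simp

/-- **E-Wick** -/
theorem wick (S : Setup d F) (φ : Spl dh dm d) : WickStmt S φ := by
  intro D Om _ hOm v hv v' hv' p q t
  have hdet : Om.det ≠ 0 := by
    intro h0
    obtain ⟨w, hw, hw0⟩ := Matrix.exists_mulVec_eq_zero_iff.2 h0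
    have := hOm.pos w hw
    rw [hw0, dotProduct_zero] at this
    exact lt_irrefl _ this
  have hL : ∀ r, S.Lth φ D Om r v = 0 := hv
  have h1 : ∀ p : Fin 16 × Fin dm, inner ℂ v' (S.th p.1 (φ (Sum.inr p.2)) v) = 0 := by
    intro p
    rw [wick_red S φ D Om hdet hv' p v]
    exact Finset.sum_eq_zero fun B _ => by rw [hL, inner_zero_right, mul_zero]
  refine ⟨h1 p, ?_, ?_⟩
  · rw [wick_red S φ D Om hdet hv' p]
    simp only [wick_comm, hL, map_zero, sub_zero, inner_smul_right]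
    rw [← Finset.sum_congr rfl fun B _ => (mul_assoc _ _ _), ← Finset.sum_mul]
    congr 1
    simp only [Setup.Lam, Matrix.of_apply]
    have h5 : (Om⁻¹ * Om) = 1 := Matrix.nonsing_inv_mul _ (isUnit_iff_ne_zero.2 hdet)
    have h8 := congrFun (congrFun h5 p.2) q.2
    rw [Matrix.mul_apply, Matrix.one_apply] at h8
    have h7 : ∑ B, ((Om⁻¹ p.2 B : ℝ) : ℂ) * ((Om B q.2 : ℝ) : ℂ) = (if p.2 = q.2 then (1 : ℂ) else 0) := by
      rw [← Complex.ofReal_one, ← Complex.ofReal_zero, ← apply_ite Complex.ofReal, ← h8]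
      push_cast
      rfl
    have h9 : (if p = q then (1 : ℂ) else 0) = ∑ B, ((Om⁻¹ p.2 B : ℝ) : ℂ) * (if p.1 = q.1 then ((Om B q.2 : ℝ) : ℂ) else 0) := by
      by_cases h : p.1 = q.1
      · simp only [if_pos h, h7]
        by_cases h' : p.2 = q.2
        · rw [if_pos h', if_pos (Prod.ext h h')]
        · rw [if_neg h', if_neg (fun e => h' (congrArg Prod.snd e))]
      · simp only [if_neg h, mul_zero, Finset.sum_const_zero]
        rw [if_neg (fun e => h (congrArg Prod.fst e))]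
    rw [h9, Finset.mul_sum, mul_sub, Finset.mul_sum, Finset.mul_sum, ← Finset.sum_sub_distrib]
    exact Finset.sum_congr rfl fun B _ => by ring
  · rw [wick_red S φ D Om hdet hv' p]
    refine Finset.sum_eq_zero fun B _ => ?_
    rw [wick_comm, wick_comm, hL, map_zero, sub_zero, map_smul, inner_sub_right, inner_smul_right,
      inner_smul_right, h1, h1, mul_zero, mul_zero, sub_zero, mul_zero]

end Vale.Agent.P353.Z.AE
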