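import Vale.Agent.P353.AN.E.StmtG
import Vale.Agent.P353.Z.U.App
import Vale.Agent.P353.Z.U.Small
import Vale.Agent.P353.Z.U.Coer

/-! # P353, all `N`, block E, global part: approximants for `K`-valued zero modes -/

open MeasureTheory Filter Topology Matrix
open scoped ContDiff

namespace Vale.Agent.P353.Z.AE

open Vale.Agent.P353.Z.Moll Vale.Agent.P353.Z.U Vale.Agent.P353.Z.U.InvL Vale.Agent.P353.Z.U.CoerZ

variable {ds : ℕ} {F : Type*} [NormedAddCommGroup F] [InnerProductSpace ℂ F]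

private lemma zm489_comm (T : Setup ds F) (K : Submodule ℂ F) [K.HasOrthogonalProjection]
    (hK : ∀ α A, ∀ v ∈ K, T.th α A v ∈ K) (α : Fin 16) (A : Fin ds) (v : F) :
    K.starProjection (T.th α A v) = T.th α A (K.starProjection v) := by
  refine Submodule.eq_starProjection_of_mem_orthogonal
    (hK α A _ (Submodule.starProjection_apply_mem _ _)) ?_
  rw [← map_sub, Submodule.mem_orthogonal]
  intro w hw
  rw [← T.th_sa]
  have h1 : v - K.starProjection v ∈ Kᗮ := Submodule.sub_starProjection_mem_orthogonal v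
  exact (Submodule.mem_orthogonal K _).1 h1 _ (hK α A w hw)

private lemma zm489_Q (T : Setup ds F) (X : F →L[ℂ] F) (hX : ∀ α A v, X (T.th α A v) = T.th α A (X v))
    {u : Cfg ds → F} (hu : Differentiable ℝ u) (β : Fin 16) (x : Cfg ds) :
    T.Q β (fun y => X (u y)) x = X (T.Q β u x) := by
  have hv : ∀ (N : Matrix (Fin 16) (Fin 16) ℂ) A β v, X (T.vec N A β v) = T.vec N A β (X v) := by
    intro N A β v
    simp only [CS.vec, _root_.sum_apply, _root_.smul_apply, map_sum, map_smul, hX]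
  have hp : ∀ i A, pd i A (fun y => X (u y)) x = X (pd i A u x) := by
    intro i A
    unfold pd
    have h1 : HasFDerivAt (fun y => X (u y)) ((X.restrictScalars ℝ).comp (fderiv ℝ u x)) x :=
      (X.restrictScalars ℝ).hasFDerivAt.comp x (hu x).hasFDerivAt
    rw [h1.fderiv]
    rfl
  simp only [Setup.Q, Setup.W, hp, map_add, map_smul, map_sum, hv, _root_.smul_apply,
    _root_.sum_apply]

private lemma zm489_grad [CompleteSpace F] (T : Setup ds F) {Φ : Cfg ds → F} (hΦ : Setup.Tst Φ) {ρ : ℝ}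
    (hρ : ∀ s, Φ s ≠ 0 → ‖s‖ ≤ ρ) :
    ∑ i, ∑ A, nsq (pd i A Φ) ≤ 1 / 8 * ∑ β, nsq (T.Q β Φ) + 2 * (CF T * ρ) * nsq Φ := by
  have h := energy_formula T Φ hΦ
  have hV : 0 ≤ ∫ x, T.V x * ‖Φ x‖ ^ 2 := by
    refine integral_nonneg fun x => mul_nonneg ?_ (sq_nonneg _)
    unfold Setup.V
    positivity
  have hC := CF_nonneg T
  have hF : |∫ x, (inner ℂ (Φ x) (T.Fx x (Φ x))).re| ≤ ∫ x, CF T * ρ * ‖Φ x‖ ^ 2 := by
    rw [← Real.norm_eq_abs]
    refine norm_integral_le_of_norm_le (hΦ.norm_sq_int.const_mul _) (Eventually.of_forall fun x => ?_)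
    rw [Real.norm_eq_abs]
    refine (Complex.abs_re_le_norm _).trans ((norm_inner_le_norm _ _).trans ?_)
    by_cases hx : Φ x = 0
    · simp [hx]
    · have h1 := ((T.Fx x).le_opNorm (Φ x)).trans (mul_le_mul_of_nonneg_right
        ((norm_Fx_le T x).trans (mul_le_mul_of_nonneg_left (hρ x hx) hC)) (norm_nonneg _))
      calc ‖Φ x‖ * ‖(T.Fx x) (Φ x)‖ ≤ ‖Φ x‖ * (CF T * ρ * ‖Φ x‖) :=
            mul_le_mul_of_nonneg_left h1 (norm_nonneg _)
        _ = _ := by ring
  rw [integral_const_mul] at hF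
  have h2 := neg_le_of_abs_le hF
  change (1 / 16 : ℝ) * ∑ β, nsq (T.Q β Φ) = (1 / 2) * (∑ i, ∑ A, nsq (pd i A Φ)) + _ + _ at h
  change _ ≤ _ + 2 * (CF T * ρ) * ∫ x, ‖Φ x‖ ^ 2
  linarith

/-- **EG-Zm** -/
theorem zmApp (T : Setup ds F) : ZmStmt T := by
  intro hfd K hK o hZM ho hoK
  have : CompleteSpace F := FiniteDimensional.complete ℂ F
  have : FiniteDimensional ℂ K := inferInstance
  refine ⟨ho, fun R hR hRlim => ?_⟩
  obtain ⟨u, hu, hL, hEn⟩ := hZM
  obtain ⟨Kc, hKc, hrc⟩ := exists_rc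
  have hR0 : ∀ n, 0 < R n := fun n => lt_of_lt_of_le one_pos (hR n)
  have hk : ∀ n, ∃ k, nsq (fun x => u k x - o x) ≤ 1 / R n ^ 4 ∧ AD.En T (u k) ≤ 1 / R n ^ 4 := by
    intro n
    have hp : 0 < 1 / R n ^ 4 := by
      have := hR0 n
      positivity
    exact ((hL.lim.eventually_le_const hp).and (hEn.eventually_le_const hp)).exists
  choose k hk1 hk2 using hk
  obtain ⟨t, ht⟩ : ∃ t : ℕ → ℝ, ∀ n, t n =
      ∫ x, (if Real.sqrt (R n) / 4 ≤ ‖x‖ then ‖o x‖ ^ 2 else 0) := ⟨_, fun _ => rfl⟩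
  have ht0 : ∀ n, 0 ≤ t n := fun n => by rw [ht]; exact tail_nonneg o _
  have htl : Tendsto t atTop (𝓝 0) := by
    have := (small_tail ho).comp (Real.tendsto_sqrt_atTop.comp hRlim)
    refine this.congr fun n => ?_
    rw [ht]
    rfl
  have hst : Tendsto (fun n => Real.sqrt (t n)) atTop (𝓝 0) := by
    have := (Real.continuous_sqrt.tendsto 0).comp htl
    rw [Real.sqrt_zero] at this
    exact this
  have hsst : Tendsto (fun n => Real.sqrt (Real.sqrt (t n))) atTop (𝓝 0) := by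
    have := (Real.continuous_sqrt.tendsto 0).comp hst
    rw [Real.sqrt_zero] at this
    exact this
  have hRi : Tendsto (fun n => 1 / R n) atTop (𝓝 0) := by
    simp only [one_div]
    exact tendsto_inv_atTop_zero.comp hRlim
  have hsRi : Tendsto (fun n => 1 / Real.sqrt (R n)) atTop (𝓝 0) := by
    simp only [one_div]
    exact tendsto_inv_atTop_zero.comp (Real.tendsto_sqrt_atTop.comp hRlim)
  obtain ⟨η, hη⟩ : ∃ η : ℕ → ℝ, ∀ n, η n = 1 / Real.sqrt (R n) + Real.sqrt (Real.sqrt (t n)) :=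
    ⟨_, fun _ => rfl⟩
  have hsR : ∀ n, 0 < Real.sqrt (R n) := fun n => Real.sqrt_pos.2 (hR0 n)
  have hη1 : ∀ n, 1 / Real.sqrt (R n) ≤ η n := fun n => by
    rw [hη]
    have := Real.sqrt_nonneg (Real.sqrt (t n))
    linarith
  have hη2 : ∀ n, Real.sqrt (Real.sqrt (t n)) ≤ η n := fun n => by
    rw [hη]
    have : 0 ≤ 1 / Real.sqrt (R n) := (one_div_pos.2 (hsR n)).le
    linarith
  have hη0 : ∀ n, 0 < η n := fun n => (one_div_pos.2 (hsR n)).trans_le (hη1 n)
  have hηl : Tendsto η atTop (𝓝 0) := by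
    have := hsRi.add hsst
    rw [add_zero] at this
    exact this.congr fun n => (hη n).symm
  -- the two key facts on `η`
  have hη3 : ∀ n, 1 / η n ^ 2 ≤ R n := fun n => by
    rw [div_le_iff₀ (pow_pos (hη0 n) 2)]
    have h1 : (1 / Real.sqrt (R n)) ^ 2 ≤ η n ^ 2 := pow_le_pow_left₀ (one_div_pos.2 (hsR n)).le (hη1 n) 2
    rw [div_pow, one_pow, Real.sq_sqrt (hR0 n).le] at h1
    calc (1 : ℝ) = R n * (1 / R n) := by
          have := (hR0 n).ne'
          field_simp
      _ ≤ R n * η n ^ 2 := mul_le_mul_of_nonneg_left h1 (hR0 n).le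
  have hη4 : ∀ n, t n / η n ^ 2 ≤ Real.sqrt (t n) := fun n => by
    rw [div_le_iff₀ (pow_pos (hη0 n) 2)]
    have h1 : (Real.sqrt (Real.sqrt (t n))) ^ 2 ≤ η n ^ 2 :=
      pow_le_pow_left₀ (Real.sqrt_nonneg _) (hη2 n) 2
    rw [Real.sq_sqrt (Real.sqrt_nonneg _)] at h1
    calc t n = Real.sqrt (t n) * Real.sqrt (t n) := (Real.mul_self_sqrt (ht0 n)).symm
      _ ≤ Real.sqrt (t n) * η n ^ 2 := mul_le_mul_of_nonneg_left h1 (Real.sqrt_nonneg _)
  obtain ⟨ρ, hρ⟩ : ∃ ρ : ℕ → ℝ, ∀ n, ρ n = η n * R n := ⟨_, fun _ => rfl⟩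
  have hρ0 : ∀ n, 0 < ρ n := fun n => by rw [hρ]; exact mul_pos (hη0 n) (hR0 n)
  have hρs : ∀ n, Real.sqrt (R n) ≤ ρ n := fun n => by
    rw [hρ]
    calc Real.sqrt (R n) = 1 / Real.sqrt (R n) * R n := by
          have h1 := (hsR n).ne'
          rw [div_mul_eq_mul_div, one_mul, eq_div_iff h1]
          exact Real.mul_self_sqrt (hR0 n).le
      _ ≤ η n * R n := mul_le_mul_of_nonneg_right (hη1 n) (hR0 n).le
  choose h hh using fun n => hrc (ρ n) (hρ0 n)
  set P := K.starProjection with hP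
  have hcom : ∀ α A v, P (T.th α A v) = T.th α A (P v) := fun α A v => zm489_comm T K hK α A v
  obtain ⟨w, hw⟩ : ∃ w : ℕ → Cfg ds → F, ∀ n x, w n x = P (u (k n) x) := ⟨_, fun _ _ => rfl⟩
  have hwf : ∀ n, w n = fun x => P (u (k n) x) := fun n => funext (hw n)
  have hwT : ∀ n, Setup.Tst (w n) := fun n => by
    rw [hwf]
    exact Setup.Tst.clm (T := fun _ => P) contDiff_const (hu (k n)).1
  have hPn : ∀ v, ‖P v‖ ≤ ‖v‖ := fun v => Submodule.norm_starProjection_apply_le K v
  have hwo : ∀ n, nsq (fun x => w n x - o x) ≤ 1 / R n ^ 4 := by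
    intro n
    refine le_trans ?_ (hk1 n)
    refine integral_mono_of_nonneg (Eventually.of_forall fun x => by positivity)
      (memLp_norm_sq_int ((hL.mem (k n)).sub ho)) ?_
    filter_upwards [hoK] with x hx
    have h1 : P (o x) = o x := Submodule.starProjection_eq_self_iff.2 hx
    have h2 : w n x - o x = P (u (k n) x - o x) := by rw [map_sub, h1, hw]
    rw [h2]
    exact pow_le_pow_left₀ (norm_nonneg _) (hPn _) 2
  have hwo0 : ∀ n, 0 ≤ nsq (fun x => w n x - o x) := fun n => nsq_nonneg _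
  have hwm : ∀ n, MemLp (w n) 2 (volume : Measure (Cfg ds)) := fun n => (hwT n).memLp
  have hdm : ∀ n, MemLp (fun x => w n x - o x) 2 (volume : Measure (Cfg ds)) := fun n => (hwm n).sub ho
  have hwQ : ∀ n β, nsq (T.Q β (w n)) ≤ nsq (T.Q β (u (k n))) := by
    intro n β
    have h1 : T.Q β (w n) = fun x => P (T.Q β (u (k n)) x) := by
      funext x
      rw [hwf]
      exact zm489_Q T P hcom ((hu (k n)).1.1.differentiable (by simp)) β x
    rw [h1]
    have h2 := nsq_le_of (f := fun x => P (T.Q β (u (k n)) x)) (c := 1)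
      ((hu (k n)).1.Q T β).memLp (fun x => by rw [one_mul]; exact hPn _)
    rwa [one_pow, one_mul] at h2
  have htail : ∀ n, (∫ x, (if ρ n / 4 ≤ ‖x‖ then ‖o x‖ ^ 2 else 0)) ≤ t n := by
    intro n
    rw [ht]
    refine integral_mono_of_nonneg (Eventually.of_forall fun x => ?_) ?_ (Eventually.of_forall fun x => ?_)
    · simp only [Pi.zero_apply]
      split_ifs <;> positivity
    · have h1 := (memLp_norm_sq_int ho).indicator
        (measurableSet_le measurable_const measurable_norm :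
          MeasurableSet {x : Cfg ds | Real.sqrt (R n) / 4 ≤ ‖x‖})
      refine h1.congr (Eventually.of_forall fun x => ?_)
      simp only [Set.indicator_apply, Set.mem_ofPred_eq]
    · simp only
      have := hρs n
      by_cases h1 : ρ n / 4 ≤ ‖x‖
      · rw [if_pos h1, if_pos (by linarith)]
      · rw [if_neg h1]
        split_ifs <;> positivity
  obtain ⟨Φ, hΦ⟩ : ∃ Φ : ℕ → Cfg ds → F, ∀ n x, Φ n x = ((rad (h n) x : ℝ) : ℂ) • w n x :=
    ⟨_, fun _ _ => rfl⟩
  have hΦf : ∀ n, Φ n = fun x => ((rad (h n) x : ℝ) : ℂ) • w n x := fun n => funext (hΦ n)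
  have hΦT : ∀ n, Setup.Tst (Φ n) := fun n => by
    rw [hΦf]
    exact Setup.Tst.rsmul (contDiff_rad (hh n).contDiff) (hwT n)
  have hΦs : ∀ n s, Φ n s ≠ 0 → ‖s‖ ≤ ρ n := by
    intro n s hs
    by_contra hc
    push Not at hc
    apply hs
    rw [hΦ, (hh n).zero s hc.le, Complex.ofReal_zero, zero_smul]
  -- L² limit
  have hb1 : ∀ n, nsq (fun s => Φ n s - o s) ≤ 2 * (1 / R n) + 2 * t n := by
    intro n
    have h1 := nsq_cut_sub (hh n) (hρ0 n) ho (hwm n)
    have h2 : nsq (fun s => Φ n s - o s) = nsq (fun x => ((rad (h n) x : ℝ) : ℂ) • w n x - o x) := by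
      rw [hΦf]
    have h3 : 1 / R n ^ 4 ≤ 1 / R n := by
      refine one_div_le_one_div_of_le (hR0 n) ?_
      calc R n = R n ^ 1 := (pow_one _).symm
        _ ≤ R n ^ 4 := pow_le_pow_right₀ (hR n) (by norm_num)
    rw [h2]
    have h4 := hwo n
    have h5 := htail n
    linarith
  have hlim : Tendsto (fun n => nsq (fun s => Φ n s - o s)) atTop (𝓝 0) := by
    refine squeeze_zero (fun n => nsq_nonneg _) hb1 ?_
    simpa using (hRi.const_mul 2).add (htl.const_mul 2)
  -- energy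
  have hVc := Vc_nonneg T
  set Lc : ℝ := Kc * Vc T with hLc
  have hLc0 : 0 ≤ Lc := mul_nonneg hKc hVc
  have hbQ : ∀ n β, nsq (T.Q β (Φ n)) ≤ 2 * nsq (T.Q β (u (k n))) +
      4 * ((Lc / ρ n) ^ 2 * (1 / R n ^ 4 + t n)) := by
    intro n β
    have m1 : MemLp (fun x => ((rad (h n) x : ℝ) : ℂ) • T.Q β (w n) x) 2 (volume : Measure (Cfg ds)) :=
      (Setup.Tst.rsmul (contDiff_rad (hh n).contDiff) ((hwT n).Q T β)).memLp
    have hgc : Continuous (T.gradOp (rad (h n)) β) := continuous_gradOp T (hh n).contDiff β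
    have hgb : ∀ x, ‖T.gradOp (rad (h n)) β x‖ ≤ Lc / ρ n := gradOp_le T hKc (hρ0 n) (hh n) β
    have m2 : MemLp (fun x => T.gradOp (rad (h n)) β x (w n x)) 2 (volume : Measure (Cfg ds)) :=
      memLp_op hgc hgb (hwm n)
    have m3 : MemLp (fun x => T.gradOp (rad (h n)) β x (w n x - o x)) 2 (volume : Measure (Cfg ds)) :=
      memLp_op hgc hgb (hdm n)
    have m4 : MemLp (fun x => T.gradOp (rad (h n)) β x (o x)) 2 (volume : Measure (Cfg ds)) :=
      memLp_op hgc hgb ho
    have e1 : T.Q β (Φ n) = fun x => ((rad (h n) x : ℝ) : ℂ) • T.Q β (w n) x +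
        T.gradOp (rad (h n)) β x (w n x) := by
      funext x
      rw [hΦf]
      exact T.Q_cut (rad (h n)) β (w n) x
        ((contDiff_rad (hh n).contDiff).differentiable (by simp) x) ((hwT n).diff x)
    have b1 : nsq (fun x => ((rad (h n) x : ℝ) : ℂ) • T.Q β (w n) x) ≤ nsq (T.Q β (u (k n))) := by
      have := nsq_le_of (f := fun x => ((rad (h n) x : ℝ) : ℂ) • T.Q β (w n) x) (c := 1)
        ((hwT n).Q T β).memLp (fun x => norm_cut_le (hh n) x _)
      rw [one_pow, one_mul] at this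
      exact this.trans (hwQ n β)
    have b3 : nsq (fun x => T.gradOp (rad (h n)) β x (w n x - o x)) ≤ (Lc / ρ n) ^ 2 * (1 / R n ^ 4) :=
      (nsq_op_le hgb (hdm n)).trans (mul_le_mul_of_nonneg_left (hwo n) (sq_nonneg _))
    have b4 : nsq (fun x => T.gradOp (rad (h n)) β x (o x)) ≤ (Lc / ρ n) ^ 2 * t n := by
      have : nsq (fun x => T.gradOp (rad (h n)) β x (o x)) ≤
          (Lc / ρ n) ^ 2 * ∫ x, (if ρ n / 4 ≤ ‖x‖ then ‖o x‖ ^ 2 else 0) := by
        refine nsq_tail ho fun x => ?_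
        by_cases hx : ‖x‖ < ρ n / 2
        · rw [gradOp_zero T (hh n) β hx]
          simp only [_root_.zero_apply, norm_zero]
          have h1 : (0 : ℝ) ≤ if ρ n / 4 ≤ ‖x‖ then ‖o x‖ else 0 := by split_ifs <;> positivity
          have h2 := (hρ0 n).le
          positivity
        · push Not at hx
          rw [if_pos (by have := hρ0 n; linarith)]
          exact ((T.gradOp (rad (h n)) β x).le_opNorm _).trans
            (mul_le_mul_of_nonneg_right (hgb x) (norm_nonneg _))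
      exact this.trans (mul_le_mul_of_nonneg_left (htail n) (sq_nonneg _))
    have e2 : (fun x => T.gradOp (rad (h n)) β x (w n x)) = fun x =>
        T.gradOp (rad (h n)) β x (w n x - o x) + T.gradOp (rad (h n)) β x (o x) := by
      funext x
      rw [map_sub, sub_add_cancel]
    have b2 := nsq_add_le m3 m4
    rw [← e2] at b2
    rw [e1]
    have b5 := nsq_add_le m1 m2
    nlinarith [b1, b2, b3, b4, b5]
  have hbE : ∀ n, R n ^ 2 * ∑ β, nsq (T.Q β (Φ n)) ≤
      2 * (1 / R n) + 64 * Lc ^ 2 * (1 / R n + Real.sqrt (t n)) := by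
    intro n
    have hRn := hR0 n
    have s1 : ∑ β, nsq (T.Q β (Φ n)) ≤ 2 * AD.En T (u (k n)) +
        64 * ((Lc / ρ n) ^ 2 * (1 / R n ^ 4 + t n)) := by
      have : ∑ β : Fin 16, (2 * nsq (T.Q β (u (k n))) + 4 * ((Lc / ρ n) ^ 2 * (1 / R n ^ 4 + t n))) =
          2 * AD.En T (u (k n)) + 64 * ((Lc / ρ n) ^ 2 * (1 / R n ^ 4 + t n)) := by
        rw [Finset.sum_add_distrib, ← Finset.mul_sum, Finset.sum_const, Finset.card_univ, Fintype.card_fin,
          nsmul_eq_mul]
        unfold AD.En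
        push_cast
        ring
      rw [← this]
      exact Finset.sum_le_sum fun β _ => hbQ n β
    have s2 : R n ^ 2 * AD.En T (u (k n)) ≤ 1 / R n := by
      calc R n ^ 2 * AD.En T (u (k n)) ≤ R n ^ 2 * (1 / R n ^ 4) :=
            mul_le_mul_of_nonneg_left (hk2 n) (by positivity)
        _ = 1 / R n ^ 2 := by field_simp
        _ ≤ 1 / R n := by
            refine one_div_le_one_div_of_le hRn ?_
            calc R n = R n ^ 1 := (pow_one _).symm
              _ ≤ R n ^ 2 := pow_le_pow_right₀ (hR n) (by norm_num)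
    have s3 : R n ^ 2 * ((Lc / ρ n) ^ 2 * (1 / R n ^ 4 + t n)) =
        Lc ^ 2 * (1 / η n ^ 2 * (1 / R n ^ 4) + t n / η n ^ 2) := by
      have h1 := (hη0 n).ne'
      rw [hρ]
      field_simp
    have s4 : 1 / η n ^ 2 * (1 / R n ^ 4) ≤ 1 / R n := by
      calc 1 / η n ^ 2 * (1 / R n ^ 4) ≤ R n * (1 / R n ^ 4) :=
            mul_le_mul_of_nonneg_right (hη3 n) (by positivity)
        _ = 1 / R n ^ 3 := by field_simp
        _ ≤ 1 / R n := by
            refine one_div_le_one_div_of_le hRn ?_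
            calc R n = R n ^ 1 := (pow_one _).symm
              _ ≤ R n ^ 3 := pow_le_pow_right₀ (hR n) (by norm_num)
    have s5 : R n ^ 2 * ∑ β, nsq (T.Q β (Φ n)) ≤ 2 * (R n ^ 2 * AD.En T (u (k n))) +
        64 * (R n ^ 2 * ((Lc / ρ n) ^ 2 * (1 / R n ^ 4 + t n))) := by
      have := mul_le_mul_of_nonneg_left s1 (sq_nonneg (R n))
      linarith
    rw [s3] at s5
    have s6 := mul_le_mul_of_nonneg_left (add_le_add s4 (hη4 n)) (sq_nonneg Lc)
    linarith
  have hen : Tendsto (fun n => R n ^ 2 * ∑ β, nsq (T.Q β (Φ n))) atTop (𝓝 0) := by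
    refine squeeze_zero (fun n => mul_nonneg (sq_nonneg _) (Finset.sum_nonneg fun β _ => nsq_nonneg _)) hbE ?_
    simpa using (hRi.const_mul 2).add ((hRi.add hst).const_mul (64 * Lc ^ 2))
  refine ⟨η, Φ, ⟨hη0, hηl, fun n => ⟨hΦT n, fun s => ?_, fun s hs => ?_⟩, hlim, ?_, hen⟩⟩
  · rw [hΦ, hw]
    exact K.smul_mem _ (Submodule.starProjection_apply_mem _ _)
  · rw [← hρ]
    exact hΦs n s hs
  · -- gradient
    have hCF := CF_nonneg T
    have hg : ∀ n, (∑ i, ∑ A, nsq (pd i A (Φ n))) / R n ≤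
        1 / 8 * (R n ^ 2 * ∑ β, nsq (T.Q β (Φ n))) +
          2 * CF T * η n * (2 * nsq (fun s => Φ n s - o s) + 2 * nsq o) := by
      intro n
      have hRn := hR0 n
      have g1 := zm489_grad T (hΦT n) (hΦs n)
      have g2 : nsq (Φ n) ≤ 2 * nsq (fun s => Φ n s - o s) + 2 * nsq o := by
        have := nsq_add_le ((hΦT n).memLp.sub ho) ho
        have e : (fun x => (Φ n - o) x + o x) = Φ n := by
          funext x
          simp
        rw [e] at this
        exact this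
      have hS : 0 ≤ ∑ β, nsq (T.Q β (Φ n)) := Finset.sum_nonneg fun β _ => nsq_nonneg _
      rw [div_le_iff₀ hRn]
      have g3 : ∑ β, nsq (T.Q β (Φ n)) ≤ (R n ^ 2 * ∑ β, nsq (T.Q β (Φ n))) * R n := by
        have : 1 ≤ R n ^ 2 * R n := by
          have h1 := one_le_pow₀ (hR n) (n := 2)
          nlinarith [hR n]
        nlinarith
      have g4 : 2 * (CF T * ρ n) * nsq (Φ n) ≤
          2 * CF T * η n * (2 * nsq (fun s => Φ n s - o s) + 2 * nsq o) * R n := by
        rw [hρ]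
        have h1 : 0 ≤ 2 * (CF T * (η n * R n)) := by
          have := (hη0 n).le
          positivity
        have := mul_le_mul_of_nonneg_left g2 h1
        linarith
      linarith
    refine squeeze_zero (fun n => div_nonneg (Finset.sum_nonneg fun i _ =>
      Finset.sum_nonneg fun A _ => nsq_nonneg _) (hR0 n).le) hg ?_
    have l1 := hen.const_mul (1 / 8)
    have l2 := (hηl.const_mul (2 * CF T)).mul ((hlim.const_mul 2).add_const (2 * nsq o))
    have := l1.add l2
    simpa using this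

end Vale.Agent.P353.Z.AE
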