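import Vale.Agent.P353.AN.D.All
import Vale.Agent.P353.AN.GL.All
import Vale.Agent.P353.AN.E.Bz
import Vale.Agent.P353.AN.E.Chi
import Vale.Agent.P353.AN.E.Cov
import Vale.Agent.P353.AN.E.CutG
import Vale.Agent.P353.AN.E.Dec1
import Vale.Agent.P353.AN.E.DecH2
import Vale.Agent.P353.AN.E.DecM
import Vale.Agent.P353.AN.E.DecR
import Vale.Agent.P353.AN.E.GLim
import Vale.Agent.P353.AN.E.GluD
import Vale.Agent.P353.AN.E.Int
import Vale.Agent.P353.AN.E.LimD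
import Vale.Agent.P353.AN.E.Loc
import Vale.Agent.P353.AN.E.LocG
import Vale.Agent.P353.AN.E.LocZ
import Vale.Agent.P353.AN.E.Mz
import Vale.Agent.P353.AN.E.Neg
import Vale.Agent.P353.AN.E.Pert2
import Vale.Agent.P353.AN.E.PrC
import Vale.Agent.P353.AN.E.QInv
import Vale.Agent.P353.AN.E.QrVac
import Vale.Agent.P353.AN.E.RotO
import Vale.Agent.P353.AN.E.TL
import Vale.Agent.P353.AN.E.UGap
import Vale.Agent.P353.AN.E.UGapC
import Vale.Agent.P353.AN.E.VacQ1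
import Vale.Agent.P353.AN.E.Wick
import Vale.Agent.P353.AN.E.Zm

/-! # P353, all `N`, block E: unconditional outputs -/

open MeasureTheory Filter Topology Matrix
open scoped ContDiff

namespace Vale.Agent.P353.Z.AE

variable {d dh dm r ds : ℕ} {F : Type*} [NormedAddCommGroup F] [InnerProductSpace ℂ F]

theorem mzAll (S : Setup d F) (φ : Spl dh dm d) (ψ : Spl r ds dh) : MzStmt S φ ψ := mz S φ ψ alg qfS

theorem bzAll (S : Setup d F) (φ : Spl dh dm d) (ψ : Spl r ds dh) : BzStmt S φ ψ := bzf S φ ψ (mzAll S φ ψ)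

theorem coefAll (S : Setup d F) (φ : Spl dh dm d) : AN.CoefStmt S φ := AN.coef_stmt S φ (AN.bd_stmt S)

theorem negAll (S : Setup d F) (φ : Spl dh dm d) (ψ : Spl r ds dh) : NegStmt S φ ψ :=
  neg S φ ψ (ugap S φ ψ (ugapC S φ ψ (fibAll S φ) (mzAll S φ ψ) (prC S φ ψ (mzAll S φ ψ) (bzAll S φ ψ)) (vacQ1 S φ alg qfS))
    (pert2 S φ ψ) (coefAll S φ) (AN.fibOut_stmt S φ om (fibAll S φ)))
    (AD.calcAll dh dm F).1 (AD.calcAll dh dm F).2 (AD.fIntAll S φ)
    (AN.par_stmt S φ (AD.calcAll dh dm F).1 (AD.calcAll dh dm F).2 (AD.opAll S φ)) (coefAll S φ)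
    (AN.fibOut_stmt S φ om (fibAll S φ)) (bzAll S φ ψ)

/-- limit equation on the slice -/
theorem locAll (S : Setup d F) (φ : Spl dh dm d) (ψ : Spl r ds dh) : LocStmt S φ ψ :=
  loc S φ ψ (AD.calcAll dh dm F).1 (AD.calcAll dh dm F).2 (AD.opAll S φ) (AN.All.sym S) (negAll S φ ψ) (trf S φ ψ)
    (decH2 S φ ψ) (dec1 S φ ψ (trf S φ ψ) (vacQ1 S φ alg qfS) (pert2 S φ ψ))
    (decR S φ ψ (qrVac S φ ψ (cov S φ alg qfS) (wick S φ))) (decM S φ ψ (trf S φ ψ)) (bzAll S φ ψ) (coefAll S φ)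
    (AD.outAll S φ)

theorem cutGAll (S : Setup d F) (φ : Spl dh dm d) : CutGStmt S φ :=
  cutG S φ (AN.All.norm S) (AN.All.gh S) (AN.All.cut S) (AN.All.bd S) (AN.frame_stmt S) (AN.All.dec S) (qInv S)

theorem locGAll (S : Setup d F) (φ : Spl dh dm d) (ψ : Spl r ds dh) : LocGStmt S φ ψ :=
  locG S φ ψ (locAll S φ ψ) (bzAll S φ ψ) (cutGAll S φ) (tlS S φ ψ) (qInv S)

theorem gluDAll (S : Setup d F) : GluDStmt S := gluD S (AN.All.glu S)

theorem locZAll (S : Setup d F) (φ : Spl dh dm d) (ψ : Spl r ds dh) : LocZStmt S φ ψ :=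
  locZ S φ ψ (gluDAll S) (locGAll S φ ψ) (qInv S) (tlS S φ ψ)

/-- **global limit equation** -/
theorem gLimAll (S : Setup d F) (φ : Spl dh dm d) (ψ : Spl r ds dh) : GLimStmt S φ ψ :=
  gLim S φ ψ (fun S' => locZAll S' φ ψ) (zInt S φ ψ)

theorem limDAll (S : Setup d F) : LimDStmt S :=
  limD S (fun _ _ _ _ φ ψ => ⟨gLimAll S φ ψ, zInt S φ ψ⟩) (fun _ T => zmApp T) (AN.frame_stmt S)

theorem rotOAll (S : Setup d F) : RotOStmt S := rotO S (AN.All.rot S) (AN.frame_stmt S)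

/-- limit equation in a rotated colour frame -/
theorem limOAll (S : Setup d F) : LimOStmt S := limO S limDAll (rotOAll S)

end Vale.Agent.P353.Z.AE
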