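import Vale.Agent.P353.AN.E.StmtG
import Vale.Agent.P353.Z.Rad

/-! # P353, all `N`, block E: `GLimLStmt` from `GLimStmt` (radial cutoff) -/

open MeasureTheory Filter Topology Matrix
open scoped ContDiff

namespace Vale.Agent.P353.Z.AE

variable {d dh dm r ds : ℕ} {F : Type*} [NormedAddCommGroup F] [InnerProductSpace ℂ F]

private lemma gll_fsum (S : Setup d F) (C : Fin d) (a : Fin d → ℂ) :
    ∑ A, ∑ B, (S.f C A B : ℂ) * (a A * a B) = 0 := by
  have he : ∀ A B : Fin d, S.f C B A = - S.f C A B := fun A B => S.f_swap' C A B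
  have h1 : ∑ A, ∑ B, (S.f C A B : ℂ) * (a A * a B) =
      -∑ A, ∑ B, (S.f C A B : ℂ) * (a A * a B) := by
    conv_lhs => rw [Finset.sum_comm]
    rw [← Finset.sum_neg_distrib]
    refine Finset.sum_congr rfl fun A _ => ?_
    rw [← Finset.sum_neg_distrib]
    refine Finset.sum_congr rfl fun B _ => ?_
    rw [he A B]
    push_cast
    ring
  have h2 : (2 : ℂ) * ∑ A, ∑ B, (S.f C A B : ℂ) * (a A * a B) = 0 := by
    linear_combination h1
  simpa using h2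

private lemma gll_Grad (S : Setup d F) {f : ℝ → ℝ} (hf : ContDiff ℝ ∞ f) (C : Fin d) (u : (Cfg d) → F)
    (x : (Cfg d)) (hu : DifferentiableAt ℝ u x) :
    S.G C (fun y => ((rad f y : ℝ) : ℂ) • u y) x = ((rad f x : ℝ) : ℂ) • S.G C u x := by
  have h : ∀ i A, pd i A (fun y => ((rad f y : ℝ) : ℂ) • u y) x =
      ((2 * deriv f (‖x‖ ^ 2) * x (i, A) : ℝ) : ℂ) • u x + ((rad f x : ℝ) : ℂ) • pd i A u x := by
    intro i A
    rw [pd_rsmul ((contDiff_rad hf).differentiable (by simp) x) hu]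
    have := pdr_rad hf i A x
    rw [pdr] at this
    rw [this]
  have e : ∑ i, ∑ A, ∑ B, ((S.f C A B : ℂ) * (x (i, A) : ℂ)) •
      (((2 * deriv f (‖x‖ ^ 2) * x (i, B) : ℝ) : ℂ) • u x) = 0 := by
    refine Finset.sum_eq_zero fun i _ => ?_
    have e1 := gll_fsum S C (fun A => (x (i, A) : ℂ))
    have e2 : ∑ A, ∑ B, ((S.f C A B : ℂ) * (x (i, A) : ℂ)) •
        (((2 * deriv f (‖x‖ ^ 2) * x (i, B) : ℝ) : ℂ) • u x) =
        ((2 * deriv f (‖x‖ ^ 2) : ℝ) : ℂ) •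
          (∑ A, ∑ B, (S.f C A B : ℂ) * ((x (i, A) : ℂ) * (x (i, B) : ℂ))) • u x := by
      rw [Finset.sum_smul, Finset.smul_sum]
      refine Finset.sum_congr rfl fun A _ => ?_
      rw [Finset.sum_smul, Finset.smul_sum]
      refine Finset.sum_congr rfl fun B _ => ?_
      rw [smul_smul, smul_smul]
      congr 1
      push_cast
      ring
    rw [e2, e1, zero_smul, smul_zero]
  have e3 : ∑ i, ∑ A, ∑ B, ((S.f C A B : ℂ) * (x (i, A) : ℂ)) •
      (((2 * deriv f (‖x‖ ^ 2) * x (i, B) : ℝ) : ℂ) • u x + ((rad f x : ℝ) : ℂ) • pd i B u x) =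
      ((rad f x : ℝ) : ℂ) • ∑ i, ∑ A, ∑ B, ((S.f C A B : ℂ) * (x (i, A) : ℂ)) • pd i B u x := by
    simp only [smul_add, Finset.sum_add_distrib]
    rw [e, zero_add]
    simp only [Finset.smul_sum]
    refine Finset.sum_congr rfl fun i _ => Finset.sum_congr rfl fun A _ =>
      Finset.sum_congr rfl fun B _ => ?_
    rw [smul_comm]
  simp only [Setup.G, h]
  rw [e3, map_smul, smul_add, smul_comm ((rad f x : ℝ) : ℂ) (-Complex.I)]

private lemma gll_QN (S : Setup d F) (N : Fin 9 → Matrix (Fin 16) (Fin 16) ℂ) (m : ℝ) {f : ℝ → ℝ}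
    (hf : ContDiff ℝ ∞ f) (β : Fin 16) (u : Cfg d → F) (x : Cfg d) (hu : DifferentiableAt ℝ u x) :
    QN S N m β (fun y => ((rad f y : ℝ) : ℂ) • u y) x = ((rad f x : ℝ) : ℂ) • QN S N m β u x +
      (-Complex.I * ((2 * deriv f (‖x‖ ^ 2) : ℝ) : ℂ)) • S.B β x (u x) := by
  unfold QN
  rw [S.Q_rad hf β u x hu, map_smul, smul_add, smul_comm (m : ℂ)]
  abel

private lemma gll_normB (S : Setup d F) :
    ∃ K : ℝ, 0 ≤ K ∧ ∀ β x v, ‖S.B β x v‖ ≤ K * ‖x‖ * ‖v‖ := by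
  refine ⟨∑ β, ∑ i, ∑ A, ‖S.vec (S.g i) A β‖, by positivity, fun β x v => ?_⟩
  have h1 : ‖S.B β x v‖ ≤ ∑ i, ∑ A, ‖x‖ * ‖S.vec (S.g i) A β‖ * ‖v‖ := by
    unfold Setup.B
    simp only [_root_.sum_apply, _root_.smul_apply]
    refine (norm_sum_le _ _).trans (Finset.sum_le_sum fun i _ => (norm_sum_le _ _).trans
      (Finset.sum_le_sum fun A _ => ?_))
    rw [norm_smul, mul_assoc]
    refine mul_le_mul ?_ (ContinuousLinearMap.le_opNorm _ _) (norm_nonneg _) (norm_nonneg _)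
    rw [Complex.norm_real]
    exact PiLp.norm_apply_le x (i, A)
  refine h1.trans ?_
  have h2 : ∑ i, ∑ A, ‖x‖ * ‖S.vec (S.g i) A β‖ * ‖v‖ =
      (∑ i, ∑ A, ‖S.vec (S.g i) A β‖) * (‖x‖ * ‖v‖) := by
    rw [Finset.sum_mul]
    refine Finset.sum_congr rfl fun i _ => ?_
    rw [Finset.sum_mul]
    exact Finset.sum_congr rfl fun A _ => by ring
  rw [h2, mul_assoc]
  refine mul_le_mul_of_nonneg_right ?_ (by positivity)
  exact Finset.single_le_sum (f := fun β => ∑ i, ∑ A, ‖S.vec (S.g i) A β‖)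
    (fun β _ => by positivity) (Finset.mem_univ β)

private lemma gll_norm (φ : Spl dh dm d) (ψ : Spl r ds dh) (x : Cfg d) :
    ‖x‖ ^ 2 = ‖AN.hz ψ (AN.zy φ x)‖ ^ 2 + ‖AN.hs ψ (AN.zy φ x)‖ ^ 2 + ‖AN.pm φ x‖ ^ 2 := by
  have e1 : ∀ (n : ℕ) (y : Cfg n), ‖y‖ ^ 2 = ∑ i, ∑ A, y (i, A) ^ 2 := by
    intro n y
    rw [EuclideanSpace.norm_sq_eq, Fintype.sum_prod_type]
    simp
  rw [e1, e1, e1, e1, ← Finset.sum_add_distrib, ← Finset.sum_add_distrib]
  refine Finset.sum_congr rfl fun i _ => ?_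
  have h1 := φ.sum_comp (fun A => x (i, A) ^ 2)
  rw [Fintype.sum_sum_type] at h1
  have h2 := ψ.sum_comp (fun A => x (i, φ (Sum.inl A)) ^ 2)
  rw [Fintype.sum_sum_type] at h2
  rw [← h1, ← h2]
  rfl

private lemma gll_rho (a M : ℝ) (ha : 0 < a) : ∃ ρ : ℝ → ℝ, ∃ D : ℝ, 0 ≤ D ∧ ContDiff ℝ ∞ ρ ∧
    (∀ t, 0 ≤ ρ t ∧ ρ t ≤ 1) ∧ (∀ t, 2 * a ≤ t → t ≤ M + 1 → ρ t = 1) ∧ (∀ t, t ≤ a → ρ t = 0) ∧
    (∀ t, M + 2 ≤ t → ρ t = 0) ∧ ∀ t, |deriv ρ t| ≤ D := by
  let ρ : ℝ → ℝ := fun t => Real.smoothTransition ((t - a) / a) * Real.smoothTransition (M + 2 - t)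
  have h0 : ∀ t, t ≤ a → ρ t = 0 := by
    intro t ht
    have : Real.smoothTransition ((t - a) / a) = 0 :=
      Real.smoothTransition.zero_of_nonpos (div_nonpos_of_nonpos_of_nonneg (by linarith) ha.le)
    simp [ρ, this]
  have h1 : ∀ t, M + 2 ≤ t → ρ t = 0 := by
    intro t ht
    have : Real.smoothTransition (M + 2 - t) = 0 :=
      Real.smoothTransition.zero_of_nonpos (by linarith)
    simp [ρ, this]
  have hs : ContDiff ℝ ∞ ρ :=
    (Real.smoothTransition.contDiff.comp ((contDiff_id.sub contDiff_const).div_const a)).mul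
      (Real.smoothTransition.contDiff.comp (contDiff_const.sub contDiff_id))
  have hc : HasCompactSupport ρ := by
    refine HasCompactSupport.intro (isCompact_Icc (a := a) (b := M + 2)) fun t ht => ?_
    rw [Set.mem_Icc, not_and_or, not_le, not_le] at ht
    rcases ht with ht | ht
    · exact h0 t ht.le
    · exact h1 t ht.le
  obtain ⟨D, hD⟩ := (hs.continuous_deriv (by simp)).bounded_above_of_compact_support hc.deriv
  refine ⟨ρ, D, (norm_nonneg _).trans (hD 0), hs, fun t => ⟨?_, ?_⟩, fun t h2 h3 => ?_, h0, h1,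
    fun t => hD t⟩
  · exact mul_nonneg (Real.smoothTransition.nonneg _) (Real.smoothTransition.nonneg _)
  · exact mul_le_one₀ (Real.smoothTransition.le_one _) (Real.smoothTransition.nonneg _)
      (Real.smoothTransition.le_one _)
  · have e1 : Real.smoothTransition ((t - a) / a) = 1 :=
      Real.smoothTransition.one_of_one_le (by rw [le_div_iff₀ ha]; linarith)
    have e2 : Real.smoothTransition (M + 2 - t) = 1 :=
      Real.smoothTransition.one_of_one_le (by linarith)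
    simp [ρ, e1, e2]

/-- the radial cutoff at scale `R` -/
private lemma gll_cut (S : Setup d F) (a M : ℝ) (ha : 0 < a) (ha1 : a ≤ 1) (hM : 0 ≤ M) : ∃ K : ℝ, 0 ≤ K ∧
    ∀ R : ℝ, 1 ≤ R → ∃ f : ℝ → ℝ, ContDiff ℝ ∞ f ∧ (∀ t, 0 ≤ f t ∧ f t ≤ 1) ∧
      (∀ t, 2 * a * R ^ 2 ≤ t → t ≤ (M + 1) * R ^ 2 → f t = 1) ∧
      (∀ x : Cfg d, x ∉ AD.shl d (a / 2 * R) ((M + 3) * R) → rad f x = 0) ∧
      ∀ (N : Fin 9 → Matrix (Fin 16) (Fin 16) ℂ) (m : ℝ) (β : Fin 16) (u : Cfg d → F) (x : Cfg d),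
        DifferentiableAt ℝ u x → ‖QN S N m β (fun y => ((rad f y : ℝ) : ℂ) • u y) x‖ ^ 2 ≤
          (AD.shl d (a / 2 * R) ((M + 3) * R)).indicator
            (fun x => 2 * ‖QN S N m β u x‖ ^ 2 + K / R ^ 2 * ‖u x‖ ^ 2) x := by
  obtain ⟨ρ, D, hD, hs, hb, h1, h0, h2, hd⟩ := gll_rho a M ha
  obtain ⟨K, hK, hB⟩ := gll_normB S
  refine ⟨2 * (2 * D * K * (M + 3)) ^ 2, by positivity, fun R hR => ?_⟩
  have hR0 : 0 < R := by linarith
  have hR2 : 0 < R ^ 2 := by positivity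
  have hfs : ContDiff ℝ ∞ (fun t => ρ (t * (R ^ 2)⁻¹)) := hs.comp (contDiff_id.mul contDiff_const)
  have hout : ∀ x : Cfg d, x ∉ AD.shl d (a / 2 * R) ((M + 3) * R) →
      ‖x‖ ^ 2 * (R ^ 2)⁻¹ < a ∨ M + 2 < ‖x‖ ^ 2 * (R ^ 2)⁻¹ := by
    intro x hx
    unfold AD.shl at hx
    rw [Set.mem_ofPred_eq, not_and_or, not_lt, not_lt] at hx
    rcases hx with hx | hx
    · left
      rw [← div_eq_mul_inv, div_lt_iff₀ hR2]
      calc ‖x‖ ^ 2 ≤ (a / 2 * R) ^ 2 := pow_le_pow_left₀ (norm_nonneg _) hx 2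
        _ = a ^ 2 / 4 * R ^ 2 := by ring
        _ < a * R ^ 2 := by
          refine mul_lt_mul_of_pos_right ?_ hR2
          nlinarith
    · right
      rw [← div_eq_mul_inv, lt_div_iff₀ hR2]
      calc (M + 2) * R ^ 2 < (M + 3) ^ 2 * R ^ 2 := by
            refine mul_lt_mul_of_pos_right ?_ hR2
            nlinarith
        _ = ((M + 3) * R) ^ 2 := by ring
        _ ≤ ‖x‖ ^ 2 := pow_le_pow_left₀ (by positivity) hx 2
  have hder : ∀ t, deriv (fun t => ρ (t * (R ^ 2)⁻¹)) t = deriv ρ (t * (R ^ 2)⁻¹) * (R ^ 2)⁻¹ := by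
    intro t
    have e1 : HasDerivAt (fun t : ℝ => t * (R ^ 2)⁻¹) ((R ^ 2)⁻¹) t := by
      simpa using (hasDerivAt_id t).mul_const ((R ^ 2)⁻¹)
    have e2 : HasDerivAt ρ (deriv ρ (t * (R ^ 2)⁻¹)) (t * (R ^ 2)⁻¹) :=
      ((hs.differentiable (by simp)) _).hasDerivAt
    exact (e2.comp t e1).deriv
  have hd0 : ∀ t, t < a → deriv ρ t = 0 := by
    intro t ht
    have e : ρ =ᶠ[𝓝 t] fun _ => 0 := by
      filter_upwards [Iio_mem_nhds ht] with s hs'
      exact h0 s (le_of_lt hs')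
    rw [e.deriv_eq, deriv_const]
  have hd2 : ∀ t, M + 2 < t → deriv ρ t = 0 := by
    intro t ht
    have e : ρ =ᶠ[𝓝 t] fun _ => 0 := by
      filter_upwards [Ioi_mem_nhds ht] with s hs'
      exact h2 s (le_of_lt hs')
    rw [e.deriv_eq, deriv_const]
  refine ⟨fun t => ρ (t * (R ^ 2)⁻¹), hfs, fun t => hb _, fun t ht1 ht2 => ?_, fun x hx => ?_,
    fun N m β u x hu => ?_⟩
  · refine h1 _ ?_ ?_
    · rw [← div_eq_mul_inv, le_div_iff₀ hR2]
      exact ht1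
    · rw [← div_eq_mul_inv, div_le_iff₀ hR2]
      exact ht2
  · rcases hout x hx with h | h
    · exact h0 _ h.le
    · exact h2 _ h.le
  · rw [gll_QN S N m hfs β u x hu]
    by_cases hx : x ∈ AD.shl d (a / 2 * R) ((M + 3) * R)
    · rw [Set.indicator_of_mem hx]
      have n1 : ‖((rad (fun t => ρ (t * (R ^ 2)⁻¹)) x : ℝ) : ℂ) • QN S N m β u x‖ ≤ ‖QN S N m β u x‖ := by
        have hr0 : 0 ≤ rad (fun t => ρ (t * (R ^ 2)⁻¹)) x := (hb _).1
        rw [norm_smul, Complex.norm_real, Real.norm_of_nonneg hr0]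
        exact mul_le_of_le_one_left (norm_nonneg _) (hb _).2
      have n2 : ‖(-Complex.I * ((2 * deriv (fun t => ρ (t * (R ^ 2)⁻¹)) (‖x‖ ^ 2) : ℝ) : ℂ)) •
          S.B β x (u x)‖ ≤ 2 * D * K * (M + 3) / R * ‖u x‖ := by
        rw [norm_smul, norm_mul, norm_neg, Complex.norm_I, one_mul, Complex.norm_real, hder,
          Real.norm_eq_abs, abs_mul, abs_mul, abs_of_pos (inv_pos.2 hR2), abs_of_pos (by norm_num : (0:ℝ) < 2)]
        have hxn : ‖x‖ ≤ (M + 3) * R := (le_of_lt hx.2)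
        calc 2 * (|deriv ρ (‖x‖ ^ 2 * (R ^ 2)⁻¹)| * (R ^ 2)⁻¹) * ‖S.B β x (u x)‖
            ≤ 2 * (D * (R ^ 2)⁻¹) * (K * ((M + 3) * R) * ‖u x‖) := by
              refine mul_le_mul ?_ ((hB β x (u x)).trans ?_) (norm_nonneg _) (by positivity)
              · exact mul_le_mul_of_nonneg_left (mul_le_mul_of_nonneg_right (hd _) (by positivity))
                  (by norm_num)
              · exact mul_le_mul_of_nonneg_right (mul_le_mul_of_nonneg_left hxn hK) (norm_nonneg _)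
          _ = 2 * D * K * (M + 3) / R * ‖u x‖ := by
              field_simp
      have n3 := norm_add_le (((rad (fun t => ρ (t * (R ^ 2)⁻¹)) x : ℝ) : ℂ) • QN S N m β u x)
        ((-Complex.I * ((2 * deriv (fun t => ρ (t * (R ^ 2)⁻¹)) (‖x‖ ^ 2) : ℝ) : ℂ)) • S.B β x (u x))
      have n4 := pow_le_pow_left₀ (norm_nonneg _) (n3.trans (add_le_add n1 n2)) 2
      refine n4.trans ?_
      have e5 : 2 * (2 * D * K * (M + 3)) ^ 2 / R ^ 2 * ‖u x‖ ^ 2 =
          2 * (2 * D * K * (M + 3) / R * ‖u x‖) ^ 2 := by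
        field_simp
      rw [e5]
      nlinarith [sq_nonneg (‖QN S N m β u x‖ - 2 * D * K * (M + 3) / R * ‖u x‖)]
    · rw [Set.indicator_of_notMem hx]
      have e1 : rad (fun t => ρ (t * (R ^ 2)⁻¹)) x = 0 := by
        rcases hout x hx with h | h
        · exact h0 _ h.le
        · exact h2 _ h.le
      have e2 : deriv (fun t => ρ (t * (R ^ 2)⁻¹)) (‖x‖ ^ 2) = 0 := by
        rw [hder]
        rcases hout x hx with h | h
        · rw [hd0 _ h, zero_mul]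
        · rw [hd2 _ h, zero_mul]
      rw [e1, e2]
      simp

private lemma gll_shl_open (s t : ℝ) : IsOpen (AD.shl d s t) :=
  (isOpen_lt continuous_const continuous_norm).inter (isOpen_lt continuous_norm continuous_const)

private lemma gll_QN_tst (S : Setup d F) (N : Fin 9 → Matrix (Fin 16) (Fin 16) ℂ) (m : ℝ) (β : Fin 16)
    {u : Cfg d → F} (hu : Setup.Tst u) : Setup.Tst (QN S N m β u) := by
  have hM : ContDiff ℝ ∞ (fun x => (m : ℂ) • S.Mx N β x) := by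
    unfold Setup.Mx
    refine ContDiff.const_smul (m : ℂ) (ContDiff.sum fun i _ => ContDiff.sum fun A _ => ?_)
    exact (Setup.contDiff_ofReal (Setup.contDiff_coord _)).smul contDiff_const
  exact (Setup.Tst.Q S hu β).add (Setup.Tst.clm hM hu)

/-- the cut off sequence is bounded -/
private lemma gll_bd (S : Setup d F) (a M : ℝ) (ha : 0 < a) (ha1 : a ≤ 1) (hM : 0 ≤ M) : ∃ K : ℝ, 0 ≤ K ∧
    ∀ R : ℝ, 1 ≤ R → ∃ f : ℝ → ℝ, ContDiff ℝ ∞ f ∧
      (∀ t, 2 * a * R ^ 2 ≤ t → t ≤ (M + 1) * R ^ 2 → f t = 1) ∧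
      ∀ (N : Fin 9 → Matrix (Fin 16) (Fin 16) ℂ) (m : ℝ) (u : Cfg d → F), GI S u →
        GI S (fun y => ((rad f y : ℝ) : ℂ) • u y) ∧
        nsq (fun y => ((rad f y : ℝ) : ℂ) • u y) ≤ AD.mas u (AD.shl d (a / 2 * R) ((M + 3) * R)) ∧
        R ^ 2 * ∑ β, nsq (QN S N m β (fun y => ((rad f y : ℝ) : ℂ) • u y)) ≤
          2 * (R ^ 2 * ∑ β, ∫ x in AD.shl d (a / 2 * R) ((M + 3) * R), ‖QN S N m β u x‖ ^ 2) +
            16 * K * AD.mas u (AD.shl d (a / 2 * R) ((M + 3) * R)) := by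
  obtain ⟨K, hK, hc⟩ := gll_cut S a M ha ha1 hM
  refine ⟨K, hK, fun R hR => ?_⟩
  obtain ⟨f, hf, hb, h1, h0, hQ⟩ := hc R hR
  have hR0 : 0 < R := by linarith
  have hR2 : 0 < R ^ 2 := by positivity
  refine ⟨f, hf, h1, fun N m u hu => ⟨⟨?_, fun C x => ?_⟩, ?_, ?_⟩⟩
  · exact Setup.Tst.rsmul (contDiff_rad hf) hu.tst
  · rw [gll_Grad S hf C u x (hu.tst.diff x), hu.inv, smul_zero]
  · unfold nsq AD.mas
    rw [← integral_indicator (gll_shl_open _ _).measurableSet]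
    refine integral_mono_of_nonneg (ae_of_all _ fun x => by positivity)
      (hu.tst.norm_sq_int.indicator (gll_shl_open _ _).measurableSet) (ae_of_all _ fun x => ?_)
    by_cases hx : x ∈ AD.shl d (a / 2 * R) ((M + 3) * R)
    · simp only [Set.indicator_of_mem hx]
      have hr0 : 0 ≤ rad f x := (hb _).1
      rw [norm_smul, Complex.norm_real, Real.norm_of_nonneg hr0, mul_pow]
      exact mul_le_of_le_one_left (by positivity) (pow_le_one₀ (hb _).1 (hb _).2)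
    · simp only [Set.indicator_of_notMem hx, h0 x hx]
      simp
  · have hβ : ∀ β, nsq (QN S N m β (fun y => ((rad f y : ℝ) : ℂ) • u y)) ≤
        2 * (∫ x in AD.shl d (a / 2 * R) ((M + 3) * R), ‖QN S N m β u x‖ ^ 2) +
          K / R ^ 2 * AD.mas u (AD.shl d (a / 2 * R) ((M + 3) * R)) := by
      intro β
      have i1 := (gll_QN_tst S N m β hu.tst).norm_sq_int
      have i2 := hu.tst.norm_sq_int
      unfold nsq AD.mas
      rw [← integral_const_mul, ← integral_const_mul,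
        ← integral_add (i1.integrableOn.const_mul 2) (i2.integrableOn.const_mul _),
        ← integral_indicator (gll_shl_open _ _).measurableSet]
      exact integral_mono_of_nonneg (ae_of_all _ fun x => by positivity)
        (((i1.const_mul 2).add (i2.const_mul _)).indicator (gll_shl_open _ _).measurableSet)
        (ae_of_all _ fun x => hQ N m β u x (hu.tst.diff x))
    calc R ^ 2 * ∑ β, nsq (QN S N m β (fun y => ((rad f y : ℝ) : ℂ) • u y))
        ≤ R ^ 2 * ∑ β : Fin 16, (2 * (∫ x in AD.shl d (a / 2 * R) ((M + 3) * R), ‖QN S N m β u x‖ ^ 2) +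
          K / R ^ 2 * AD.mas u (AD.shl d (a / 2 * R) ((M + 3) * R))) :=
          mul_le_mul_of_nonneg_left (Finset.sum_le_sum fun β _ => hβ β) hR2.le
      _ = _ := by
          rw [Finset.sum_add_distrib, ← Finset.mul_sum, Finset.sum_const, Finset.card_univ,
            Fintype.card_fin, nsmul_eq_mul]
          field_simp
          push_cast
          ring

private lemma gll_QN_congr (S : Setup d F) (N : Fin 9 → Matrix (Fin 16) (Fin 16) ℂ) (m : ℝ) (β : Fin 16)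
    {u v : Cfg d → F} {x : Cfg d} (h : u =ᶠ[𝓝 x] v) : QN S N m β u x = QN S N m β v x := by
  unfold QN Setup.Q pd
  rw [h.fderiv_eq, h.eq_of_nhds]

/-- on the support of the trial function the cutoff is `1` -/
private lemma gll_ZL (S : Setup d F) (φ : Spl dh dm d) (ψ : Spl r ds dh)
    (Om : Cfg r → Matrix (Fin dm) (Fin dm) ℝ) (A : Set (Cfg r)) (a M : ℝ) (ha : 0 < a)
    (hA : ∀ η ∈ A, 4 * a ≤ ‖η‖ ^ 2 ∧ ‖η‖ ^ 2 + 2 ≤ M) (δ R : ℝ) (hδ : δ ≤ 1) (hR : 1 ≤ R)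
    (χ : Cfg r × Cfg ds × Cfg dm → ℝ) (hχ : ∀ q, χ q ≠ 0 → ‖q.2.1‖ ≤ δ * R ∧
      ‖q.2.2‖ ≤ δ * (R * Real.sqrt R)) (b : Cfg r → Cfg ds → F) (hb : ∀ η s, b η s ≠ 0 → η ∈ A)
    (f : ℝ → ℝ) (hf : ∀ t, 2 * a * R ^ 2 ≤ t → t ≤ (M + 1) * R ^ 2 → f t = 1) (u v v' : Cfg d → F)
    (hv : ∀ x, (fun y => ((rad f y : ℝ) : ℂ) • u y) =ᶠ[𝓝 x] u → v x = v' x) :
    ZL S φ ψ Om χ R b v = ZL S φ ψ Om χ R b v' := by
  unfold ZL
  refine integral_congr_ae (ae_of_all _ fun x => ?_)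
  have hR0 : 0 < R := by linarith
  have hR2 : 0 < R ^ 2 := by positivity
  by_cases hz : AN.Zb φ ψ (fun q => ((χ q : ℝ) : ℂ) • AN.bG S.κ Om b q) R x = 0
  · simp only [hz, inner_zero_left]
  · have hq : ((χ (R⁻¹ • AN.hz ψ (AN.zy φ x), AN.hs ψ (AN.zy φ x), Real.sqrt R • AN.pm φ x) : ℝ) : ℂ) •
        AN.bG S.κ Om b (R⁻¹ • AN.hz ψ (AN.zy φ x), AN.hs ψ (AN.zy φ x), Real.sqrt R • AN.pm φ x) ≠ 0 := by
      intro h0
      apply hz
      unfold AN.Zb
      exact (congrArg _ h0).trans (smul_zero _)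
    have hc : χ (R⁻¹ • AN.hz ψ (AN.zy φ x), AN.hs ψ (AN.zy φ x), Real.sqrt R • AN.pm φ x) ≠ 0 := by
      intro h0
      apply hq
      rw [h0, Complex.ofReal_zero, zero_smul]
    have hbb : b (R⁻¹ • AN.hz ψ (AN.zy φ x)) (AN.hs ψ (AN.zy φ x)) ≠ 0 := by
      intro h0
      apply hq
      unfold AN.bG
      simp only [h0, smul_zero]
    obtain ⟨c1, c2⟩ := hχ _ hc
    simp only at c1 c2
    obtain ⟨c3, c4⟩ := hA _ (hb _ _ hbb)
    have hsR : 0 < Real.sqrt R := Real.sqrt_pos.2 hR0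
    rw [norm_smul, Real.norm_of_nonneg hsR.le] at c2
    have c5 : ‖AN.pm φ x‖ ≤ R := by
      have : Real.sqrt R * ‖AN.pm φ x‖ ≤ Real.sqrt R * R := by
        refine c2.trans ?_
        rw [mul_comm (Real.sqrt R) R]
        exact mul_le_of_le_one_left (by positivity) hδ
      exact le_of_mul_le_mul_left this hsR
    have c6 : ‖AN.hs ψ (AN.zy φ x)‖ ≤ R := c1.trans (mul_le_of_le_one_left hR0.le hδ)
    rw [norm_smul, norm_inv, Real.norm_of_nonneg hR0.le, mul_pow] at c3 c4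
    have c7 : ‖AN.hz ψ (AN.zy φ x)‖ ^ 2 = (R⁻¹ ^ 2 * ‖AN.hz ψ (AN.zy φ x)‖ ^ 2) * R ^ 2 := by
      field_simp
    have c8 := gll_norm φ ψ x
    have c9 : ‖AN.pm φ x‖ ^ 2 ≤ R ^ 2 := pow_le_pow_left₀ (norm_nonneg _) c5 2
    have c10 : ‖AN.hs ψ (AN.zy φ x)‖ ^ 2 ≤ R ^ 2 := pow_le_pow_left₀ (norm_nonneg _) c6 2
    have lo : 2 * a * R ^ 2 < ‖x‖ ^ 2 := by
      have : 4 * a * R ^ 2 ≤ ‖AN.hz ψ (AN.zy φ x)‖ ^ 2 := by
        rw [c7]
        exact mul_le_mul_of_nonneg_right c3 hR2.le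
      have h3 : 0 < a * R ^ 2 := by positivity
      nlinarith [sq_nonneg ‖AN.hs ψ (AN.zy φ x)‖, sq_nonneg ‖AN.pm φ x‖]
    have hi : ‖x‖ ^ 2 < (M + 1) * R ^ 2 := by
      have : ‖AN.hz ψ (AN.zy φ x)‖ ^ 2 ≤ (M - 2) * R ^ 2 := by
        rw [c7]
        exact mul_le_mul_of_nonneg_right (by linarith) hR2.le
      nlinarith
    have hev : (fun y => ((rad f y : ℝ) : ℂ) • u y) =ᶠ[𝓝 x] u := by
      have hcn : Continuous fun y : Cfg d => ‖y‖ ^ 2 := continuous_norm.pow 2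
      filter_upwards [hcn.continuousAt.eventually (Ioo_mem_nhds lo hi)] with y hy
      have : rad f y = 1 := hf _ (le_of_lt hy.1) (le_of_lt hy.2)
      rw [this, Complex.ofReal_one, one_smul]
    simp only [hv x hev]

private lemma gll_DF (S : Setup d F) (φ : Spl dh dm d) (ψ : Spl r ds dh)
    (N : Fin 9 → Matrix (Fin 16) (Fin 16) ℂ) (μ : ℝ) (β : Fin 16) (ζ : Cfg r → ℂ) (o : Cfg ds → F)
    (η : Cfg r) (s : Cfg ds) (h : S.DF φ ψ N μ β (pp ζ o) η s ≠ 0) : η ∈ tsupport ζ := by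
  by_contra hη
  apply h
  rw [notMem_tsupport_iff_eventuallyEq] at hη
  have e1 : (fun y' => pp ζ o y' s) =ᶠ[𝓝 η] fun _ => (0 : F) := by
    filter_upwards [hη] with y hy
    unfold pp
    rw [hy, Pi.zero_apply, zero_smul]
  have e2 : pp ζ o η s = 0 := e1.eq_of_nhds
  have e3 : ∀ i A, pd i A (fun y' => pp ζ o y' s) η = 0 := by
    intro i A
    unfold pd
    rw [e1.fderiv_eq]
    simp
  unfold Setup.DF
  simp [e2, e3]

theorem gLimL (S : Setup d F) (φ : Spl dh dm d) (ψ : Spl r ds dh) (hG : GLimStmt S φ ψ) :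
    GLimLStmt S φ ψ := by
  intro _ hφ hc N hN L Om K U hB ζ hζ hζc hζL hζ0
  obtain ⟨δ₀, hδ₀, H⟩ := hG ‹_› hφ hc N hN L Om K U hB ζ hζ hζc hζL
  refine ⟨min δ₀ 1, lt_min hδ₀ one_pos, fun μ hμ o ho R u hR hRl hu hbd χ hχ β => ?_⟩
  obtain ⟨e, he, hball⟩ := Metric.isOpen_iff.1 (isClosed_tsupport ζ).isOpen_compl 0 hζ0
  obtain ⟨M0, hM0⟩ := hζc.isCompact.isBounded.exists_norm_le
  have hlow : ∀ η ∈ tsupport ζ, e ≤ ‖η‖ := by
    intro η hη
    by_contra hlt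
    exact hball (by simpa using not_le.1 hlt) hη
  have hm : 0 < min e 1 := lt_min he one_pos
  set a : ℝ := (min e 1) ^ 2 / 4 with ha_def
  have ha : 0 < a := by positivity
  have ha1 : a ≤ 1 := by
    have : (min e 1) ^ 2 ≤ 1 := pow_le_one₀ hm.le (min_le_right _ _)
    rw [ha_def]; linarith
  set M : ℝ := M0 ^ 2 + 2 with hM_def
  have hM : 0 ≤ M := by positivity
  have hA : ∀ η ∈ tsupport ζ, 4 * a ≤ ‖η‖ ^ 2 ∧ ‖η‖ ^ 2 + 2 ≤ M := by
    intro η hη
    constructor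
    · rw [ha_def]
      have : (min e 1) ^ 2 ≤ ‖η‖ ^ 2 :=
        pow_le_pow_left₀ hm.le ((min_le_left _ _).trans (hlow η hη)) 2
      linarith
    · have : ‖η‖ ^ 2 ≤ M0 ^ 2 := pow_le_pow_left₀ (norm_nonneg _) (hM0 η hη) 2
      rw [hM_def]; linarith
  obtain ⟨K', hK', hcut⟩ := gll_bd S a M ha ha1 hM
  choose f hf h1 hfu using fun n => hcut (R n) (hR n)
  obtain ⟨C, hC⟩ := hbd (a / 2) (M + 3) (by positivity) (by linarith)
  let u' : ℕ → Cfg d → F := fun n y => ((rad (f n) y : ℝ) : ℂ) • u n y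
  have mas_nonneg : ∀ n, 0 ≤ AD.mas (u n) (AD.shl d (a / 2 * R n) ((M + 3) * R n)) := fun n =>
    integral_nonneg fun x => by positivity
  have en_nonneg : ∀ n, 0 ≤ R n ^ 2 * ∑ β, ∫ x in AD.shl d (a / 2 * R n) ((M + 3) * R n),
      ‖QN S N (μ / R n ^ 2) β (u n) x‖ ^ 2 := fun n =>
    mul_nonneg (by positivity) (Finset.sum_nonneg fun β _ => integral_nonneg fun x => by positivity)
  have hSq : SqN S N μ ((2 + 16 * K') * C) R u' := by
    refine ⟨hR, hRl, fun n => (hfu n N (μ / R n ^ 2) (u n) (hu n)).1, fun n => ?_, fun n => ?_⟩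
    · have h2 := (hfu n N (μ / R n ^ 2) (u n) (hu n)).2.1
      have h3 := hC n
      have h4 := mas_nonneg n
      have h5 := en_nonneg n
      have hC0 : 0 ≤ C := by linarith
      have h6 : C ≤ (2 + 16 * K') * C := by nlinarith [mul_nonneg hK' hC0]
      change nsq (fun y => ((rad (f n) y : ℝ) : ℂ) • u n y) ≤ _
      linarith
    · have h2 := (hfu n N (μ / R n ^ 2) (u n) (hu n)).2.2
      have h3 := hC n
      have h4 := mas_nonneg n
      have h5 := en_nonneg n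
      refine h2.trans ?_
      have h6 : AD.mas (u n) (AD.shl d (a / 2 * R n) ((M + 3) * R n)) ≤ C := by linarith
      have h7 : 16 * K' * AD.mas (u n) (AD.shl d (a / 2 * R n) ((M + 3) * R n)) ≤ 16 * K' * C :=
        mul_le_mul_of_nonneg_left h6 (by positivity)
      have h8 : R n ^ 2 * ∑ β, (∫ x in AD.shl d (a / 2 * R n) ((M + 3) * R n),
          ‖QN S N (μ / R n ^ 2) β (u n) x‖ ^ 2) ≤ C := by linarith
      linarith
  have hχ' : CutA δ₀ R χ := by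
    refine ⟨hχ.meas, hχ.bd, hχ.lim, fun n q hq => ?_⟩
    obtain ⟨p1, p2⟩ := hχ.sup n q hq
    have hRn : 0 ≤ R n := by linarith [hR n]
    exact ⟨p1.trans (mul_le_mul_of_nonneg_right (min_le_left _ _) hRn),
      p2.trans (mul_le_mul_of_nonneg_right (min_le_left _ _) (by positivity))⟩
  have key := H μ hμ o ho R u' _ hSq χ hχ' β
  refine key.congr fun n => ?_
  have g1 : ZL S φ ψ Om (χ n) (R n) (fun η s => U η (pp ζ o η s)) (QN S N (μ / R n ^ 2) β (u' n)) =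
      ZL S φ ψ Om (χ n) (R n) (fun η s => U η (pp ζ o η s)) (QN S N (μ / R n ^ 2) β (u n)) := by
    refine gll_ZL S φ ψ Om (tsupport ζ) a M ha hA (min δ₀ 1) (R n) (min_le_right _ _) (hR n) (χ n)
      (hχ.sup n) _ (fun η s hne => ?_) (f n) (h1 n) (u n) _ _
      (fun x hx => gll_QN_congr S N (μ / R n ^ 2) β hx)
    refine subset_tsupport ζ ?_
    intro h0
    apply hne
    unfold pp
    rw [h0, zero_smul, map_zero]
  have g2 : ZL S φ ψ Om (χ n) (R n) (fun η s => U η (S.DF φ ψ N μ β (pp ζ o) η s)) (u' n) =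
      ZL S φ ψ Om (χ n) (R n) (fun η s => U η (S.DF φ ψ N μ β (pp ζ o) η s)) (u n) := by
    refine gll_ZL S φ ψ Om (tsupport ζ) a M ha hA (min δ₀ 1) (R n) (min_le_right _ _) (hR n) (χ n)
      (hχ.sup n) _ (fun η s hne => ?_) (f n) (h1 n) (u n) _ _
      (fun x hx => hx.eq_of_nhds)
    refine gll_DF S φ ψ N μ β ζ o η s ?_
    intro h0
    apply hne
    simp only [h0, map_zero]
  rw [g1, g2]

end Vale.Agent.P353.Z.AE
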