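import Vale.Agent.P353.AN.E.Stmt

/-! # P353, all `N`, block E: block diagonal supercharge on the trial functions (E-DecH) -/

open MeasureTheory Filter Topology Matrix
open scoped ContDiff

namespace Vale.Agent.P353.Z.AE

variable {d dh dm r ds : ℕ} {F : Type*} [NormedAddCommGroup F] [InnerProductSpace ℂ F]

/-- centre part, continuous linear -/
noncomputable def dhZ (ψ : Spl r ds dh) : Cfg dh →L[ℝ] Cfg r :=
  LinearMap.toContinuousLinearMap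
    { toFun := zpt ψ
      map_add' := fun x y => by ext p; simp [zpt]
      map_smul' := fun t x => by ext p; simp [zpt] }

/-- internal part, continuous linear -/
noncomputable def dhS (ψ : Spl r ds dh) : Cfg dh →L[ℝ] Cfg ds :=
  LinearMap.toContinuousLinearMap
    { toFun := spt ψ
      map_add' := fun x y => by ext p; simp [spt]
      map_smul' := fun t x => by ext p; simp [spt] }

lemma dhZ_apply (ψ : Spl r ds dh) (x : Cfg dh) : dhZ ψ x = zpt ψ x := rfl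
lemma dhS_apply (ψ : Spl r ds dh) (x : Cfg dh) : dhS ψ x = spt ψ x := rfl

lemma dh_zcont (ψ : Spl r ds dh) : Continuous (zpt ψ) := (dhZ ψ).continuous
lemma dh_scont (ψ : Spl r ds dh) : Continuous (spt ψ) := (dhS ψ).continuous

lemma dh_zadd (ψ : Spl r ds dh) (x e : Cfg dh) (t : ℝ) : zpt ψ (x + t • e) = zpt ψ x + t • zpt ψ e := by
  have := (dhZ ψ).map_add x (t • e)
  rw [map_smul] at this
  exact this

lemma dh_sadd (ψ : Spl r ds dh) (x e : Cfg dh) (t : ℝ) : spt ψ (x + t • e) = spt ψ x + t • spt ψ e := by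
  have := (dhS ψ).map_add x (t • e)
  rw [map_smul] at this
  exact this

lemma dh_z_inl (ψ : Spl r ds dh) (i : Fin 9) (a : Fin r) :
    zpt ψ (EuclideanSpace.single (i, ψ (Sum.inl a)) 1) = EuclideanSpace.single (i, a) 1 := by
  ext p
  obtain ⟨j, b⟩ := p
  simp only [zpt, PiLp.single_apply, Prod.mk.injEq, EmbeddingLike.apply_eq_iff_eq, Sum.inl.injEq]

lemma dh_s_inl (ψ : Spl r ds dh) (i : Fin 9) (a : Fin r) :
    spt ψ (EuclideanSpace.single (i, ψ (Sum.inl a)) 1) = 0 := by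
  ext p
  obtain ⟨j, b⟩ := p
  simp [spt]

lemma dh_z_inr (ψ : Spl r ds dh) (i : Fin 9) (b : Fin ds) :
    zpt ψ (EuclideanSpace.single (i, ψ (Sum.inr b)) 1) = 0 := by
  ext p
  obtain ⟨j, b⟩ := p
  simp [zpt]

lemma dh_s_inr (ψ : Spl r ds dh) (i : Fin 9) (b : Fin ds) :
    spt ψ (EuclideanSpace.single (i, ψ (Sum.inr b)) 1) = EuclideanSpace.single (i, b) 1 := by
  ext p
  obtain ⟨j, b⟩ := p
  simp only [spt, PiLp.single_apply, Prod.mk.injEq, EmbeddingLike.apply_eq_iff_eq, Sum.inr.injEq]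

lemma dh_mp (ψ : Spl r ds dh) :
    MeasurePreserving (fun x : Cfg dh => (zpt ψ x, spt ψ x)) volume
      ((volume : Measure (Cfg r)).prod (volume : Measure (Cfg ds))) := by
  let e : (Fin 9 × Fin r) ⊕ (Fin 9 × Fin ds) ≃ Fin 9 × Fin dh :=
    (Equiv.prodSumDistrib (Fin 9) (Fin r) (Fin ds)).symm.trans (Equiv.prodCongr (Equiv.refl _) ψ)
  have h1 := PiLp.volume_preserving_ofLp (Fin 9 × Fin dh)
  have h2 := (volume_measurePreserving_piCongrLeft (fun _ : Fin 9 × Fin dh => ℝ) e).symm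
  have h3 := volume_measurePreserving_sumPiEquivProdPi (fun _ : (Fin 9 × Fin r) ⊕ (Fin 9 × Fin ds) => ℝ)
  have h4 := (PiLp.volume_preserving_toLp (Fin 9 × Fin r)).prod (PiLp.volume_preserving_toLp (Fin 9 × Fin ds))
  exact h4.comp (h3.comp (h2.comp h1))

lemma dh_integral (ψ : Spl r ds dh) (f : Cfg r → ℝ) (g : Cfg ds → ℝ) (hf : Continuous f) (hg : Continuous g)
    (hfi : Integrable f) (hgi : Integrable g) :
    Integrable (fun x : Cfg dh => f (zpt ψ x) * g (spt ψ x)) ∧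
      ∫ x : Cfg dh, f (zpt ψ x) * g (spt ψ x) = (∫ y, f y) * ∫ s, g s := by
  have hm := dh_mp (dh := dh) ψ
  have hc : Continuous fun p : Cfg r × Cfg ds => f p.1 * g p.2 :=
    (hf.comp continuous_fst).mul (hg.comp continuous_snd)
  have hi : Integrable (fun p : Cfg r × Cfg ds => f p.1 * g p.2)
      ((volume : Measure (Cfg r)).prod (volume : Measure (Cfg ds))) := hfi.mul_prod hgi
  refine ⟨(hm.integrable_comp hi.aestronglyMeasurable).2 hi, ?_⟩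
  have h2 := integral_map (μ := (volume : Measure (Cfg dh))) (φ := fun x : Cfg dh => (zpt ψ x, spt ψ x))
    hm.measurable.aemeasurable (f := fun p : Cfg r × Cfg ds => f p.1 * g p.2)
    (by rw [hm.map_eq]; exact hi.aestronglyMeasurable)
  rw [hm.map_eq, integral_prod_mul] at h2
  exact h2.symm

/-- normalisation of the profile -/
lemma dh_scale (R : ℝ) (hR : 0 < R) (f : Cfg r → ℝ) :
    ∫ y : Cfg r, ((Real.sqrt R ^ (9 * r))⁻¹) ^ 2 * f (R⁻¹ • y) = ∫ y, f y := by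
  rw [integral_const_mul, Measure.integral_comp_inv_smul]
  have h1 : Module.finrank ℝ (Cfg r) = 9 * r := by simp
  have h2 : (Real.sqrt R ^ (9 * r)) ^ 2 = R ^ (9 * r) := by
    rw [← pow_mul, mul_comm, pow_mul, Real.sq_sqrt hR.le]
  have h3 : (0 : ℝ) < R ^ (9 * r) := pow_pos hR _
  rw [h1, abs_of_pos h3, inv_pow, h2, smul_eq_mul, ← mul_assoc, inv_mul_cancel₀ h3.ne', one_mul]

section F0

variable (S : Setup d F) (φ : Spl dh dm d)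

lemma dh_F0 (D : Fin 9 → Matrix (Fin dm) (Fin dm) ℝ) (Om : Matrix (Fin dm) (Fin dm) ℝ) (α : Fin 16)
    (A : Fin dh) (v : F) (hv : v ∈ S.F0 φ D Om) : S.th α (φ (Sum.inl A)) v ∈ S.F0 φ D Om := by
  intro p
  have key : S.Lth φ D Om p * S.th α (φ (Sum.inl A)) = -(S.th α (φ (Sum.inl A)) * S.Lth φ D Om p) := by
    rw [Setup.Lth, Finset.sum_mul, Finset.mul_sum, ← Finset.sum_neg_distrib]
    refine Finset.sum_congr rfl fun q _ => ?_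
    have h := S.th_anti q.1 (φ (Sum.inr q.2)) α (φ (Sum.inl A))
    rw [if_neg (by simp)] at h
    rw [smul_mul_assoc, mul_smul_comm, ← smul_neg, eq_neg_of_add_eq_zero_left h]
  have h2 := congrArg (fun T : F →L[ℂ] F => T v) key
  simp only [mul_apply_eq_comp, _root_.neg_apply] at h2
  rw [h2, hv p, map_zero, neg_zero]

lemma dh_F0vec (D : Fin 9 → Matrix (Fin dm) (Fin dm) ℝ) (Om : Matrix (Fin dm) (Fin dm) ℝ)
    (N : Matrix (Fin 16) (Fin 16) ℂ) (A : Fin dh) (β : Fin 16) (v : F) (hv : v ∈ S.F0 φ D Om) :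
    S.vec N (φ (Sum.inl A)) β v ∈ S.F0 φ D Om := by
  simp only [CS.vec, _root_.sum_apply, _root_.smul_apply]
  exact Submodule.sum_mem _ fun γ _ => Submodule.smul_mem _ _ (dh_F0 S φ D Om γ A v hv)

variable {ψ : Spl r ds dh} {U : Set (Cfg r)} {Om : Cfg r → Matrix (Fin dm) (Fin dm) ℝ} {V : Cfg r → F →L[ℂ] F}
  {K : Submodule ℂ F}

lemma dh_Vvec (hV : S.VFr φ ψ U Om V K) (y : Cfg r) (hy : y ∈ U) (N : Matrix (Fin 16) (Fin 16) ℂ) (A : Fin dh)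
    (β : Fin 16) (v : F) : V y (S.vec N (φ (Sum.inl A)) β v) = S.vec N (φ (Sum.inl A)) β (V y v) := by
  simp only [CS.vec, _root_.sum_apply, _root_.smul_apply, map_sum, map_smul, hV.v_th y hy]

lemma dh_Kvec (hV : S.VFr φ ψ U Om V K) (y₀ : Cfg r) (hy : y₀ ∈ U) (N : Matrix (Fin 16) (Fin 16) ℂ) (A : Fin dh)
    (β : Fin 16) (v : F) (hv : v ∈ K) : S.vec N (φ (Sum.inl A)) β v ∈ K := by
  rw [hV.v_m y₀ hy, dh_Vvec S φ hV y₀ hy]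
  exact dh_F0vec S φ _ _ N A β _ ((hV.v_m y₀ hy v).1 hv)

/-- homogeneity: bound of the derivative of the frame -/
lemma dh_dV (hV : S.VFr φ ψ U Om V K) (y₀ : Cfg r) (ε0 : ℝ) (hε0 : 0 < ε0)
    (hin : ∀ R : ℝ, 0 < R → ∀ y : Cfg r, ‖y - R • y₀‖ ≤ ε0 * R → y ∈ U) :
    ∃ CV : ℝ, 0 ≤ CV ∧ ∀ R : ℝ, 0 < R → ∀ y : Cfg r, ‖y - R • y₀‖ ≤ ε0 * R → ∀ (i : Fin 9) (a : Fin r) (v : F),
      ‖fderiv ℝ V y (EuclideanSpace.single (i, a) 1) v‖ ≤ CV / R * ‖v‖ := by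
  have hc : ContinuousOn (fderiv ℝ V) U := hV.v_c.continuousOn_fderiv_of_isOpen hV.opn (by simp)
  have hsub : Metric.closedBall y₀ ε0 ⊆ U := by
    intro y hy
    refine hin 1 one_pos y ?_
    rw [Metric.mem_closedBall, dist_eq_norm] at hy
    simpa using hy
  have hn : ContinuousOn (fun y : Cfg r => ‖fderiv ℝ V y‖) (Metric.closedBall y₀ ε0) :=
    ContinuousOn.norm (E := Cfg r →L[ℝ] F →L[ℂ] F) (hc.mono hsub)
  obtain ⟨C, hC'⟩ := (isCompact_closedBall y₀ ε0).bddAbove_image hn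
  have hC : ∀ y ∈ Metric.closedBall y₀ ε0, ‖fderiv ℝ V y‖ ≤ C := fun y hy => hC' (Set.mem_image_of_mem _ hy)
  have hC0 : 0 ≤ C := (norm_nonneg (fderiv ℝ V y₀)).trans (hC y₀ (Metric.mem_closedBall_self hε0.le))
  refine ⟨C, hC0, fun R hR y hy i a v => ?_⟩
  have hyU : y ∈ U := hin R hR y hy
  have hmem : R⁻¹ • y ∈ Metric.closedBall y₀ ε0 := by
    rw [Metric.mem_closedBall, dist_eq_norm]
    have h1 : R⁻¹ • y - y₀ = R⁻¹ • (y - R • y₀) := by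
      rw [smul_sub, smul_smul, inv_mul_cancel₀ hR.ne', one_smul]
    rw [h1, norm_smul, Real.norm_eq_abs, abs_of_pos (inv_pos.2 hR), inv_mul_le_iff₀ hR, mul_comm]
    exact hy
  have hd : DifferentiableAt ℝ V (R⁻¹ • y) :=
    ((hV.v_c.differentiableOn (by simp)) _ (hsub hmem)).differentiableAt (hV.opn.mem_nhds (hsub hmem))
  have h2 : HasFDerivAt (fun y' => V (R⁻¹ • y')) ((fderiv ℝ V (R⁻¹ • y)).comp (R⁻¹ • ContinuousLinearMap.id ℝ (Cfg r))) y := by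
    have h3 : HasFDerivAt (fun y' : Cfg r => R⁻¹ • y') (R⁻¹ • ContinuousLinearMap.id ℝ (Cfg r)) y :=
      (hasFDerivAt_id y).const_smul R⁻¹
    exact HasFDerivAt.comp y hd.hasFDerivAt h3
  have h4 : HasFDerivAt V ((fderiv ℝ V (R⁻¹ • y)).comp (R⁻¹ • ContinuousLinearMap.id ℝ (Cfg r))) y := by
    refine h2.congr_of_eventuallyEq ?_
    filter_upwards [hV.opn.mem_nhds hyU] with y' hy'
    exact (hV.v_h y' hy' R⁻¹ (inv_pos.2 hR)).symm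
  rw [h4.fderiv]
  have h5 : ((fderiv ℝ V (R⁻¹ • y)).comp (R⁻¹ • ContinuousLinearMap.id ℝ (Cfg r))) (EuclideanSpace.single (i, a) 1) v =
      R⁻¹ • (fderiv ℝ V (R⁻¹ • y) (EuclideanSpace.single (i, a) 1) v) := by
    simp
  rw [h5, norm_smul, Real.norm_eq_abs, abs_of_pos (inv_pos.2 hR)]
  have h6 : ‖fderiv ℝ V (R⁻¹ • y) (EuclideanSpace.single (i, a) 1) v‖ ≤ C * ‖v‖ := by
    refine (ContinuousLinearMap.le_opNorm _ _).trans (mul_le_mul_of_nonneg_right ?_ (norm_nonneg _))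
    refine (ContinuousLinearMap.le_opNorm _ _).trans ?_
    have h7 : ‖(EuclideanSpace.single (i, a) (1 : ℝ) : Cfg r)‖ = 1 := by simp
    rw [h7, mul_one]
    exact hC _ hmem
  calc R⁻¹ * ‖fderiv ℝ V (R⁻¹ • y) (EuclideanSpace.single (i, a) 1) v‖ ≤ R⁻¹ * (C * ‖v‖) :=
        mul_le_mul_of_nonneg_left h6 (inv_nonneg.2 hR.le)
    _ = C / R * ‖v‖ := by ring

end F0

section Key

variable (S : Setup d F) (φ : Spl dh dm d) (ψ : Spl r ds dh) (Om : Cfg r → Matrix (Fin dm) (Fin dm) ℝ)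
  (V : Cfg r → F →L[ℂ] F) (c : ℝ → ℝ) (ε R : ℝ) (ζ : Cfg r → ℂ) (Φ : Cfg ds → F)

/-- derivative of Gaussian and frame in a central direction -/
noncomputable def dhEr (i : Fin 9) (a : Fin r) (x : Cfg dh) (w : Wsp dm) : F :=
  (((Real.sqrt R ^ (9 * r))⁻¹ * c (‖w‖ ^ 2 / (ε * R) ^ 2) : ℝ) : ℂ) • ζ (R⁻¹ • zpt ψ x) •
    (((fderiv ℝ (fun y' => S.bz φ ψ Om y' w) (zpt ψ x) (EuclideanSpace.single (i, a) 1) : ℝ) : ℂ) •
        V (zpt ψ x) (Φ (spt ψ x)) +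
      ((S.bz φ ψ Om (zpt ψ x) w : ℝ) : ℂ) • fderiv ℝ V (zpt ψ x) (EuclideanSpace.single (i, a) 1) (Φ (spt ψ x)))

/-- main part of the derivative in a central direction -/
noncomputable def dhMn (i : Fin 9) (a : Fin r) (x : Cfg dh) (w : Wsp dm) : F :=
  (((Real.sqrt R ^ (9 * r))⁻¹ * c (‖w‖ ^ 2 / (ε * R) ^ 2) * S.bz φ ψ Om (zpt ψ x) w : ℝ) : ℂ) •
    V (zpt ψ x) (((R⁻¹ : ℝ) : ℂ) • fderiv ℝ ζ (R⁻¹ • zpt ψ x) (EuclideanSpace.single (i, a) 1) • Φ (spt ψ x))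

variable {S φ ψ Om V c ε R ζ Φ} {U : Set (Cfg r)} {K : Submodule ℂ F} {y₀ : Cfg r} {ε0 C0 : ℝ}

lemma dh_ev {R : ℝ} {ζ : Cfg r → ℂ} (y : Cfg r) (h : R⁻¹ • y ∉ tsupport ζ) :
    ∀ᶠ y' in 𝓝 y, ζ (R⁻¹ • y') = 0 := by
  have h1 : ∀ᶠ z in 𝓝 (R⁻¹ • y), ζ z = 0 := notMem_tsupport_iff_eventuallyEq.1 h
  have h2 : Tendsto (fun y' : Cfg r => R⁻¹ • y') (𝓝 y) (𝓝 (R⁻¹ • y)) :=
    (continuous_const_smul R⁻¹).continuousAt
  exact h2.eventually h1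

lemma dh_z0 {ζ : Cfg r → ℂ} (z : Cfg r) (h : z ∉ tsupport ζ) : ζ z = 0 ∧ fderiv ℝ ζ z = 0 := by
  have h1 : ζ =ᶠ[𝓝 z] 0 := notMem_tsupport_iff_eventuallyEq.1 h
  refine ⟨h1.self_of_nhds, ?_⟩
  rw [h1.fderiv_eq]
  simp

lemma dh_near {ε R : ℝ} {y₀ y : Cfg r} {ζ : Cfg r → ℂ} (hR : 0 < R) (hsup : tsupport ζ ⊆ Metric.ball y₀ (ε / 2))
    (h : R⁻¹ • y ∈ tsupport ζ) : ‖y - R • y₀‖ ≤ ε / 2 * R := by
  have h1 := hsup h
  rw [Metric.mem_ball, dist_eq_norm] at h1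
  have h2 : y - R • y₀ = R • (R⁻¹ • y - y₀) := by
    rw [smul_sub, smul_smul, mul_inv_cancel₀ hR.ne', one_smul]
  rw [h2, norm_smul, Real.norm_eq_abs, abs_of_pos hR, mul_comm]
  exact mul_le_mul_of_nonneg_right h1.le hR.le

/-- derivative in a central direction -/
lemma dh_pyl (hV : S.VFr φ ψ U Om V K)
    (hin : ∀ R : ℝ, 0 < R → ∀ y : Cfg r, ‖y - R • y₀‖ ≤ ε0 * R → y ∈ U)
    (hsm : ContDiffOn ℝ ∞ (fun p : Cfg r × Wsp dm => S.bz φ ψ Om p.1 p.2) (U ×ˢ Set.univ))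
    (hε : 0 < ε) (hεε : ε ≤ ε0) (hζ : ContDiff ℝ ∞ ζ) (hsup : tsupport ζ ⊆ Metric.ball y₀ (ε / 2)) (hR : 0 < R)
    (x : Cfg dh) (w : Wsp dm)
    (hd : DifferentiableAt ℝ (fun x' => S.TR φ ψ Om V c ε R (pp ζ Φ) x' w) x) (i : Fin 9) (a : Fin r) :
    py i (ψ (Sum.inl a)) (S.TR φ ψ Om V c ε R (pp ζ Φ)) x w =
      dhEr S φ ψ Om V c ε R ζ Φ i a x w + dhMn S φ ψ Om V c ε R ζ Φ i a x w := by
  have h0 : py i (ψ (Sum.inl a)) (S.TR φ ψ Om V c ε R (pp ζ Φ)) x w =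
      deriv (fun t : ℝ => S.TR φ ψ Om V c ε R (pp ζ Φ)
        (x + t • EuclideanSpace.single (i, ψ (Sum.inl a)) (1 : ℝ)) w) 0 := by
    rw [py, pd, ← hd.lineDeriv_eq_fderiv]
    rfl
  set e' : Cfg r := EuclideanSpace.single (i, a) 1 with he'
  set y := zpt ψ x with hy
  set s := spt ψ x with hs
  have h1 : (fun t : ℝ => S.TR φ ψ Om V c ε R (pp ζ Φ)
        (x + t • EuclideanSpace.single (i, ψ (Sum.inl a)) (1 : ℝ)) w) =
      fun t : ℝ => (((Real.sqrt R ^ (9 * r))⁻¹ * c (‖w‖ ^ 2 / (ε * R) ^ 2) : ℝ) : ℂ) •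
        (((S.bz φ ψ Om (y + t • e') w : ℝ) : ℂ) • ζ (R⁻¹ • (y + t • e')) • V (y + t • e') (Φ s)) := by
    funext t
    simp only [Setup.TR, pp, dh_zadd, dh_sadd, dh_z_inl, dh_s_inl, smul_zero, add_zero, map_smul]
    rw [Complex.ofReal_mul, mul_smul]
  rw [h0, h1]
  by_cases hmem : R⁻¹ • y ∈ tsupport ζ
  · have hyU : y ∈ U := hin R hR y ((dh_near hR hsup hmem).trans
      (mul_le_mul_of_nonneg_right (by linarith) hR.le))
    have hb : DifferentiableAt ℝ (fun y' => S.bz φ ψ Om y' w) y := by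
      have h2 : DifferentiableAt ℝ (fun p : Cfg r × Wsp dm => S.bz φ ψ Om p.1 p.2) (y, w) :=
        ((hsm.differentiableOn (by simp)) _ (Set.mk_mem_prod hyU (Set.mem_univ w))).differentiableAt
          ((hV.opn.prod isOpen_univ).mem_nhds (Set.mk_mem_prod hyU (Set.mem_univ w)))
      have h3 : DifferentiableAt ℝ (fun y' : Cfg r => (y', w)) y := by fun_prop
      exact DifferentiableAt.comp y h2 h3
    have hVd : DifferentiableAt ℝ V y :=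
      ((hV.v_c.differentiableOn (by simp)) _ hyU).differentiableAt (hV.opn.mem_nhds hyU)
    have hbl : HasDerivAt (fun t : ℝ => S.bz φ ψ Om (y + t • e') w)
        (fderiv ℝ (fun y' => S.bz φ ψ Om y' w) y e') 0 := hb.hasFDerivAt.hasLineDerivAt e'
    have hVl : HasDerivAt (fun t : ℝ => V (y + t • e')) (fderiv ℝ V y e') 0 :=
      hVd.hasFDerivAt.hasLineDerivAt e'
    have hVl2 : HasDerivAt (fun t : ℝ => V (y + t • e') (Φ s)) (fderiv ℝ V y e' (Φ s)) 0 := by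
      let L : (F →L[ℂ] F) →L[ℝ] F := (ContinuousLinearMap.apply ℂ F (Φ s)).restrictScalars ℝ
      exact (L.hasFDerivAt.comp_hasDerivAt (0 : ℝ) hVl)
    have hζl : HasDerivAt (fun t : ℝ => ζ (R⁻¹ • (y + t • e'))) (((R⁻¹ : ℝ) : ℂ) * fderiv ℝ ζ (R⁻¹ • y) e') 0 := by
      have h2 : HasDerivAt (fun t : ℝ => ζ (R⁻¹ • y + t • (R⁻¹ • e'))) (fderiv ℝ ζ (R⁻¹ • y) (R⁻¹ • e')) 0 :=
        ((hζ.differentiable (by simp)) (R⁻¹ • y)).hasFDerivAt.hasLineDerivAt (R⁻¹ • e')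
      have h3 : (fun t : ℝ => ζ (R⁻¹ • y + t • (R⁻¹ • e'))) = fun t : ℝ => ζ (R⁻¹ • (y + t • e')) := by
        funext t
        rw [smul_add, smul_comm R⁻¹ t]
      rw [h3, map_smul, Complex.real_smul] at h2
      exact h2
    have hall := ((hbl.ofReal_comp).smul (hζl.smul hVl2)).const_smul
      (((Real.sqrt R ^ (9 * r))⁻¹ * c (‖w‖ ^ 2 / (ε * R) ^ 2) : ℝ) : ℂ)
    refine hall.deriv.trans ?_
    simp only [Pi.smul_apply', zero_smul, smul_zero, add_zero, dhEr, dhMn, ← hy, ← hs, ← he', map_smul,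
      Complex.ofReal_mul, mul_smul, smul_add]
    module
  · have hz := dh_z0 _ hmem
    have h2 : (fun t : ℝ => (((Real.sqrt R ^ (9 * r))⁻¹ * c (‖w‖ ^ 2 / (ε * R) ^ 2) : ℝ) : ℂ) •
        (((S.bz φ ψ Om (y + t • e') w : ℝ) : ℂ) • ζ (R⁻¹ • (y + t • e')) • V (y + t • e') (Φ s))) =ᶠ[𝓝 0] fun _ => 0 := by
      have h3 : Tendsto (fun t : ℝ => y + t • e') (𝓝 0) (𝓝 y) := by
        have : Continuous fun t : ℝ => y + t • e' := by fun_prop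
        have h4 := this.tendsto 0
        rwa [zero_smul, add_zero] at h4
      filter_upwards [h3.eventually (dh_ev y hmem)] with t ht
      rw [ht, zero_smul, smul_zero, smul_zero]
    rw [h2.deriv_eq, deriv_const, dhEr, dhMn, ← hy, hz.1, hz.2]
    simp

/-- derivative in an internal direction -/
lemma dh_pyr (x : Cfg dh) (w : Wsp dm)
    (hd : DifferentiableAt ℝ (fun x' => S.TR φ ψ Om V c ε R (pp ζ Φ) x' w) x) (hΦ : Differentiable ℝ Φ) (i : Fin 9)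
    (b : Fin ds) :
    py i (ψ (Sum.inr b)) (S.TR φ ψ Om V c ε R (pp ζ Φ)) x w =
      (((Real.sqrt R ^ (9 * r))⁻¹ * c (‖w‖ ^ 2 / (ε * R) ^ 2) * S.bz φ ψ Om (zpt ψ x) w : ℝ) : ℂ) •
        V (zpt ψ x) (ζ (R⁻¹ • zpt ψ x) • pd i b Φ (spt ψ x)) := by
  have h0 : py i (ψ (Sum.inr b)) (S.TR φ ψ Om V c ε R (pp ζ Φ)) x w =
      deriv (fun t : ℝ => S.TR φ ψ Om V c ε R (pp ζ Φ)
        (x + t • EuclideanSpace.single (i, ψ (Sum.inr b)) (1 : ℝ)) w) 0 := by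
    rw [py, pd, ← hd.lineDeriv_eq_fderiv]
    rfl
  set e' : Cfg ds := EuclideanSpace.single (i, b) 1 with he'
  set y := zpt ψ x with hy
  set s := spt ψ x with hs
  have h1 : (fun t : ℝ => S.TR φ ψ Om V c ε R (pp ζ Φ)
        (x + t • EuclideanSpace.single (i, ψ (Sum.inr b)) (1 : ℝ)) w) =
      fun t : ℝ => (((Real.sqrt R ^ (9 * r))⁻¹ * c (‖w‖ ^ 2 / (ε * R) ^ 2) * S.bz φ ψ Om y w : ℝ) : ℂ) •
        V y (ζ (R⁻¹ • y) • Φ (s + t • e')) := by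
    funext t
    simp only [Setup.TR, pp, dh_zadd, dh_sadd, dh_z_inr, dh_s_inr, smul_zero, add_zero]
    rfl
  rw [h0, h1]
  have h2 : HasDerivAt (fun t : ℝ => Φ (s + t • e')) (fderiv ℝ Φ s e') 0 := (hΦ s).hasFDerivAt.hasLineDerivAt e'
  have h3 := ((((V y).restrictScalars ℝ).hasFDerivAt.comp_hasDerivAt (0 : ℝ) (h2.const_smul (ζ (R⁻¹ • y))))).const_smul
    (((Real.sqrt R ^ (9 * r))⁻¹ * c (‖w‖ ^ 2 / (ε * R) ^ 2) * S.bz φ ψ Om y w : ℝ) : ℂ)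
  exact h3.deriv

/-- the potential of `h` only involves the internal part -/
lemma dh_pot (hφ : S.IsSub φ) (hc : S.IsCen φ ψ) (β : Fin 16) (x : Cfg dh) :
    (1 / 2 : ℂ) • ∑ A, ∑ i, ∑ j,
      ((S.κ * ∑ B, ∑ C, S.f (φ (Sum.inl A)) (φ (Sum.inl B)) (φ (Sum.inl C)) * x (i, B) * x (j, C) : ℝ) : ℂ) •
        S.vec (S.g2 i j) (φ (Sum.inl A)) β = (S.int φ ψ hφ hc).W β (spt ψ x) := by
  have hl : ∀ a B C, S.f (φ (Sum.inl (ψ (Sum.inl a)))) (φ (Sum.inl B)) (φ (Sum.inl C)) = 0 := hc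
  have hm : ∀ A b C, S.f (φ (Sum.inl A)) (φ (Sum.inl (ψ (Sum.inl b)))) (φ (Sum.inl C)) = 0 := by
    intro A b C
    rw [S.f_cyc]
    exact hc b C A
  have hr : ∀ A B c, S.f (φ (Sum.inl A)) (φ (Sum.inl B)) (φ (Sum.inl (ψ (Sum.inl c)))) = 0 := by
    intro A B c
    rw [← S.f_cyc]
    exact hc c A B
  have h1 : ∀ (A : Fin dh) (i j : Fin 9),
      (∑ B, ∑ C, S.f (φ (Sum.inl A)) (φ (Sum.inl B)) (φ (Sum.inl C)) * x (i, B) * x (j, C)) =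
      ∑ B : Fin ds, ∑ C : Fin ds, S.f (φ (Sum.inl A)) (φ (Sum.inl (ψ (Sum.inr B)))) (φ (Sum.inl (ψ (Sum.inr C)))) *
        spt ψ x (i, B) * spt ψ x (j, C) := by
    intro A i j
    rw [← ψ.sum_comp, Fintype.sum_sum_type]
    have e1 : ∑ a : Fin r, ∑ C, S.f (φ (Sum.inl A)) (φ (Sum.inl (ψ (Sum.inl a)))) (φ (Sum.inl C)) *
        x (i, ψ (Sum.inl a)) * x (j, C) = 0 :=
      Finset.sum_eq_zero fun a _ => Finset.sum_eq_zero fun C _ => by rw [hm, zero_mul, zero_mul]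
    rw [e1, zero_add]
    refine Finset.sum_congr rfl fun B _ => ?_
    rw [← ψ.sum_comp, Fintype.sum_sum_type]
    have e2 : ∑ a : Fin r, S.f (φ (Sum.inl A)) (φ (Sum.inl (ψ (Sum.inr B)))) (φ (Sum.inl (ψ (Sum.inl a)))) *
        x (i, ψ (Sum.inr B)) * x (j, ψ (Sum.inl a)) = 0 :=
      Finset.sum_eq_zero fun a _ => by rw [hr, zero_mul, zero_mul]
    rw [e2, zero_add]
    rfl
  simp only [h1]
  rw [← ψ.sum_comp, Fintype.sum_sum_type]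
  have e3 : ∑ a : Fin r, ∑ i, ∑ j, ((S.κ * ∑ B : Fin ds, ∑ C : Fin ds,
      S.f (φ (Sum.inl (ψ (Sum.inl a)))) (φ (Sum.inl (ψ (Sum.inr B)))) (φ (Sum.inl (ψ (Sum.inr C)))) *
        spt ψ x (i, B) * spt ψ x (j, C) : ℝ) : ℂ) • S.vec (S.g2 i j) (φ (Sum.inl (ψ (Sum.inl a)))) β = 0 := by
    refine Finset.sum_eq_zero fun a _ => Finset.sum_eq_zero fun i _ => Finset.sum_eq_zero fun j _ => ?_
    simp only [hl, zero_mul, Finset.sum_const_zero, mul_zero, Complex.ofReal_zero, zero_smul]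
  rw [e3, zero_add]
  rfl

/-- **key identity**: explicit form of the error -/
lemma dh_key (hφ : S.IsSub φ) (hc : S.IsCen φ ψ) (hV : S.VFr φ ψ U Om V K)
    (hin : ∀ R : ℝ, 0 < R → ∀ y : Cfg r, ‖y - R • y₀‖ ≤ ε0 * R → y ∈ U)
    (hsm : ContDiffOn ℝ ∞ (fun p : Cfg r × Wsp dm => S.bz φ ψ Om p.1 p.2) (U ×ˢ Set.univ))
    (hε : 0 < ε) (hεε : ε ≤ ε0) (hζ : ContDiff ℝ ∞ ζ) (hsup : tsupport ζ ⊆ Metric.ball y₀ (ε / 2)) (hR : 0 < R)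
    (x : Cfg dh) (w : Wsp dm)
    (hd : DifferentiableAt ℝ (fun x' => S.TR φ ψ Om V c ε R (pp ζ Φ) x' w) x) (hΦ : Differentiable ℝ Φ) (β : Fin 16) :
    S.Qh φ β (S.TR φ ψ Om V c ε R (pp ζ Φ)) x w =
      (((R⁻¹ : ℝ) : ℂ) • S.TR φ ψ Om V c ε R (S.DF φ ψ (fun _ => 0) 0 β (pp ζ Φ)) x w +
        S.TR φ ψ Om V c ε R (pp ζ ((S.int φ ψ hφ hc).Q β Φ)) x w) +
      (-Complex.I) • ∑ i, ∑ a, S.vec (S.g i) (φ (Sum.inl (ψ (Sum.inl a)))) β (dhEr S φ ψ Om V c ε R ζ Φ i a x w) := by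
  have hcomm : ∀ (N : Matrix (Fin 16) (Fin 16) ℂ) (A : Fin dh) (v : F),
      ζ (R⁻¹ • zpt ψ x) • V (zpt ψ x) (S.vec N (φ (Sum.inl A)) β v) =
        ζ (R⁻¹ • zpt ψ x) • S.vec N (φ (Sum.inl A)) β (V (zpt ψ x) v) := by
    intro N A v
    by_cases hmem : R⁻¹ • zpt ψ x ∈ tsupport ζ
    · rw [dh_Vvec S φ hV _ (hin R hR _ ((dh_near hR hsup hmem).trans
        (mul_le_mul_of_nonneg_right (by linarith) hR.le)))]
    · rw [(dh_z0 _ hmem).1, zero_smul, zero_smul]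
  have hcomm' : ∀ (N : Matrix (Fin 16) (Fin 16) ℂ) (A : Fin dh) (v : F) (i : Fin 9) (a : Fin r),
      fderiv ℝ ζ (R⁻¹ • zpt ψ x) (EuclideanSpace.single (i, a) 1) • V (zpt ψ x) (S.vec N (φ (Sum.inl A)) β v) =
        fderiv ℝ ζ (R⁻¹ • zpt ψ x) (EuclideanSpace.single (i, a) 1) •
          S.vec N (φ (Sum.inl A)) β (V (zpt ψ x) v) := by
    intro N A v i a
    by_cases hmem : R⁻¹ • zpt ψ x ∈ tsupport ζ
    · rw [dh_Vvec S φ hV _ (hin R hR _ ((dh_near hR hsup hmem).trans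
        (mul_le_mul_of_nonneg_right (by linarith) hR.le)))]
    · rw [(dh_z0 _ hmem).2]
      simp
  have hpot := congrArg (fun T : F →L[ℂ] F => T (S.TR φ ψ Om V c ε R (pp ζ Φ) x w)) (dh_pot (β := β) hφ hc x)
  have h1 : S.Qh φ β (S.TR φ ψ Om V c ε R (pp ζ Φ)) x w =
      (-Complex.I) • ∑ i, ∑ A, S.vec (S.g i) (φ (Sum.inl A)) β (py i A (S.TR φ ψ Om V c ε R (pp ζ Φ)) x w) +
      (S.int φ ψ hφ hc).W β (spt ψ x) (S.TR φ ψ Om V c ε R (pp ζ Φ) x w) := by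
    rw [← hpot, Setup.Qh]
    simp only [_root_.sum_apply, _root_.smul_apply]
  have h2 : ∀ i, ∑ A, S.vec (S.g i) (φ (Sum.inl A)) β (py i A (S.TR φ ψ Om V c ε R (pp ζ Φ)) x w) =
      ∑ a, (S.vec (S.g i) (φ (Sum.inl (ψ (Sum.inl a)))) β (dhEr S φ ψ Om V c ε R ζ Φ i a x w) +
        S.vec (S.g i) (φ (Sum.inl (ψ (Sum.inl a)))) β (dhMn S φ ψ Om V c ε R ζ Φ i a x w)) +
      ∑ b, S.vec (S.g i) (φ (Sum.inl (ψ (Sum.inr b)))) β
        ((((Real.sqrt R ^ (9 * r))⁻¹ * c (‖w‖ ^ 2 / (ε * R) ^ 2) * S.bz φ ψ Om (zpt ψ x) w : ℝ) : ℂ) •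
        V (zpt ψ x) (ζ (R⁻¹ • zpt ψ x) • pd i b Φ (spt ψ x))) := by
    intro i
    rw [← ψ.sum_comp, Fintype.sum_sum_type]
    congr 1
    · refine Finset.sum_congr rfl fun a _ => ?_
      rw [dh_pyl hV hin hsm hε hεε hζ hsup hR x w hd i a, map_add]
    · refine Finset.sum_congr rfl fun b _ => ?_
      rw [dh_pyr x w hd hΦ i b]
  have h3 : ((R⁻¹ : ℝ) : ℂ) • S.TR φ ψ Om V c ε R (S.DF φ ψ (fun _ => 0) 0 β (pp ζ Φ)) x w =
      (-Complex.I) • ∑ i, ∑ a, S.vec (S.g i) (φ (Sum.inl (ψ (Sum.inl a)))) β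
        (dhMn S φ ψ Om V c ε R ζ Φ i a x w) := by
    have hpd : ∀ (i : Fin 9) (a : Fin r), pd i a (fun y' => pp ζ Φ y' (spt ψ x)) (R⁻¹ • zpt ψ x) =
        fderiv ℝ ζ (R⁻¹ • zpt ψ x) (EuclideanSpace.single (i, a) 1) • Φ (spt ψ x) := by
      intro i a
      have hz : HasFDerivAt (fun y' => ζ y' • Φ (spt ψ x))
          ((fderiv ℝ ζ (R⁻¹ • zpt ψ x)).smulRight (Φ (spt ψ x))) (R⁻¹ • zpt ψ x) :=
        ((hζ.differentiable (by simp)) (R⁻¹ • zpt ψ x)).hasFDerivAt.smul_const _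
      have := hz.fderiv
      simp only [pd, pp]
      rw [this]
      rfl
    have hDF : S.DF φ ψ (fun _ => 0) 0 β (pp ζ Φ) (R⁻¹ • zpt ψ x) (spt ψ x) =
        (-Complex.I) • ∑ i, ∑ a, fderiv ℝ ζ (R⁻¹ • zpt ψ x) (EuclideanSpace.single (i, a) 1) •
          S.vec (S.g i) (φ (Sum.inl (ψ (Sum.inl a)))) β (Φ (spt ψ x)) := by
      rw [Setup.DF]
      simp only [hpd, Complex.ofReal_zero, zero_smul, add_zero, map_smul]
    have hTR : S.TR φ ψ Om V c ε R (S.DF φ ψ (fun _ => 0) 0 β (pp ζ Φ)) x w =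
        (((Real.sqrt R ^ (9 * r))⁻¹ * c (‖w‖ ^ 2 / (ε * R) ^ 2) * S.bz φ ψ Om (zpt ψ x) w : ℝ) : ℂ) •
          (-Complex.I) • ∑ i, ∑ a, fderiv ℝ ζ (R⁻¹ • zpt ψ x) (EuclideanSpace.single (i, a) 1) •
          S.vec (S.g i) (φ (Sum.inl (ψ (Sum.inl a)))) β (V (zpt ψ x) (Φ (spt ψ x))) := by
      rw [Setup.TR, hDF, map_smul, map_sum]
      simp only [map_sum, map_smul, hcomm']
    rw [hTR]
    simp only [dhMn, map_smul, Finset.smul_sum]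
    refine Finset.sum_congr rfl fun i _ => Finset.sum_congr rfl fun a _ => ?_
    module
  have h4 : S.TR φ ψ Om V c ε R (pp ζ ((S.int φ ψ hφ hc).Q β Φ)) x w =
      (-Complex.I) • ∑ i, ∑ b, S.vec (S.g i) (φ (Sum.inl (ψ (Sum.inr b)))) β
        ((((Real.sqrt R ^ (9 * r))⁻¹ * c (‖w‖ ^ 2 / (ε * R) ^ 2) * S.bz φ ψ Om (zpt ψ x) w : ℝ) : ℂ) •
        V (zpt ψ x) (ζ (R⁻¹ • zpt ψ x) • pd i b Φ (spt ψ x))) +
      (S.int φ ψ hφ hc).W β (spt ψ x) (S.TR φ ψ Om V c ε R (pp ζ Φ) x w) := by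
    have hW : ζ (R⁻¹ • zpt ψ x) • V (zpt ψ x) ((S.int φ ψ hφ hc).W β (spt ψ x) (Φ (spt ψ x))) =
        ζ (R⁻¹ • zpt ψ x) • (S.int φ ψ hφ hc).W β (spt ψ x) (V (zpt ψ x) (Φ (spt ψ x))) := by
      have hv : ∀ (i j : Fin 9) (A : Fin ds) (v : F), ζ (R⁻¹ • zpt ψ x) • V (zpt ψ x)
          ((S.int φ ψ hφ hc).vec ((S.int φ ψ hφ hc).g2 i j) A β v) = ζ (R⁻¹ • zpt ψ x) •
            (S.int φ ψ hφ hc).vec ((S.int φ ψ hφ hc).g2 i j) A β (V (zpt ψ x) v) :=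
        fun i j A v => hcomm _ _ v
      simp only [Setup.W, _root_.sum_apply, _root_.smul_apply, map_sum, map_smul, Finset.smul_sum]
      refine Finset.sum_congr rfl fun A _ => Finset.sum_congr rfl fun i _ => Finset.sum_congr rfl fun j _ => ?_
      rw [smul_comm (ζ (R⁻¹ • zpt ψ x)), smul_comm (ζ (R⁻¹ • zpt ψ x)), hv,
        smul_comm (ζ (R⁻¹ • zpt ψ x)) (1 / 2 : ℂ), smul_comm (ζ (R⁻¹ • zpt ψ x))]
    have hQ : (S.int φ ψ hφ hc).Q β Φ (spt ψ x) = (-Complex.I) • ∑ i, ∑ b,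
        S.vec (S.g i) (φ (Sum.inl (ψ (Sum.inr b)))) β (pd i b Φ (spt ψ x)) +
        (S.int φ ψ hφ hc).W β (spt ψ x) (Φ (spt ψ x)) := rfl
    rw [Setup.TR, pp, hQ, smul_add, map_add, smul_add]
    congr 1
    · simp only [map_smul, map_sum, Finset.smul_sum]
      refine Finset.sum_congr rfl fun i _ => Finset.sum_congr rfl fun a _ => ?_
      rw [smul_comm (ζ (R⁻¹ • zpt ψ x)) (-Complex.I), hcomm]
      module
    · rw [map_smul, hW, Setup.TR, pp]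
      simp only [map_smul]
  rw [h1, h3, h4]
  simp only [h2, Finset.sum_add_distrib, smul_add]
  abel

end Key

section Bd

variable {S : Setup d F} {φ : Spl dh dm d} {ψ : Spl r ds dh} {Om : Cfg r → Matrix (Fin dm) (Fin dm) ℝ}
  {V : Cfg r → F →L[ℂ] F} {c : ℝ → ℝ} {ε R : ℝ} {ζ : Cfg r → ℂ} {Φ : Cfg ds → F} {U : Set (Cfg r)}
  {K : Submodule ℂ F} {y₀ : Cfg r} {ε0 C0 : ℝ}

omit [NormedAddCommGroup F] [InnerProductSpace ℂ F] in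
lemma dh_bcont' (B : Cfg r → Wsp dm → ℝ) (hU : IsOpen U)
    (hsm : ContDiffOn ℝ ∞ (fun p : Cfg r × Wsp dm => B p.1 p.2) (U ×ˢ Set.univ))
    (y : Cfg r) (hy : y ∈ U) : Continuous (B y) ∧ ∀ e : Cfg r,
      Continuous (fun w => fderiv ℝ (fun y' => B y' w) y e) := by
  have hmem : ∀ w : Wsp dm, (y, w) ∈ U ×ˢ (Set.univ : Set (Wsp dm)) := fun w => Set.mk_mem_prod hy (Set.mem_univ w)
  have ho : IsOpen (U ×ˢ (Set.univ : Set (Wsp dm))) := hU.prod isOpen_univ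
  have hpc : Continuous fun w : Wsp dm => (y, w) := by fun_prop
  refine ⟨hsm.continuousOn.comp_continuous hpc hmem, fun e => ?_⟩
  have h1 : ContinuousOn (fderiv ℝ (fun p : Cfg r × Wsp dm => B p.1 p.2)) (U ×ˢ Set.univ) :=
    hsm.continuousOn_fderiv_of_isOpen ho (by simp)
  have h2 : (fun w => fderiv ℝ (fun y' => B y' w) y e) =
      fun w => fderiv ℝ (fun p : Cfg r × Wsp dm => B p.1 p.2) (y, w) (e, 0) := by
    funext w
    have h3 : DifferentiableAt ℝ (fun p : Cfg r × Wsp dm => B p.1 p.2) (y, w) :=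
      ((hsm.differentiableOn (by simp)) _ (hmem w)).differentiableAt (ho.mem_nhds (hmem w))
    have h4 : HasFDerivAt (fun y' : Cfg r => (y', w)) (ContinuousLinearMap.inl ℝ (Cfg r) (Wsp dm)) y :=
      hasFDerivAt_prodMk_left y w
    have h5 : HasFDerivAt (fun y' => B y' w) ((fderiv ℝ (fun p : Cfg r × Wsp dm => B p.1 p.2) (y, w)).comp
      (ContinuousLinearMap.inl ℝ (Cfg r) (Wsp dm))) y :=
      HasFDerivAt.comp (g := fun p : Cfg r × Wsp dm => B p.1 p.2) (f := fun y' : Cfg r => (y', w)) y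
        h3.hasFDerivAt h4
    rw [h5.fderiv]
    rfl
  rw [h2]
  have h7 : Continuous fun w : Wsp dm => fderiv ℝ (fun p : Cfg r × Wsp dm => B p.1 p.2) (y, w) :=
    h1.comp_continuous hpc hmem
  exact h7.clm_apply continuous_const

lemma dh_bcont (hU : IsOpen U) (hsm : ContDiffOn ℝ ∞ (fun p : Cfg r × Wsp dm => S.bz φ ψ Om p.1 p.2) (U ×ˢ Set.univ))
    (y : Cfg r) (hy : y ∈ U) : Continuous (fun w => S.bz φ ψ Om y w) ∧ ∀ e : Cfg r,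
      Continuous (fun w => fderiv ℝ (fun y' => S.bz φ ψ Om y' w) y e) :=
  dh_bcont' (fun y w => S.bz φ ψ Om y w) hU hsm y hy

lemma dh_cct (hc : IsCt c) (hε : 0 < ε) (hR : 0 < R) :
    Continuous (fun w : Wsp dm => c (‖w‖ ^ 2 / (ε * R) ^ 2)) ∧
      HasCompactSupport (fun w : Wsp dm => c (‖w‖ ^ 2 / (ε * R) ^ 2)) := by
  refine ⟨hc.sm.continuous.comp (by fun_prop), ?_⟩
  refine HasCompactSupport.intro (isCompact_closedBall (0 : Wsp dm) (ε * R)) fun w hw => ?_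
  rw [mem_closedBall_zero_iff, not_le] at hw
  refine hc.zero _ ?_
  rw [one_le_div (by positivity)]
  exact pow_le_pow_left₀ (by positivity) hw.le 2

lemma dh_cz (hc : IsCt c) (hε : 0 < ε) (hR : 0 < R) (w : Wsp dm) (h : ¬ ‖w‖ ≤ ε * R) :
    c (‖w‖ ^ 2 / (ε * R) ^ 2) = 0 := by
  rw [not_le] at h
  refine hc.zero _ ?_
  rw [one_le_div (by positivity)]
  exact pow_le_pow_left₀ (by positivity) h.le 2

lemma dh_cone (hc : IsCt c) (hε : 0 < ε) (hR : 0 < R) (w : Wsp dm) (h : ¬ ε / 2 * R ≤ ‖w‖) :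
    c (‖w‖ ^ 2 / (ε * R) ^ 2) = 1 := by
  rw [not_le] at h
  refine hc.one _ ?_
  rw [div_le_iff₀ (by positivity)]
  have h1 : ‖w‖ ^ 2 ≤ (ε / 2 * R) ^ 2 := pow_le_pow_left₀ (norm_nonneg _) h.le 2
  nlinarith [h1]

/-- weighted square integral of the Gaussian -/
lemma dh_w2 (hB : BzFacts S φ ψ U Om y₀ ε0 C0) (hR : 0 < R) (y : Cfg r) (hy : ‖y - R • y₀‖ ≤ ε0 * R)
    (g : Wsp dm → ℝ) (A : ℝ) (hA : 0 ≤ A) (hg0 : ∀ w, 0 ≤ g w)
    (hg : ∀ w, g w ≤ A * ((1 / R + ‖w‖ ^ 2) * S.bz φ ψ Om y w) ^ 2) :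
    ∫ w, g w ≤ A * ((2 + 2 * C0) * (1 / R) ^ 2) := by
  have hyU := hB.inU R hR y hy
  have h0 := hB.int y hyU 0
  have h2 := hB.int y hyU 2
  have hi : Integrable (fun w => A * (2 * (1 / R) ^ 2 * (‖w‖ ^ 0 * S.bz φ ψ Om y w) ^ 2 +
      2 * (‖w‖ ^ 2 * S.bz φ ψ Om y w) ^ 2)) := ((h0.const_mul _).add (h2.const_mul _)).const_mul A
  have hle : ∀ w, g w ≤ A * (2 * (1 / R) ^ 2 * (‖w‖ ^ 0 * S.bz φ ψ Om y w) ^ 2 +
      2 * (‖w‖ ^ 2 * S.bz φ ψ Om y w) ^ 2) := by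
    intro w
    refine (hg w).trans (mul_le_mul_of_nonneg_left ?_ hA)
    rw [pow_zero, one_mul]
    nlinarith [sq_nonneg ((1 / R - ‖w‖ ^ 2) * S.bz φ ψ Om y w)]
  have h3 := integral_mono_of_nonneg (Eventually.of_forall hg0) hi (Eventually.of_forall hle)
  refine h3.trans ?_
  rw [integral_const_mul, integral_add (h0.const_mul _) (h2.const_mul _), integral_const_mul, integral_const_mul]
  refine mul_le_mul_of_nonneg_left ?_ hA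
  have h4 : ∫ w, (‖w‖ ^ 0 * S.bz φ ψ Om y w) ^ 2 = 1 := by
    rw [← hB.norm y hyU]
    simp
  have h5 := hB.mom R hR y hy 2 (by norm_num)
  rw [h4]
  nlinarith [h5]

/-- the Gaussian is orthogonal to its central derivative, with cutoff -/
lemma dh_w1 (hB : BzFacts S φ ψ U Om y₀ ε0 C0) (hU : IsOpen U) (hC0 : 0 < C0) (hc : IsCt c) (hε : 0 < ε) :
    ∃ C1 : ℝ, 0 ≤ C1 ∧ ∀ R : ℝ, 1 ≤ R → ∀ y : Cfg r, ‖y - R • y₀‖ ≤ ε0 * R → ∀ (i : Fin 9) (a : Fin r),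
      |∫ w, c (‖w‖ ^ 2 / (ε * R) ^ 2) * (S.bz φ ψ Om y w *
        fderiv ℝ (fun y' => S.bz φ ψ Om y' w) y (EuclideanSpace.single (i, a) 1))| ≤ C1 * (1 / R) ^ 8 := by
  obtain ⟨C', hC'⟩ := hB.tail (ε / 2) (by positivity)
  refine ⟨C0 * (2 * |C'|), by positivity, fun R hR y hy i a => ?_⟩
  have hR0 : 0 < R := one_pos.trans_le hR
  have hyU := hB.inU R hR0 y hy
  obtain ⟨hb, hdb⟩ := dh_bcont hU hB.sm y hyU
  set e : Cfg r := EuclideanSpace.single (i, a) 1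
  have h0 := hB.int y hyU 0
  have h1 := hB.int y hyU 1
  have hpt : ∀ w, |S.bz φ ψ Om y w * fderiv ℝ (fun y' => S.bz φ ψ Om y' w) y e| ≤
      C0 * (1 / R * (‖w‖ ^ 0 * S.bz φ ψ Om y w) ^ 2 + (‖w‖ ^ 1 * S.bz φ ψ Om y w) ^ 2) := by
    intro w
    rw [abs_mul, abs_of_pos (hB.pos y hyU w)]
    have h2 := mul_le_mul_of_nonneg_left (hB.dy R hR0 y hy w i a) (hB.pos y hyU w).le
    refine h2.trans (le_of_eq ?_)
    ring
  have hi1 : Integrable (fun w => S.bz φ ψ Om y w * fderiv ℝ (fun y' => S.bz φ ψ Om y' w) y e) := by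
    refine Integrable.mono' (((h0.const_mul (1 / R)).add h1).const_mul C0) (hb.mul (hdb e)).aestronglyMeasurable
      (Eventually.of_forall fun w => ?_)
    rw [Real.norm_eq_abs]
    exact hpt w
  have hcc := dh_cct (dm := dm) hc hε hR0
  have hi2 : Integrable (fun w => c (‖w‖ ^ 2 / (ε * R) ^ 2) *
      (S.bz φ ψ Om y w * fderiv ℝ (fun y' => S.bz φ ψ Om y' w) y e)) :=
    (hcc.1.mul (hb.mul (hdb e))).integrable_of_hasCompactSupport hcc.2.mul_right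
  have h3 : ∫ w, c (‖w‖ ^ 2 / (ε * R) ^ 2) * (S.bz φ ψ Om y w * fderiv ℝ (fun y' => S.bz φ ψ Om y' w) y e) =
      ∫ w, (c (‖w‖ ^ 2 / (ε * R) ^ 2) * (S.bz φ ψ Om y w * fderiv ℝ (fun y' => S.bz φ ψ Om y' w) y e) -
        S.bz φ ψ Om y w * fderiv ℝ (fun y' => S.bz φ ψ Om y' w) y e) := by
    rw [integral_sub hi2 hi1, hB.orth y hyU i a, sub_zero]
  rw [h3]
  have hif : ∀ k : ℕ, k ≤ 1 → Integrable (fun w : Wsp dm => if ε / 2 * R ≤ ‖w‖ then (‖w‖ ^ k * S.bz φ ψ Om y w) ^ 2 else 0) := by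
    intro k hk
    have hm : MeasurableSet {w : Wsp dm | ε / 2 * R ≤ ‖w‖} := (isClosed_le continuous_const continuous_norm).measurableSet
    exact (hB.int y hyU k).indicator hm
  have hpt2 : ∀ w, ‖c (‖w‖ ^ 2 / (ε * R) ^ 2) * (S.bz φ ψ Om y w * fderiv ℝ (fun y' => S.bz φ ψ Om y' w) y e) -
        S.bz φ ψ Om y w * fderiv ℝ (fun y' => S.bz φ ψ Om y' w) y e‖ ≤
      C0 * (1 / R * (if ε / 2 * R ≤ ‖w‖ then (‖w‖ ^ 0 * S.bz φ ψ Om y w) ^ 2 else 0) +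
        (if ε / 2 * R ≤ ‖w‖ then (‖w‖ ^ 1 * S.bz φ ψ Om y w) ^ 2 else 0)) := by
    intro w
    by_cases hw : ε / 2 * R ≤ ‖w‖
    · rw [if_pos hw, if_pos hw]
      refine le_trans ?_ (hpt w)
      have h4 := hc.bd (‖w‖ ^ 2 / (ε * R) ^ 2)
      have h5 : c (‖w‖ ^ 2 / (ε * R) ^ 2) * (S.bz φ ψ Om y w * fderiv ℝ (fun y' => S.bz φ ψ Om y' w) y e) -
          S.bz φ ψ Om y w * fderiv ℝ (fun y' => S.bz φ ψ Om y' w) y e =
          (c (‖w‖ ^ 2 / (ε * R) ^ 2) - 1) * (S.bz φ ψ Om y w * fderiv ℝ (fun y' => S.bz φ ψ Om y' w) y e) := by ring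
      rw [h5, Real.norm_eq_abs, abs_mul]
      refine mul_le_of_le_one_left (abs_nonneg _) ?_
      rw [abs_le]
      constructor <;> linarith [h4.1, h4.2]
    · rw [if_neg hw, if_neg hw, dh_cone hc hε hR0 w hw]
      simp
  have hsum : Integrable (fun w : Wsp dm => C0 * (1 / R * (if ε / 2 * R ≤ ‖w‖ then (‖w‖ ^ 0 * S.bz φ ψ Om y w) ^ 2 else 0) +
        (if ε / 2 * R ≤ ‖w‖ then (‖w‖ ^ 1 * S.bz φ ψ Om y w) ^ 2 else 0))) :=
    (((hif 0 (by norm_num)).const_mul (1 / R)).add (hif 1 le_rfl)).const_mul C0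
  have h6 := norm_integral_le_of_norm_le hsum (Eventually.of_forall hpt2)
  rw [Real.norm_eq_abs] at h6
  refine h6.trans ?_
  rw [integral_const_mul, integral_add ((hif 0 (by norm_num)).const_mul (1 / R)) (hif 1 le_rfl), integral_const_mul]
  have t0 := hC' R hR y hy 0 (by norm_num)
  have t1 := hC' R hR y hy 1 (by norm_num)
  have hp : 0 ≤ (1 / R) ^ 8 := by positivity
  have h7 : C' * (1 / R) ^ 8 ≤ |C'| * (1 / R) ^ 8 := mul_le_mul_of_nonneg_right (le_abs_self _) hp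
  have h8 : 1 / R ≤ 1 := by rw [div_le_one hR0]; exact hR
  have h9 : 0 ≤ 1 / R := by positivity
  have h10 : 0 ≤ |C'| * (1 / R) ^ 8 := by positivity
  have h11 : 1 / R * (∫ w : Wsp dm, if ε / 2 * R ≤ ‖w‖ then (‖w‖ ^ 0 * S.bz φ ψ Om y w) ^ 2 else 0) ≤
      |C'| * (1 / R) ^ 8 := by
    calc 1 / R * (∫ w : Wsp dm, if ε / 2 * R ≤ ‖w‖ then (‖w‖ ^ 0 * S.bz φ ψ Om y w) ^ 2 else 0)
        ≤ 1 / R * (|C'| * (1 / R) ^ 8) := mul_le_mul_of_nonneg_left (t0.trans h7) h9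
      _ ≤ |C'| * (1 / R) ^ 8 := mul_le_of_le_one_left h10 h8
  calc _ ≤ C0 * (|C'| * (1 / R) ^ 8 + |C'| * (1 / R) ^ 8) :=
        mul_le_mul_of_nonneg_left (add_le_add h11 (t1.trans h7)) hC0.le
    _ = C0 * (2 * |C'|) * (1 / R) ^ 8 := by ring

/-- projection of the derivative of the frame -/
lemma dh_proj [FiniteDimensional ℂ F] (hV : S.VFr φ ψ U Om V K) (hy₀ : y₀ ∈ U) (y : Cfg r) (hy : y ∈ U) (i j : Fin 9)
    (a : Fin r) (A : Fin dh) (β : Fin 16) (v : F) (hv : v ∈ K) :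
    (S.F0 φ (S.Dz φ ψ y) (Om y)).starProjection
      (S.vec (S.g j) (φ (Sum.inl A)) β (fderiv ℝ V y (EuclideanSpace.single (i, a) 1) v)) = 0 := by
  rw [Submodule.starProjection_apply_eq_zero_iff, Submodule.mem_orthogonal]
  intro u hu
  obtain ⟨v', rfl⟩ := hV.v_s y hy u
  have hv' : v' ∈ K := (hV.v_m y hy v').2 hu
  rw [← S.vec_symm _ (S.g_im j), ← dh_Vvec S φ hV y hy]
  exact hV.par y hy i a v hv _ (dh_Kvec S φ hV y₀ hy₀ _ _ _ _ hv')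

end Bd

section Fin

variable {S : Setup d F} {φ : Spl dh dm d} {ψ : Spl r ds dh} {Om : Cfg r → Matrix (Fin dm) (Fin dm) ℝ}
  {V : Cfg r → F →L[ℂ] F} {c : ℝ → ℝ} {ε R : ℝ} {ζ : Cfg r → ℂ} {Φ : Cfg ds → F} {U : Set (Cfg r)}
  {K : Submodule ℂ F} {y₀ : Cfg r} {ε0 C0 CV : ℝ}

/-- pointwise bound of the error -/
lemma dh_Er (hV : S.VFr φ ψ U Om V K) (hB : BzFacts S φ ψ U Om y₀ ε0 C0) (hc : IsCt c) (hCV0 : 0 ≤ CV)
    (hεε : ε ≤ ε0) (hε : 0 < ε) (hsup : tsupport ζ ⊆ Metric.ball y₀ (ε / 2)) (hR : 0 < R)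
    (hCV : ∀ R : ℝ, 0 < R → ∀ y : Cfg r, ‖y - R • y₀‖ ≤ ε0 * R → ∀ (i : Fin 9) (a : Fin r) (v : F),
      ‖fderiv ℝ V y (EuclideanSpace.single (i, a) 1) v‖ ≤ CV / R * ‖v‖) (i : Fin 9) (a : Fin r) (x : Cfg dh)
    (w : Wsp dm) :
    ‖dhEr S φ ψ Om V c ε R ζ Φ i a x w‖ ≤ (Real.sqrt R ^ (9 * r))⁻¹ * ‖ζ (R⁻¹ • zpt ψ x)‖ * ‖Φ (spt ψ x)‖ *
      ((C0 + CV) * ((1 / R + ‖w‖ ^ 2) * S.bz φ ψ Om (zpt ψ x) w)) := by
  by_cases hmem : R⁻¹ • zpt ψ x ∈ tsupport ζ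
  · have hy : ‖zpt ψ x - R • y₀‖ ≤ ε0 * R := (dh_near hR hsup hmem).trans
        (mul_le_mul_of_nonneg_right (by linarith) hR.le)
    have hyU := hB.inU R hR _ hy
    have hb := hB.pos _ hyU w
    have hN : 0 ≤ (Real.sqrt R ^ (9 * r))⁻¹ := by positivity
    have hcb := hc.bd (‖w‖ ^ 2 / (ε * R) ^ 2)
    rw [dhEr, norm_smul, norm_smul, Complex.norm_real, Real.norm_eq_abs, abs_mul, abs_of_nonneg hN,
      abs_of_nonneg hcb.1]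
    have h1 : ‖((fderiv ℝ (fun y' => S.bz φ ψ Om y' w) (zpt ψ x) (EuclideanSpace.single (i, a) 1) : ℝ) : ℂ) •
        V (zpt ψ x) (Φ (spt ψ x)) + ((S.bz φ ψ Om (zpt ψ x) w : ℝ) : ℂ) •
          fderiv ℝ V (zpt ψ x) (EuclideanSpace.single (i, a) 1) (Φ (spt ψ x))‖ ≤
        ‖Φ (spt ψ x)‖ * ((C0 + CV) * ((1 / R + ‖w‖ ^ 2) * S.bz φ ψ Om (zpt ψ x) w)) := by
      refine (norm_add_le _ _).trans ?_
      rw [norm_smul, norm_smul, Complex.norm_real, Complex.norm_real, Real.norm_eq_abs, Real.norm_eq_abs,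
        abs_of_pos hb, hV.v_n _ hyU]
      have h2 := hB.dy R hR _ hy w i a
      have h3 := hCV R hR _ hy i a (Φ (spt ψ x))
      have h4 : S.bz φ ψ Om (zpt ψ x) w * ‖fderiv ℝ V (zpt ψ x) (EuclideanSpace.single (i, a) 1) (Φ (spt ψ x))‖ ≤
          ‖Φ (spt ψ x)‖ * (CV * ((1 / R + ‖w‖ ^ 2) * S.bz φ ψ Om (zpt ψ x) w)) := by
        refine (mul_le_mul_of_nonneg_left h3 hb.le).trans ?_
        have h5 : CV / R ≤ CV * (1 / R + ‖w‖ ^ 2) := by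
          rw [div_eq_mul_one_div]
          exact mul_le_mul_of_nonneg_left (by nlinarith [sq_nonneg ‖w‖]) hCV0
        calc S.bz φ ψ Om (zpt ψ x) w * (CV / R * ‖Φ (spt ψ x)‖) =
              (S.bz φ ψ Om (zpt ψ x) w * ‖Φ (spt ψ x)‖) * (CV / R) := by ring
          _ ≤ (S.bz φ ψ Om (zpt ψ x) w * ‖Φ (spt ψ x)‖) * (CV * (1 / R + ‖w‖ ^ 2)) :=
              mul_le_mul_of_nonneg_left h5 (mul_nonneg hb.le (norm_nonneg _))
          _ = _ := by ring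
      have h6 : |fderiv ℝ (fun y' => S.bz φ ψ Om y' w) (zpt ψ x) (EuclideanSpace.single (i, a) 1)| *
          ‖Φ (spt ψ x)‖ ≤ ‖Φ (spt ψ x)‖ * (C0 * ((1 / R + ‖w‖ ^ 2) * S.bz φ ψ Om (zpt ψ x) w)) := by
        refine (mul_le_mul_of_nonneg_right h2 (norm_nonneg _)).trans (le_of_eq ?_)
        ring
      calc _ ≤ ‖Φ (spt ψ x)‖ * (C0 * ((1 / R + ‖w‖ ^ 2) * S.bz φ ψ Om (zpt ψ x) w)) +
            ‖Φ (spt ψ x)‖ * (CV * ((1 / R + ‖w‖ ^ 2) * S.bz φ ψ Om (zpt ψ x) w)) := add_le_add h6 h4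
        _ = _ := by ring
    have h7 : (Real.sqrt R ^ (9 * r))⁻¹ * c (‖w‖ ^ 2 / (ε * R) ^ 2) ≤ (Real.sqrt R ^ (9 * r))⁻¹ :=
      mul_le_of_le_one_right hN hcb.2
    calc _ ≤ (Real.sqrt R ^ (9 * r))⁻¹ * (‖ζ (R⁻¹ • zpt ψ x)‖ *
          (‖Φ (spt ψ x)‖ * ((C0 + CV) * ((1 / R + ‖w‖ ^ 2) * S.bz φ ψ Om (zpt ψ x) w)))) := by
          refine mul_le_mul h7 (mul_le_mul_of_nonneg_left h1 (norm_nonneg _)) (by positivity) hN
      _ = _ := by ring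
  · rw [dhEr, (dh_z0 _ hmem).1]
    simp

/-- the error as a function on the slice -/
noncomputable def dhX (S : Setup d F) (φ : Spl dh dm d) (ψ : Spl r ds dh) (Om : Cfg r → Matrix (Fin dm) (Fin dm) ℝ)
    (V : Cfg r → F →L[ℂ] F) (c : ℝ → ℝ) (ε R : ℝ) (ζ : Cfg r → ℂ) (Φ : Cfg ds → F) (β : Fin 16) (x : Cfg dh)
    (w : Wsp dm) : F :=
  (-Complex.I) • ∑ i, ∑ a, S.vec (S.g i) (φ (Sum.inl (ψ (Sum.inl a)))) β (dhEr S φ ψ Om V c ε R ζ Φ i a x w)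

/-- sum of operator norms -/
noncomputable def dhK (S : Setup d F) (φ : Spl dh dm d) (ψ : Spl r ds dh) (β : Fin 16) : ℝ :=
  ∑ i, ∑ a, ‖S.vec (S.g i) (φ (Sum.inl (ψ (Sum.inl a)))) β‖

lemma dhK_nonneg (β : Fin 16) : 0 ≤ dhK S φ ψ β :=
  Finset.sum_nonneg fun _ _ => Finset.sum_nonneg fun _ _ => norm_nonneg _

lemma dh_X (β : Fin 16) (x : Cfg dh) (w : Wsp dm) (B : ℝ)
    (hE : ∀ i a, ‖dhEr S φ ψ Om V c ε R ζ Φ i a x w‖ ≤ B) : ‖dhX S φ ψ Om V c ε R ζ Φ β x w‖ ≤ dhK S φ ψ β * B := by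
  rw [dhX, norm_smul, norm_neg, Complex.norm_I, one_mul, dhK, Finset.sum_mul]
  refine (norm_sum_le _ _).trans (Finset.sum_le_sum fun i _ => ?_)
  rw [Finset.sum_mul]
  refine (norm_sum_le _ _).trans (Finset.sum_le_sum fun a _ => ?_)
  refine (ContinuousLinearMap.le_opNorm _ _).trans (mul_le_mul_of_nonneg_left (hE i a) (norm_nonneg _))

/-- fibre norm of the error -/
lemma dh_nsf (hV : S.VFr φ ψ U Om V K) (hB : BzFacts S φ ψ U Om y₀ ε0 C0) (hc : IsCt c) (hC0 : 0 ≤ C0) (hCV0 : 0 ≤ CV)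
    (hεε : ε ≤ ε0) (hε : 0 < ε) (hsup : tsupport ζ ⊆ Metric.ball y₀ (ε / 2)) (hR : 0 < R)
    (hCV : ∀ R : ℝ, 0 < R → ∀ y : Cfg r, ‖y - R • y₀‖ ≤ ε0 * R → ∀ (i : Fin 9) (a : Fin r) (v : F),
      ‖fderiv ℝ V y (EuclideanSpace.single (i, a) 1) v‖ ≤ CV / R * ‖v‖) (β : Fin 16) (x : Cfg dh) :
    nsf (dhX S φ ψ Om V c ε R ζ Φ β x) ≤ (dhK S φ ψ β * (C0 + CV)) ^ 2 * ((2 + 2 * C0) * (1 / R) ^ 2) *
      ((((Real.sqrt R ^ (9 * r))⁻¹) ^ 2 * ‖ζ (R⁻¹ • zpt ψ x)‖ ^ 2) * ‖Φ (spt ψ x)‖ ^ 2) := by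
  by_cases hmem : R⁻¹ • zpt ψ x ∈ tsupport ζ
  · have hy : ‖zpt ψ x - R • y₀‖ ≤ ε0 * R := (dh_near hR hsup hmem).trans
        (mul_le_mul_of_nonneg_right (by linarith) hR.le)
    have h1 : ∀ w, ‖dhX S φ ψ Om V c ε R ζ Φ β x w‖ ^ 2 ≤
        (dhK S φ ψ β * ((Real.sqrt R ^ (9 * r))⁻¹ * ‖ζ (R⁻¹ • zpt ψ x)‖ * ‖Φ (spt ψ x)‖ * (C0 + CV))) ^ 2 *
          ((1 / R + ‖w‖ ^ 2) * S.bz φ ψ Om (zpt ψ x) w) ^ 2 := by
      intro w
      have h2 := dh_X (c := c) β x w _ fun i a => dh_Er (Φ := Φ) (c := c) hV hB hc hCV0 hεε hε hsup hR hCV i a x w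
      have h3 := pow_le_pow_left₀ (norm_nonneg _) h2 2
      refine h3.trans (le_of_eq ?_)
      ring
    refine (dh_w2 hB hR _ hy _ _ (sq_nonneg _) (fun w => sq_nonneg _) h1).trans (le_of_eq ?_)
    ring
  · have h0 : ∀ w, dhX S φ ψ Om V c ε R ζ Φ β x w = 0 := by
      intro w
      simp [dhX, dhEr, (dh_z0 _ hmem).1]
    have h1 : nsf (dhX S φ ψ Om V c ε R ζ Φ β x) = 0 := by
      simp [nsf, h0]
    rw [h1]
    have := hC0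
    positivity

omit [InnerProductSpace ℂ F] in
lemma dh_intsum [NormedSpace ℂ F] [CompleteSpace F] {ι κ : Type} [Fintype ι] [Fintype κ] (f : ι → κ → Wsp dm → ℝ)
    (g : Wsp dm → ℝ) (u v : ι → κ → F) (hf : ∀ i a, Integrable (f i a)) (hg : Integrable g) :
    ∫ w, ∑ i, ∑ a, (((f i a w : ℝ) : ℂ) • u i a + ((g w : ℝ) : ℂ) • v i a) =
      ∑ i, ∑ a, (((∫ w, f i a w : ℝ) : ℂ) • u i a + ((∫ w, g w : ℝ) : ℂ) • v i a) := by
  have e1 : ∀ (f : Wsp dm → ℝ) (u : F), Integrable f → Integrable (fun w => ((f w : ℝ) : ℂ) • u) :=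
    fun f u hf => hf.ofReal.smul_const u
  have e2 : ∀ (f : Wsp dm → ℝ) (u : F), ∫ w, ((f w : ℝ) : ℂ) • u = ((∫ w, f w : ℝ) : ℂ) • u := by
    intro f u
    rw [integral_smul_const, integral_complex_ofReal]
  have e3 : ∀ i a, Integrable (fun w => ((f i a w : ℝ) : ℂ) • u i a + ((g w : ℝ) : ℂ) • v i a) :=
    fun i a => (e1 _ _ (hf i a)).add (e1 _ _ hg)
  rw [integral_finsetSum _ fun i _ => integrable_finsetSum _ fun a _ => e3 i a]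
  refine Finset.sum_congr rfl fun i _ => ?_
  rw [integral_finsetSum _ fun a _ => e3 i a]
  refine Finset.sum_congr rfl fun a _ => ?_
  rw [integral_add (e1 _ _ (hf i a)) (e1 _ _ hg), e2, e2]

/-- vacuum part of the error -/
lemma dh_vc [FiniteDimensional ℂ F] (hV : S.VFr φ ψ U Om V K) (hB : BzFacts S φ ψ U Om y₀ ε0 C0) (hc : IsCt c)
    (hy₀ : y₀ ∈ U) (hεε : ε ≤ ε0) (hε : 0 < ε) (hsup : tsupport ζ ⊆ Metric.ball y₀ (ε / 2)) (hR : 1 ≤ R)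
    {C1 : ℝ} (hC1 : 0 ≤ C1)
    (hw1 : ∀ R : ℝ, 1 ≤ R → ∀ y : Cfg r, ‖y - R • y₀‖ ≤ ε0 * R → ∀ (i : Fin 9) (a : Fin r),
      |∫ w, c (‖w‖ ^ 2 / (ε * R) ^ 2) * (S.bz φ ψ Om y w *
        fderiv ℝ (fun y' => S.bz φ ψ Om y' w) y (EuclideanSpace.single (i, a) 1))| ≤ C1 * (1 / R) ^ 8)
    (hK : ∀ s, Φ s ∈ K) (β : Fin 16) (x : Cfg dh) :
    ‖vc S φ ψ Om (dhX S φ ψ Om V c ε R ζ Φ β) x‖ ≤ dhK S φ ψ β * (C1 * (1 / R) ^ 8 *
      ((Real.sqrt R ^ (9 * r))⁻¹ * ‖ζ (R⁻¹ • zpt ψ x)‖ * ‖Φ (spt ψ x)‖)) := by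
  have hR0 : 0 < R := one_pos.trans_le hR
  by_cases hmem : R⁻¹ • zpt ψ x ∈ tsupport ζ
  · have hy : ‖zpt ψ x - R • y₀‖ ≤ ε0 * R := (dh_near hR0 hsup hmem).trans
        (mul_le_mul_of_nonneg_right (by linarith) hR0.le)
    have hyU := hB.inU R hR0 _ hy
    obtain ⟨hb, hdb⟩ := dh_bcont hV.opn hB.sm _ hyU
    have hcc := dh_cct (dm := dm) hc hε hR0
    set y := zpt ψ x with hydef
    set N : ℂ := (((Real.sqrt R ^ (9 * r))⁻¹ : ℝ) : ℂ) with hN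
    have hi1 : ∀ (i : Fin 9) (a : Fin r), Integrable (fun w => c (‖w‖ ^ 2 / (ε * R) ^ 2) * (S.bz φ ψ Om y w *
        fderiv ℝ (fun y' => S.bz φ ψ Om y' w) y (EuclideanSpace.single (i, a) 1))) := fun i a =>
      (hcc.1.mul (hb.mul (hdb _))).integrable_of_hasCompactSupport hcc.2.mul_right
    have hi2 : Integrable (fun w => c (‖w‖ ^ 2 / (ε * R) ^ 2) * (S.bz φ ψ Om y w * S.bz φ ψ Om y w)) :=
      (hcc.1.mul (hb.mul hb)).integrable_of_hasCompactSupport hcc.2.mul_right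
    have hpt : ∀ w, ((S.bz φ ψ Om y w : ℝ) : ℂ) • dhX S φ ψ Om V c ε R ζ Φ β x w =
        ∑ i, ∑ a, (((c (‖w‖ ^ 2 / (ε * R) ^ 2) * (S.bz φ ψ Om y w *
          fderiv ℝ (fun y' => S.bz φ ψ Om y' w) y (EuclideanSpace.single (i, a) 1)) : ℝ) : ℂ) •
            ((-Complex.I * N * ζ (R⁻¹ • y)) • S.vec (S.g i) (φ (Sum.inl (ψ (Sum.inl a)))) β (V y (Φ (spt ψ x)))) +
          ((c (‖w‖ ^ 2 / (ε * R) ^ 2) * (S.bz φ ψ Om y w * S.bz φ ψ Om y w) : ℝ) : ℂ) •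
            ((-Complex.I * N * ζ (R⁻¹ • y)) • S.vec (S.g i) (φ (Sum.inl (ψ (Sum.inl a)))) β
              (fderiv ℝ V y (EuclideanSpace.single (i, a) 1) (Φ (spt ψ x))))) := by
      intro w
      simp only [dhX, dhEr, ← hydef, Finset.smul_sum, map_smul, map_add]
      refine Finset.sum_congr rfl fun i _ => Finset.sum_congr rfl fun a _ => ?_
      simp only [Complex.ofReal_mul, ← hN]
      module
    have hint : ∫ w, ((S.bz φ ψ Om y w : ℝ) : ℂ) • dhX S φ ψ Om V c ε R ζ Φ β x w =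
        ∑ i, ∑ a, (((∫ w, c (‖w‖ ^ 2 / (ε * R) ^ 2) * (S.bz φ ψ Om y w *
          fderiv ℝ (fun y' => S.bz φ ψ Om y' w) y (EuclideanSpace.single (i, a) 1)) : ℝ) : ℂ) •
            ((-Complex.I * N * ζ (R⁻¹ • y)) • S.vec (S.g i) (φ (Sum.inl (ψ (Sum.inl a)))) β (V y (Φ (spt ψ x)))) +
          ((∫ w, c (‖w‖ ^ 2 / (ε * R) ^ 2) * (S.bz φ ψ Om y w * S.bz φ ψ Om y w) : ℝ) : ℂ) •
            ((-Complex.I * N * ζ (R⁻¹ • y)) • S.vec (S.g i) (φ (Sum.inl (ψ (Sum.inl a)))) β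
              (fderiv ℝ V y (EuclideanSpace.single (i, a) 1) (Φ (spt ψ x))))) := by
      have : CompleteSpace F := FiniteDimensional.complete ℂ F
      simp only [hpt]
      exact dh_intsum _ _ _ _ hi1 hi2
    have hvc : vc S φ ψ Om (dhX S φ ψ Om V c ε R ζ Φ β) x = (S.F0 φ (S.Dz φ ψ y) (Om y)).starProjection
        (∫ w, ((S.bz φ ψ Om y w : ℝ) : ℂ) • dhX S φ ψ Om V c ε R ζ Φ β x w) := rfl
    rw [hvc, hint, map_sum, dhK, Finset.sum_mul]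
    refine (norm_sum_le _ _).trans (Finset.sum_le_sum fun i _ => ?_)
    rw [map_sum, Finset.sum_mul]
    refine (norm_sum_le _ _).trans (Finset.sum_le_sum fun a _ => ?_)
    rw [map_add, map_smul, map_smul, map_smul, map_smul,
      dh_proj hV hy₀ y hyU i i a _ β _ (hK _), smul_zero, smul_zero, add_zero, norm_smul, norm_smul,
      Complex.norm_real, Real.norm_eq_abs]
    have h1 := hw1 R hR y hy i a
    have h2 : ‖(S.F0 φ (S.Dz φ ψ y) (Om y)).starProjection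
        (S.vec (S.g i) (φ (Sum.inl (ψ (Sum.inl a)))) β (V y (Φ (spt ψ x))))‖ ≤
        ‖S.vec (S.g i) (φ (Sum.inl (ψ (Sum.inl a)))) β‖ * ‖Φ (spt ψ x)‖ := by
      refine (Submodule.norm_starProjection_apply_le _ _).trans ((ContinuousLinearMap.le_opNorm _ _).trans ?_)
      rw [hV.v_n y hyU]
    have h3 : ‖-Complex.I * N * ζ (R⁻¹ • y)‖ = (Real.sqrt R ^ (9 * r))⁻¹ * ‖ζ (R⁻¹ • y)‖ := by
      rw [norm_mul, norm_mul, norm_neg, Complex.norm_I, one_mul, hN, Complex.norm_real, Real.norm_eq_abs,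
        abs_of_nonneg (by positivity)]
    rw [h3]
    calc _ ≤ (C1 * (1 / R) ^ 8) * ((Real.sqrt R ^ (9 * r))⁻¹ * ‖ζ (R⁻¹ • y)‖ *
          (‖S.vec (S.g i) (φ (Sum.inl (ψ (Sum.inl a)))) β‖ * ‖Φ (spt ψ x)‖)) :=
          mul_le_mul h1 (mul_le_mul_of_nonneg_left h2 (by positivity)) (by positivity) (by positivity)
      _ = _ := by ring
  · have h0 : ∀ w, dhX S φ ψ Om V c ε R ζ Φ β x w = 0 := by
      intro w
      simp [dhX, dhEr, (dh_z0 _ hmem).1]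
    have h1 : vc S φ ψ Om (dhX S φ ψ Om V c ε R ζ Φ β) x = 0 := by
      simp [vc, h0]
    rw [h1, norm_zero]
    have := dhK_nonneg (S := S) (φ := φ) (ψ := ψ) β
    positivity

end Fin

section Mem

variable {S : Setup d F} {φ : Spl dh dm d} {ψ : Spl r ds dh} {Om : Cfg r → Matrix (Fin dm) (Fin dm) ℝ}
  {V : Cfg r → F →L[ℂ] F} {c : ℝ → ℝ} {ε R η : ℝ} {ζ : Cfg r → ℂ} {Φ : Cfg ds → F} {U : Set (Cfg r)}
  {K : Submodule ℂ F} {y₀ : Cfg r}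

lemma dh_tsum {ι : Type} (hA : AN.CalcA dh dm F) (s : Finset ι) (f : ι → Cfg dh → Wsp dm → F)
    (hf : ∀ i, Tst2 (f i)) : Tst2 (fun y w => ∑ i ∈ s, f i y w) := by
  classical
  induction s using Finset.induction_on with
  | empty => simpa using hA.zero
  | insert a s ha ih =>
    have h := hA.add _ _ (hf a) ih
    refine (congrArg Tst2 ?_).mp h
    funext y w
    rw [Finset.sum_insert ha]

omit [InnerProductSpace ℂ F] in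
lemma dh_ssum {ι : Type} (Y : Cfg dh) (ε R : ℝ) (s : Finset ι) (f : ι → Cfg dh → Wsp dm → F)
    (hf : ∀ i, Sup2 Y ε R (f i)) : Sup2 Y ε R (fun y w => ∑ i ∈ s, f i y w) := by
  intro y w h
  obtain ⟨i, _, hi⟩ := Finset.exists_ne_zero_of_sum_ne_zero h
  exact hf i y w hi

/-- values of the derivative -/
lemma dh_pdK [FiniteDimensional ℂ F] (hΦ : Differentiable ℝ Φ) (hK : ∀ s, Φ s ∈ K) (i : Fin 9) (b : Fin ds)
    (s : Cfg ds) : pd i b Φ s ∈ K := by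
  let L : F →L[ℝ] F := (Kᗮ.starProjection).restrictScalars ℝ
  have h1 : (fun s => L (Φ s)) = fun _ => 0 := by
    funext s
    change Kᗮ.starProjection (Φ s) = 0
    rw [Submodule.starProjection_apply_eq_zero_iff, Submodule.orthogonal_orthogonal]
    exact hK s
  have h2 : HasFDerivAt (fun s => L (Φ s)) (L.comp (fderiv ℝ Φ s)) s := L.hasFDerivAt.comp s (hΦ s).hasFDerivAt
  rw [h1] at h2
  have h3 : L.comp (fderiv ℝ Φ s) = 0 := h2.unique (hasFDerivAt_const (0 : F) s)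
  have h4 : L (pd i b Φ s) = 0 := congrArg (fun T : Cfg ds →L[ℝ] F => T (EuclideanSpace.single (i, b) 1)) h3
  change Kᗮ.starProjection (pd i b Φ s) = 0 at h4
  rwa [Submodule.starProjection_apply_eq_zero_iff, Submodule.orthogonal_orthogonal] at h4

lemma dh_IntV (hV : S.VFr φ ψ U Om V K) (hy₀ : y₀ ∈ U) (h : IntF K η R Φ) (N : Matrix (Fin 16) (Fin 16) ℂ)
    (A : Fin dh) (β : Fin 16) : IntF K η R (fun s => S.vec N (φ (Sum.inl A)) β (Φ s)) where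
  tst := Setup.Tst.clm contDiff_const h.tst
  val := fun s => dh_Kvec S φ hV y₀ hy₀ _ _ _ _ (h.val s)
  sup := fun s hs => h.sup s fun h0 => hs (by rw [h0, map_zero])

lemma dh_IntQ [FiniteDimensional ℂ F] (hφ : S.IsSub φ) (hcen : S.IsCen φ ψ) (hV : S.VFr φ ψ U Om V K) (hy₀ : y₀ ∈ U)
    (h : IntF K η R Φ) (β : Fin 16) : IntF K η R ((S.int φ ψ hφ hcen).Q β Φ) where
  tst := Setup.Tst.Q _ h.tst β
  val := by
    intro s
    have hd : Differentiable ℝ Φ := h.tst.1.differentiable (by simp)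
    have hv : ∀ (N : Matrix (Fin 16) (Fin 16) ℂ) (A : Fin ds) (v : F), v ∈ K → (S.int φ ψ hφ hcen).vec N A β v ∈ K :=
      fun N A v hv => dh_Kvec S φ hV y₀ hy₀ N _ β v hv
    refine Submodule.add_mem _ (Submodule.smul_mem _ _ (Submodule.sum_mem _ fun i _ => Submodule.sum_mem _ fun A _ =>
      hv _ _ _ (dh_pdK hd h.val i A s))) ?_
    simp only [Setup.W, _root_.sum_apply, _root_.smul_apply]
    exact Submodule.smul_mem _ _ (Submodule.sum_mem _ fun A _ => Submodule.sum_mem _ fun i _ =>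
      Submodule.sum_mem _ fun j _ => Submodule.smul_mem _ _ (hv _ _ _ (h.val s)))
  sup := by
    intro s hs
    have hcl : tsupport Φ ⊆ {s | ‖s‖ ≤ η * R} :=
      closure_minimal (fun s hs => h.sup s hs) (isClosed_le continuous_norm continuous_const)
    by_contra hn
    have h0 : s ∉ tsupport Φ := fun hm => hn (hcl hm)
    have h1 : Φ =ᶠ[𝓝 s] 0 := notMem_tsupport_iff_eventuallyEq.1 h0
    have h2 : Φ s = 0 := h1.self_of_nhds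
    have h3 : ∀ i A, pd i A Φ s = 0 := by
      intro i A
      rw [pd, h1.fderiv_eq]
      simp
    apply hs
    simp only [Setup.Q, h2, h3, map_zero, Finset.sum_const_zero, smul_zero, add_zero]

/-- derivative of the cutoff profile -/
lemma dh_dz (hζ : ContDiff ℝ ∞ ζ) (e : Cfg r) : ContDiff ℝ ∞ (fun y => fderiv ℝ ζ y e) ∧
    tsupport (fun y => fderiv ℝ ζ y e) ⊆ tsupport ζ := by
  refine ⟨(hζ.fderiv_right (m := ∞) (by simp)).clm_apply contDiff_const, ?_⟩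
  refine closure_minimal (fun y hy => ?_) (isClosed_tsupport ζ)
  by_contra h
  exact hy (by simp [(dh_z0 y h).2])

/-- the free part as a sum of trial functions -/
lemma dh_DFsum (hζ : ContDiff ℝ ∞ ζ) (β : Fin 16) (x : Cfg dh) (w : Wsp dm) :
    S.TR φ ψ Om V c ε R (S.DF φ ψ (fun _ => 0) 0 β (pp ζ Φ)) x w =
      (-Complex.I) • ∑ i, ∑ a, S.TR φ ψ Om V c ε R (pp (fun y => fderiv ℝ ζ y (EuclideanSpace.single (i, a) 1))
        (fun s => S.vec (S.g i) (φ (Sum.inl (ψ (Sum.inl a)))) β (Φ s))) x w := by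
  have hpd : ∀ (i : Fin 9) (a : Fin r) (y : Cfg r) (s : Cfg ds), pd i a (fun y' => pp ζ Φ y' s) y =
      fderiv ℝ ζ y (EuclideanSpace.single (i, a) 1) • Φ s := by
    intro i a y s
    have hz : HasFDerivAt (fun y' => ζ y' • Φ s) ((fderiv ℝ ζ y).smulRight (Φ s)) y :=
      ((hζ.differentiable (by simp)) y).hasFDerivAt.smul_const _
    have := hz.fderiv
    simp only [pd, pp]
    rw [this]
    rfl
  have hDF : S.DF φ ψ (fun _ => 0) 0 β (pp ζ Φ) (R⁻¹ • zpt ψ x) (spt ψ x) =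
      (-Complex.I) • ∑ i, ∑ a, fderiv ℝ ζ (R⁻¹ • zpt ψ x) (EuclideanSpace.single (i, a) 1) •
        S.vec (S.g i) (φ (Sum.inl (ψ (Sum.inl a)))) β (Φ (spt ψ x)) := by
    rw [Setup.DF]
    simp only [hpd, Complex.ofReal_zero, zero_smul, add_zero, map_smul]
  rw [Setup.TR, hDF]
  simp only [Setup.TR, pp, map_smul, map_sum, Finset.smul_sum]
  refine Finset.sum_congr rfl fun i _ => Finset.sum_congr rfl fun a _ => ?_
  module

/-- test function, support and identity -/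
lemma dh_A [FiniteDimensional ℂ F] {ε0 C0 : ℝ} (hA : AN.CalcA dh dm F) (hO : AN.OpStmt S φ) (hT : TRStmt S φ ψ)
    (hφ : S.IsSub φ) (hcen : S.IsCen φ ψ) (hV : S.VFr φ ψ U Om V K) (hy₀ : y₀ ∈ U) (hε0 : 0 < ε0)
    (hB : BzFacts S φ ψ U Om y₀ ε0 C0) (hCo : S.CoefBd φ (cmb ψ y₀ 0) ε0 C0) (hct : IsCt c) (hε : 0 < ε) (hεε : ε ≤ ε0)
    (hζ : ContDiff ℝ ∞ ζ) (hsup : tsupport ζ ⊆ Metric.ball y₀ (ε / 2)) (hR : 1 ≤ R) (hη : 0 ≤ η) (hηε : η ≤ ε / 2)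
    (hΦ : IntF K η R Φ) (β : Fin 16) :
    Tst2 (dhX S φ ψ Om V c ε R ζ Φ β) ∧ Sup2 (cmb ψ y₀ 0) ε R (dhX S φ ψ Om V c ε R ζ Φ β) ∧
      ∀ x w, S.Qh φ β (S.TR φ ψ Om V c ε R (pp ζ Φ)) x w = (((R⁻¹ : ℝ) : ℂ) • S.TR φ ψ Om V c ε R
        (S.DF φ ψ (fun _ => 0) 0 β (pp ζ Φ)) x w +
        S.TR φ ψ Om V c ε R (pp ζ ((S.int φ ψ hφ hcen).Q β Φ)) x w) + dhX S φ ψ Om V c ε R ζ Φ β x w := by
  have hR0 : 0 < R := one_pos.trans_le hR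
  have hd : Differentiable ℝ Φ := hΦ.tst.1.differentiable (by simp)
  have hTR := fun (ζ' : Cfg r → ℂ) (h1 : ContDiff ℝ ∞ ζ') (h2 : tsupport ζ' ⊆ Metric.ball y₀ (ε / 2)) (Φ' : Cfg ds → F)
    (h3 : IntF K η R Φ') => hT hφ hcen U Om V K hV y₀ ε0 C0 hε0 hB c hct ε hε hεε ζ' h1 h2 R η hR hη hηε Φ' h3
  have hT0 := hTR ζ hζ hsup Φ hΦ
  have hT1 := hTR ζ hζ hsup _ (dh_IntQ hφ hcen hV hy₀ hΦ β)
  have hT2 := fun (i : Fin 9) (a : Fin r) => hTR _ (dh_dz hζ (EuclideanSpace.single (i, a) 1)).1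
    ((dh_dz hζ (EuclideanSpace.single (i, a) 1)).2.trans hsup) _ (dh_IntV hV hy₀ hΦ (S.g i) (ψ (Sum.inl a)) β)
  have hDFe : S.TR φ ψ Om V c ε R (S.DF φ ψ (fun _ => 0) 0 β (pp ζ Φ)) = fun x w => (-Complex.I) • ∑ i, ∑ a,
      S.TR φ ψ Om V c ε R (pp (fun y => fderiv ℝ ζ y (EuclideanSpace.single (i, a) 1))
        (fun s => S.vec (S.g i) (φ (Sum.inl (ψ (Sum.inl a)))) β (Φ s))) x w := by
    funext x w
    exact dh_DFsum hζ β x w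
  have hDFt : Tst2 (S.TR φ ψ Om V c ε R (S.DF φ ψ (fun _ => 0) 0 β (pp ζ Φ))) := by
    rw [hDFe]
    exact hA.smul _ _ (dh_tsum hA _ _ fun i => dh_tsum hA _ _ fun a => (hT2 i a).1)
  have hDFs : Sup2 (cmb ψ y₀ 0) ε R (S.TR φ ψ Om V c ε R (S.DF φ ψ (fun _ => 0) 0 β (pp ζ Φ))) := by
    rw [hDFe]
    intro x w h
    exact dh_ssum _ _ _ _ _ (fun i => dh_ssum _ _ _ _ _ fun a => (hT2 i a).2.1) x w (smul_ne_zero_iff.1 h).2
  have hMt : Tst2 (fun x w => ((R⁻¹ : ℝ) : ℂ) • S.TR φ ψ Om V c ε R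
      (S.DF φ ψ (fun _ => 0) 0 β (pp ζ Φ)) x w +
      S.TR φ ψ Om V c ε R (pp ζ ((S.int φ ψ hφ hcen).Q β Φ)) x w) := hA.add _ _ (hA.smul _ _ hDFt) hT1.1
  have hop := hO (fun _ => 0) (fun i α β => by simp) (cmb ψ y₀ 0) ε0 C0 hε0 hCo
  have hQ : S.Qhm φ (fun _ => 0) 0 β (S.TR φ ψ Om V c ε R (pp ζ Φ)) = S.Qh φ β (S.TR φ ψ Om V c ε R (pp ζ Φ)) := by
    funext x w
    simp [Setup.Qhm]
  have hTt : Tst2 (S.Qh φ β (S.TR φ ψ Om V c ε R (pp ζ Φ))) := hQ ▸ hop.th _ hT0.1 0 β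
  have hTs : Sup2 (cmb ψ y₀ 0) ε R (S.Qh φ β (S.TR φ ψ Om V c ε R (pp ζ Φ))) := hQ ▸ hop.suh ε R _ hT0.1 hT0.2.1 0 β
  have hkey : ∀ x w, S.Qh φ β (S.TR φ ψ Om V c ε R (pp ζ Φ)) x w = (((R⁻¹ : ℝ) : ℂ) • S.TR φ ψ Om V c ε R
        (S.DF φ ψ (fun _ => 0) 0 β (pp ζ Φ)) x w +
        S.TR φ ψ Om V c ε R (pp ζ ((S.int φ ψ hφ hcen).Q β Φ)) x w) + dhX S φ ψ Om V c ε R ζ Φ β x w := by
    intro x w
    have hdx : DifferentiableAt ℝ (fun x' => S.TR φ ψ Om V c ε R (pp ζ Φ) x' w) x :=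
      ((hA.sly _ hT0.1 w).1.differentiable (by simp)) x
    exact dh_key (c := c) (Φ := Φ) hφ hcen hV hB.inU hB.sm hε hεε hζ hsup hR0 x w hdx hd β
  have hX : (fun x w => S.Qh φ β (S.TR φ ψ Om V c ε R (pp ζ Φ)) x w - (((R⁻¹ : ℝ) : ℂ) • S.TR φ ψ Om V c ε R
      (S.DF φ ψ (fun _ => 0) 0 β (pp ζ Φ)) x w +
      S.TR φ ψ Om V c ε R (pp ζ ((S.int φ ψ hφ hcen).Q β Φ)) x w)) = dhX S φ ψ Om V c ε R ζ Φ β := by
    funext x w
    exact sub_eq_of_eq_add' (hkey x w)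
  refine ⟨hX ▸ hA.sub _ _ hTt hMt, ?_, hkey⟩
  rw [← hX]
  intro x w h
  by_contra hn
  have h1 : S.Qh φ β (S.TR φ ψ Om V c ε R (pp ζ Φ)) x w = 0 := by
    by_contra h2
    exact hn (hTs x w h2)
  have h2 : S.TR φ ψ Om V c ε R (S.DF φ ψ (fun _ => 0) 0 β (pp ζ Φ)) x w = 0 := by
    by_contra h2
    exact hn (hDFs x w h2)
  have h3 : S.TR φ ψ Om V c ε R (pp ζ ((S.int φ ψ hφ hcen).Q β Φ)) x w = 0 := by
    by_contra h2
    exact hn (hT1.2.1 x w h2)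
  exact h (by simp only [h1, h2, h3, smul_zero, add_zero, sub_zero])

/-- integral of the profile -/
lemma dh_prof (hζ : ContDiff ℝ ∞ ζ) {ρ : ℝ} (hsup : tsupport ζ ⊆ Metric.ball y₀ ρ) (hR : 0 < R)
    (hΦ : Setup.Tst Φ) :
    Integrable (fun x : Cfg dh => (((Real.sqrt R ^ (9 * r))⁻¹) ^ 2 * ‖ζ (R⁻¹ • zpt ψ x)‖ ^ 2) * ‖Φ (spt ψ x)‖ ^ 2) ∧
      ∫ x : Cfg dh, (((Real.sqrt R ^ (9 * r))⁻¹) ^ 2 * ‖ζ (R⁻¹ • zpt ψ x)‖ ^ 2) * ‖Φ (spt ψ x)‖ ^ 2 =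
        (∫ y, ‖ζ y‖ ^ 2) * nsq Φ := by
  have hζc : HasCompactSupport ζ := by
    refine Metric.isCompact_of_isClosed_isBounded (isClosed_tsupport ζ) (Metric.isBounded_ball.subset hsup)
  have hq1 : Continuous (fun y : Cfg r => ‖ζ y‖ ^ 2) := hζ.continuous.norm.pow 2
  have hq2 : HasCompactSupport (fun y : Cfg r => ‖ζ y‖ ^ 2) := by
    refine HasCompactSupport.mono hζc fun y hy h0 => hy ?_
    simp only [h0, norm_zero, ne_eq, OfNat.ofNat_ne_zero, not_false_eq_true, zero_pow]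
  have hζi : Integrable (fun y : Cfg r => ‖ζ y‖ ^ 2) := hq1.integrable_of_hasCompactSupport hq2
  have hs : ∫ y : Cfg r, ((Real.sqrt R ^ (9 * r))⁻¹) ^ 2 * ‖ζ (R⁻¹ • y)‖ ^ 2 = ∫ y, ‖ζ y‖ ^ 2 :=
    dh_scale R hR (fun y => ‖ζ y‖ ^ 2)
  have hζi2 : Integrable (fun y : Cfg r => ‖ζ (R⁻¹ • y)‖ ^ 2) := hζi.comp_smul (inv_ne_zero hR.ne')
  generalize ((Real.sqrt R ^ (9 * r))⁻¹) ^ 2 = N at hs ⊢
  have hfi : Integrable (fun y : Cfg r => N * ‖ζ (R⁻¹ • y)‖ ^ 2) := hζi2.const_mul _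
  have hfc : Continuous (fun y : Cfg r => N * ‖ζ (R⁻¹ • y)‖ ^ 2) :=
    continuous_const.mul ((hζ.continuous.comp (continuous_const_smul _)).norm.pow 2)
  have hgi : Integrable (fun s : Cfg ds => ‖Φ s‖ ^ 2) := hΦ.norm_sq_int
  have hgc : Continuous (fun s : Cfg ds => ‖Φ s‖ ^ 2) := hΦ.1.continuous.norm.pow 2
  have key := dh_integral (dh := dh) ψ (fun y : Cfg r => N * ‖ζ (R⁻¹ • y)‖ ^ 2) (fun s : Cfg ds => ‖Φ s‖ ^ 2)
    hfc hgc hfi hgi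
  refine ⟨key.1, key.2.trans ?_⟩
  rw [hs, nsq]

lemma dh_B1 {ε0 C0 CV : ℝ} (hBc : AN.CalcB dh dm F) (hV : S.VFr φ ψ U Om V K) (hB : BzFacts S φ ψ U Om y₀ ε0 C0)
    (hct : IsCt c) (hC0 : 0 ≤ C0) (hCV0 : 0 ≤ CV) (hεε : ε ≤ ε0) (hε : 0 < ε) (hζ : ContDiff ℝ ∞ ζ)
    (hsup : tsupport ζ ⊆ Metric.ball y₀ (ε / 2)) (hR : 0 < R)
    (hCV : ∀ R : ℝ, 0 < R → ∀ y : Cfg r, ‖y - R • y₀‖ ≤ ε0 * R → ∀ (i : Fin 9) (a : Fin r) (v : F),
      ‖fderiv ℝ V y (EuclideanSpace.single (i, a) 1) v‖ ≤ CV / R * ‖v‖) (hΦ : Setup.Tst Φ) (β : Fin 16)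
    (hXt : Tst2 (dhX S φ ψ Om V c ε R ζ Φ β)) :
    R ^ 2 * ns2 (dhX S φ ψ Om V c ε R ζ Φ β) ≤
      (dhK S φ ψ β * (C0 + CV)) ^ 2 * (2 + 2 * C0) * (∫ y, ‖ζ y‖ ^ 2) * nsq Φ := by
  obtain ⟨hint, hval⟩ := dh_prof (dh := dh) (ψ := ψ) hζ hsup hR hΦ
  have h1 := hBc.yw _ hXt
  have h2 : ns2 (dhX S φ ψ Om V c ε R ζ Φ β) ≤
      (dhK S φ ψ β * (C0 + CV)) ^ 2 * ((2 + 2 * C0) * (1 / R) ^ 2) * ((∫ y, ‖ζ y‖ ^ 2) * nsq Φ) := by
    rw [h1.2, ← hval, ← integral_const_mul]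
    refine integral_mono h1.1 (hint.const_mul _) fun x => ?_
    exact dh_nsf (Φ := Φ) hV hB hct hC0 hCV0 hεε hε hsup hR hCV β x
  have h3 : R ^ 2 * ((dhK S φ ψ β * (C0 + CV)) ^ 2 * ((2 + 2 * C0) * (1 / R) ^ 2) * ((∫ y, ‖ζ y‖ ^ 2) * nsq Φ)) =
      (dhK S φ ψ β * (C0 + CV)) ^ 2 * (2 + 2 * C0) * (∫ y, ‖ζ y‖ ^ 2) * nsq Φ := by
    have h4 : R ^ 2 * (1 / R) ^ 2 = 1 := by
      rw [← mul_pow, mul_one_div_cancel hR.ne', one_pow]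
    linear_combination ((dhK S φ ψ β * (C0 + CV)) ^ 2 * (2 + 2 * C0) * (∫ y, ‖ζ y‖ ^ 2) * nsq Φ) * h4
  rw [← h3]
  exact mul_le_mul_of_nonneg_left h2 (sq_nonneg R)

lemma dh_B2 [FiniteDimensional ℂ F] {ε0 C0 : ℝ} (hV : S.VFr φ ψ U Om V K) (hB : BzFacts S φ ψ U Om y₀ ε0 C0)
    (hct : IsCt c) (hy₀ : y₀ ∈ U) (hεε : ε ≤ ε0) (hε : 0 < ε) (hζ : ContDiff ℝ ∞ ζ)
    (hsup : tsupport ζ ⊆ Metric.ball y₀ (ε / 2)) (hR : 1 ≤ R) {C1 : ℝ} (hC1 : 0 ≤ C1)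
    (hw1 : ∀ R : ℝ, 1 ≤ R → ∀ y : Cfg r, ‖y - R • y₀‖ ≤ ε0 * R → ∀ (i : Fin 9) (a : Fin r),
      |∫ w, c (‖w‖ ^ 2 / (ε * R) ^ 2) * (S.bz φ ψ Om y w *
        fderiv ℝ (fun y' => S.bz φ ψ Om y' w) y (EuclideanSpace.single (i, a) 1))| ≤ C1 * (1 / R) ^ 8)
    (hΦ : Setup.Tst Φ) (hK : ∀ s, Φ s ∈ K) (β : Fin 16) :
    R ^ 2 * ∫ x, ‖vc S φ ψ Om (dhX S φ ψ Om V c ε R ζ Φ β) x‖ ^ 2 ≤
      (dhK S φ ψ β * C1) ^ 2 * (∫ y, ‖ζ y‖ ^ 2) / R * nsq Φ := by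
  have hR0 : 0 < R := one_pos.trans_le hR
  obtain ⟨hint, hval⟩ := dh_prof (dh := dh) (ψ := ψ) hζ hsup hR0 hΦ
  have h1 : ∫ x, ‖vc S φ ψ Om (dhX S φ ψ Om V c ε R ζ Φ β) x‖ ^ 2 ≤
      (dhK S φ ψ β * (C1 * (1 / R) ^ 8)) ^ 2 * ((∫ y, ‖ζ y‖ ^ 2) * nsq Φ) := by
    rw [← hval, ← integral_const_mul]
    refine integral_mono_of_nonneg (Eventually.of_forall fun _ => sq_nonneg _) (hint.const_mul _)
      (Eventually.of_forall fun x => ?_)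
    have h2 := dh_vc (Φ := Φ) (c := c) hV hB hct hy₀ hεε hε hsup hR hC1 hw1 hK β x
    refine (pow_le_pow_left₀ (norm_nonneg _) h2 2).trans (le_of_eq ?_)
    ring
  have h8 : 1 / R ≤ 1 := by rw [div_le_one hR0]; exact hR
  have h9 : 0 ≤ 1 / R := by positivity
  have h4 : R ^ 2 * ((1 / R) ^ 8) ^ 2 ≤ 1 / R := by
    have e1 : R ^ 2 * ((1 / R) ^ 8) ^ 2 = (1 / R) ^ 13 * (1 / R) := by
      have h5 : R ^ 2 * (1 / R) ^ 2 = 1 := by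
        rw [← mul_pow, mul_one_div_cancel hR0.ne', one_pow]
      linear_combination (1 / R) ^ 14 * h5
    rw [e1]
    exact mul_le_of_le_one_left h9 (pow_le_one₀ h9 h8)
  have hZ0 : 0 ≤ ∫ y, ‖ζ y‖ ^ 2 := integral_nonneg fun _ => sq_nonneg _
  have hn0 : 0 ≤ nsq Φ := nsq_nonneg _
  calc R ^ 2 * ∫ x, ‖vc S φ ψ Om (dhX S φ ψ Om V c ε R ζ Φ β) x‖ ^ 2 ≤
        R ^ 2 * ((dhK S φ ψ β * (C1 * (1 / R) ^ 8)) ^ 2 * ((∫ y, ‖ζ y‖ ^ 2) * nsq Φ)) :=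
        mul_le_mul_of_nonneg_left h1 (sq_nonneg R)
    _ = (R ^ 2 * ((1 / R) ^ 8) ^ 2) * ((dhK S φ ψ β * C1) ^ 2 * (∫ y, ‖ζ y‖ ^ 2) * nsq Φ) := by ring
    _ ≤ (1 / R) * ((dhK S φ ψ β * C1) ^ 2 * (∫ y, ‖ζ y‖ ^ 2) * nsq Φ) :=
        mul_le_mul_of_nonneg_right h4 (mul_nonneg (mul_nonneg (sq_nonneg _) hZ0) hn0)
    _ = (dhK S φ ψ β * C1) ^ 2 * (∫ y, ‖ζ y‖ ^ 2) / R * nsq Φ := by ring

end Mem

/-- **E-DecH** -/
theorem decH (S : Setup d F) (φ : Spl dh dm d) (ψ : Spl r ds dh) (hA : AN.CalcA dh dm F) (hBc : AN.CalcB dh dm F)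
    (hO : AN.OpStmt S φ) (hT : TRStmt S φ ψ) : DecHStmt S φ ψ := by
  intro hF hφ hcen U Om V K hV y₀ ε0 C0 hy₀ hε0 hC0 hB hCo c hct ε hε hεε ζ hζ hsup
  obtain ⟨CV, hCV0, hCV⟩ := dh_dV S φ hV y₀ ε0 hε0 hB.inU
  obtain ⟨C1, hC1, hw1⟩ := dh_w1 (ε := ε) (c := c) hB hV.opn hC0 hct hε
  have hZ0 : 0 ≤ ∫ y, ‖ζ y‖ ^ 2 := integral_nonneg fun _ => sq_nonneg _
  have hA1n : ∀ β, 0 ≤ (dhK S φ ψ β * (C0 + CV)) ^ 2 * (2 + 2 * C0) * (∫ y, ‖ζ y‖ ^ 2) := fun β =>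
    mul_nonneg (mul_nonneg (sq_nonneg _) (by linarith)) hZ0
  have hA2n : ∀ β, 0 ≤ (dhK S φ ψ β * C1) ^ 2 * (∫ y, ‖ζ y‖ ^ 2) := fun β => mul_nonneg (sq_nonneg _) hZ0
  have hle : ∀ β, (dhK S φ ψ β * (C0 + CV)) ^ 2 * (2 + 2 * C0) * (∫ y, ‖ζ y‖ ^ 2) +
      (dhK S φ ψ β * C1) ^ 2 * (∫ y, ‖ζ y‖ ^ 2) ≤
      ∑ β, ((dhK S φ ψ β * (C0 + CV)) ^ 2 * (2 + 2 * C0) * (∫ y, ‖ζ y‖ ^ 2) +
        (dhK S φ ψ β * C1) ^ 2 * (∫ y, ‖ζ y‖ ^ 2)) := fun β =>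
    Finset.single_le_sum (f := fun β => (dhK S φ ψ β * (C0 + CV)) ^ 2 * (2 + 2 * C0) * (∫ y, ‖ζ y‖ ^ 2) +
        (dhK S φ ψ β * C1) ^ 2 * (∫ y, ‖ζ y‖ ^ 2)) (fun β _ => add_nonneg (hA1n β) (hA2n β)) (Finset.mem_univ β)
  have hCn := Finset.sum_nonneg (s := (Finset.univ : Finset (Fin 16))) fun β _ => add_nonneg (hA1n β) (hA2n β)
  refine ⟨_, hCn, ?_⟩
  intro R η hR hη hηε Φ hΦ β
  generalize hCC : ∑ β, ((dhK S φ ψ β * (C0 + CV)) ^ 2 * (2 + 2 * C0) * (∫ y, ‖ζ y‖ ^ 2) +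
        (dhK S φ ψ β * C1) ^ 2 * (∫ y, ‖ζ y‖ ^ 2)) = CC at hle hCn ⊢
  have hR0 : 0 < R := one_pos.trans_le hR
  obtain ⟨hXt, hXs, hkey⟩ := dh_A hA hO hT hφ hcen hV hy₀ hε0 hB hCo hct hε hεε hζ hsup hR hη hηε hΦ β
  have hz2 : ns2 (fun (_ : Cfg dh) (_ : Wsp dm) => (0 : F)) = 0 := by simp [ns2]
  have hn0 : 0 ≤ nsq Φ := nsq_nonneg _
  refine ⟨fun _ _ => 0, dhX S φ ψ Om V c ε R ζ Φ β, fun _ _ => 0, hA.zero, hXt, hA.zero,
    fun _ _ h => absurd rfl h, hXs, fun _ _ h => absurd rfl h, ?_, ?_, ?_, ?_, ?_, ?_, ?_⟩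
  · intro x w
    rw [hkey x w, add_zero, add_zero]
  · rw [hz2, mul_zero]
    have h1 : 0 ≤ ∑ i, ∑ A, nsq (pd i A Φ) := Finset.sum_nonneg fun _ _ => Finset.sum_nonneg fun _ _ => nsq_nonneg _
    exact mul_nonneg hCn (add_nonneg (mul_nonneg (by positivity) hn0) (mul_nonneg (by positivity) h1))
  · exact (dh_B1 hBc hV hB hct hC0.le hCV0 hεε hε hζ hsup hR0 hCV hΦ.tst β hXt).trans
      (mul_le_mul_of_nonneg_right ((le_add_of_nonneg_right (hA2n β)).trans (hle β)) hn0)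
  · intro x w h
    refine hΦ.sup _ fun h0 => h ?_
    simp [dhX, dhEr, h0]
  · refine (dh_B2 hV hB hct hy₀ hεε hε hζ hsup hR hC1 hw1 hΦ.tst hΦ.val β).trans ?_
    exact mul_le_mul_of_nonneg_right (div_le_div_of_nonneg_right ((le_add_of_nonneg_left (hA1n β)).trans (hle β))
      hR0.le) hn0
  · intro x w
    rw [neg_zero]
  · rw [hz2]
    exact mul_nonneg (mul_nonneg (mul_nonneg hCn (sq_nonneg _)) hR0.le) hn0

end Vale.Agent.P353.Z.AE
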