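import Vale.Agent.P353.AN.E.Stmt
import Vale.Agent.P353.AN.A.SymCoef

/-! # P353, all `N`, block E: the remainder `Q^r` as a linear expression in `D_8⁻¹` (for E-DecR) -/

open MeasureTheory Filter Topology Matrix
open scoped ContDiff

namespace Vale.Agent.P353.Z.AE

variable {d dh dm r ds : ℕ} {F : Type*} [NormedAddCommGroup F] [InnerProductSpace ℂ F]

/-- bound for finitely many real numbers -/
lemma dr7_bd {ι : Type*} [Fintype ι] (f : ι → ℝ) : ∃ K : ℝ, 0 ≤ K ∧ ∀ i, f i ≤ K :=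
  ⟨∑ i, |f i|, Finset.sum_nonneg fun _ _ => abs_nonneg _, fun i => (le_abs_self _).trans
    (Finset.single_le_sum (f := fun i => |f i|) (fun _ _ => abs_nonneg _) (Finset.mem_univ i))⟩

lemma dr7_wt_le (w : Wsp dm) (i : Fin 9) (B : Fin dm) : |wt w i B| ≤ ‖w‖ := by
  unfold wt
  refine Fin.lastCases (motive := fun i => |Fin.lastCases (motive := fun _ => ℝ) 0 (fun j => w (j, B)) i| ≤ ‖w‖)
    ?_ (fun j => ?_) i
  · rw [Fin.lastCases_last]
    simp
  · rw [Fin.lastCases_castSucc]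
    simpa [Real.norm_eq_abs] using PiLp.norm_apply_le w (j, B)

lemma dr7_w_le (w : Wsp dm) (q : Fin 8 × Fin dm) : |w q| ≤ ‖w‖ := by
  simpa [Real.norm_eq_abs] using PiLp.norm_apply_le w q

variable (S : Setup d F) (φ : Spl dh dm d)

/-- inner part of the terms with `D_8⁻¹` -/
noncomputable def drI (C : Fin dm) (p : Fin 8 → Fin dh → F) (q : Fin 8 → Fin dm → F) (u : F) (w : Wsp dm) : F :=
  (∑ j : Fin 8, ∑ E, ∑ A, ((S.f (φ (Sum.inr C)) (φ (Sum.inr E)) (φ (Sum.inl A)) * w (j, E) : ℝ) : ℂ) • p j A) +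
    (∑ j : Fin 8, ∑ E, ∑ G, ((S.f (φ (Sum.inr C)) (φ (Sum.inr E)) (φ (Sum.inr G)) * w (j, E) : ℝ) : ℂ) • q j G) +
    Complex.I • S.cS (φ (Sum.inr C)) u

/-- terms of `Q^r` with `D_8⁻¹ = G`; `p`, `q` stand for `∂_y v`, `∂_w v` -/
noncomputable def drL (β : Fin 16) (G : Matrix (Fin dm) (Fin dm) ℝ) (p : Fin 8 → Fin dh → F) (q : Fin 8 → Fin dm → F)
    (u : F) (w : Wsp dm) : F :=
  Complex.I • (∑ B, S.vec (S.g 8) (φ (Sum.inr B)) β (∑ C, ((G B C : ℝ) : ℂ) • drI S φ C p q u w)) +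
    (Complex.I / 2) • ∑ A, ((∑ B, ∑ C, G B C * S.f (φ (Sum.inr C)) (φ (Sum.inl A)) (φ (Sum.inr B)) : ℝ) : ℂ) •
      S.vec (S.g 8) (φ (Sum.inl A)) β u

/-- terms of `Q^r` quadratic in `w` -/
noncomputable def drW (β : Fin 16) (w : Wsp dm) (u : F) : F :=
  (1 / 2 : ℂ) • (∑ A, ∑ i, ∑ j,
      ((S.κ * ∑ B, ∑ C, S.f (φ (Sum.inl A)) (φ (Sum.inr B)) (φ (Sum.inr C)) * wt w i B * wt w j C : ℝ) : ℂ) •
        S.vec (S.g2 i j) (φ (Sum.inl A)) β u) +
    (1 / 2 : ℂ) • (∑ A, ∑ i, ∑ j,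
      ((S.κ * ∑ B, ∑ C, S.f (φ (Sum.inr A)) (φ (Sum.inr B)) (φ (Sum.inr C)) * wt w i B * wt w j C : ℝ) : ℂ) •
        S.vec (S.g2 i j) (φ (Sum.inr A)) β u)

lemma dr7_Qr (β : Fin 16) (v : Cfg dh → Wsp dm → F) {y : Cfg dh} (hy : (S.Dy φ 8 y).det ≠ 0) (w : Wsp dm) :
    S.Qr φ β v y w = drL S φ β (S.Dy φ 8 y)⁻¹ (fun j A => py j.castSucc A v y w) (fun j G => pw j G v y w) (v y w) w +
      drW S φ β w (v y w) := by
  unfold Setup.Qr drL drW drI
  simp only [AN.Sy.logJ S φ hy]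
  abel

lemma drI_add (C : Fin dm) (p p' : Fin 8 → Fin dh → F) (q q' : Fin 8 → Fin dm → F) (u u' : F) (w : Wsp dm) :
    drI S φ C (fun j A => p j A + p' j A) (fun j G => q j G + q' j G) (u + u') w =
      drI S φ C p q u w + drI S φ C p' q' u' w := by
  unfold drI
  simp only [smul_add, Finset.sum_add_distrib, map_add]
  abel

lemma drI_smul (C : Fin dm) (c : ℂ) (p : Fin 8 → Fin dh → F) (q : Fin 8 → Fin dm → F) (u : F) (w : Wsp dm) :
    drI S φ C (fun j A => c • p j A) (fun j G => c • q j G) (c • u) w = c • drI S φ C p q u w := by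
  unfold drI
  simp only [smul_add, Finset.smul_sum, map_smul]
  congr 1
  · congr 1
    · refine Finset.sum_congr rfl fun j _ => Finset.sum_congr rfl fun E _ => Finset.sum_congr rfl fun A _ => ?_
      rw [smul_comm]
    · refine Finset.sum_congr rfl fun j _ => Finset.sum_congr rfl fun E _ => Finset.sum_congr rfl fun A _ => ?_
      rw [smul_comm]
  · rw [smul_comm]

lemma drL_add (β : Fin 16) (G : Matrix (Fin dm) (Fin dm) ℝ) (p p' : Fin 8 → Fin dh → F) (q q' : Fin 8 → Fin dm → F)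
    (u u' : F) (w : Wsp dm) :
    drL S φ β G (fun j A => p j A + p' j A) (fun j G => q j G + q' j G) (u + u') w =
      drL S φ β G p q u w + drL S φ β G p' q' u' w := by
  unfold drL
  simp only [drI_add, smul_add, Finset.sum_add_distrib, map_add]
  abel

lemma drL_smul (β : Fin 16) (G : Matrix (Fin dm) (Fin dm) ℝ) (c : ℂ) (p : Fin 8 → Fin dh → F) (q : Fin 8 → Fin dm → F)
    (u : F) (w : Wsp dm) :
    drL S φ β G (fun j A => c • p j A) (fun j G => c • q j G) (c • u) w = c • drL S φ β G p q u w := by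
  unfold drL
  simp only [drI_smul, smul_add, Finset.smul_sum, map_smul, map_sum]
  congr 1
  · refine Finset.sum_congr rfl fun B _ => Finset.sum_congr rfl fun C _ => ?_
    simp only [smul_smul]
    congr 1
    ring
  · refine Finset.sum_congr rfl fun A _ => ?_
    simp only [smul_smul]
    congr 1
    ring

lemma drL_sub (β : Fin 16) (G G' : Matrix (Fin dm) (Fin dm) ℝ) (p : Fin 8 → Fin dh → F) (q : Fin 8 → Fin dm → F)
    (u : F) (w : Wsp dm) :
    drL S φ β (G - G') p q u w = drL S φ β G p q u w - drL S φ β G' p q u w := by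
  unfold drL
  have h1 : ∀ B C, (((G - G') B C : ℝ) : ℂ) = ((G B C : ℝ) : ℂ) - ((G' B C : ℝ) : ℂ) := by
    intro B C
    rw [Matrix.sub_apply]
    push_cast
    ring
  have h2 : ∀ A, ((∑ B, ∑ C, (G - G') B C * S.f (φ (Sum.inr C)) (φ (Sum.inl A)) (φ (Sum.inr B)) : ℝ) : ℂ) =
      ((∑ B, ∑ C, G B C * S.f (φ (Sum.inr C)) (φ (Sum.inl A)) (φ (Sum.inr B)) : ℝ) : ℂ) -
      ((∑ B, ∑ C, G' B C * S.f (φ (Sum.inr C)) (φ (Sum.inl A)) (φ (Sum.inr B)) : ℝ) : ℂ) := by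
    intro A
    rw [← Complex.ofReal_sub]
    congr 1
    simp only [Matrix.sub_apply, sub_mul, Finset.sum_sub_distrib]
  simp only [h1, h2, sub_smul, Finset.sum_sub_distrib, map_sub, smul_sub]
  abel

lemma drW_smul (β : Fin 16) (w : Wsp dm) (c : ℂ) (u : F) : drW S φ β w (c • u) = c • drW S φ β w u := by
  unfold drW
  simp only [smul_add, Finset.smul_sum, map_smul]
  congr 1
  · refine Finset.sum_congr rfl fun A _ => Finset.sum_congr rfl fun i _ => Finset.sum_congr rfl fun j _ => ?_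
    simp only [smul_smul]
    congr 1
    ring
  · refine Finset.sum_congr rfl fun A _ => Finset.sum_congr rfl fun i _ => Finset.sum_congr rfl fun j _ => ?_
    simp only [smul_smul]
    congr 1
    ring

lemma drI_norm : ∃ K : ℝ, 0 ≤ K ∧ ∀ (C : Fin dm) (p : Fin 8 → Fin dh → F) (q : Fin 8 → Fin dm → F) (u : F) (w : Wsp dm),
    ‖drI S φ C p q u w‖ ≤ K * (‖w‖ * ((∑ j, ∑ A, ‖p j A‖) + ∑ j, ∑ G, ‖q j G‖) + ‖u‖) := by
  obtain ⟨b, hb0, hb⟩ := dr7_bd (fun t : Fin d × Fin d × Fin d => |S.f t.1 t.2.1 t.2.2|)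
  obtain ⟨e, he0, he⟩ := dr7_bd (fun A : Fin d => ‖S.cS A‖)
  refine ⟨dm * b + e, by positivity, fun C p q u w => ?_⟩
  unfold drI
  have h1 : ‖∑ j : Fin 8, ∑ E, ∑ A, ((S.f (φ (Sum.inr C)) (φ (Sum.inr E)) (φ (Sum.inl A)) * w (j, E) : ℝ) : ℂ) • p j A‖ ≤
      dm * b * (‖w‖ * ∑ j, ∑ A, ‖p j A‖) := by
    refine (norm_sum_le _ _).trans ?_
    rw [Finset.mul_sum, Finset.mul_sum]
    refine Finset.sum_le_sum fun j _ => ?_
    refine (norm_sum_le _ _).trans ?_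
    have : ∀ E ∈ Finset.univ, ‖∑ A, ((S.f (φ (Sum.inr C)) (φ (Sum.inr E)) (φ (Sum.inl A)) * w (j, E) : ℝ) : ℂ) • p j A‖ ≤
        b * (‖w‖ * ∑ A, ‖p j A‖) := by
      intro E _
      refine (norm_sum_le _ _).trans ?_
      rw [Finset.mul_sum, Finset.mul_sum]
      refine Finset.sum_le_sum fun A _ => ?_
      rw [norm_smul, Complex.norm_real, Real.norm_eq_abs, abs_mul, mul_assoc]
      exact mul_le_mul (hb (_, _, _)) (mul_le_mul_of_nonneg_right (dr7_w_le w _) (norm_nonneg _))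
        (by positivity) hb0
    refine (Finset.sum_le_sum this).trans (le_of_eq ?_)
    rw [Finset.sum_const, Finset.card_univ, Fintype.card_fin, nsmul_eq_mul]
    ring
  have h2 : ‖∑ j : Fin 8, ∑ E, ∑ G, ((S.f (φ (Sum.inr C)) (φ (Sum.inr E)) (φ (Sum.inr G)) * w (j, E) : ℝ) : ℂ) • q j G‖ ≤
      dm * b * (‖w‖ * ∑ j, ∑ A, ‖q j A‖) := by
    refine (norm_sum_le _ _).trans ?_
    rw [Finset.mul_sum, Finset.mul_sum]
    refine Finset.sum_le_sum fun j _ => ?_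
    refine (norm_sum_le _ _).trans ?_
    have : ∀ E ∈ Finset.univ, ‖∑ A, ((S.f (φ (Sum.inr C)) (φ (Sum.inr E)) (φ (Sum.inr A)) * w (j, E) : ℝ) : ℂ) • q j A‖ ≤
        b * (‖w‖ * ∑ A, ‖q j A‖) := by
      intro E _
      refine (norm_sum_le _ _).trans ?_
      rw [Finset.mul_sum, Finset.mul_sum]
      refine Finset.sum_le_sum fun A _ => ?_
      rw [norm_smul, Complex.norm_real, Real.norm_eq_abs, abs_mul, mul_assoc]
      exact mul_le_mul (hb (_, _, _)) (mul_le_mul_of_nonneg_right (dr7_w_le w _) (norm_nonneg _))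
        (by positivity) hb0
    refine (Finset.sum_le_sum this).trans (le_of_eq ?_)
    rw [Finset.sum_const, Finset.card_univ, Fintype.card_fin, nsmul_eq_mul]
    ring
  have h3 : ‖Complex.I • S.cS (φ (Sum.inr C)) u‖ ≤ e * ‖u‖ := by
    rw [norm_smul, Complex.norm_I, one_mul]
    exact (ContinuousLinearMap.le_opNorm _ _).trans (mul_le_mul_of_nonneg_right (he _) (norm_nonneg _))
  refine (norm_add₃_le).trans ((add_le_add (add_le_add h1 h2) h3).trans ?_)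
  have e1 : 0 ≤ ∑ j, ∑ A, ‖p j A‖ := by positivity
  have e2 : 0 ≤ ∑ j, ∑ G, ‖q j G‖ := by positivity
  have e3 := norm_nonneg u
  have e4 := norm_nonneg w
  have e5 : 0 ≤ (dm : ℝ) * b := by positivity
  have e6 : 0 ≤ e * (‖w‖ * ((∑ j, ∑ A, ‖p j A‖) + ∑ j, ∑ G, ‖q j G‖)) := by positivity
  have e7 : 0 ≤ (dm : ℝ) * b * ‖u‖ := by positivity
  nlinarith

lemma drL_norm : ∃ K : ℝ, 0 ≤ K ∧ ∀ (β : Fin 16) (G : Matrix (Fin dm) (Fin dm) ℝ) (g : ℝ) (p : Fin 8 → Fin dh → F)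
    (q : Fin 8 → Fin dm → F) (u : F) (w : Wsp dm), 0 ≤ g → (∀ B C, |G B C| ≤ g) →
    ‖drL S φ β G p q u w‖ ≤ K * g * (‖w‖ * ((∑ j, ∑ A, ‖p j A‖) + ∑ j, ∑ G, ‖q j G‖) + ‖u‖) := by
  obtain ⟨K, hK0, hK⟩ := drI_norm S φ
  obtain ⟨b, hb0, hb⟩ := dr7_bd (fun t : Fin d × Fin d × Fin d => |S.f t.1 t.2.1 t.2.2|)
  obtain ⟨a, ha0, ha⟩ := dr7_bd (fun t : Fin d × Fin 16 => ‖S.vec (S.g 8) t.1 t.2‖)
  refine ⟨dm * (a * (dm * K)) + dh * (dm * dm * b * a), by positivity, fun β G g p q u w hg hG => ?_⟩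
  obtain ⟨X, hX⟩ : ∃ X, X = ‖w‖ * ((∑ j, ∑ A, ‖p j A‖) + ∑ j, ∑ G, ‖q j G‖) + ‖u‖ := ⟨_, rfl⟩
  have hX0 : ‖u‖ ≤ X := by
    rw [hX]
    have : 0 ≤ ‖w‖ * ((∑ j, ∑ A, ‖p j A‖) + ∑ j, ∑ G, ‖q j G‖) := by positivity
    linarith
  have hX1 : 0 ≤ X := (norm_nonneg u).trans hX0
  have hK' : ∀ C, ‖drI S φ C p q u w‖ ≤ K * X := fun C => by rw [hX]; exact hK C p q u w
  rw [← hX]
  unfold drL
  have h1 : ‖Complex.I • (∑ B, S.vec (S.g 8) (φ (Sum.inr B)) β (∑ C, ((G B C : ℝ) : ℂ) • drI S φ C p q u w))‖ ≤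
      dm * (a * (dm * (g * (K * X)))) := by
    rw [norm_smul, Complex.norm_I, one_mul]
    refine (norm_sum_le _ _).trans ?_
    have : ∀ B ∈ Finset.univ, ‖S.vec (S.g 8) (φ (Sum.inr B)) β (∑ C, ((G B C : ℝ) : ℂ) • drI S φ C p q u w)‖ ≤
        a * (dm * (g * (K * X))) := by
      intro B _
      refine (ContinuousLinearMap.le_opNorm _ _).trans ?_
      refine mul_le_mul (ha (_, _)) ?_ (norm_nonneg _) ha0
      refine (norm_sum_le _ _).trans ?_
      have h' : ∀ C ∈ Finset.univ, ‖((G B C : ℝ) : ℂ) • drI S φ C p q u w‖ ≤ g * (K * X) := by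
        intro C _
        rw [norm_smul, Complex.norm_real, Real.norm_eq_abs]
        exact mul_le_mul (hG B C) (hK' C) (norm_nonneg _) hg
      refine (Finset.sum_le_sum h').trans (le_of_eq ?_)
      rw [Finset.sum_const, Finset.card_univ, Fintype.card_fin, nsmul_eq_mul]
    refine (Finset.sum_le_sum this).trans (le_of_eq ?_)
    rw [Finset.sum_const, Finset.card_univ, Fintype.card_fin, nsmul_eq_mul]
  have h2 : ‖(Complex.I / 2) • ∑ A, ((∑ B, ∑ C, G B C * S.f (φ (Sum.inr C)) (φ (Sum.inl A)) (φ (Sum.inr B)) : ℝ) : ℂ) •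
      S.vec (S.g 8) (φ (Sum.inl A)) β u‖ ≤ dh * (dm * (dm * (g * b)) * (a * X)) := by
    rw [norm_smul]
    have e1 : ‖Complex.I / 2‖ ≤ 1 := by simp; norm_num
    refine (mul_le_of_le_one_left (norm_nonneg _) e1).trans ?_
    refine (norm_sum_le _ _).trans ?_
    have : ∀ A ∈ Finset.univ, ‖((∑ B, ∑ C, G B C * S.f (φ (Sum.inr C)) (φ (Sum.inl A)) (φ (Sum.inr B)) : ℝ) : ℂ) •
        S.vec (S.g 8) (φ (Sum.inl A)) β u‖ ≤ dm * (dm * (g * b)) * (a * X) := by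
      intro A _
      rw [norm_smul, Complex.norm_real]
      refine mul_le_mul ?_ ?_ (norm_nonneg _) (by positivity)
      · refine (norm_sum_le _ _).trans ?_
        have h' : ∀ B ∈ Finset.univ, ‖∑ C, G B C * S.f (φ (Sum.inr C)) (φ (Sum.inl A)) (φ (Sum.inr B))‖ ≤
            dm * (g * b) := by
          intro B _
          refine (norm_sum_le _ _).trans ?_
          have h'' : ∀ C ∈ Finset.univ, ‖G B C * S.f (φ (Sum.inr C)) (φ (Sum.inl A)) (φ (Sum.inr B))‖ ≤ g * b := by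
            intro C _
            rw [Real.norm_eq_abs, abs_mul]
            exact mul_le_mul (hG B C) (hb (_, _, _)) (abs_nonneg _) hg
          refine (Finset.sum_le_sum h'').trans (le_of_eq ?_)
          rw [Finset.sum_const, Finset.card_univ, Fintype.card_fin, nsmul_eq_mul]
        refine (Finset.sum_le_sum h').trans (le_of_eq ?_)
        rw [Finset.sum_const, Finset.card_univ, Fintype.card_fin, nsmul_eq_mul]
      · refine (ContinuousLinearMap.le_opNorm _ _).trans ?_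
        exact mul_le_mul (ha (_, _)) hX0 (norm_nonneg _) ha0
    refine (Finset.sum_le_sum this).trans (le_of_eq ?_)
    rw [Finset.sum_const, Finset.card_univ, Fintype.card_fin, nsmul_eq_mul]
  refine (norm_add_le _ _).trans ((add_le_add h1 h2).trans (le_of_eq ?_))
  ring

lemma drW_norm : ∃ K : ℝ, 0 ≤ K ∧ ∀ (β : Fin 16) (w : Wsp dm) (u : F), ‖drW S φ β w u‖ ≤ K * (‖w‖ ^ 2 * ‖u‖) := by
  obtain ⟨b, hb0, hb⟩ := dr7_bd (fun t : Fin d × Fin d × Fin d => |S.f t.1 t.2.1 t.2.2|)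
  obtain ⟨a, ha0, ha⟩ := dr7_bd (fun t : (Fin 9 × Fin 9) × Fin d × Fin 16 => ‖S.vec (S.g2 t.1.1 t.1.2) t.2.1 t.2.2‖)
  have hκ := S.κ_pos.le
  have h0 : ∀ (n : ℕ) (ι : Fin n → Fin d) (β : Fin 16) (w : Wsp dm) (u : F),
      ‖(1 / 2 : ℂ) • (∑ A, ∑ i, ∑ j, ((S.κ * ∑ B, ∑ C, S.f (ι A) (φ (Sum.inr B)) (φ (Sum.inr C)) *
        wt w i B * wt w j C : ℝ) : ℂ) • S.vec (S.g2 i j) (ι A) β u)‖ ≤
        n * (81 * (S.κ * (dm * (dm * b)) * a)) * (‖w‖ ^ 2 * ‖u‖) := by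
    intro n ι β w u
    rw [norm_smul]
    have e1 : ‖(1 / 2 : ℂ)‖ ≤ 1 := by norm_num
    refine (mul_le_of_le_one_left (norm_nonneg _) e1).trans ?_
    refine (norm_sum_le _ _).trans ?_
    have : ∀ A ∈ Finset.univ, ‖∑ i, ∑ j, ((S.κ * ∑ B, ∑ C, S.f (ι A) (φ (Sum.inr B)) (φ (Sum.inr C)) *
        wt w i B * wt w j C : ℝ) : ℂ) • S.vec (S.g2 i j) (ι A) β u‖ ≤
        ∑ i : Fin 9, ∑ j : Fin 9, (S.κ * (dm * (dm * b)) * a) * (‖w‖ ^ 2 * ‖u‖) := by
      intro A _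
      refine (norm_sum_le _ _).trans (Finset.sum_le_sum fun i _ => ?_)
      refine (norm_sum_le _ _).trans (Finset.sum_le_sum fun j _ => ?_)
      rw [norm_smul, Complex.norm_real, Real.norm_eq_abs, abs_mul, abs_of_nonneg hκ]
      have h2 : |∑ B, ∑ C, S.f (ι A) (φ (Sum.inr B)) (φ (Sum.inr C)) * wt w i B * wt w j C| ≤
          dm * (dm * (b * ‖w‖ ^ 2)) := by
        refine (Finset.abs_sum_le_sum_abs _ _).trans ?_
        have h3 : ∀ B ∈ Finset.univ, |∑ C, S.f (ι A) (φ (Sum.inr B)) (φ (Sum.inr C)) * wt w i B * wt w j C| ≤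
            dm * (b * ‖w‖ ^ 2) := by
          intro B _
          refine (Finset.abs_sum_le_sum_abs _ _).trans ?_
          have h4 : ∀ C ∈ Finset.univ, |S.f (ι A) (φ (Sum.inr B)) (φ (Sum.inr C)) * wt w i B * wt w j C| ≤
              b * ‖w‖ ^ 2 := by
            intro C _
            rw [abs_mul, abs_mul, mul_assoc, sq]
            exact mul_le_mul (hb (_, _, _)) (mul_le_mul (dr7_wt_le w _ _) (dr7_wt_le w _ _) (abs_nonneg _)
              (norm_nonneg _)) (by positivity) hb0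
          refine (Finset.sum_le_sum h4).trans (le_of_eq ?_)
          rw [Finset.sum_const, Finset.card_univ, Fintype.card_fin, nsmul_eq_mul]
        refine (Finset.sum_le_sum h3).trans (le_of_eq ?_)
        rw [Finset.sum_const, Finset.card_univ, Fintype.card_fin, nsmul_eq_mul]
      have h5 : ‖S.vec (S.g2 i j) (ι A) β u‖ ≤ a * ‖u‖ :=
        (ContinuousLinearMap.le_opNorm _ _).trans (mul_le_mul_of_nonneg_right (ha ((_, _), _, _)) (norm_nonneg _))
      calc S.κ * |∑ B, ∑ C, S.f (ι A) (φ (Sum.inr B)) (φ (Sum.inr C)) * wt w i B * wt w j C| *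
            ‖S.vec (S.g2 i j) (ι A) β u‖ ≤ S.κ * (dm * (dm * (b * ‖w‖ ^ 2))) * (a * ‖u‖) :=
            mul_le_mul (mul_le_mul_of_nonneg_left h2 hκ) h5 (norm_nonneg _) (by positivity)
        _ = _ := by ring
    refine (Finset.sum_le_sum this).trans (le_of_eq ?_)
    simp only [Finset.sum_const, Finset.card_univ, Fintype.card_fin, nsmul_eq_mul]
    push_cast
    ring
  refine ⟨dh * (81 * (S.κ * (dm * (dm * b)) * a)) + dm * (81 * (S.κ * (dm * (dm * b)) * a)), by positivity,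
    fun β w u => ?_⟩
  unfold drW
  refine (norm_add_le _ _).trans ((add_le_add (h0 dh (fun A => φ (Sum.inl A)) β w u)
    (h0 dm (fun A => φ (Sum.inr A)) β w u)).trans (le_of_eq ?_))
  ring

end Vale.Agent.P353.Z.AE
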