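import Vale.Agent.P353.AN.E.DecRV
import Vale.Agent.P353.AN.E.Tool2
import Vale.Agent.P353.AN.C.Op

/-! # P353, all `N`, block E: inverse of `D_8` near the centre, test functions, weights (for E-DecR) -/

open MeasureTheory Filter Topology Matrix
open scoped ContDiff

namespace Vale.Agent.P353.Z.AE

variable {d dh dm r ds : ℕ} {F : Type*} [NormedAddCommGroup F] [InnerProductSpace ℂ F]

/-- Lipschitz bound for the entries of the inverse -/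
lemma dr7_inv_lip (M M' : Matrix (Fin dm) (Fin dm) ℝ) (hM : M.det ≠ 0) (hM' : M'.det ≠ 0)
    {K ε : ℝ} (hK : 0 ≤ K) (hε : 0 ≤ ε) (h1 : ∀ A B, |M⁻¹ A B| ≤ K) (h2 : ∀ A B, |M'⁻¹ A B| ≤ K)
    (h3 : ∀ A B, |M' A B - M A B| ≤ ε) (A B : Fin dm) :
    |M'⁻¹ A B - M⁻¹ A B| ≤ dm * (dm * (K * K)) * ε := by
  have key : M'⁻¹ - M⁻¹ = M'⁻¹ * (M - M') * M⁻¹ := by
    rw [Matrix.mul_sub, Matrix.sub_mul, Matrix.nonsing_inv_mul _ (isUnit_iff_ne_zero.2 hM'),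
      Matrix.one_mul, Matrix.mul_assoc, Matrix.mul_nonsing_inv _ (isUnit_iff_ne_zero.2 hM),
      Matrix.mul_one]
  have h4 : M'⁻¹ A B - M⁻¹ A B = ∑ Q, (∑ P, M'⁻¹ A P * (M - M') P Q) * M⁻¹ Q B := by
    rw [← Matrix.sub_apply, key, Matrix.mul_apply]
    simp only [Matrix.mul_apply]
  rw [h4]
  refine (Finset.abs_sum_le_sum_abs _ _).trans ?_
  have h5 : ∀ Q, |(∑ P, M'⁻¹ A P * (M - M') P Q) * M⁻¹ Q B| ≤ (dm * (K * ε)) * K := by
    intro Q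
    rw [abs_mul]
    refine mul_le_mul ?_ (h1 Q B) (abs_nonneg _) (by positivity)
    refine (Finset.abs_sum_le_sum_abs _ _).trans ?_
    have h6 : ∀ P, |M'⁻¹ A P * (M - M') P Q| ≤ K * ε := by
      intro P
      rw [abs_mul, Matrix.sub_apply, abs_sub_comm]
      exact mul_le_mul (h2 A P) (h3 P Q) (abs_nonneg _) hK
    refine (Finset.sum_le_sum fun P _ => h6 P).trans ?_
    rw [Finset.sum_const, Finset.card_univ, Fintype.card_fin, nsmul_eq_mul]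
  refine (Finset.sum_le_sum fun Q _ => h5 Q).trans ?_
  rw [Finset.sum_const, Finset.card_univ, Fintype.card_fin, nsmul_eq_mul]
  apply le_of_eq
  ring

/-- coordinates of `x` minus its centre part -/
lemma dr7_coord (ψ : Spl r ds dh) (x : Cfg dh) (p : Fin 9 × Fin dh) :
    |x p - cmb ψ (zpt ψ x) 0 p| ≤ ‖spt ψ x‖ := by
  obtain ⟨i, A⟩ := p
  obtain ⟨t, rfl⟩ := ψ.surjective A
  rcases t with a | b
  · have h1 : cmb ψ (zpt ψ x) 0 (i, ψ (Sum.inl a)) = x (i, ψ (Sum.inl a)) := by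
      simp [cmb, zpt]
    rw [h1, sub_self, abs_zero]
    exact norm_nonneg _
  · have h1 : cmb ψ (zpt ψ x) 0 (i, ψ (Sum.inr b)) = 0 := by
      simp [cmb]
    have h2 : spt ψ x (i, b) = x (i, ψ (Sum.inr b)) := rfl
    rw [h1, sub_zero, ← h2, ← Real.norm_eq_abs]
    exact PiLp.norm_apply_le (spt ψ x) (i, b)

/-- difference of the inverses of `D_8` -/
lemma dr7_G (S : Setup d F) (φ : Spl dh dm d) (ψ : Spl r ds dh) : ∃ k : ℝ, 0 ≤ k ∧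
    ∀ (y₀ : Cfg r) (ε0 C0 : ℝ), 0 ≤ C0 → S.CoefBd φ (cmb ψ y₀ 0) ε0 C0 → ∀ R : ℝ, 0 < R → ∀ x : Cfg dh,
      ‖x - R • cmb ψ y₀ 0‖ ≤ ε0 * R → ∀ B C,
      |((S.Dy φ 8 x)⁻¹ - (S.Dz φ ψ (zpt ψ x) 8)⁻¹) B C| ≤ k * C0 ^ 2 * (‖spt ψ x‖ / R ^ 2) := by
  obtain ⟨c, hc, hc'⟩ := dr7_bd fun p : Fin dm × Fin dm =>
    ∑ A, |S.f (φ (Sum.inr p.1)) (φ (Sum.inl A)) (φ (Sum.inr p.2))|
  refine ⟨dm * dm * c, by positivity, fun y₀ ε0 C0 hC0 hB R hR x hx B C => ?_⟩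
  have hx' : ‖cmb ψ (zpt ψ x) 0 - R • cmb ψ y₀ 0‖ ≤ ε0 * R := by
    rw [dr7_cmb0]
    exact zpt_ray_le ψ hx
  have hdy : ∀ B E, |S.Dy φ 8 x B E - S.Dz φ ψ (zpt ψ x) 8 B E| ≤ c * ‖spt ψ x‖ := by
    intro B E
    have h1 : S.Dy φ 8 x B E - S.Dz φ ψ (zpt ψ x) 8 B E =
        ∑ A, S.f (φ (Sum.inr B)) (φ (Sum.inl A)) (φ (Sum.inr E)) *
          (x (8, A) - cmb ψ (zpt ψ x) 0 (8, A)) := by
      simp only [Setup.Dz, Setup.Dy, Setup.Dm, Matrix.of_apply, mul_sub, Finset.sum_sub_distrib]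
    rw [h1]
    refine (Finset.abs_sum_le_sum_abs _ _).trans ?_
    refine (Finset.sum_le_sum fun A _ => ?_ :
      _ ≤ ∑ A, |S.f (φ (Sum.inr B)) (φ (Sum.inl A)) (φ (Sum.inr E))| * ‖spt ψ x‖).trans ?_
    · rw [abs_mul]
      exact mul_le_mul_of_nonneg_left (dr7_coord ψ x (8, A)) (abs_nonneg _)
    · rw [← Finset.sum_mul]
      exact mul_le_mul_of_nonneg_right (hc' (B, E)) (norm_nonneg _)
  have h := dr7_inv_lip (S.Dz φ ψ (zpt ψ x) 8) (S.Dy φ 8 x) (hB.det R hR _ hx') (hB.det R hR x hx)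
    (by positivity : 0 ≤ C0 / R) (by positivity : 0 ≤ c * ‖spt ψ x‖) (hB.inv R hR _ hx') (hB.inv R hR x hx) hdy B C
  rw [Matrix.sub_apply]
  refine h.trans (le_of_eq ?_)
  field_simp

section Tst

open AN.Op687

variable (S : Setup d F) (φ : Spl dh dm d)

/-- `drL` of test functions is a test function -/
lemma t_drL (hA : AN.CalcA dh dm F) (β : Fin 16) {g : Cfg dh → Matrix (Fin dm) (Fin dm) ℝ} {K U : Set (Cfg dh)}
    (hK : IsClosed K) (hU : IsOpen U) (hKU : K ⊆ U) (hg : ∀ B C, ContDiffOn ℝ ∞ (fun x => g x B C) U)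
    {p : Fin 8 → Fin dh → Cfg dh → Wsp dm → F} {q : Fin 8 → Fin dm → Cfg dh → Wsp dm → F} {u : Cfg dh → Wsp dm → F}
    (hp : ∀ j A, Tst2 (p j A)) (hq : ∀ j B, Tst2 (q j B)) (hu : Tst2 u)
    (h0 : ∀ x w, x ∉ K → (∀ j A, p j A x w = 0) ∧ (∀ j B, q j B x w = 0) ∧ u x w = 0) :
    Tst2 (fun x w => drL S φ β (g x) (fun j A => p j A x w) (fun j B => q j B x w) (u x w) w) := by
  have h2 : ∀ C : Fin dm, Tst2 (fun x w => drI S φ C (fun j A => p j A x w) (fun j B => q j B x w) (u x w) w) := by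
    intro C
    unfold drI
    exact hA.add _ _ (hA.add _ _
      (t_sum hA _ _ fun j _ => t_sum hA _ _ fun E _ => t_sum hA _ _ fun A _ =>
        t_mulc hA (fun _ w => S.f (φ (Sum.inr C)) (φ (Sum.inr E)) (φ (Sum.inl A)) * w (j, E))
          (contDiff_const.mul (AN.Sy.contDiff_w _)) _ (hp j A))
      (t_sum hA _ _ fun j _ => t_sum hA _ _ fun E _ => t_sum hA _ _ fun G _ =>
        t_mulc hA (fun _ w => S.f (φ (Sum.inr C)) (φ (Sum.inr E)) (φ (Sum.inr G)) * w (j, E))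
          (contDiff_const.mul (AN.Sy.contDiff_w _)) _ (hq j G)))
      (hA.smul _ _ (hA.clm _ _ hu))
  have h3 : ∀ (C : Fin dm) (x : Cfg dh) (w : Wsp dm),
      drI S φ C (fun j A => p j A x w) (fun j B => q j B x w) (u x w) w ≠ 0 → x ∈ K := by
    intro C x w h
    by_contra hn
    obtain ⟨e1, e2, e3⟩ := h0 x w hn
    apply h
    unfold drI
    simp [e1, e2, e3]
  have h4 : Tst2 (fun x w => Complex.I • (∑ B, S.vec (S.g 8) (φ (Sum.inr B)) β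
      (∑ C, ((g x B C : ℝ) : ℂ) • drI S φ C (fun j A => p j A x w) (fun j B => q j B x w) (u x w) w))) :=
    hA.smul _ _ (t_sum hA _ _ fun B _ => hA.clm _ _ (t_sum hA _ _ fun C _ =>
      hA.mulOn (fun x => g x B C) _ K U hK hU hKU (hg B C) (h3 C) (h2 C)))
  have h8 : ∀ (A : Fin dh) (x : Cfg dh) (w : Wsp dm), S.vec (S.g 8) (φ (Sum.inl A)) β (u x w) ≠ 0 → x ∈ K := by
    intro A x w h
    by_contra hn
    apply h
    simp [(h0 x w hn).2.2]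
  have h7 : Tst2 (fun x w => (Complex.I / 2) • ∑ A,
      ((∑ B, ∑ C, g x B C * S.f (φ (Sum.inr C)) (φ (Sum.inl A)) (φ (Sum.inr B)) : ℝ) : ℂ) •
      S.vec (S.g 8) (φ (Sum.inl A)) β (u x w)) :=
    hA.smul _ _ (t_sum hA _ _ fun A _ =>
      hA.mulOn (fun x => ∑ B, ∑ C, g x B C * S.f (φ (Sum.inr C)) (φ (Sum.inl A)) (φ (Sum.inr B))) _ K U hK hU hKU
        (ContDiffOn.sum fun B _ => ContDiffOn.sum fun C _ => (hg B C).mul contDiffOn_const) (h8 A) (hA.clm _ _ hu))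
  exact hA.add _ _ h4 h7

lemma t_drW (hA : AN.CalcA dh dm F) (β : Fin 16) {u : Cfg dh → Wsp dm → F} (hu : Tst2 u) :
    Tst2 (fun x w => drW S φ β w (u x w)) := by
  have h5 : Tst2 (fun y w => (1 / 2 : ℂ) • (∑ A, ∑ i, ∑ j,
      ((S.κ * ∑ B, ∑ C, S.f (φ (Sum.inl A)) (φ (Sum.inr B)) (φ (Sum.inr C)) * wt w i B * wt w j C : ℝ) : ℂ) •
        S.vec (S.g2 i j) (φ (Sum.inl A)) β (u y w))) :=
    hA.smul _ _ (t_sum hA _ _ fun A _ => t_sum hA _ _ fun i _ => t_sum hA _ _ fun j _ =>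
      t_mulT hA (fun _ w => S.κ * ∑ B, ∑ C, S.f (φ (Sum.inl A)) (φ (Sum.inr B)) (φ (Sum.inr C)) *
        wt w i B * wt w j C) (cd_ww S _ i j) _ u hu)
  have h6 : Tst2 (fun y w => (1 / 2 : ℂ) • (∑ A, ∑ i, ∑ j,
      ((S.κ * ∑ B, ∑ C, S.f (φ (Sum.inr A)) (φ (Sum.inr B)) (φ (Sum.inr C)) * wt w i B * wt w j C : ℝ) : ℂ) •
        S.vec (S.g2 i j) (φ (Sum.inr A)) β (u y w))) :=
    hA.smul _ _ (t_sum hA _ _ fun A _ => t_sum hA _ _ fun i _ => t_sum hA _ _ fun j _ =>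
      t_mulT hA (fun _ w => S.κ * ∑ B, ∑ C, S.f (φ (Sum.inr A)) (φ (Sum.inr B)) (φ (Sum.inr C)) *
        wt w i B * wt w j C) (cd_ww S _ i j) _ u hu)
  exact hA.add _ _ h5 h6

end Tst

section Weight

variable (S : Setup d F) (φ : Spl dh dm d) (ψ : Spl r ds dh)

/-- weight in the fibre -/
noncomputable def gw (Om : Cfg r → Matrix (Fin dm) (Fin dm) ℝ) (R : ℝ) (y : Cfg r) (w : Wsp dm) : ℝ :=
  ∑ k ∈ Finset.range 4, R ^ k * (‖w‖ ^ k * S.bz φ ψ Om y w) ^ 2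

lemma gw_eq (Om : Cfg r → Matrix (Fin dm) (Fin dm) ℝ) (R : ℝ) (y : Cfg r) (w : Wsp dm) :
    gw S φ ψ Om R y w = (1 + R * ‖w‖ ^ 2 + (R * ‖w‖ ^ 2) ^ 2 + (R * ‖w‖ ^ 2) ^ 3) * S.bz φ ψ Om y w ^ 2 := by
  unfold gw
  simp only [Finset.sum_range_succ, Finset.sum_range_zero]
  ring

lemma gw_int {U : Set (Cfg r)} {Om : Cfg r → Matrix (Fin dm) (Fin dm) ℝ} {y₀ : Cfg r} {ε0 C0 : ℝ}
    (hB : BzFacts S φ ψ U Om y₀ ε0 C0) {y : Cfg r} (hy : y ∈ U) (R : ℝ) : Integrable (gw S φ ψ Om R y) := by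
  unfold gw
  exact integrable_finsetSum _ fun k _ => (hB.int y hy k).const_mul _

lemma gw_le {U : Set (Cfg r)} {Om : Cfg r → Matrix (Fin dm) (Fin dm) ℝ} {y₀ : Cfg r} {ε0 C0 : ℝ}
    (hB : BzFacts S φ ψ U Om y₀ ε0 C0) {R : ℝ} (hR : 0 < R) {y : Cfg r} (hy : ‖y - R • y₀‖ ≤ ε0 * R) :
    ∫ w, gw S φ ψ Om R y w ≤ 4 * C0 := by
  have hyU := hB.inU R hR y hy
  unfold gw
  rw [integral_finset_sum _ fun k _ => (hB.int y hyU k).const_mul _]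
  have : ∀ k ∈ Finset.range 4, ∫ w, R ^ k * (‖w‖ ^ k * S.bz φ ψ Om y w) ^ 2 ≤ C0 := by
    intro k hk
    rw [integral_const_mul]
    have h1 := hB.mom R hR y hy k (by have := Finset.mem_range.1 hk; omega)
    calc R ^ k * ∫ w, (‖w‖ ^ k * S.bz φ ψ Om y w) ^ 2 ≤ R ^ k * (C0 * (1 / R) ^ k) :=
          mul_le_mul_of_nonneg_left h1 (by positivity)
      _ = C0 := by
          rw [one_div, inv_pow]
          field_simp
  refine (Finset.sum_le_sum this).trans (le_of_eq ?_)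
  simp

end Weight

end Vale.Agent.P353.Z.AE
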