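import Vale.Agent.P353.AN.E.DecRA

/-! # P353, all `N`, block E: vacuum part of the remainder with cutoff (for E-DecR) -/

open MeasureTheory Filter Topology Matrix
open scoped ContDiff

namespace Vale.Agent.P353.Z.AE

variable {d dh dm r ds : ℕ} {F : Type*} [NormedAddCommGroup F] [InnerProductSpace ℂ F]

variable (S : Setup d F) (φ : Spl dh dm d)

lemma drL_cont (β : Fin 16) (G : Matrix (Fin dm) (Fin dm) ℝ) {q : Wsp dm → Fin 8 → Fin dm → F} {u : Wsp dm → F}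
    (hq : ∀ j B, Continuous fun w => q w j B) (hu : Continuous u) :
    Continuous fun w => drL S φ β G (fun _ _ => 0) (q w) (u w) w := by
  unfold drL drI
  simp only [smul_zero, Finset.sum_const_zero, zero_add]
  have hw : ∀ k : Fin 8 × Fin dm, Continuous fun w : Wsp dm => w k := fun k =>
    (EuclideanSpace.proj (𝕜 := ℝ) k).continuous
  refine Continuous.add ?_ ?_
  · refine Continuous.const_smul (continuous_finsetSum _ fun B _ => ?_) _
    refine (ContinuousLinearMap.continuous _).comp ?_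
    refine continuous_finsetSum _ fun C _ => Continuous.const_smul ?_ _
    refine Continuous.add ?_ ?_
    · refine continuous_finsetSum _ fun j _ => continuous_finsetSum _ fun E _ => continuous_finsetSum _ fun G _ => ?_
      exact (Complex.continuous_ofReal.comp (continuous_const.mul (hw _))).smul (hq j G)
    · exact Continuous.const_smul ((ContinuousLinearMap.continuous _).comp hu) _
  · refine Continuous.const_smul (continuous_finsetSum _ fun A _ => ?_) _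
    exact Continuous.const_smul ((ContinuousLinearMap.continuous _).comp hu) _

lemma drW_cont (β : Fin 16) {u : Wsp dm → F} (hu : Continuous u) : Continuous fun w => drW S φ β w (u w) := by
  have hwt : ∀ i B, Continuous fun w : Wsp dm => wt w i B := fun i B =>
    ((AN.Sy.contDiff_wt (dh := 0) i B).continuous).comp (continuous_const.prodMk continuous_id : Continuous fun w : Wsp dm => ((0 : Cfg 0), w))
  unfold drW
  refine Continuous.add ?_ ?_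
  · refine Continuous.const_smul (continuous_finsetSum _ fun A _ => continuous_finsetSum _ fun i _ =>
      continuous_finsetSum _ fun j _ => ?_) _
    refine Continuous.smul ?_ ((ContinuousLinearMap.continuous _).comp hu)
    refine Complex.continuous_ofReal.comp (continuous_const.mul (continuous_finsetSum _ fun B _ =>
      continuous_finsetSum _ fun C _ => (continuous_const.mul (hwt i B)).mul (hwt j C)))
  · refine Continuous.const_smul (continuous_finsetSum _ fun A _ => continuous_finsetSum _ fun i _ =>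
      continuous_finsetSum _ fun j _ => ?_) _
    refine Continuous.smul ?_ ((ContinuousLinearMap.continuous _).comp hu)
    refine Complex.continuous_ofReal.comp (continuous_const.mul (continuous_finsetSum _ fun B _ =>
      continuous_finsetSum _ fun C _ => (continuous_const.mul (hwt i B)).mul (hwt j C)))

/-- derivative of `τ • v` -/
lemma dr7_fd {τ : Wsp dm → ℝ} {w : Wsp dm} (h : DifferentiableAt ℝ τ w) (v : F) (e : Wsp dm) :
    fderiv ℝ (fun w => ((τ w : ℝ) : ℂ) • v) w e = ((fderiv ℝ τ w e : ℝ) : ℂ) • v := by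
  have h1 : HasFDerivAt (fun w => ((τ w : ℝ) : ℂ) • v)
      ((((Complex.ofRealCLM).comp (fderiv ℝ τ w)).smulRight v)) w :=
    ((Complex.ofRealCLM.hasFDerivAt).comp w h.hasFDerivAt).smul_const v
  rw [h1.fderiv]
  rfl

/-- fibre expression `Q^r (τ v)` at the matrix `G` -/
noncomputable def drX (β : Fin 16) (G : Matrix (Fin dm) (Fin dm) ℝ) (τ : Wsp dm → ℝ) (v : F) (w : Wsp dm) : F :=
  drL S φ β G (fun _ _ => 0) (fun j B => ((fderiv ℝ τ w (EuclideanSpace.single (j, B) 1) : ℝ) : ℂ) • v)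
    (((τ w : ℝ) : ℂ) • v) w + drW S φ β w (((τ w : ℝ) : ℂ) • v)

lemma drX_cont (β : Fin 16) (G : Matrix (Fin dm) (Fin dm) ℝ) {τ : Wsp dm → ℝ} (h : ContDiff ℝ 1 τ) (v : F) :
    Continuous (drX S φ β G τ v) := by
  unfold drX
  have h1 : Continuous fun w => ((τ w : ℝ) : ℂ) • v :=
    (Complex.continuous_ofReal.comp h.continuous).smul continuous_const
  refine (drL_cont S φ β G (fun j B => ?_) h1).add (drW_cont S φ β h1)
  exact (Complex.continuous_ofReal.comp ((h.continuous_fderiv (by norm_num)).clm_apply continuous_const)).smul continuous_const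

lemma drX_smul (β : Fin 16) (G : Matrix (Fin dm) (Fin dm) ℝ) (τ : Wsp dm → ℝ) (c : ℂ) (v : F) (w : Wsp dm) :
    drX S φ β G τ (c • v) w = c • drX S φ β G τ v w := by
  unfold drX
  rw [smul_add, ← drL_smul, ← drW_smul]
  congr 1
  · congr 1
    · funext j A
      rw [smul_zero]
    · funext j B
      rw [smul_comm]
    · rw [smul_comm]
  · rw [smul_comm]

/-- product rule -/
lemma drX_mul (β : Fin 16) (G : Matrix (Fin dm) (Fin dm) ℝ) {χ b : Wsp dm → ℝ} (hχ : Differentiable ℝ χ)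
    (hb : Differentiable ℝ b) (v : F) (w : Wsp dm) :
    drX S φ β G (fun w => χ w * b w) v w = ((χ w : ℝ) : ℂ) • drX S φ β G b v w + ((b w : ℝ) : ℂ) •
      drL S φ β G (fun _ _ => 0) (fun j B => ((fderiv ℝ χ w (EuclideanSpace.single (j, B) 1) : ℝ) : ℂ) • v) 0 w := by
  unfold drX
  have h1 : ∀ e, fderiv ℝ (fun w => χ w * b w) w e = χ w * fderiv ℝ b w e + b w * fderiv ℝ χ w e := by
    intro e
    rw [fderiv_fun_mul (hχ w) (hb w)]
    simp only [_root_.add_apply, _root_.smul_apply, smul_eq_mul]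
  rw [smul_add, ← drL_smul, ← drW_smul, ← drL_smul]
  rw [add_right_comm, ← drL_add]
  congr 1
  · congr 1
    · funext j A
      simp
    · funext j B
      rw [h1, smul_smul, smul_smul, ← add_smul]
      congr 1
      push_cast
      ring
    · rw [smul_zero, add_zero, smul_smul]
      congr 1
      push_cast
      ring
  · rw [smul_smul]
    congr 2
    push_cast
    ring

lemma drX_norm : ∃ K : ℝ, 0 ≤ K ∧ ∀ (β : Fin 16) (G : Matrix (Fin dm) (Fin dm) ℝ) (C0 R : ℝ) (τ : Wsp dm → ℝ) (v : F)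
    (t : ℝ) (w : Wsp dm), 0 ≤ C0 → 0 < R → (∀ B C, |G B C| ≤ C0 / R) →
    (∀ j B, |fderiv ℝ τ w (EuclideanSpace.single (j, B) 1)| ≤ C0 * R * ‖w‖ * t) → |τ w| ≤ t →
    ‖drX S φ β G τ v w‖ ≤ K * (1 + C0) ^ 2 * (1 / R + ‖w‖ ^ 2) * t * ‖v‖ := by
  obtain ⟨K, hK0, hK⟩ := drL_norm S φ
  obtain ⟨L, hL0, hL⟩ := drW_norm S φ
  refine ⟨K * (8 * dm + 1) + L, by positivity, fun β G C0 R τ v t w hC0 hR hG hd ht => ?_⟩
  have ht0 : 0 ≤ t := (abs_nonneg _).trans ht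
  have h1 := hK β G (C0 / R) (fun _ _ => 0)
    (fun j B => ((fderiv ℝ τ w (EuclideanSpace.single (j, B) 1) : ℝ) : ℂ) • v) (((τ w : ℝ) : ℂ) • v) w (by positivity) hG
  have h2 := hL β w (((τ w : ℝ) : ℂ) • v)
  have h3 : ‖((τ w : ℝ) : ℂ) • v‖ ≤ t * ‖v‖ := by
    rw [norm_smul, Complex.norm_real, Real.norm_eq_abs]
    exact mul_le_mul_of_nonneg_right ht (norm_nonneg _)
  have h4 : ∑ j : Fin 8, ∑ B : Fin dm, ‖((fderiv ℝ τ w (EuclideanSpace.single (j, B) 1) : ℝ) : ℂ) • v‖ ≤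
      8 * dm * (C0 * R * ‖w‖ * t * ‖v‖) := by
    have : ∀ j ∈ (Finset.univ : Finset (Fin 8)), ∑ B : Fin dm, ‖((fderiv ℝ τ w (EuclideanSpace.single (j, B) 1) : ℝ) : ℂ) • v‖ ≤
        dm * (C0 * R * ‖w‖ * t * ‖v‖) := by
      intro j _
      have h' : ∀ B ∈ (Finset.univ : Finset (Fin dm)), ‖((fderiv ℝ τ w (EuclideanSpace.single (j, B) 1) : ℝ) : ℂ) • v‖ ≤
          C0 * R * ‖w‖ * t * ‖v‖ := by
        intro B _
        rw [norm_smul, Complex.norm_real, Real.norm_eq_abs]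
        exact mul_le_mul_of_nonneg_right (hd j B) (norm_nonneg _)
      refine (Finset.sum_le_sum h').trans (le_of_eq ?_)
      rw [Finset.sum_const, Finset.card_univ, Fintype.card_fin, nsmul_eq_mul]
    refine (Finset.sum_le_sum this).trans (le_of_eq ?_)
    rw [Finset.sum_const, Finset.card_univ, Fintype.card_fin, nsmul_eq_mul]
    push_cast
    ring
  have h5 : ‖drL S φ β G (fun _ _ => 0) (fun j B => ((fderiv ℝ τ w (EuclideanSpace.single (j, B) 1) : ℝ) : ℂ) • v)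
      (((τ w : ℝ) : ℂ) • v) w‖ ≤ K * (C0 / R) * (‖w‖ * (8 * dm * (C0 * R * ‖w‖ * t * ‖v‖)) + t * ‖v‖) := by
    refine h1.trans (mul_le_mul_of_nonneg_left ?_ (by positivity))
    simp only [norm_zero, Finset.sum_const_zero, zero_add]
    exact add_le_add (mul_le_mul_of_nonneg_left h4 (norm_nonneg _)) h3
  have h6 : ‖drW S φ β w (((τ w : ℝ) : ℂ) • v)‖ ≤ L * (‖w‖ ^ 2 * (t * ‖v‖)) :=
    h2.trans (mul_le_mul_of_nonneg_left (mul_le_mul_of_nonneg_left h3 (sq_nonneg _)) hL0)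
  unfold drX
  refine (norm_add_le _ _).trans ((add_le_add h5 h6).trans ?_)
  have e1 : K * (C0 / R) * (‖w‖ * (8 * dm * (C0 * R * ‖w‖ * t * ‖v‖)) + t * ‖v‖) =
      (K * (8 * dm) * C0 ^ 2 * ‖w‖ ^ 2 + K * C0 * (1 / R)) * (t * ‖v‖) := by
    field_simp
  rw [e1]
  have e2 : 0 ≤ t * ‖v‖ := by positivity
  have e3 : 0 ≤ ‖w‖ ^ 2 := by positivity
  have e4 : 0 ≤ 1 / R := by positivity
  have e5 : (1 : ℝ) ≤ (1 + C0) ^ 2 := by nlinarith
  have e6 : C0 ^ 2 ≤ (1 + C0) ^ 2 := by nlinarith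
  have e7 : C0 ≤ (1 + C0) ^ 2 := by nlinarith
  have e8 : 0 ≤ K * (8 * dm) := by positivity
  calc (K * (8 * dm) * C0 ^ 2 * ‖w‖ ^ 2 + K * C0 * (1 / R)) * (t * ‖v‖) + L * (‖w‖ ^ 2 * (t * ‖v‖))
      = (K * (8 * dm) * (C0 ^ 2 * ‖w‖ ^ 2) + K * (C0 * (1 / R)) + L * ‖w‖ ^ 2) * (t * ‖v‖) := by ring
    _ ≤ (K * (8 * dm) * ((1 + C0) ^ 2 * (1 / R + ‖w‖ ^ 2)) + K * ((1 + C0) ^ 2 * (1 / R + ‖w‖ ^ 2)) +
          L * ((1 + C0) ^ 2 * (1 / R + ‖w‖ ^ 2))) * (t * ‖v‖) := by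
        refine mul_le_mul_of_nonneg_right (add_le_add (add_le_add ?_ ?_) ?_) e2
        · refine mul_le_mul_of_nonneg_left ?_ e8
          exact mul_le_mul e6 (by linarith) e3 (by positivity)
        · refine mul_le_mul_of_nonneg_left ?_ hK0
          exact mul_le_mul e7 (by linarith) e4 (by positivity)
        · refine mul_le_mul_of_nonneg_left ?_ hL0
          calc ‖w‖ ^ 2 = 1 * ‖w‖ ^ 2 := (one_mul _).symm
            _ ≤ (1 + C0) ^ 2 * (1 / R + ‖w‖ ^ 2) := mul_le_mul e5 (by linarith) e3 (by positivity)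
    _ = _ := by ring

/-- the derivative of a cutoff is bounded -/
lemma dr7_ct {c : ℝ → ℝ} (hc : IsCt c) : ∃ M : ℝ, 0 ≤ M ∧ ∀ t, |deriv c t| ≤ M := by
  obtain ⟨M, hM⟩ := (isCompact_Icc (a := (1 / 4 : ℝ)) (b := 1)).exists_bound_of_continuousOn
    ((hc.sm.continuous_deriv (by norm_num)).continuousOn)
  have hM0 : 0 ≤ M := (norm_nonneg _).trans (hM (1 / 2) ⟨by norm_num, by norm_num⟩)
  refine ⟨M, hM0, fun t => ?_⟩
  by_cases h1 : t < 1 / 4
  · have : c =ᶠ[𝓝 t] fun _ => 1 := by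
      filter_upwards [Iio_mem_nhds h1] with s hs
      exact hc.one s (le_of_lt hs)
    rw [this.deriv_eq, deriv_const, abs_zero]
    exact hM0
  · by_cases h2 : 1 < t
    · have : c =ᶠ[𝓝 t] fun _ => 0 := by
        filter_upwards [Ioi_mem_nhds h2] with s hs
        exact hc.zero s (le_of_lt hs)
      rw [this.deriv_eq, deriv_const, abs_zero]
      exact hM0
    · exact hM t ⟨not_lt.1 h1, not_lt.1 h2⟩

lemma dr7_chi_sm {c : ℝ → ℝ} (hc : IsCt c) (ρ : ℝ) : ContDiff ℝ ∞ fun w : Wsp dm => c (‖w‖ ^ 2 / ρ ^ 2) :=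
  hc.sm.comp ((contDiff_norm_sq ℝ).div_const _)

lemma dr7_chi_one {c : ℝ → ℝ} (hc : IsCt c) {ρ : ℝ} (hρ : 0 < ρ) {w : Wsp dm} (hw : ‖w‖ < ρ / 2) :
    c (‖w‖ ^ 2 / ρ ^ 2) = 1 := by
  refine hc.one _ ?_
  rw [div_le_iff₀ (by positivity)]
  nlinarith [norm_nonneg w]

lemma dr7_chi_fd {c : ℝ → ℝ} (hc : IsCt c) {ρ M : ℝ} (hρ : 0 < ρ) (hM : ∀ t, |deriv c t| ≤ M) (w : Wsp dm) (k : Fin 8 × Fin dm) :
    |fderiv ℝ (fun w : Wsp dm => c (‖w‖ ^ 2 / ρ ^ 2)) w (EuclideanSpace.single k 1)| ≤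
      if ρ / 2 ≤ ‖w‖ then 2 * M / ρ ^ 2 * ‖w‖ else 0 := by
  have hM0 : 0 ≤ M := (abs_nonneg _).trans (hM 0)
  split_ifs with h
  · have h1 : HasFDerivAt (fun w : Wsp dm => ‖w‖ ^ 2 / ρ ^ 2) ((ρ ^ 2)⁻¹ • ((2 : ℕ) • innerSL ℝ w)) w := by
      have := (hasStrictFDerivAt_norm_sq w).hasFDerivAt.mul_const (ρ ^ 2)⁻¹
      simpa [div_eq_mul_inv] using this
    have h2 : HasDerivAt c (deriv c (‖w‖ ^ 2 / ρ ^ 2)) (‖w‖ ^ 2 / ρ ^ 2) :=
      (hc.sm.differentiable (by norm_num) _).hasDerivAt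
    have h3 := (h2.comp_hasFDerivAt w h1).fderiv
    have h4 : fderiv ℝ (fun w : Wsp dm => c (‖w‖ ^ 2 / ρ ^ 2)) w (EuclideanSpace.single k 1) =
        deriv c (‖w‖ ^ 2 / ρ ^ 2) * ((ρ ^ 2)⁻¹ * (2 * w k)) := by
      have : (fun w : Wsp dm => c (‖w‖ ^ 2 / ρ ^ 2)) = c ∘ fun w : Wsp dm => ‖w‖ ^ 2 / ρ ^ 2 := rfl
      rw [this, h3]
      simp [EuclideanSpace.inner_single_right]
    rw [h4, abs_mul, abs_mul, abs_mul, abs_of_nonneg (by positivity : (0 : ℝ) ≤ (ρ ^ 2)⁻¹), abs_two]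
    calc |deriv c (‖w‖ ^ 2 / ρ ^ 2)| * ((ρ ^ 2)⁻¹ * (2 * |w k|)) ≤ M * ((ρ ^ 2)⁻¹ * (2 * ‖w‖)) :=
          mul_le_mul (hM _) (mul_le_mul_of_nonneg_left (mul_le_mul_of_nonneg_left (dr7_w_le w k) (by norm_num))
            (by positivity)) (by positivity) hM0
      _ = _ := by ring
  · push Not at h
    have h1 : (fun w : Wsp dm => c (‖w‖ ^ 2 / ρ ^ 2)) =ᶠ[𝓝 w] fun _ => 1 := by
      filter_upwards [(isOpen_lt continuous_norm continuous_const).mem_nhds h] with w' hw'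
      exact dr7_chi_one hc hρ hw'
    rw [h1.fderiv_eq]
    simp

/-- the Gaussian in the fibre is smooth -/
lemma dr7_bsm {ψ : Spl r ds dh} {U : Set (Cfg r)} {Om : Cfg r → Matrix (Fin dm) (Fin dm) ℝ} {y₀ : Cfg r} {ε0 C0 : ℝ}
    (hB : BzFacts S φ ψ U Om y₀ ε0 C0) {y : Cfg r} (hy : y ∈ U) : ContDiff ℝ ∞ (S.bz φ ψ Om y) := by
  have h1 : ContDiff ℝ ∞ (fun w : Wsp dm => ((y, w) : Cfg r × Wsp dm)) := contDiff_const.prodMk contDiff_id
  have h2 := hB.sm.comp h1.contDiffOn (s := Set.univ) (fun w _ => ⟨hy, Set.mem_univ _⟩)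
  exact contDiffOn_univ.1 h2

/-- the point `cmb y 0` -/
lemma dr7_cmb0 (ψ : Spl r ds dh) (y y₀ : Cfg r) (R : ℝ) : ‖cmb ψ y 0 - R • cmb ψ y₀ 0‖ = ‖y - R • y₀‖ := by
  have h1 : cmb ψ y 0 - R • cmb ψ y₀ 0 = cmb ψ (y - R • y₀) 0 := by
    ext ⟨i, A⟩
    obtain ⟨q, rfl⟩ := ψ.surjective A
    rcases q with a | b <;> simp [cmb]
  rw [h1]
  have h2 : ‖cmb ψ (y - R • y₀) (0 : Cfg ds)‖ ^ 2 = ‖y - R • y₀‖ ^ 2 := by
    rw [EuclideanSpace.real_norm_sq_eq, EuclideanSpace.real_norm_sq_eq, Fintype.sum_prod_type, Fintype.sum_prod_type]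
    refine Finset.sum_congr rfl fun i _ => ?_
    rw [← ψ.sum_comp, Fintype.sum_sum_type]
    simp [cmb]
  exact (sq_eq_sq₀ (norm_nonneg _) (norm_nonneg _)).1 h2

/-- the vacuum part of `Q^r(b v)` vanishes -/
lemma dr7_vac0 [FiniteDimensional ℂ F] {ψ : Spl r ds dh} (hQ : QrVacStmt S φ ψ) (h1 : S.IsSub φ) (h2 : S.IsCen φ ψ)
    {U : Set (Cfg r)} {Om : Cfg r → Matrix (Fin dm) (Fin dm) ℝ} {V : Cfg r → F →L[ℂ] F} {K : Submodule ℂ F}
    (hV : S.VFr φ ψ U Om V K) {y₀ : Cfg r} {ε0 C0 : ℝ} (hB : BzFacts S φ ψ U Om y₀ ε0 C0) {y : Cfg r} (hy : y ∈ U)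
    {v : F} (hv : v ∈ S.F0 φ (S.Dz φ ψ y) (Om y)) (β : Fin 16) :
    (S.F0 φ (S.Dz φ ψ y) (Om y)).starProjection (∫ w, ((S.bz φ ψ Om y w : ℝ) : ℂ) •
      drX S φ β (S.Dz φ ψ y 8)⁻¹ (S.bz φ ψ Om y) v w) = 0 := by
  obtain ⟨n, hn⟩ : ∃ n, n = Real.sqrt (∫ w', gR (S.Dz φ ψ y) (Om y) 1 w' ^ 2) := ⟨_, rfl⟩
  have hb : ∀ w, S.bz φ ψ Om y w = gR (S.Dz φ ψ y) (Om y) 1 w / n := fun w => by rw [hn]; rfl
  have hn0 : n ≠ 0 := by
    intro h0
    have := hB.pos y hy 0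
    rw [hb, h0, div_zero] at this
    exact lt_irrefl _ this
  have hg : ∀ w, gR (S.Dz φ ψ y) (Om y) 1 w = n * S.bz φ ψ Om y w := fun w => by
    rw [hb]
    field_simp
  have hsm := dr7_bsm S φ hB hy
  by_cases hi : Integrable fun w => ((S.bz φ ψ Om y w : ℝ) : ℂ) • drX S φ β (S.Dz φ ψ y 8)⁻¹ (S.bz φ ψ Om y) v w
  swap
  · rw [integral_undef hi, map_zero]
  refine Submodule.eq_starProjection_of_mem_of_inner_eq_zero (Submodule.zero_mem _) fun v' hv' => ?_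
  rw [sub_zero]
  have h3 := hQ h1 h2 y (Om y) (hV.det y hy) (hV.om y hy) v hv v' hv' β
  have h4 : ∀ w, S.Qr φ β (fun _ w' => ((gR (S.Dz φ ψ y) (Om y) 1 w' : ℝ) : ℂ) • v) (cmb ψ y 0) w =
      (n : ℂ) • drX S φ β (S.Dz φ ψ y 8)⁻¹ (S.bz φ ψ Om y) v w := by
    intro w
    rw [dr7_Qr S φ β _ (show (S.Dy φ 8 (cmb ψ y 0)).det ≠ 0 from hV.det y hy), ← drX_smul]
    unfold drX
    have e1 : ∀ w, ((gR (S.Dz φ ψ y) (Om y) 1 w : ℝ) : ℂ) • v = ((S.bz φ ψ Om y w : ℝ) : ℂ) • ((n : ℂ) • v) := by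
      intro w
      rw [hg, smul_smul]
      congr 1
      push_cast
      ring
    simp only [e1]
    congr 1
    congr 1
    · funext j A
      unfold py pd
      rw [fderiv_const_apply]
      rfl
    · funext j B
      unfold pw
      exact dr7_fd (hsm.differentiable (by norm_num) w) _ _
  simp only [h4] at h3
  simp only [hg] at h3
  have h5 : ∀ w, inner ℂ (((n * S.bz φ ψ Om y w : ℝ) : ℂ) • v') ((n : ℂ) • drX S φ β (S.Dz φ ψ y 8)⁻¹ (S.bz φ ψ Om y) v w) =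
      ((n : ℂ) ^ 2) * inner ℂ v' (((S.bz φ ψ Om y w : ℝ) : ℂ) • drX S φ β (S.Dz φ ψ y 8)⁻¹ (S.bz φ ψ Om y) v w) := by
    intro w
    rw [inner_smul_left, inner_smul_right, inner_smul_right, Complex.conj_ofReal]
    push_cast
    ring
  simp only [h5] at h3
  rw [integral_const_mul, integral_inner hi] at h3
  have h6 : ((n : ℂ) ^ 2) ≠ 0 := by
    simpa using hn0
  have h7 := (mul_eq_zero.1 h3).resolve_left h6
  rw [← inner_conj_symm, h7, map_zero]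

/-- the vacuum part of `Q^r(χ b v)` is exponentially small (here: `O(R⁻⁸)`) -/
theorem dr_vac [FiniteDimensional ℂ F] {ψ : Spl r ds dh} (hQ : QrVacStmt S φ ψ) (h1 : S.IsSub φ) (h2 : S.IsCen φ ψ)
    {U : Set (Cfg r)} {Om : Cfg r → Matrix (Fin dm) (Fin dm) ℝ} {V : Cfg r → F →L[ℂ] F} {K : Submodule ℂ F}
    (hV : S.VFr φ ψ U Om V K) {y₀ : Cfg r} {ε0 C0 : ℝ} (hB : BzFacts S φ ψ U Om y₀ ε0 C0)
    (hC : S.CoefBd φ (cmb ψ y₀ 0) ε0 C0) (hC0 : 0 < C0) {c : ℝ → ℝ} (hc : IsCt c) {ε : ℝ} (hε : 0 < ε) :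
    ∃ L : ℝ, 0 ≤ L ∧ ∀ R : ℝ, 1 ≤ R → ∀ y : Cfg r, ‖y - R • y₀‖ ≤ ε0 * R → ∀ v ∈ S.F0 φ (S.Dz φ ψ y) (Om y), ∀ β,
      ‖(S.F0 φ (S.Dz φ ψ y) (Om y)).starProjection (∫ w, ((S.bz φ ψ Om y w : ℝ) : ℂ) •
        drX S φ β (S.Dz φ ψ y 8)⁻¹ (fun w => c (‖w‖ ^ 2 / (ε * R) ^ 2) * S.bz φ ψ Om y w) v w)‖ ≤
          L * (1 / R) ^ 8 * ‖v‖ := by
  obtain ⟨k1, hk1, hX⟩ := drX_norm S φ
  obtain ⟨k2, hk2, hL⟩ := drL_norm S φ
  obtain ⟨M, hM0, hM⟩ := dr7_ct hc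
  obtain ⟨C', hC'⟩ := hB.tail (ε / 2) (by positivity)
  obtain ⟨a, ha⟩ : ∃ a, a = k1 * (1 + C0) ^ 2 + k2 * C0 * (8 * dm * (2 * M / ε ^ 2)) := ⟨_, rfl⟩
  have ha0 : 0 ≤ a := by rw [ha]; positivity
  refine ⟨a * (2 * |C'|), by positivity, fun R hR y hy v hv β => ?_⟩
  have hR0 : 0 < R := by linarith
  have hyU := hB.inU R hR0 y hy
  have hsm := dr7_bsm S φ hB hyU
  have hbp : ∀ w, 0 < S.bz φ ψ Om y w := hB.pos y hyU
  have hG : ∀ B C, |(S.Dz φ ψ y 8)⁻¹ B C| ≤ C0 / R := hC.inv R hR0 (cmb ψ y 0) (by rw [dr7_cmb0]; exact hy)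
  have hRi : 1 / R ≤ 1 := by rw [div_le_one hR0]; exact hR
  obtain ⟨b, hb⟩ : ∃ b, b = S.bz φ ψ Om y := ⟨_, rfl⟩
  obtain ⟨χ, hχ⟩ : ∃ χ : Wsp dm → ℝ, χ = fun w => c (‖w‖ ^ 2 / (ε * R) ^ 2) := ⟨_, rfl⟩
  obtain ⟨G, hGd⟩ : ∃ G, G = (S.Dz φ ψ y 8)⁻¹ := ⟨_, rfl⟩
  have hρ : 0 < ε * R := by positivity
  have hχs : ContDiff ℝ ∞ χ := by rw [hχ]; exact dr7_chi_sm hc _
  have hχ1 : ∀ w, ‖w‖ < ε * R / 2 → χ w = 1 := fun w hw => by rw [hχ]; exact dr7_chi_one hc hρ hw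
  have hχf : ∀ w (k : Fin 8 × Fin dm), |fderiv ℝ χ w (EuclideanSpace.single k 1)| ≤
      if ε * R / 2 ≤ ‖w‖ then 2 * M / (ε * R) ^ 2 * ‖w‖ else 0 := fun w k => by
    rw [hχ]; exact dr7_chi_fd hc hρ hM w k
  have hχb : ∀ w, |χ w - 1| ≤ 1 := fun w => by
    rw [hχ, abs_le]
    constructor <;> linarith [(hc.bd (‖w‖ ^ 2 / (ε * R) ^ 2)).1, (hc.bd (‖w‖ ^ 2 / (ε * R) ^ 2)).2]
  rw [← hb, ← hGd]
  have hfun : (fun w => c (‖w‖ ^ 2 / (ε * R) ^ 2) * b w) = fun w => χ w * b w := by rw [hχ]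
  rw [hfun]
  rw [← hb] at hsm hbp
  rw [← hGd] at hG
  -- the two basic bounds
  have hZ : ∀ w, ‖drX S φ β G b v w‖ ≤ k1 * (1 + C0) ^ 2 * (1 + ‖w‖ ^ 2) * b w * ‖v‖ := by
    intro w
    have e := hX β G C0 R b v (b w) w hC0.le hR0 hG (fun j B => by rw [hb]; exact hB.dw R hR0 y hy w j B)
      (by rw [abs_of_pos (hbp w)])
    refine e.trans ?_
    have := hbp w
    gcongr
  have hbi : ∀ k : ℕ, Integrable fun w : Wsp dm => (‖w‖ ^ k * b w) ^ 2 := fun k => by rw [hb]; exact hB.int y hyU k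
  have hsum : Integrable fun w : Wsp dm => (‖w‖ ^ 0 * b w) ^ 2 + (‖w‖ ^ 1 * b w) ^ 2 := (hbi 0).add (hbi 1)
  have hZc : Continuous fun w => ((b w : ℝ) : ℂ) • drX S φ β G b v w :=
    (Complex.continuous_ofReal.comp hsm.continuous).smul (drX_cont S φ β G (hsm.of_le (by norm_num)) v)
  have hZn : ∀ w, ‖((b w : ℝ) : ℂ) • drX S φ β G b v w‖ ≤
      k1 * (1 + C0) ^ 2 * ‖v‖ * ((‖w‖ ^ 0 * b w) ^ 2 + (‖w‖ ^ 1 * b w) ^ 2) := by
    intro w
    rw [norm_smul, Complex.norm_real, Real.norm_of_nonneg (hbp w).le]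
    refine (mul_le_mul_of_nonneg_left (hZ w) (hbp w).le).trans (le_of_eq ?_)
    ring
  have hZi : Integrable fun w => ((b w : ℝ) : ℂ) • drX S φ β G b v w :=
    (hsum.const_mul (k1 * (1 + C0) ^ 2 * ‖v‖)).mono' hZc.aestronglyMeasurable (Eventually.of_forall hZn)
  -- the difference
  obtain ⟨E, hE⟩ : ∃ E : Wsp dm → F, E = fun w =>
    drL S φ β G (fun _ _ => 0) (fun j B => ((fderiv ℝ χ w (EuclideanSpace.single (j, B) 1) : ℝ) : ℂ) • v) 0 w := ⟨_, rfl⟩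
  have hmul : ∀ w, drX S φ β G (fun w => χ w * b w) v w = ((χ w : ℝ) : ℂ) • drX S φ β G b v w + ((b w : ℝ) : ℂ) • E w := by
    intro w
    rw [hE]
    exact drX_mul S φ β G (hχs.differentiable (by norm_num)) (hsm.differentiable (by norm_num)) v w
  have hEn : ∀ w, ‖E w‖ ≤ k2 * C0 * (8 * dm * (2 * M / ε ^ 2)) * ‖v‖ * (if ε * R / 2 ≤ ‖w‖ then ‖w‖ ^ 2 else 0) := by
    intro w
    have e := hL β G (C0 / R) (fun _ _ => 0) (fun j B => ((fderiv ℝ χ w (EuclideanSpace.single (j, B) 1) : ℝ) : ℂ) • v)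
      0 w (by positivity) hG
    have e1 : ‖E w‖ ≤ k2 * (C0 / R) * (‖w‖ * ∑ j : Fin 8, ∑ B : Fin dm,
        ‖((fderiv ℝ χ w (EuclideanSpace.single (j, B) 1) : ℝ) : ℂ) • v‖) := by
      rw [hE]
      simpa using e
    have e2 : ∑ j : Fin 8, ∑ B : Fin dm, ‖((fderiv ℝ χ w (EuclideanSpace.single (j, B) 1) : ℝ) : ℂ) • v‖ ≤
        8 * (dm * ((if ε * R / 2 ≤ ‖w‖ then 2 * M / (ε * R) ^ 2 * ‖w‖ else 0) * ‖v‖)) := by
      have : ∀ j ∈ (Finset.univ : Finset (Fin 8)), ∑ B : Fin dm,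
          ‖((fderiv ℝ χ w (EuclideanSpace.single (j, B) 1) : ℝ) : ℂ) • v‖ ≤
          dm * ((if ε * R / 2 ≤ ‖w‖ then 2 * M / (ε * R) ^ 2 * ‖w‖ else 0) * ‖v‖) := by
        intro j _
        have h' : ∀ B ∈ (Finset.univ : Finset (Fin dm)),
            ‖((fderiv ℝ χ w (EuclideanSpace.single (j, B) 1) : ℝ) : ℂ) • v‖ ≤
            (if ε * R / 2 ≤ ‖w‖ then 2 * M / (ε * R) ^ 2 * ‖w‖ else 0) * ‖v‖ := by
          intro B _
          rw [norm_smul, Complex.norm_real, Real.norm_eq_abs]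
          exact mul_le_mul_of_nonneg_right (hχf w (j, B)) (norm_nonneg _)
        refine (Finset.sum_le_sum h').trans (le_of_eq ?_)
        rw [Finset.sum_const, Finset.card_univ, Fintype.card_fin, nsmul_eq_mul]
      refine (Finset.sum_le_sum this).trans (le_of_eq ?_)
      rw [Finset.sum_const, Finset.card_univ, Fintype.card_fin, nsmul_eq_mul]
      push_cast
      ring
    refine (e1.trans (mul_le_mul_of_nonneg_left (mul_le_mul_of_nonneg_left e2 (norm_nonneg _)) (by positivity))).trans ?_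
    split_ifs with hw
    · have e3 : C0 / R ≤ C0 := by
        rw [div_le_iff₀ hR0]
        nlinarith
      have e4 : 2 * M / (ε * R) ^ 2 ≤ 2 * M / ε ^ 2 := by
        apply div_le_div_of_nonneg_left (by positivity) (by positivity)
        rw [mul_pow]
        have : 1 ≤ R ^ 2 := by nlinarith
        nlinarith [sq_nonneg ε]
      calc k2 * (C0 / R) * (‖w‖ * (8 * (dm * (2 * M / (ε * R) ^ 2 * ‖w‖ * ‖v‖))))
          ≤ k2 * C0 * (‖w‖ * (8 * (dm * (2 * M / ε ^ 2 * ‖w‖ * ‖v‖)))) := by gcongr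
        _ = _ := by ring
    · simp
  obtain ⟨W, hW⟩ : ∃ W : Wsp dm → F, W = fun w => ((b w : ℝ) : ℂ) • drX S φ β G (fun w => χ w * b w) v w -
    ((b w : ℝ) : ℂ) • drX S φ β G b v w := ⟨_, rfl⟩
  have hWn : ∀ w, ‖W w‖ ≤ a * ‖v‖ * ((if ε / 2 * R ≤ ‖w‖ then (‖w‖ ^ 0 * b w) ^ 2 else 0) +
      (if ε / 2 * R ≤ ‖w‖ then (‖w‖ ^ 1 * b w) ^ 2 else 0)) := by
    intro w
    have e0 : ε / 2 * R = ε * R / 2 := by ring
    have e1 : W w = ((b w * (χ w - 1) : ℝ) : ℂ) • drX S φ β G b v w + ((b w ^ 2 : ℝ) : ℂ) • E w := by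
      rw [hW]
      simp only [hmul, smul_add, smul_smul]
      push_cast
      rw [mul_sub, sub_smul, mul_one]
      rw [sq]
      abel
    have e2 := hEn w
    have e3 := hZ w
    have hbw := (hbp w).le
    rw [e0]
    by_cases hw : ε * R / 2 ≤ ‖w‖
    · rw [if_pos hw] at e2
      rw [if_pos hw, if_pos hw, e1]
      refine (norm_add_le _ _).trans ?_
      rw [norm_smul, norm_smul, Complex.norm_real, Complex.norm_real, Real.norm_eq_abs, Real.norm_eq_abs, abs_mul,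
        abs_of_nonneg hbw, abs_of_nonneg (sq_nonneg (b w))]
      have e4 : b w * |χ w - 1| * ‖drX S φ β G b v w‖ ≤ b w * 1 * (k1 * (1 + C0) ^ 2 * (1 + ‖w‖ ^ 2) * b w * ‖v‖) :=
        mul_le_mul (mul_le_mul_of_nonneg_left (hχb w) hbw) e3 (norm_nonneg _) (by positivity)
      have e5 : b w ^ 2 * ‖E w‖ ≤ b w ^ 2 * (k2 * C0 * (8 * dm * (2 * M / ε ^ 2)) * ‖v‖ * ‖w‖ ^ 2) :=
        mul_le_mul_of_nonneg_left e2 (sq_nonneg _)
      refine (add_le_add e4 e5).trans ?_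
      have e6 : 0 ≤ k2 * C0 * (8 * dm * (2 * M / ε ^ 2)) * ‖v‖ * b w ^ 2 := by positivity
      rw [ha]
      have e7 : (k1 * (1 + C0) ^ 2 + k2 * C0 * (8 * dm * (2 * M / ε ^ 2))) * ‖v‖ *
          ((‖w‖ ^ 0 * b w) ^ 2 + (‖w‖ ^ 1 * b w) ^ 2) =
          b w * 1 * (k1 * (1 + C0) ^ 2 * (1 + ‖w‖ ^ 2) * b w * ‖v‖) +
          b w ^ 2 * (k2 * C0 * (8 * dm * (2 * M / ε ^ 2)) * ‖v‖ * ‖w‖ ^ 2) +
          k2 * C0 * (8 * dm * (2 * M / ε ^ 2)) * ‖v‖ * b w ^ 2 := by ring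
      rw [e7]
      linarith
    · rw [if_neg hw] at e2
      rw [if_neg hw, if_neg hw, e1]
      have e4 : E w = 0 := by
        have := norm_nonneg (E w)
        rw [mul_zero] at e2
        exact norm_eq_zero.1 (le_antisymm e2 this)
      rw [hχ1 w (not_le.1 hw), e4]
      simp
  have hHi : Integrable fun w : Wsp dm => (if ε / 2 * R ≤ ‖w‖ then (‖w‖ ^ 0 * b w) ^ 2 else 0) +
      (if ε / 2 * R ≤ ‖w‖ then (‖w‖ ^ 1 * b w) ^ 2 else 0) := by
    have hms : MeasurableSet {w : Wsp dm | ε / 2 * R ≤ ‖w‖} := measurableSet_le measurable_const measurable_norm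
    exact ((hbi 0).indicator hms).add ((hbi 1).indicator hms)
  have hms : MeasurableSet {w : Wsp dm | ε / 2 * R ≤ ‖w‖} := measurableSet_le measurable_const measurable_norm
  have hWc : Continuous W := by
    rw [hW]
    refine Continuous.sub ?_ hZc
    exact (Complex.continuous_ofReal.comp hsm.continuous).smul
      (drX_cont S φ β G ((hχs.mul hsm).of_le (by norm_num)) v)
  have hWi : Integrable W := (hHi.const_mul (a * ‖v‖)).mono' hWc.aestronglyMeasurable (Eventually.of_forall hWn)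
  have hsplit : ∫ w, ((b w : ℝ) : ℂ) • drX S φ β G (fun w => χ w * b w) v w =
      (∫ w, ((b w : ℝ) : ℂ) • drX S φ β G b v w) + ∫ w, W w := by
    rw [← integral_add hZi hWi]
    refine integral_congr_ae (Eventually.of_forall fun w => ?_)
    simp only [hW]
    abel
  have hvac := dr7_vac0 S φ hQ h1 h2 hV hB hyU hv β
  rw [← hb, ← hGd] at hvac
  rw [hsplit, map_add, hvac, zero_add]
  refine (Submodule.norm_starProjection_apply_le _ _).trans ?_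
  refine (norm_integral_le_integral_norm _).trans ?_
  have hfin : ∫ w, ‖W w‖ ≤ ∫ w, a * ‖v‖ * ((if ε / 2 * R ≤ ‖w‖ then (‖w‖ ^ 0 * b w) ^ 2 else 0) +
      (if ε / 2 * R ≤ ‖w‖ then (‖w‖ ^ 1 * b w) ^ 2 else 0)) :=
    integral_mono hWi.norm (hHi.const_mul (a * ‖v‖)) hWn
  refine hfin.trans ?_
  have hint : ∫ w : Wsp dm, ((if ε / 2 * R ≤ ‖w‖ then (‖w‖ ^ 0 * b w) ^ 2 else 0) +
      (if ε / 2 * R ≤ ‖w‖ then (‖w‖ ^ 1 * b w) ^ 2 else 0)) =
      (∫ w : Wsp dm, (if ε / 2 * R ≤ ‖w‖ then (‖w‖ ^ 0 * b w) ^ 2 else 0)) +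
      ∫ w : Wsp dm, (if ε / 2 * R ≤ ‖w‖ then (‖w‖ ^ 1 * b w) ^ 2 else 0) :=
    integral_add ((hbi 0).indicator hms) ((hbi 1).indicator hms)
  rw [integral_const_mul, hint]
  have t0 := hC' R hR y hy 0 (by norm_num)
  have t1 := hC' R hR y hy 1 (by norm_num)
  rw [← hb] at t0 t1
  have e8 : C' * (1 / R) ^ 8 ≤ |C'| * (1 / R) ^ 8 := mul_le_mul_of_nonneg_right (le_abs_self _) (by positivity)
  calc a * ‖v‖ * ((∫ w : Wsp dm, (if ε / 2 * R ≤ ‖w‖ then (‖w‖ ^ 0 * b w) ^ 2 else 0)) +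
      ∫ w : Wsp dm, (if ε / 2 * R ≤ ‖w‖ then (‖w‖ ^ 1 * b w) ^ 2 else 0))
      ≤ a * ‖v‖ * (|C'| * (1 / R) ^ 8 + |C'| * (1 / R) ^ 8) :=
        mul_le_mul_of_nonneg_left (add_le_add (t0.trans e8) (t1.trans e8)) (by positivity)
    _ = _ := by ring

end Vale.Agent.P353.Z.AE
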