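import Vale.Agent.P353.AN.C.Defs
import Vale.Agent.P353.AN.F.Stmt

/-! # P353, all `N`, block E: limit equation — definitions

`φ : Spl dh dm d` splits `g = h + m`, `ψ : Spl r ds dh` splits `h = z + s` (`z` central in `h`). Points of `h`: `cmb ψ y s`. -/

open MeasureTheory Filter Topology Matrix
open scoped ContDiff

namespace Vale.Agent.P353.Z

variable {d dh dm r ds : ℕ} {F : Type*} [NormedAddCommGroup F] [InnerProductSpace ℂ F]

/-- point of `h` with centre part `y` and internal part `s` -/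
noncomputable def cmb (ψ : Spl r ds dh) (y : Cfg r) (s : Cfg ds) : Cfg dh :=
  WithLp.toLp 2 fun p => Sum.elim (fun a => y (p.1, a)) (fun b => s (p.1, b)) (ψ.symm p.2)

/-- centre part of a point of `h` -/
noncomputable def zpt (ψ : Spl r ds dh) (x : Cfg dh) : Cfg r := WithLp.toLp 2 fun p => x (p.1, ψ (Sum.inl p.2))

/-- internal part of a point of `h` -/
noncomputable def spt (ψ : Spl r ds dh) (x : Cfg dh) : Cfg ds := WithLp.toLp 2 fun p => x (p.1, ψ (Sum.inr p.2))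

/-- swapped splitting -/
def spsw (ψ : Spl r ds dh) : Spl ds r dh := (Equiv.sumComm (Fin ds) (Fin r)).trans ψ

namespace Setup

variable (S : Setup d F) (φ : Spl dh dm d) (ψ : Spl r ds dh)

/-- the first summand of `ψ` is central in `h` -/
def IsCen : Prop := ∀ a B C, S.f (φ (Sum.inl (ψ (Sum.inl a)))) (φ (Sum.inl B)) (φ (Sum.inl C)) = 0

/-- the internal part is a subalgebra of `h` -/
theorem isSub_int (h : S.IsSub φ) (hc : S.IsCen φ ψ) : (S.sub φ h).IsSub (spsw ψ) := by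
  intro A B C
  have h1 := hc C (ψ (Sum.inr A)) (ψ (Sum.inr B))
  change S.f (φ (Sum.inl (ψ (Sum.inr A)))) (φ (Sum.inl (ψ (Sum.inr B)))) (φ (Sum.inl (ψ (Sum.inl C)))) = 0
  rw [S.f_cyc, S.f_cyc]
  exact h1

/-- the setup of the internal part -/
noncomputable def int (h : S.IsSub φ) (hc : S.IsCen φ ψ) : Setup ds F :=
  (S.sub φ h).sub (spsw ψ) (S.isSub_int φ ψ h hc)

/-- the matrices `D_i(y)` at the central point `y` -/
noncomputable def Dz (y : Cfg r) (i : Fin 9) : Matrix (Fin dm) (Fin dm) ℝ := S.Dy φ i (cmb ψ y 0)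

/-- **vacuum frame** on the open cone `U ⊆ Cfg r`: `Om y` is the frequency matrix at `y`, `V y` a unitary of `F` which maps `K` onto the
fermionic vacuum space at `y`, commutes with the block diagonal fermions and is parallel. -/
structure VFr (U : Set (Cfg r)) (Om : Cfg r → Matrix (Fin dm) (Fin dm) ℝ) (V : Cfg r → F →L[ℂ] F)
    (K : Submodule ℂ F) : Prop where
  opn : IsOpen U
  cone : ∀ y ∈ U, ∀ t : ℝ, 0 < t → t • y ∈ U
  det : ∀ y ∈ U, (S.Dz φ ψ y 8).det ≠ 0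
  om : ∀ y ∈ U, IsOm S.κ (S.Dz φ ψ y) (Om y)
  om_c : ∀ B C, ContDiffOn ℝ ∞ (fun y => Om y B C) U
  om_h : ∀ y ∈ U, ∀ t : ℝ, 0 < t → Om (t • y) = t • Om y
  v_c : ContDiffOn ℝ ∞ V U
  v_h : ∀ y ∈ U, ∀ t : ℝ, 0 < t → V (t • y) = V y
  v_n : ∀ y ∈ U, ∀ v, ‖V y v‖ = ‖v‖
  v_s : ∀ y ∈ U, ∀ w, ∃ v, V y v = w
  v_m : ∀ y ∈ U, ∀ v, v ∈ K ↔ V y v ∈ S.F0 φ (S.Dz φ ψ y) (Om y)
  v_th : ∀ y ∈ U, ∀ α A v, V y (S.th α (φ (Sum.inl A)) v) = S.th α (φ (Sum.inl A)) (V y v)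
  par : ∀ y ∈ U, ∀ i a, ∀ v ∈ K, ∀ v' ∈ K,
    inner ℂ (V y v') (fderiv ℝ V y (EuclideanSpace.single (i, a) 1) v) = 0

/-- normalised bosonic ground state at the central point `y` (scale `1`; homogeneous in `y`) -/
noncomputable def bz (Om : Cfg r → Matrix (Fin dm) (Fin dm) ℝ) (y : Cfg r) (w : Wsp dm) : ℝ :=
  gR (S.Dz φ ψ y) (Om y) 1 w / Real.sqrt (∫ w', gR (S.Dz φ ψ y) (Om y) 1 w' ^ 2)

/-- trial function on the slice at scale `R` for the profile `a(y, s)` (values in `K`), cut off with `c` at `|w| ~ ε R`: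
`R^{-9r/2} c(|w|²/(εR)²) b(y,w) V(y) a(y/R, s)` -/
noncomputable def TR (Om : Cfg r → Matrix (Fin dm) (Fin dm) ℝ) (V : Cfg r → F →L[ℂ] F) (c : ℝ → ℝ) (ε R : ℝ)
    (a : Cfg r → Cfg ds → F) (x : Cfg dh) (w : Wsp dm) : F :=
  (((Real.sqrt R ^ (9 * r))⁻¹ * c (‖w‖ ^ 2 / (ε * R) ^ 2) * S.bz φ ψ Om (zpt ψ x) w : ℝ) : ℂ) •
    V (zpt ψ x) (a (R⁻¹ • zpt ψ x) (spt ψ x))

/-- free supercharge (with mass `μ` and mass matrices `N`) acting on the centre variable of a profile `a(y, s)` -/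
noncomputable def DF (N : Fin 9 → Matrix (Fin 16) (Fin 16) ℂ) (μ : ℝ) (β : Fin 16) (a : Cfg r → Cfg ds → F)
    (y : Cfg r) (s : Cfg ds) : F :=
  (-Complex.I) • ∑ i, ∑ A, S.vec (S.g i) (φ (Sum.inl (ψ (Sum.inl A)))) β (pd i A (fun y' => a y' s) y) +
    (μ : ℂ) • ∑ i, ∑ A, ((y (i, A) : ℝ) : ℂ) • S.vec (N i) (φ (Sum.inl (ψ (Sum.inl A)))) β (a y s)

end Setup

/-- product profile `ζ(y) Φ(s)` -/
noncomputable def pp (ζ : Cfg r → ℂ) (Φ : Cfg ds → F) (y : Cfg r) (s : Cfg ds) : F := ζ y • Φ s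

/-- cutoff functions: `1` on `(-∞, 1/4]`, `0` on `[1, ∞)` -/
structure IsCt (c : ℝ → ℝ) : Prop where
  sm : ContDiff ℝ ∞ c
  one : ∀ t, t ≤ 1 / 4 → c t = 1
  zero : ∀ t, 1 ≤ t → c t = 0
  bd : ∀ t, 0 ≤ c t ∧ c t ≤ 1

end Vale.Agent.P353.Z
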