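import Vale.Agent.P353.AN.E.StmtG

/-! # P353, all `N`, block E: EG-GBd, the uniform bound off the collisions (helper763) -/

open MeasureTheory Filter Topology Matrix
open scoped ContDiff

namespace Vale.Agent.P353.Z.AE

variable {d dh dm r ds : ℕ} {F : Type*} [NormedAddCommGroup F] [InnerProductSpace ℂ F]

private theorem gbd763_tt {R : Matrix (Fin 9) (Fin 9) ℝ} (hR : R * Rᵀ = 1) : Rᵀ * Rᵀᵀ = 1 := by
  rw [Matrix.transpose_transpose]
  exact mul_eq_one_comm.1 hR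

private theorem gbd763_nrz {n : ℕ} {R : Matrix (Fin 9) (Fin 9) ℝ} (hR : R * Rᵀ = 1) (y : Cfg n) :
    ‖AX.rz R y‖ = ‖y‖ := by
  have hR' : Rᵀ * R = 1 := mul_eq_one_comm.1 hR
  have h : ∀ v : Fin 9 → ℝ, ∑ i, (∑ j, R i j * v j) ^ 2 = ∑ j, v j ^ 2 := by
    intro v
    have h1 : (R *ᵥ v) ⬝ᵥ (R *ᵥ v) = v ⬝ᵥ v := by
      rw [Matrix.dotProduct_mulVec, Matrix.vecMul_mulVec, hR', Matrix.vecMul_one]
    simpa only [dotProduct, Matrix.mulVec, sq] using h1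
  have h2 : ‖AX.rz R y‖ ^ 2 = ‖y‖ ^ 2 := by
    rw [EuclideanSpace.norm_sq_eq, EuclideanSpace.norm_sq_eq, Fintype.sum_prod_type, Fintype.sum_prod_type]
    rw [Finset.sum_comm, Finset.sum_comm (s := (Finset.univ : Finset (Fin 9)))]
    refine Finset.sum_congr rfl fun A _ => ?_
    have h3 := h fun j => y (j, A)
    simpa only [AX.rz, Real.norm_eq_abs, sq_abs] using h3
  exact (sq_eq_sq₀ (norm_nonneg _) (norm_nonneg _)).1 h2

/-- `rz R` as a linear isometry -/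
private noncomputable def gbd763_e (n : ℕ) {R : Matrix (Fin 9) (Fin 9) ℝ} (hR : R * Rᵀ = 1) : Cfg n ≃ₗᵢ[ℝ] Cfg n where
  toFun := AX.rz R
  map_add' := AX.rz_add R
  map_smul' := AX.rz_smul R
  invFun := AX.rz Rᵀ
  left_inv := fun y => by
    have := AX.rz_rz (gbd763_tt hR) y
    rwa [Matrix.transpose_transpose] at this
  right_inv := AX.rz_rz hR
  norm_map' := gbd763_nrz hR

private theorem gbd763_mp {m n : ℕ} {R : Matrix (Fin 9) (Fin 9) ℝ} (hR : R * Rᵀ = 1) :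
    MeasurePreserving (((gbd763_e m hR).toMeasurableEquiv.prodCongr (gbd763_e n hR).toMeasurableEquiv :
      Cfg m × Cfg n ≃ᵐ Cfg m × Cfg n)) ((volume : Measure (Cfg m)).prod (volume : Measure (Cfg n)))
      ((volume : Measure (Cfg m)).prod (volume : Measure (Cfg n))) :=
  (gbd763_e m hR).measurePreserving.prod (gbd763_e n hR).measurePreserving

omit [InnerProductSpace ℂ F] in
private theorem gbd763_mem {m n : ℕ} {R : Matrix (Fin 9) (Fin 9) ℝ} (hR : R * Rᵀ = 1) {a : Cfg m → Cfg n → F}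
    (ha : MemLp (fun q : Cfg m × Cfg n => a q.1 q.2) 2 (volume.prod volume)) :
    MemLp (fun q : Cfg m × Cfg n => a (AX.rz R q.1) (AX.rz R q.2)) 2 (volume.prod volume) :=
  ha.comp_measurePreserving (gbd763_mp hR)

omit [InnerProductSpace ℂ F] in
private theorem gbd763_int {m n : ℕ} {R : Matrix (Fin 9) (Fin 9) ℝ} (hR : R * Rᵀ = 1) (a : Cfg m → Cfg n → F) :
    ∫ q, ‖a (AX.rz R q.1) (AX.rz R q.2)‖ ^ 2 ∂((volume : Measure (Cfg m)).prod (volume : Measure (Cfg n))) =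
      ∫ q, ‖a q.1 q.2‖ ^ 2 ∂((volume : Measure (Cfg m)).prod (volume : Measure (Cfg n))) :=
  (gbd763_mp hR).integral_comp' fun q : Cfg m × Cfg n => ‖a q.1 q.2‖ ^ 2

private theorem gbd763_DMa (M : Fin r → Matrix (Fin dm) (Fin dm) ℝ) (h : ∀ a, (M a)ᵀ = -M a) (η : Cfg r) (i : Fin 9) :
    (DM M η i)ᵀ = -DM M η i := by
  simp only [DM, Matrix.transpose_sum, Matrix.transpose_smul, h, smul_neg, Finset.sum_neg_distrib]

private theorem gbd763_DMc (M : Fin r → Matrix (Fin dm) (Fin dm) ℝ) (h : ∀ a b, M a * M b = M b * M a) (η : Cfg r)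
    (i j : Fin 9) : DM M η i * DM M η j = DM M η j * DM M η i := by
  simp only [DM, Finset.sum_mul_sum, smul_mul_smul_comm]
  rw [Finset.sum_comm]
  refine Finset.sum_congr rfl fun a _ => Finset.sum_congr rfl fun b _ => ?_
  rw [h, mul_comm]

/-- frozen points of `Dz` -/
private theorem gbd763_frz {S : Setup d F} {φ : Spl dh dm d} {ψ : Spl r ds dh} (hs : S.IsSub φ) (hc : S.IsCen φ ψ)
    {y : Cfg r} (h8 : (S.Dz φ ψ y 8).det ≠ 0) : Frz (S.Dz φ ψ y) := by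
  have ha := AX.Mz_anti S φ (spsw ψ)
  have hm := AX.Mz_comm S φ (spsw ψ) hs (fun A B C => hc A B C)
  rw [← AX.DM_Dz] at h8 ⊢
  exact ⟨gbd763_DMa _ ha _, gbd763_DMc _ hm _, h8⟩

/-- bound near one point off the collisions -/
private theorem gbd763_loc (S : Setup d F) (φ : Spl dh dm d) (ψ : Spl r ds dh) (hB : ∀ S' : Setup d F, GluBStmt S')
    (hR : RotGStmt S φ ψ) (hD : DirStmt) (hF : FiniteDimensional ℂ F) (hφ : S.IsSub φ) (hc : S.IsCen φ ψ)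
    (L : Finset (Fin r → ℝ)) (Om : Cfg r → Matrix (Fin dm) (Fin dm) ℝ) (K : Submodule ℂ F) (U : Cfg r → F →L[ℂ] F)
    (hBun : AX.Bun S φ (AX.Mz S φ (spsw ψ)) L Om K U) (z : Cfg r) (hz : z ∉ Coll L) :
    ∃ δ C : ℝ, 0 < δ ∧ 0 ≤ C ∧ ∀ a : Cfg r → Cfg ds → F, MemLp (fun q : Cfg r × Cfg ds => a q.1 q.2) 2 (volume.prod volume) →
      (∀ η s, a η s ≠ 0 → ‖η - z‖ ≤ δ) → ∀ (R : ℝ) (χ : Cfg r × Cfg ds × Cfg dm → ℝ) (u : Cfg d → F), 1 ≤ R →
      Measurable χ → (∀ q, 0 ≤ χ q ∧ χ q ≤ 1) → (∀ q, χ q ≠ 0 → ‖q.2.1‖ ≤ δ * R ∧ ‖q.2.2‖ ≤ δ * (R * Real.sqrt R)) →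
      GI S u → ‖ZL S φ ψ Om χ R a u‖ ^ 2 ≤
        C * (∫ q, ‖a q.1 q.2‖ ^ 2 ∂((volume : Measure (Cfg r)).prod (volume : Measure (Cfg ds)))) * nsq u := by
  have h1 : (1 : Matrix (Fin d) (Fin d) ℝ) * (1 : Matrix (Fin d) (Fin d) ℝ)ᵀ = 1 := by simp
  have ha := AX.Mz_anti S φ (spsw ψ)
  have hm := AX.Mz_comm S φ (spsw ψ) hφ (fun A B C => hc A B C)
  obtain ⟨R₀, hR₀, hdet⟩ := hD dm (DM (AX.Mz S φ (spsw ψ)) z) (gbd763_DMa _ ha z) (gbd763_DMc _ hm z) (hBun.det z hz)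
  have hR₀t : R₀ᵀ * R₀ᵀᵀ = 1 := gbd763_tt hR₀
  obtain ⟨hφ', hc', hstd, -, hGI, -, -, hZL⟩ := hR hφ hc R₀ hR₀ h1
  set S' := S.rot R₀ hR₀ 1 h1 with hS'
  set y₀ : Cfg r := AX.rz R₀ z with hy₀
  have hback : AX.rz R₀ᵀ y₀ = z := by
    have := AX.rz_rz hR₀t z
    rwa [Matrix.transpose_transpose] at this
  have h8 : (S.Dz φ ψ y₀ 8).det ≠ 0 := by
    rw [← AX.DM_Dz, hy₀, AX.DM_rz]
    exact hdet
  obtain ⟨δ₀, hδ₀, hglu⟩ := hB S' hF dh dm r ds φ ψ y₀ hc' (hstd y₀ h8)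
  have hV := AX.vfr S φ ψ hBun R₀ hR₀ h1
  have hy₀G : y₀ ∈ {y : Cfg r | AX.rz R₀ᵀ y ∉ Coll L ∧ (S.Dz φ ψ y 8).det ≠ 0} := by
    refine ⟨?_, h8⟩
    rw [hback]
    exact hz
  obtain ⟨ε, hε, hball⟩ := Metric.isOpen_iff.1 hV.opn y₀ hy₀G
  set δ : ℝ := min δ₀ (ε / 3) with hδ
  have hδpos : 0 < δ := lt_min hδ₀ (by positivity)
  have hsub : ∀ η : Cfg r, ‖η - y₀‖ ≤ 2 * δ → η ∈ {y : Cfg r | AX.rz R₀ᵀ y ∉ Coll L ∧ (S.Dz φ ψ y 8).det ≠ 0} := by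
    intro η hη
    apply hball
    rw [Metric.mem_ball, dist_eq_norm]
    have : δ ≤ ε / 3 := min_le_right _ _
    linarith
  obtain ⟨C, hC, hbd⟩ := hglu δ hδpos (min_le_left _ _) (fun y => Om (AX.rz R₀ᵀ y))
    (fun η hη => ⟨gbd763_frz hφ' hc' (hV.det η (hsub η hη)), hV.om η (hsub η hη)⟩)
    (by
      have hc1 : ContinuousOn (fun y : Cfg r => fun B C => Om (AX.rz R₀ᵀ y) B C)
          {η : Cfg r | ‖η - y₀‖ ≤ 2 * δ} :=
        continuousOn_pi.2 fun B => continuousOn_pi.2 fun C =>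
          (hV.om_c B C).continuousOn.mono fun η hη => hsub η hη
      exact hc1)
  refine ⟨δ, C, hδpos, hC, fun a hamem hasup R χ u hR1 hχm hχb hχs hu => ?_⟩
  have hGIu := hGI 0 0 0 u hu
  have hnm : ∀ {n : ℕ} (y : Cfg n), ‖AX.rz R₀ᵀ y‖ = ‖y‖ := fun y => gbd763_nrz hR₀t y
  have hct : ∀ {n : ℕ}, Continuous fun y : Cfg n => AX.rz R₀ᵀ y := fun {n} => (AX.rzL n R₀ᵀ).continuous
  have key := hbd (fun y s => a (AX.rz R₀ᵀ y) (AX.rz R₀ᵀ s)) (gbd763_mem hR₀t hamem)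
    (by
      intro η s h
      have h2 := hasup _ _ h
      have h3 : AX.rz R₀ᵀ η - z = AX.rz R₀ᵀ (η - y₀) := by
        rw [← hback]
        exact ((AX.rzL r R₀ᵀ).map_sub η y₀).symm
      rwa [h3, hnm] at h2)
    R (fun q => χ (AX.rz R₀ᵀ q.1, AX.rz R₀ᵀ q.2.1, AX.rz R₀ᵀ q.2.2)) (fun x => u (rox R₀ᵀ 1 x)) hR1
    (by
      refine hχm.comp ?_
      exact ((hct.comp continuous_fst).prodMk ((hct.comp (continuous_fst.comp continuous_snd)).prodMk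
        (hct.comp (continuous_snd.comp continuous_snd)))).measurable)
    (fun q => hχb _)
    (by
      intro q hq
      have h2 := hχs _ hq
      simpa only [hnm] using h2)
    hGIu.1
  rw [hZL, hGIu.2.1, gbd763_int hR₀t a] at key
  exact key

private theorem gbd763_add (S : Setup d F) (φ : Spl dh dm d) (ψ : Spl r ds dh) (Om : Cfg r → Matrix (Fin dm) (Fin dm) ℝ)
    (χ : Cfg r × Cfg ds × Cfg dm → ℝ) (R : ℝ) (a b : Cfg r → Cfg ds → F) (u : Cfg d → F)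
    (ha : Integrable (fun x => inner ℂ (AN.Zb φ ψ (fun q => ((χ q : ℝ) : ℂ) • AN.bG S.κ Om a q) R x) (u x)))
    (hb : Integrable (fun x => inner ℂ (AN.Zb φ ψ (fun q => ((χ q : ℝ) : ℂ) • AN.bG S.κ Om b q) R x) (u x))) :
    ZL S φ ψ Om χ R (fun η s => a η s + b η s) u = ZL S φ ψ Om χ R a u + ZL S φ ψ Om χ R b u := by
  rw [ZL, ZL, ZL, ← integral_add ha hb]
  refine integral_congr_ae (ae_of_all _ fun x => ?_)
  simp only [AN.Zb, AN.bG, smul_add, inner_add_left]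

/-- **EG-GBd** -/
theorem gBd (S : Setup d F) (φ : Spl dh dm d) (ψ : Spl r ds dh) (hB : ∀ S' : Setup d F, GluBStmt S')
    (hR : RotGStmt S φ ψ) (hD : DirStmt) (hI : ZIntStmt S φ ψ) : GBdStmt S φ ψ := by
  intro hF hφ hc L Om K U hBun 𝒞 h𝒞 hdis
  classical
  have hint := (hI hF hφ hc L Om K U hBun 𝒞 h𝒞 hdis).2
  have main : ∃ s' : Set (Cfg r), 𝒞 ⊆ s' ∧ MeasurableSet s' ∧ ∃ δ C : ℝ, 0 < δ ∧ 0 ≤ C ∧
      ∀ a : Cfg r → Cfg ds → F, MemLp (fun q : Cfg r × Cfg ds => a q.1 q.2) 2 (volume.prod volume) →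
      (∀ η s, a η s ≠ 0 → η ∈ 𝒞) → (∀ η s, a η s ≠ 0 → η ∈ s') →
      ∀ (R : ℝ) (χ : Cfg r × Cfg ds × Cfg dm → ℝ) (u : Cfg d → F), 1 ≤ R →
      Measurable χ → (∀ q, 0 ≤ χ q ∧ χ q ≤ 1) → (∀ q, χ q ≠ 0 → ‖q.2.1‖ ≤ δ * R ∧ ‖q.2.2‖ ≤ δ * (R * Real.sqrt R)) →
      GI S u → ‖ZL S φ ψ Om χ R a u‖ ^ 2 ≤
        C * (∫ q, ‖a q.1 q.2‖ ^ 2 ∂((volume : Measure (Cfg r)).prod (volume : Measure (Cfg ds)))) * nsq u := by
    refine h𝒞.induction_on (p := fun s => ∃ s' : Set (Cfg r), s ⊆ s' ∧ MeasurableSet s' ∧ ∃ δ C : ℝ, 0 < δ ∧ 0 ≤ C ∧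
      ∀ a : Cfg r → Cfg ds → F, MemLp (fun q : Cfg r × Cfg ds => a q.1 q.2) 2 (volume.prod volume) →
      (∀ η s, a η s ≠ 0 → η ∈ 𝒞) → (∀ η s, a η s ≠ 0 → η ∈ s') →
      ∀ (R : ℝ) (χ : Cfg r × Cfg ds × Cfg dm → ℝ) (u : Cfg d → F), 1 ≤ R →
      Measurable χ → (∀ q, 0 ≤ χ q ∧ χ q ≤ 1) → (∀ q, χ q ≠ 0 → ‖q.2.1‖ ≤ δ * R ∧ ‖q.2.2‖ ≤ δ * (R * Real.sqrt R)) →
      GI S u → ‖ZL S φ ψ Om χ R a u‖ ^ 2 ≤
        C * (∫ q, ‖a q.1 q.2‖ ^ 2 ∂((volume : Measure (Cfg r)).prod (volume : Measure (Cfg ds)))) * nsq u) ?_ ?_ ?_ ?_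
    · refine ⟨∅, subset_rfl, MeasurableSet.empty, 1, 0, one_pos, le_rfl, ?_⟩
      intro a _ _ h0 R χ u _ _ _ _ _
      have ha : ∀ η s, a η s = 0 := fun η s => by
        by_contra h
        exact h0 η s h
      have hz : ZL S φ ψ Om χ R a u = 0 := by
        simp [ZL, AN.Zb, AN.bG, ha]
      rw [hz]
      simp
    · rintro s t hst ⟨s', h1, h2⟩
      exact ⟨s', hst.trans h1, h2⟩
    · rintro s t ⟨s', hs, hsm, δ₁, C₁, hδ₁, hC₁, hb₁⟩ ⟨t', ht, htm, δ₂, C₂, hδ₂, hC₂, hb₂⟩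
      refine ⟨s' ∪ t', Set.union_subset_union hs ht, hsm.union htm, min δ₁ δ₂, 2 * (C₁ + C₂), lt_min hδ₁ hδ₂, by positivity, ?_⟩
      intro a hamem ha𝒞 hasup R χ u hR1 hχm hχb hχs hu
      have hR0 : 0 ≤ R := zero_le_one.trans hR1
      have hRs : 0 ≤ R * Real.sqrt R := mul_nonneg hR0 (Real.sqrt_nonneg _)
      set a₁ : Cfg r → Cfg ds → F := fun η s => if η ∈ s' then a η s else 0 with ha₁
      set a₂ : Cfg r → Cfg ds → F := fun η s => if η ∈ s' then 0 else a η s with ha₂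
      have hsum : a = fun η s => a₁ η s + a₂ η s := by
        funext η s
        simp only [ha₁, ha₂]
        split_ifs <;> simp
      have hms : MeasurableSet {q : Cfg r × Cfg ds | q.1 ∈ s'} := measurable_fst hsm
      have e₁ : (fun q : Cfg r × Cfg ds => a₁ q.1 q.2) =
          {q : Cfg r × Cfg ds | q.1 ∈ s'}.indicator (fun q => a q.1 q.2) := by
        funext q
        by_cases h : q.1 ∈ s'
        · rw [Set.indicator_of_mem (show q ∈ {q : Cfg r × Cfg ds | q.1 ∈ s'} from h)]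
          simp only [ha₁, if_pos h]
        · rw [Set.indicator_of_notMem (show q ∉ {q : Cfg r × Cfg ds | q.1 ∈ s'} from h)]
          simp only [ha₁, if_neg h]
      have e₂ : (fun q : Cfg r × Cfg ds => a₂ q.1 q.2) =
          {q : Cfg r × Cfg ds | q.1 ∈ s'}ᶜ.indicator (fun q => a q.1 q.2) := by
        funext q
        by_cases h : q.1 ∈ s'
        · rw [Set.indicator_of_notMem (show q ∉ {q : Cfg r × Cfg ds | q.1 ∈ s'}ᶜ from fun h' => h' h)]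
          simp only [ha₂, if_pos h]
        · rw [Set.indicator_of_mem (show q ∈ {q : Cfg r × Cfg ds | q.1 ∈ s'}ᶜ from h)]
          simp only [ha₂, if_neg h]
      have hm₁ : MemLp (fun q : Cfg r × Cfg ds => a₁ q.1 q.2) 2 (volume.prod volume) := by
        rw [e₁]
        exact hamem.indicator hms
      have hm₂ : MemLp (fun q : Cfg r × Cfg ds => a₂ q.1 q.2) 2 (volume.prod volume) := by
        rw [e₂]
        exact hamem.indicator hms.compl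
      have hc₁ : ∀ η s, a₁ η s ≠ 0 → a η s ≠ 0 ∧ η ∈ s' := by
        intro η s h
        simp only [ha₁] at h
        split_ifs at h with h'
        · exact ⟨h, h'⟩
        · exact absurd rfl h
      have hc₂ : ∀ η s, a₂ η s ≠ 0 → a η s ≠ 0 ∧ η ∉ s' := by
        intro η s h
        simp only [ha₂] at h
        split_ifs at h with h'
        · exact absurd rfl h
        · exact ⟨h, h'⟩
      have hsq := (memLp_two_iff_integrable_sq_norm hamem.1).1 hamem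
      have hI₁ : ∫ q, ‖a₁ q.1 q.2‖ ^ 2 ∂((volume : Measure (Cfg r)).prod (volume : Measure (Cfg ds))) ≤
          ∫ q, ‖a q.1 q.2‖ ^ 2 ∂((volume : Measure (Cfg r)).prod (volume : Measure (Cfg ds))) := by
        refine integral_mono_of_nonneg (ae_of_all _ fun q => by positivity) hsq (ae_of_all _ fun q => ?_)
        simp only [ha₁]
        split_ifs
        · exact le_rfl
        · simp
      have hI₂ : ∫ q, ‖a₂ q.1 q.2‖ ^ 2 ∂((volume : Measure (Cfg r)).prod (volume : Measure (Cfg ds))) ≤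
          ∫ q, ‖a q.1 q.2‖ ^ 2 ∂((volume : Measure (Cfg r)).prod (volume : Measure (Cfg ds))) := by
        refine integral_mono_of_nonneg (ae_of_all _ fun q => by positivity) hsq (ae_of_all _ fun q => ?_)
        simp only [ha₂]
        split_ifs
        · simp
        · exact le_rfl
      have hχ₁ : ∀ q, χ q ≠ 0 → ‖q.2.1‖ ≤ δ₁ * R ∧ ‖q.2.2‖ ≤ δ₁ * (R * Real.sqrt R) := fun q hq =>
        ⟨(hχs q hq).1.trans (mul_le_mul_of_nonneg_right (min_le_left _ _) hR0),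
          (hχs q hq).2.trans (mul_le_mul_of_nonneg_right (min_le_left _ _) hRs)⟩
      have hχ₂ : ∀ q, χ q ≠ 0 → ‖q.2.1‖ ≤ δ₂ * R ∧ ‖q.2.2‖ ≤ δ₂ * (R * Real.sqrt R) := fun q hq =>
        ⟨(hχs q hq).1.trans (mul_le_mul_of_nonneg_right (min_le_right _ _) hR0),
          (hχs q hq).2.trans (mul_le_mul_of_nonneg_right (min_le_right _ _) hRs)⟩
      have k₁ := hb₁ a₁ hm₁ (fun η s h => ha𝒞 η s (hc₁ η s h).1) (fun η s h => (hc₁ η s h).2) R χ u hR1 hχm hχb hχ₁ hu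
      have k₂ := hb₂ a₂ hm₂ (fun η s h => ha𝒞 η s (hc₂ η s h).1)
        (fun η s h => ((hasup η s (hc₂ η s h).1).resolve_left (hc₂ η s h).2)) R χ u hR1 hχm hχb hχ₂ hu
      have i₁ := hint a₁ hm₁ (fun η s h => ha𝒞 η s (hc₁ η s h).1) R χ u hR1 hχm hχb hu.tst
      have i₂ := hint a₂ hm₂ (fun η s h => ha𝒞 η s (hc₂ η s h).1) R χ u hR1 hχm hχb hu.tst
      have hadd : ZL S φ ψ Om χ R a u = ZL S φ ψ Om χ R a₁ u + ZL S φ ψ Om χ R a₂ u := by
        rw [← gbd763_add S φ ψ Om χ R a₁ a₂ u i₁ i₂, ← hsum]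
      have hN : 0 ≤ nsq u := integral_nonneg fun x => by positivity
      have htri : ‖ZL S φ ψ Om χ R a₁ u + ZL S φ ψ Om χ R a₂ u‖ ^ 2 ≤
          2 * (‖ZL S φ ψ Om χ R a₁ u‖ ^ 2 + ‖ZL S φ ψ Om χ R a₂ u‖ ^ 2) := by
        have h1 := norm_add_le (ZL S φ ψ Om χ R a₁ u) (ZL S φ ψ Om χ R a₂ u)
        have h2 := norm_nonneg (ZL S φ ψ Om χ R a₁ u + ZL S φ ψ Om χ R a₂ u)
        nlinarith [sq_nonneg (‖ZL S φ ψ Om χ R a₁ u‖ - ‖ZL S φ ψ Om χ R a₂ u‖)]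
      rw [hadd]
      refine htri.trans ?_
      have j₁ := k₁.trans (mul_le_mul_of_nonneg_right (mul_le_mul_of_nonneg_left hI₁ hC₁) hN)
      have j₂ := k₂.trans (mul_le_mul_of_nonneg_right (mul_le_mul_of_nonneg_left hI₂ hC₂) hN)
      calc 2 * (‖ZL S φ ψ Om χ R a₁ u‖ ^ 2 + ‖ZL S φ ψ Om χ R a₂ u‖ ^ 2)
          ≤ 2 * (C₁ * (∫ q, ‖a q.1 q.2‖ ^ 2 ∂((volume : Measure (Cfg r)).prod (volume : Measure (Cfg ds)))) * nsq u +
            C₂ * (∫ q, ‖a q.1 q.2‖ ^ 2 ∂((volume : Measure (Cfg r)).prod (volume : Measure (Cfg ds)))) * nsq u) :=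
            mul_le_mul_of_nonneg_left (add_le_add j₁ j₂) zero_le_two
        _ = 2 * (C₁ + C₂) * (∫ q, ‖a q.1 q.2‖ ^ 2 ∂((volume : Measure (Cfg r)).prod (volume : Measure (Cfg ds)))) *
            nsq u := by ring
    · intro x hx
      obtain ⟨δ, C, hδ, hC, hb⟩ := gbd763_loc S φ ψ hB hR hD hF hφ hc L Om K U hBun x (Set.disjoint_left.1 hdis hx)
      refine ⟨Metric.ball x δ, mem_nhdsWithin_of_mem_nhds (Metric.ball_mem_nhds x hδ), Metric.ball x δ, subset_rfl,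
        measurableSet_ball, δ, C, hδ, hC, ?_⟩
      intro a hamem _ hasup
      refine hb a hamem fun η s h => ?_
      have := hasup η s h
      rw [Metric.mem_ball, dist_eq_norm] at this
      exact this.le
  obtain ⟨s', h1, _, δ, C, hδ, hC, hb⟩ := main
  exact ⟨δ, C, hδ, hC, fun a hamem ha => hb a hamem ha fun η s h => h1 (ha η s h)⟩

end Vale.Agent.P353.Z.AE
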