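import Vale.Agent.P353.AN.E.StmtP
import Vale.Agent.P353.AN.E.QInv

/-! # P353, all `N`, block E: EG-GLimA, the global limit equation near a point (helper670) -/

open MeasureTheory Filter Topology Matrix
open scoped ContDiff

namespace Vale.Agent.P353.Z.AE

variable {d dh dm r ds : ℕ} {F : Type*} [NormedAddCommGroup F] [InnerProductSpace ℂ F]

private theorem gla670_tt {R : Matrix (Fin 9) (Fin 9) ℝ} (hR : R * Rᵀ = 1) : Rᵀ * Rᵀᵀ = 1 := by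
  rw [Matrix.transpose_transpose]
  exact mul_eq_one_comm.1 hR

private theorem gla670_nrz {n : ℕ} {R : Matrix (Fin 9) (Fin 9) ℝ} (hR : R * Rᵀ = 1) (y : Cfg n) :
    ‖AX.rz R y‖ = ‖y‖ := by
  have hR' : Rᵀ * R = 1 := mul_eq_one_comm.1 hR
  have h : ∀ v : Fin 9 → ℝ, ∑ i, (∑ j, R i j * v j) ^ 2 = ∑ j, v j ^ 2 := by
    intro v
    have h1 : (R *ᵥ v) ⬝ᵥ (R *ᵥ v) = v ⬝ᵥ v := by
      rw [Matrix.dotProduct_mulVec, Matrix.vecMul_mulVec, hR', Matrix.vecMul_one]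
    simpa only [dotProduct, Matrix.mulVec, sq] using h1
  have h2 : ‖AX.rz R y‖ ^ 2 = ‖y‖ ^ 2 := by
    rw [EuclideanSpace.norm_sq_eq, EuclideanSpace.norm_sq_eq, Fintype.sum_prod_type, Fintype.sum_prod_type]
    rw [Finset.sum_comm, Finset.sum_comm (s := (Finset.univ : Finset (Fin 9)))]
    refine Finset.sum_congr rfl fun A _ => ?_
    have h3 := h fun j => y (j, A)
    simpa only [AX.rz, Real.norm_eq_abs, sq_abs] using h3
  exact (sq_eq_sq₀ (norm_nonneg _) (norm_nonneg _)).1 h2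

private theorem gla670_DMa (M : Fin r → Matrix (Fin dm) (Fin dm) ℝ) (h : ∀ a, (M a)ᵀ = -M a) (η : Cfg r) (i : Fin 9) :
    (DM M η i)ᵀ = -DM M η i := by
  simp only [DM, Matrix.transpose_sum, Matrix.transpose_smul, h, smul_neg, Finset.sum_neg_distrib]

private theorem gla670_DMc (M : Fin r → Matrix (Fin dm) (Fin dm) ℝ) (h : ∀ a b, M a * M b = M b * M a) (η : Cfg r)
    (i j : Fin 9) : DM M η i * DM M η j = DM M η j * DM M η i := by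
  simp only [DM, Finset.sum_mul_sum, smul_mul_smul_comm]
  rw [Finset.sum_comm]
  refine Finset.sum_congr rfl fun a _ => Finset.sum_congr rfl fun b _ => ?_
  rw [h, mul_comm]

/-- support of the rotated profile -/
private theorem gla670_ts {R : Matrix (Fin 9) (Fin 9) ℝ} (hR : R * Rᵀ = 1) {ζ : Cfg r → ℂ} {z : Cfg r} {δ : ℝ}
    (h : tsupport ζ ⊆ Metric.ball z δ) :
    tsupport (fun y => ζ (AX.rz Rᵀ y)) ⊆ Metric.ball (AX.rz R z) δ := by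
  have hRt : Rᵀ * Rᵀᵀ = 1 := gla670_tt hR
  have hct : Continuous fun y : Cfg r => AX.rz Rᵀ y := (AX.rzL r Rᵀ).continuous
  have hback : AX.rz Rᵀ (AX.rz R z) = z := by
    have := AX.rz_rz hRt z
    rwa [Matrix.transpose_transpose] at this
  have h1 : tsupport (fun y => ζ (AX.rz Rᵀ y)) ⊆ (fun y : Cfg r => AX.rz Rᵀ y) ⁻¹' tsupport ζ := by
    refine closure_minimal (fun y hy => subset_tsupport ζ hy) ((isClosed_tsupport ζ).preimage hct)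
  intro y hy
  have h2 := h (h1 hy)
  rw [Metric.mem_ball, dist_eq_norm] at h2 ⊢
  have h3 : AX.rz Rᵀ y - z = AX.rz Rᵀ (y - AX.rz R z) := by
    conv_lhs => rw [← hback]
    exact ((AX.rzL r Rᵀ).map_sub y (AX.rz R z)).symm
  rwa [h3, gla670_nrz hRt] at h2

/-- **EG-GLimA** -/
theorem gLimA (S : Setup d F) (φ : Spl dh dm d) (ψ : Spl r ds dh) (hZ : ∀ S' : Setup d F, LocZStmt S' φ ψ)
    (hR : RotGStmt S φ ψ) (hD : DirStmt) : GLimAStmt S φ ψ := by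
  intro hF hφ hc N hN L Om K U hBun z hz
  have h1 : (1 : Matrix (Fin d) (Fin d) ℝ) * (1 : Matrix (Fin d) (Fin d) ℝ)ᵀ = 1 := by simp
  have ha := AX.Mz_anti S φ (spsw ψ)
  have hm := AX.Mz_comm S φ (spsw ψ) hφ (fun A B C => hc A B C)
  obtain ⟨R₀, hR₀, hdet⟩ := hD dm (DM (AX.Mz S φ (spsw ψ)) z) (gla670_DMa _ ha z) (gla670_DMc _ hm z) (hBun.det z hz)
  have hR₀t : R₀ᵀ * R₀ᵀᵀ = 1 := gla670_tt hR₀
  obtain ⟨hφ', hc', -, hmass, hGI, hIZ, hDF, hZL⟩ := hR hφ hc R₀ hR₀ h1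
  have hback : AX.rz R₀ᵀ (AX.rz R₀ z) = z := by
    have := AX.rz_rz hR₀t z
    rwa [Matrix.transpose_transpose] at this
  have h8 : (S.Dz φ ψ (AX.rz R₀ z) 8).det ≠ 0 := by
    rw [← AX.DM_Dz, AX.DM_rz]
    exact hdet
  have hV := AX.vfr S φ ψ hBun R₀ hR₀ h1
  have hy₀G : AX.rz R₀ z ∈ {y : Cfg r | AX.rz R₀ᵀ y ∉ Coll L ∧ (S.Dz φ ψ y 8).det ≠ 0} := by
    refine ⟨?_, h8⟩
    rw [hback]
    exact hz
  obtain ⟨δ, hδ, hloc⟩ := hZ (S.rot R₀ hR₀ 1 h1) hF hφ' hc' (AN.rotN R₀ N) (hmass N hN) _ _ _ _ hV _ hy₀G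
  refine ⟨δ, hδ, fun ζ hζ _ hζs μ hμ o ho R u C hS χ hχ β => ?_⟩
  have hnm : ∀ {n : ℕ} (y : Cfg n), ‖AX.rz R₀ᵀ y‖ = ‖y‖ := fun y => gla670_nrz hR₀t y
  have hct : ∀ {n : ℕ}, Continuous fun y : Cfg n => AX.rz R₀ᵀ y := fun {n} => (AX.rzL n R₀ᵀ).continuous
  have hζ' : ContDiff ℝ ∞ (fun y => ζ (AX.rz R₀ᵀ y)) := hζ.comp (AX.rzL r R₀ᵀ).contDiff
  have hQ : ∀ n β, nsq (QN (S.rot R₀ hR₀ 1 h1) (AN.rotN R₀ N) (μ / R n ^ 2) β (fun x => u n (rox R₀ᵀ 1 x))) =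
      nsq (QN S N (μ / R n ^ 2) β (u n)) := by
    intro n β
    rw [(hGI N (μ / R n ^ 2) β (u n) (hS.gi n)).2.2]
    exact (hGI N (μ / R n ^ 2) β _ (qInv S N (μ / R n ^ 2) β (u n) (hS.gi n))).2.1
  have hS' : SqN (S.rot R₀ hR₀ 1 h1) (AN.rotN R₀ N) μ C R (fun n x => u n (rox R₀ᵀ 1 x)) := by
    refine ⟨hS.one, hS.lim, fun n => (hGI N 0 0 (u n) (hS.gi n)).1, fun n => ?_, fun n => ?_⟩
    · rw [(hGI N 0 0 (u n) (hS.gi n)).2.1]
      exact hS.nrm n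
    · simp only [hQ]
      exact hS.en n
  have hχ' : CutA δ R (fun n (q : Cfg r × Cfg ds × Cfg dm) => χ n (AX.rz R₀ᵀ q.1, AX.rz R₀ᵀ q.2.1, AX.rz R₀ᵀ q.2.2)) := by
    refine ⟨fun n => ?_, fun n q => hχ.bd n _, fun q => hχ.lim _, fun n q hq => ?_⟩
    · refine (hχ.meas n).comp ?_
      exact ((hct.comp continuous_fst).prodMk ((hct.comp (continuous_fst.comp continuous_snd)).prodMk
        (hct.comp (continuous_snd.comp continuous_snd)))).measurable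
    · have h2 := hχ.sup n _ hq
      simpa only [hnm] using h2
  have key := hloc (fun y => ζ (AX.rz R₀ᵀ y)) hζ' (gla670_ts hR₀ hζs) μ hμ (fun s => o (AX.rz R₀ᵀ s)) (hIZ K o ho) R
    (fun n x => u n (rox R₀ᵀ 1 x)) C hS' _ hχ' β
  refine key.congr fun n => ?_
  rw [(hGI N (μ / R n ^ 2) β (u n) (hS.gi n)).2.2]
  have e1 : (fun η s => U (AX.rz R₀ᵀ η) (pp (fun y => ζ (AX.rz R₀ᵀ y)) (fun s => o (AX.rz R₀ᵀ s)) η s)) =
      fun (η : Cfg r) (s : Cfg ds) => (fun η s => U η (pp ζ o η s)) (AX.rz R₀ᵀ η) (AX.rz R₀ᵀ s) := rfl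
  have e2 : (fun η s => U (AX.rz R₀ᵀ η) ((S.rot R₀ hR₀ 1 h1).DF φ ψ (AN.rotN R₀ N) μ β
        (pp (fun y => ζ (AX.rz R₀ᵀ y)) (fun s => o (AX.rz R₀ᵀ s))) η s)) =
      fun (η : Cfg r) (s : Cfg ds) => (fun η s => U η (S.DF φ ψ N μ β (pp ζ o) η s)) (AX.rz R₀ᵀ η) (AX.rz R₀ᵀ s) := by
    funext η s
    rw [hDF N μ β ζ o hζ]
  rw [e1, e2, hZL Om (χ n) (R n) (fun η s => U η (pp ζ o η s)) (QN S N (μ / R n ^ 2) β (u n)),
    hZL Om (χ n) (R n) (fun η s => U η (S.DF φ ψ N μ β (pp ζ o) η s)) (u n)]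

end Vale.Agent.P353.Z.AE
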