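import Vale.Agent.P353.AN.E.StmtP
import Vale.Agent.P353.AN.E.QInv

/-! # P353, all `N`, block E: EG-GLimB, the global limit equation from the local one (partition of unity) (helper381) -/

open MeasureTheory Filter Topology Matrix Manifold
open scoped ContDiff

namespace Vale.Agent.P353.Z.AE

variable {d dh dm r ds : ℕ} {F : Type*} [NormedAddCommGroup F] [InnerProductSpace ℂ F]

/-- a finite smooth partition: `ζ = ∑ ζ_j` with `ζ_j` supported in the balls of a finite subcover -/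
theorem glb_part {ζ : Cfg r → ℂ} (hζ : ContDiff ℝ ∞ ζ) (hc : HasCompactSupport ζ) {δ : Cfg r → ℝ}
    (hδ : ∀ z ∈ tsupport ζ, 0 < δ z) :
    ∃ (t : Finset (Cfg r)) (ξ : t → Cfg r → ℂ), (∀ z ∈ t, z ∈ tsupport ζ) ∧ (∀ j, ContDiff ℝ ∞ (ξ j)) ∧
      (∀ j, tsupport (ξ j) ⊆ tsupport ζ) ∧ (∀ j : t, tsupport (ξ j) ⊆ Metric.ball (j : Cfg r) (δ j)) ∧
      ∀ y, ζ y = ∑ j, ξ j y := by
  obtain ⟨t, ht, hcov⟩ := IsCompact.elim_nhds_subcover (show IsCompact (tsupport ζ) from hc)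
    (fun z => Metric.ball z (δ z)) (fun z hz => Metric.ball_mem_nhds z (hδ z hz))
  obtain ⟨f, hf⟩ := SmoothPartitionOfUnity.exists_isSubordinate (𝓘(ℝ, Cfg r)) (isClosed_tsupport ζ)
    (fun j : t => Metric.ball (j : Cfg r) (δ j)) (fun _ => Metric.isOpen_ball) (by
      intro y hy
      obtain ⟨z, hz, hy'⟩ := Set.mem_iUnion₂.1 (hcov hy)
      exact Set.mem_iUnion.2 ⟨⟨z, hz⟩, hy'⟩)
  refine ⟨t, fun j y => f j y • ζ y, ht, fun j => ?_, fun j => ?_, fun j => ?_, fun y => ?_⟩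
  · exact (contMDiff_iff_contDiff.1 (f j).contMDiff).smul hζ
  · exact tsupport_smul_subset_right (fun y => f j y) ζ
  · exact (tsupport_smul_subset_left (fun y => f j y) ζ).trans (hf j)
  · rw [← Finset.sum_smul]
    by_cases hy : y ∈ tsupport ζ
    · have h1 := f.sum_eq_one hy
      rw [finsum_eq_sum_of_fintype] at h1
      rw [h1, one_smul]
    · rw [image_eq_zero_of_notMem_tsupport hy, smul_zero]

theorem glb_min {X : Type*} (t : Finset X) (δ : X → ℝ) (h : ∀ z ∈ t, 0 < δ z) :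
    ∃ δ0 : ℝ, 0 < δ0 ∧ ∀ z ∈ t, δ0 ≤ δ z := by
  classical
  induction t using Finset.induction_on with
  | empty => exact ⟨1, one_pos, by simp⟩
  | insert a s ha ih =>
    obtain ⟨e, he, h1⟩ := ih fun z hz => h z (Finset.mem_insert_of_mem hz)
    refine ⟨min e (δ a), lt_min he (h a (Finset.mem_insert_self a s)), fun z hz => ?_⟩
    rcases Finset.mem_insert.1 hz with rfl | hz
    · exact min_le_right _ _
    · exact (min_le_left _ _).trans (h1 z hz)

theorem CutA.glb_mono {δ δ' : ℝ} {R : ℕ → ℝ} {χ : ℕ → Cfg r × Cfg ds × Cfg dm → ℝ} (h : CutA δ R χ) (hd : δ ≤ δ')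
    (hR : ∀ n, 1 ≤ R n) : CutA δ' R χ :=
  ⟨h.meas, h.bd, h.lim, fun n q hq => by
    have h1 := h.sup n q hq
    have h2 : 0 ≤ R n := zero_le_one.trans (hR n)
    exact ⟨h1.1.trans (mul_le_mul_of_nonneg_right hd h2),
      h1.2.trans (mul_le_mul_of_nonneg_right hd (mul_nonneg h2 (Real.sqrt_nonneg _)))⟩⟩

section Op

variable (S : Setup d F) (φ : Spl dh dm d) (ψ : Spl r ds dh)

/-- `DF` on product profiles: `DF (pp ζ o) y s = glbL ζ y (o s)` -/
noncomputable def glbL (N : Fin 9 → Matrix (Fin 16) (Fin 16) ℂ) (μ : ℝ) (β : Fin 16) (ζ : Cfg r → ℂ) (y : Cfg r) :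
    F →L[ℂ] F :=
  (-Complex.I) • ∑ i, ∑ A, (fderiv ℝ ζ y (EuclideanSpace.single (i, A) 1)) •
      S.vec (S.g i) (φ (Sum.inl (ψ (Sum.inl A)))) β +
    (μ : ℂ) • ∑ i, ∑ A, (((y (i, A) : ℝ) : ℂ) * ζ y) • S.vec (N i) (φ (Sum.inl (ψ (Sum.inl A)))) β

theorem glbL_eq (N : Fin 9 → Matrix (Fin 16) (Fin 16) ℂ) (μ : ℝ) (β : Fin 16) {ζ : Cfg r → ℂ}
    (hζ : ContDiff ℝ ∞ ζ) (Φ : Cfg ds → F) :
    S.DF φ ψ N μ β (pp ζ Φ) = fun y s => glbL S φ ψ N μ β ζ y (Φ s) := by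
  funext y s
  have hd : DifferentiableAt ℝ ζ y := hζ.differentiable (by simp) y
  have h1 : ∀ (i : Fin 9) (A : Fin r), pd i A (fun y' => pp ζ Φ y' s) y =
      (fderiv ℝ ζ y (EuclideanSpace.single (i, A) 1)) • Φ s := by
    intro i A
    show fderiv ℝ (fun y' => ζ y' • Φ s) y (EuclideanSpace.single (i, A) 1) = _
    rw [(hd.hasFDerivAt.smul_const (Φ s)).fderiv]
    rfl
  unfold Setup.DF glbL
  simp only [h1]
  simp only [pp, map_smul, _root_.add_apply, _root_.smul_apply, _root_.sum_apply, smul_smul]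

theorem glbL_c (N : Fin 9 → Matrix (Fin 16) (Fin 16) ℂ) (μ : ℝ) (β : Fin 16) {ζ : Cfg r → ℂ}
    (hζ : ContDiff ℝ ∞ ζ) : Continuous (glbL S φ ψ N μ β ζ) := by
  unfold glbL
  have h1 : Continuous (fderiv ℝ ζ) := hζ.continuous_fderiv (by simp)
  have h2 := hζ.continuous
  have h3 : ∀ (i : Fin 9) (A : Fin r), Continuous fun y : Cfg r => y (i, A) := fun i A => by fun_prop
  have hA : Continuous fun y : Cfg r => (∑ i : Fin 9, ∑ A : Fin r,
      (fderiv ℝ ζ y (EuclideanSpace.single (i, A) 1)) • S.vec (S.g i) (φ (Sum.inl (ψ (Sum.inl A)))) β : F →L[ℂ] F) :=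
    continuous_finsetSum _ fun i _ => continuous_finsetSum _ fun A _ =>
      (h1.clm_apply continuous_const).smul continuous_const
  have hB : Continuous fun y : Cfg r => (∑ i : Fin 9, ∑ A : Fin r,
      (((y (i, A) : ℝ) : ℂ) * ζ y) • S.vec (N i) (φ (Sum.inl (ψ (Sum.inl A)))) β : F →L[ℂ] F) :=
    continuous_finsetSum _ fun i _ => continuous_finsetSum _ fun A _ =>
      ((Complex.continuous_ofReal.comp (h3 i A)).mul h2).smul continuous_const
  exact (hA.const_smul (-Complex.I)).add (hB.const_smul (μ : ℂ))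

theorem glbL_s (N : Fin 9 → Matrix (Fin 16) (Fin 16) ℂ) (μ : ℝ) (β : Fin 16) {ζ : Cfg r → ℂ}
    (y : Cfg r) (h : glbL S φ ψ N μ β ζ y ≠ 0) : y ∈ tsupport ζ := by
  by_contra h0
  apply h
  have h1 : ζ y = 0 := image_eq_zero_of_notMem_tsupport h0
  have h2 : fderiv ℝ ζ y = 0 := by
    by_contra h3
    exact h0 (support_fderiv_subset ℝ (Function.mem_support.2 h3))
  unfold glbL
  simp [h1, h2]

theorem glbL_sum (N : Fin 9 → Matrix (Fin 16) (Fin 16) ℂ) (μ : ℝ) (β : Fin 16) {ι : Type*} [Fintype ι]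
    {ζ : Cfg r → ℂ} {ξ : ι → Cfg r → ℂ} (hξ : ∀ j, ContDiff ℝ ∞ (ξ j)) (h : ∀ y, ζ y = ∑ j, ξ j y) (y : Cfg r) :
    glbL S φ ψ N μ β ζ y = ∑ j, glbL S φ ψ N μ β (ξ j) y := by
  have h1 : fderiv ℝ ζ y = ∑ j, fderiv ℝ (ξ j) y := by
    have h2 : ζ = fun y => ∑ j, ξ j y := funext h
    rw [h2, fderiv_fun_sum fun j _ => (hξ j).differentiable (by simp) y]
  unfold glbL
  rw [h1, h y, Finset.sum_add_distrib, ← Finset.smul_sum, ← Finset.smul_sum]
  have e1 : (∑ i : Fin 9, ∑ A : Fin r, ((∑ j, fderiv ℝ (ξ j) y) (EuclideanSpace.single (i, A) 1)) •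
      S.vec (S.g i) (φ (Sum.inl (ψ (Sum.inl A)))) β : F →L[ℂ] F) =
      ∑ j, ∑ i : Fin 9, ∑ A : Fin r, (fderiv ℝ (ξ j) y (EuclideanSpace.single (i, A) 1)) •
      S.vec (S.g i) (φ (Sum.inl (ψ (Sum.inl A)))) β := by
    refine Eq.symm (Finset.sum_comm.trans ?_)
    refine Finset.sum_congr rfl fun i _ => ?_
    rw [Finset.sum_comm]
    refine Finset.sum_congr rfl fun A _ => ?_
    rw [_root_.sum_apply, Finset.sum_smul]
  have e2 : (∑ i : Fin 9, ∑ A : Fin r, (((y (i, A) : ℝ) : ℂ) * ∑ j, ξ j y) •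
      S.vec (N i) (φ (Sum.inl (ψ (Sum.inl A)))) β : F →L[ℂ] F) =
      ∑ j, ∑ i : Fin 9, ∑ A : Fin r, (((y (i, A) : ℝ) : ℂ) * ξ j y) •
      S.vec (N i) (φ (Sum.inl (ψ (Sum.inl A)))) β := by
    refine Eq.symm (Finset.sum_comm.trans ?_)
    refine Finset.sum_congr rfl fun i _ => ?_
    rw [Finset.sum_comm]
    refine Finset.sum_congr rfl fun A _ => ?_
    rw [Finset.mul_sum, Finset.sum_smul]
  rw [e1, e2]

end Op

/-- square integrability of the sections `U η (L η (o s))` -/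
theorem glb_mem [FiniteDimensional ℂ F] {O : Set (Cfg r)} (hO : IsOpen O) {U : Cfg r → F →L[ℂ] F}
    (hU : ContinuousOn U O) (hn : ∀ η v, ‖U η v‖ = ‖v‖) {L : Cfg r → F →L[ℂ] F} (hL : Continuous L)
    {𝒞 : Set (Cfg r)} (hC : IsCompact 𝒞) (hCO : 𝒞 ⊆ O) (hs : ∀ y, L y ≠ 0 → y ∈ 𝒞)
    {o : Cfg ds → F} (ho : MemLp o 2 (volume : Measure (Cfg ds))) :
    MemLp (fun q : Cfg r × Cfg ds => U q.1 (L q.1 (o q.2))) 2 (volume.prod volume) := by
  have hW : AEStronglyMeasurable (fun y : Cfg r => (U y).comp (L y)) volume := by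
    have h1 : (fun y : Cfg r => (U y).comp (L y)) = O.indicator (fun y : Cfg r => (U y).comp (L y)) := by
      funext y
      by_cases hy : y ∈ O
      · rw [Set.indicator_of_mem hy]
      · rw [Set.indicator_of_notMem hy]
        have h2 : L y = 0 := by
          by_contra h0
          exact hy (hCO (hs y h0))
        rw [h2, ContinuousLinearMap.comp_zero]
    rw [h1, aestronglyMeasurable_indicator_iff hO.measurableSet]
    exact (hU.clm_comp hL.continuousOn).aestronglyMeasurable hO.measurableSet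
  have hm : AEStronglyMeasurable (fun q : Cfg r × Cfg ds => U q.1 (L q.1 (o q.2)))
      ((volume : Measure (Cfg r)).prod (volume : Measure (Cfg ds))) := by
    have h1 := (hW.comp_fst (ν := (volume : Measure (Cfg ds)))).prodMk (ho.1.comp_snd (μ := (volume : Measure (Cfg r))))
    exact (isBoundedBilinearMap_apply (𝕜 := ℂ) (E := F) (F := F)).continuous.comp_aestronglyMeasurable h1
  have haI : Integrable fun y : Cfg r => ‖L y‖ ^ 2 := by
    refine (hL.norm.pow 2).integrable_of_hasCompactSupport ?_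
    refine HasCompactSupport.intro hC fun y hy => ?_
    have h0 : L y = 0 := by
      by_contra h0
      exact hy (hs y h0)
    show ‖L y‖ ^ 2 = 0
    rw [h0, norm_zero, zero_pow two_ne_zero]
  rw [memLp_two_iff_integrable_sq_norm hm]
  refine Integrable.mono' (haI.mul_prod (ho.integrable_norm_pow two_ne_zero)) (hm.norm.pow 2) (Eventually.of_forall ?_)
  rintro ⟨y, s⟩
  show ‖‖U y (L y (o s))‖ ^ 2‖ ≤ ‖L y‖ ^ 2 * ‖o s‖ ^ 2
  rw [Real.norm_of_nonneg (by positivity), hn, ← mul_pow]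
  exact pow_le_pow_left₀ (norm_nonneg _) ((L y).le_opNorm _) 2

/-- additivity of the global functional in the section -/
theorem glb_sum (S : Setup d F) (φ : Spl dh dm d) (ψ : Spl r ds dh) (Om : Cfg r → Matrix (Fin dm) (Fin dm) ℝ)
    (χ : Cfg r × Cfg ds × Cfg dm → ℝ) (R : ℝ) {ι : Type*} [Fintype ι] {a : Cfg r → Cfg ds → F}
    {b : ι → Cfg r → Cfg ds → F} (h : ∀ η s, a η s = ∑ j, b j η s) (u : Cfg d → F)
    (hi : ∀ j, Integrable (fun x => inner ℂ (AN.Zb φ ψ (fun q => ((χ q : ℝ) : ℂ) • AN.bG S.κ Om (b j) q) R x) (u x))) :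
    ZL S φ ψ Om χ R a u = ∑ j, ZL S φ ψ Om χ R (b j) u := by
  unfold ZL
  rw [← integral_finsetSum _ fun j _ => hi j]
  refine integral_congr_ae (Eventually.of_forall fun x => ?_)
  show inner ℂ _ _ = ∑ j, inner ℂ _ _
  rw [← sum_inner]
  congr 1
  simp only [AN.Zb, AN.bG, h, Finset.smul_sum]

/-- **EG-GLimB** -/
theorem gLimB (S : Setup d F) (φ : Spl dh dm d) (ψ : Spl r ds dh) : GLimBStmt S φ ψ := by
  intro hA hI hF hφ hc N hN L Om K U hB ζ hζ hζc hζL
  have hA' := hA hF hφ hc N hN L Om K U hB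
  have hz : ∀ z ∈ tsupport ζ, z ∉ Coll L := fun z hz hz' => Set.disjoint_left.1 hζL hz hz'
  choose! δ hδ using hA'
  obtain ⟨t, ξ, ht, hξ, hξs, hξb, hsum⟩ := glb_part hζ hζc (δ := δ) fun z h => (hδ z (hz z h)).1
  obtain ⟨δ0, hδ0, hmin⟩ := glb_min t δ fun z h => (hδ z (hz z (ht z h))).1
  refine ⟨δ0, hδ0, fun μ hμ o ho R u C hS χ hχ β => ?_⟩
  have hξc : ∀ j, HasCompactSupport (ξ j) := fun j => hζc.of_isClosed_subset (isClosed_tsupport _) (hξs j)
  have hlim : Tendsto (fun n => ∑ j : t, ((R n : ℂ) *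
      ZL S φ ψ Om (χ n) (R n) (fun η s => U η (pp (ξ j) o η s)) (QN S N (μ / R n ^ 2) β (u n)) -
        ZL S φ ψ Om (χ n) (R n) (fun η s => U η (S.DF φ ψ N μ β (pp (ξ j) o) η s)) (u n))) atTop
      (𝓝 (∑ _j : t, 0)) := by
    refine tendsto_finsetSum _ fun j _ => ?_
    exact (hδ j (hz j (ht j j.2))).2 (ξ j) (hξ j) (hξc j) (hξb j) μ hμ o ho R u C hS χ
      (hχ.glb_mono (hmin j j.2) hS.one) β
  rw [Finset.sum_const_zero] at hlim
  refine hlim.congr fun n => ?_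
  -- integrability
  have hO : IsOpen (Coll L)ᶜ := hB.closed.isOpen_compl
  have hUn : ∀ η v, ‖U η v‖ = ‖v‖ := by
    intro η v
    have h1 := hB.U_inner η v v
    rw [inner_self_eq_norm_sq_to_K, inner_self_eq_norm_sq_to_K] at h1
    have h2 : ‖U η v‖ ^ 2 = ‖v‖ ^ 2 := by exact_mod_cast h1
    exact (sq_eq_sq₀ (norm_nonneg _) (norm_nonneg _)).1 h2
  have hK : IsCompact (tsupport ζ) := hζc
  have hI' := (hI hF hφ hc L Om K U hB (tsupport ζ) hK hζL).2
  have hKO : tsupport ζ ⊆ (Coll L)ᶜ := fun y hy => hz y hy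
  have m1 : ∀ (M : Cfg r → F →L[ℂ] F), Continuous M → (∀ y, M y ≠ 0 → y ∈ tsupport ζ) → ∀ w : Cfg d → F, Setup.Tst w →
      Integrable (fun x => inner ℂ (AN.Zb φ ψ (fun q => ((χ n q : ℝ) : ℂ) •
        AN.bG S.κ Om (fun η s => U η (M η (o s))) q) (R n) x) (w x)) := by
    intro M hM hMs w hw
    refine hI' _ (glb_mem hO hB.U_smooth.continuousOn hUn hM hK hKO hMs ho.mem) ?_ (R n) (χ n) w (hS.one n)
      (hχ.meas n) (hχ.bd n) hw
    intro η s h0
    apply hMs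
    intro h1
    apply h0
    rw [h1, _root_.zero_apply, map_zero]
  have hq : Setup.Tst (QN S N (μ / R n ^ 2) β (u n)) := (qInv S N _ β (u n) (hS.gi n)).tst
  have hu : Setup.Tst (u n) := (hS.gi n).tst
  have e1 : ZL S φ ψ Om (χ n) (R n) (fun η s => U η (pp ζ o η s)) (QN S N (μ / R n ^ 2) β (u n)) =
      ∑ j : t, ZL S φ ψ Om (χ n) (R n) (fun η s => U η (pp (ξ j) o η s)) (QN S N (μ / R n ^ 2) β (u n)) := by
    refine glb_sum S φ ψ Om (χ n) (R n) (fun η s => ?_) _ fun j => ?_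
    · simp only [pp, hsum η, Finset.sum_smul, map_sum]
    · refine m1 (fun y => ξ j y • ContinuousLinearMap.id ℂ F) ((hξ j).continuous.smul continuous_const)
        (fun y hy => ?_) _ hq
      apply hξs j
      by_contra h0
      exact hy (by rw [image_eq_zero_of_notMem_tsupport h0, zero_smul])
  have e2 : ZL S φ ψ Om (χ n) (R n) (fun η s => U η (S.DF φ ψ N μ β (pp ζ o) η s)) (u n) =
      ∑ j : t, ZL S φ ψ Om (χ n) (R n) (fun η s => U η (S.DF φ ψ N μ β (pp (ξ j) o) η s)) (u n) := by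
    simp only [glbL_eq S φ ψ N μ β hζ, glbL_eq S φ ψ N μ β (hξ _)]
    refine glb_sum S φ ψ Om (χ n) (R n) (fun η s => ?_) _ fun j => ?_
    · rw [glbL_sum S φ ψ N μ β hξ hsum η, _root_.sum_apply, map_sum]
    · exact m1 _ (glbL_c S φ ψ N μ β (hξ j)) (fun y hy => hξs j (glbL_s S φ ψ N μ β y hy)) _ hu
  rw [e1, e2, Finset.mul_sum, Finset.sum_sub_distrib]

end Vale.Agent.P353.Z.AE
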