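import Vale.Agent.P353.AN.E.StmtG
import Vale.Agent.P353.AN.GL.Wgt
import Vale.Agent.P353.AN.GL.Mea

/-! # P353, all `N`, block E: EG-GluB, uniform bound for the global functional near a point -/

open MeasureTheory Filter Topology Matrix
open scoped ContDiff ENNReal

namespace Vale.Agent.P353.Z.AE

variable {d dh dm r ds : ℕ} {F : Type*} [NormedAddCommGroup F] [InnerProductSpace ℂ F]

/-- the Gaussian profile as a function of `(η, X)` -/
noncomputable def gbu_k (κ : ℝ) (Om : Cfg r → Matrix (Fin dm) (Fin dm) ℝ) (p : Cfg r × Cfg dm) : ℝ :=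
  AN.Nf κ (Om p.1) * Real.exp (-(1 / 2) * AN.qX (Om p.1) p.2)

theorem gbu_k_cont (κ : ℝ) (Om : Cfg r → Matrix (Fin dm) (Fin dm) ℝ) (s : Set (Cfg r)) (h1 : ContinuousOn Om s)
    (h2 : ContinuousOn (fun η => AN.Nf κ (Om η)) s) :
    ContinuousOn (gbu_k κ Om) {p : Cfg r × Cfg dm | p.1 ∈ s} := by
  have hf : ContinuousOn (fun p : Cfg r × Cfg dm => p.1) {p : Cfg r × Cfg dm | p.1 ∈ s} :=
    continuous_fst.continuousOn
  have hO : ContinuousOn (fun p : Cfg r × Cfg dm => Om p.1) {p : Cfg r × Cfg dm | p.1 ∈ s} :=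
    h1.comp hf fun p hp => hp
  have hN : ContinuousOn (fun p : Cfg r × Cfg dm => AN.Nf κ (Om p.1)) {p : Cfg r × Cfg dm | p.1 ∈ s} :=
    ContinuousOn.comp (g := fun η => AN.Nf κ (Om η)) h2 hf fun p hp => hp
  have hq : ContinuousOn (fun p : Cfg r × Cfg dm => AN.qX (Om p.1) p.2) {p : Cfg r × Cfg dm | p.1 ∈ s} := by
    unfold AN.qX
    refine continuousOn_finsetSum _ fun i _ => continuousOn_finsetSum _ fun B _ =>
      continuousOn_finsetSum _ fun C _ => ?_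
    have hBC : ContinuousOn (fun p : Cfg r × Cfg dm => Om p.1 B C) {p : Cfg r × Cfg dm | p.1 ∈ s} :=
      (continuous_apply_apply (ρ := fun _ _ => ℝ) B C).comp_continuousOn hO
    have hX : ∀ D : Fin dm, ContinuousOn (fun p : Cfg r × Cfg dm => p.2 (i, D)) {p : Cfg r × Cfg dm | p.1 ∈ s} := by
      intro D
      exact Continuous.continuousOn (by fun_prop)
    exact ((hX B).mul hBC).mul (hX C)
  unfold gbu_k
  exact hN.mul (Real.continuous_exp.comp_continuousOn (continuousOn_const.mul hq))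

/-- measurable version of the profile -/
noncomputable def gbu_kk (κ : ℝ) (Om : Cfg r → Matrix (Fin dm) (Fin dm) ℝ) (s : Set (Cfg r)) :
    Cfg r × Cfg dm → ℝ :=
  Set.indicator {p : Cfg r × Cfg dm | p.1 ∈ s} (gbu_k κ Om)

theorem gbu_kk_meas (κ : ℝ) (Om : Cfg r → Matrix (Fin dm) (Fin dm) ℝ) (s : Set (Cfg r)) (hs : MeasurableSet s)
    (h1 : ContinuousOn Om s) (h2 : ContinuousOn (fun η => AN.Nf κ (Om η)) s) :
    Measurable (gbu_kk κ Om s) := by
  classical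
  unfold gbu_kk
  have hm : MeasurableSet {p : Cfg r × Cfg dm | p.1 ∈ s} := measurable_fst hs
  rw [← Set.piecewise_eq_indicator]
  exact ContinuousOn.measurable_piecewise (gbu_k_cont κ Om s h1 h2) continuousOn_const hm

omit [NormedAddCommGroup F] [InnerProductSpace ℂ F] in
/-- replacing the section almost everywhere -/
theorem gbu_ae (φ : Spl dh dm d) (ψ : Spl r ds dh) {R : ℝ} (hR : 0 < R) {a a' : Cfg r × Cfg ds → F}
    (h : a =ᵐ[(volume : Measure (Cfg r)).prod (volume : Measure (Cfg ds))] a') :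
    ∀ᵐ x : Cfg d, a (R⁻¹ • AN.hz ψ (AN.zy φ x), AN.hs ψ (AN.zy φ x)) =
      a' (R⁻¹ • AN.hz ψ (AN.zy φ x), AN.hs ψ (AN.zy φ x)) := by
  have q1 : Measure.QuasiMeasurePreserving (fun η : Cfg r => R⁻¹ • η) volume volume :=
    Measure.quasiMeasurePreserving_smul _ (inv_pos.2 hR).ne'
  have q2 : Measure.QuasiMeasurePreserving (Prod.fst : Cfg ds × Cfg dm → Cfg ds) (volume.prod volume) volume :=
    Measure.quasiMeasurePreserving_fst
  have q3 := (MeasureTheory.QuasiMeasurePreserving.prodMap q1 q2).comp (AN.wgt_mp φ ψ).quasiMeasurePreserving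
  exact q3.ae h

/-- Tonelli -/
theorem gbu_tri {α β γ : Type*} [MeasurableSpace α] [MeasurableSpace β] [MeasurableSpace γ] (μ : Measure α)
    (ν : Measure β) (τ : Measure γ) [SFinite μ] [SFinite ν] [SFinite τ] (f : α × β → ℝ≥0∞) (g : α × γ → ℝ≥0∞)
    (hf : Measurable f) (hg : Measurable g) (C : ℝ≥0∞) (hC : ∀ x, ∫⁻ z, g (x, z) ∂τ ≤ C) :
    ∫⁻ q, f (q.1, q.2.1) * g (q.1, q.2.2) ∂(μ.prod (ν.prod τ)) ≤ C * ∫⁻ q, f q ∂(μ.prod ν) := by
  have m1 : Measurable fun q : α × β × γ => f (q.1, q.2.1) :=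
    hf.comp (measurable_fst.prodMk (measurable_fst.comp measurable_snd))
  have m2 : Measurable fun q : α × β × γ => g (q.1, q.2.2) :=
    hg.comp (measurable_fst.prodMk (measurable_snd.comp measurable_snd))
  have m3 : Measurable fun q : α × β × γ => f (q.1, q.2.1) * g (q.1, q.2.2) := m1.mul m2
  rw [lintegral_prod _ m3.aemeasurable, lintegral_prod _ hf.aemeasurable, mul_comm,
    ← lintegral_mul_const _ hf.lintegral_prod_right']
  refine lintegral_mono fun x => ?_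
  have h := lintegral_prod_mul (μ := ν) (ν := τ) (f := fun y => f (x, y)) (g := fun z => g (x, z))
    (hf.comp measurable_prodMk_left).aemeasurable (hg.comp measurable_prodMk_left).aemeasurable
  simp only at h ⊢
  rw [h]
  exact mul_le_mul' le_rfl (hC x)

omit [InnerProductSpace ℂ F] in
/-- Tonelli for the weighted norm -/
theorem gbu_ton (a : Cfg r → Cfg ds → F) (ha : StronglyMeasurable (fun q : Cfg r × Cfg ds => a q.1 q.2))
    (kk : Cfg r × Cfg dm → ℝ) (hk : Measurable kk) (C : ℝ≥0∞)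
    (hC : ∀ η, ∫⁻ X : Cfg dm, ENNReal.ofReal ((1 + ‖X‖ ^ 2) ^ (dm + 1) * kk (η, X) ^ 2) ≤ C)
    (b : Cfg r × Cfg ds × Cfg dm → F)
    (hb : ∀ q, ‖b q‖ₑ ^ 2 ≤ ENNReal.ofReal (kk (q.1, q.2.2) ^ 2) * ‖a q.1 q.2.1‖ₑ ^ 2) :
    ∫⁻ q, ENNReal.ofReal ((1 + ‖q.2.2‖ ^ 2) ^ (dm + 1)) * ‖b q‖ₑ ^ 2
      ∂((volume : Measure (Cfg r)).prod ((volume : Measure (Cfg ds)).prod (volume : Measure (Cfg dm)))) ≤
      C * ∫⁻ q, ‖a q.1 q.2‖ₑ ^ 2 ∂((volume : Measure (Cfg r)).prod (volume : Measure (Cfg ds))) := by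
  have hA : Measurable fun q : Cfg r × Cfg ds => ‖a q.1 q.2‖ₑ ^ 2 := ha.enorm.pow_const 2
  have hn : Measurable fun p : Cfg r × Cfg dm => (1 + ‖p.2‖ ^ 2) ^ (dm + 1) :=
    Continuous.measurable (by fun_prop)
  have hG : Measurable fun p : Cfg r × Cfg dm =>
      ENNReal.ofReal ((1 + ‖p.2‖ ^ 2) ^ (dm + 1) * kk p ^ 2) := (hn.mul (hk.pow_const 2)).ennreal_ofReal
  refine le_trans (lintegral_mono fun q => ?_) (gbu_tri volume volume volume _ _ hA hG C hC)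
  simp only
  refine (mul_le_mul' le_rfl (hb q)).trans (le_of_eq ?_)
  rw [ENNReal.ofReal_mul (pow_nonneg (add_nonneg zero_le_one (sq_nonneg _)) _)]
  ring

/-- the global functional is in `L²` -/
theorem gbu_mem (φ : Spl dh dm d) (ψ : Spl r ds dh) {R : ℝ} (hR : 0 < R) {b : Cfg r × Cfg ds × Cfg dm → F}
    (hb : StronglyMeasurable b) (hZ : StronglyMeasurable (AN.Zb φ ψ b R))
    (hfin : ∫⁻ q, ENNReal.ofReal ((1 + ‖q.2.2‖ ^ 2) ^ (dm + 1)) * ‖b q‖ₑ ^ 2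
      ∂((volume : Measure (Cfg r)).prod ((volume : Measure (Cfg ds)).prod (volume : Measure (Cfg dm)))) < ⊤) :
    MemLp (AN.Zb φ ψ b R) 2 volume := by
  refine ⟨hZ.aestronglyMeasurable, ?_⟩
  rw [eLpNorm_lt_top_iff_lintegral_rpow_enorm_lt_top (by norm_num) (by norm_num)]
  have h := AN.wgt_total φ ψ R hR b hb
  refine lt_of_le_of_lt ?_ (h.trans_lt (ENNReal.mul_lt_top ENNReal.ofReal_lt_top hfin))
  refine lintegral_mono fun x => ?_
  simp only [ENNReal.toReal_ofNat, ENNReal.rpow_two]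
  refine le_mul_of_one_le_left zero_le ?_
  rw [← ENNReal.ofReal_one]
  refine ENNReal.ofReal_le_ofReal (one_le_pow₀ ?_)
  have := sq_nonneg ‖Real.sqrt R • AN.pm φ x‖
  linarith

/-- the slice norm of a test function -/
theorem gbu_res (S : Setup d F) (φ : Spl dh dm d) (y₀ : Cfg dh) (R ε : ℝ) {u : Cfg d → F} (hu : Setup.Tst u) :
    Continuous (fun p : Cfg dh × Wsp dm => S.res φ u p.1 p.2) ∧
    IntegrableOn (fun p : Cfg dh × Wsp dm => ‖S.res φ u p.1 p.2‖ ^ 2) (AN.Nb y₀ dm R ε)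
      ((volume : Measure (Cfg dh)).prod (volume : Measure (Wsp dm))) := by
  have hc : Continuous (fun p : Cfg dh × Wsp dm => S.res φ u p.1 p.2) := by
    unfold Setup.res
    refine Continuous.smul ?_ (hu.1.continuous.comp (AN.tbf_continuous_emb φ))
    exact Complex.continuous_ofReal.comp (Real.continuous_sqrt.comp ((AN.tbf_continuous_Jd S φ).comp continuous_fst))
  refine ⟨hc, ?_⟩
  have hK : IsCompact ((Metric.closedBall (R • y₀) (ε * R)) ×ˢ (Metric.closedBall (0 : Wsp dm) (ε * R))) :=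
    (isCompact_closedBall _ _).prod (isCompact_closedBall _ _)
  have hi : IntegrableOn (fun p : Cfg dh × Wsp dm => ‖S.res φ u p.1 p.2‖ ^ 2)
      ((Metric.closedBall (R • y₀) (ε * R)) ×ˢ (Metric.closedBall (0 : Wsp dm) (ε * R)))
      ((volume : Measure (Cfg dh)).prod (volume : Measure (Wsp dm))) :=
    (hc.norm.pow 2).continuousOn.integrableOn_compact hK
  refine hi.mono_set fun p hp => ⟨?_, ?_⟩
  · rw [Metric.mem_closedBall, dist_eq_norm]
    exact hp.1.le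
  · rw [Metric.mem_closedBall, dist_zero_right]
    exact hp.2.le

/-- Cauchy–Schwarz for the pairing -/
theorem gbu_cs {α : Type*} [MeasurableSpace α] (μ : Measure α) (f g : α → F) (hf : AEStronglyMeasurable f μ)
    (hg : AEStronglyMeasurable g μ) :
    ‖∫ x, inner ℂ (f x) (g x) ∂μ‖ₑ ^ 2 ≤ (∫⁻ x, ‖f x‖ₑ ^ 2 ∂μ) * ∫⁻ x, ‖g x‖ₑ ^ 2 ∂μ := by
  have h1 : ‖∫ x, inner ℂ (f x) (g x) ∂μ‖ₑ ≤ ∫⁻ x, ‖f x‖ₑ * ‖g x‖ₑ ∂μ := by
    refine (enorm_integral_le_lintegral_enorm _).trans (lintegral_mono fun x => ?_)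
    rw [← ofReal_norm, ← ofReal_norm, ← ofReal_norm, ← ENNReal.ofReal_mul (norm_nonneg _)]
    exact ENNReal.ofReal_le_ofReal (norm_inner_le_norm _ _)
  exact (pow_le_pow_left' h1 2).trans (AN.wgt_cs μ _ _ hf.enorm hg.enorm)

/-- **EG-GluB** uniform bound for the global functional near a point -/
theorem gluB (S : Setup d F) (hPair : AN.PairStmt S) (hWgt : AN.WgtStmt S) (hSup : AN.SupStmt S)
    (hMom : AN.MomStmt) (hNorm : AN.NormStmt S) (hMea : AN.MeaStmt S) : GluBStmt S := by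
  intro hF dh dm r ds φ ψ z₀ _ hstd
  obtain ⟨ε₁, ρ₁, hε₁, hρ₁, j, hj, hj0, hj1, hP⟩ := hPair hF dh dm φ (cmb ψ z₀ 0) hstd
  obtain ⟨ε₂, ρ₂, hε₂, hρ₂, hW⟩ := hWgt hF dh dm r ds φ ψ (cmb ψ z₀ 0) hstd
  obtain ⟨ε₃, ρ₃, hε₃, hρ₃, hS⟩ := hSup dh dm r ds φ ψ z₀ hstd
  obtain ⟨ε₄, ρ₄, hε₄, hρ₄, hN⟩ := hNorm dh dm φ (cmb ψ z₀ 0) hstd
  obtain ⟨ε, hε, he1, he2, he3, he4⟩ : ∃ ε : ℝ, 0 < ε ∧ ε ≤ ε₁ ∧ ε ≤ ε₂ ∧ ε ≤ ε₃ ∧ ε ≤ ε₄ :=
    ⟨min (min ε₁ ε₂) (min ε₃ ε₄), lt_min (lt_min hε₁ hε₂) (lt_min hε₃ hε₄),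
      (min_le_left _ _).trans (min_le_left _ _), (min_le_left _ _).trans (min_le_right _ _),
      (min_le_right _ _).trans (min_le_left _ _), (min_le_right _ _).trans (min_le_right _ _)⟩
  obtain ⟨ρ, hρ, hr1, hr2, hr3, hr4⟩ : ∃ ρ : ℝ, 0 < ρ ∧ ρ ≤ ρ₁ ∧ ρ ≤ ρ₂ ∧ ρ ≤ ρ₃ ∧ ρ ≤ ρ₄ :=
    ⟨min (min ρ₁ ρ₂) (min ρ₃ ρ₄), lt_min (lt_min hρ₁ hρ₂) (lt_min hρ₃ hρ₄),
      (min_le_left _ _).trans (min_le_left _ _), (min_le_left _ _).trans (min_le_right _ _),
      (min_le_right _ _).trans (min_le_left _ _), (min_le_right _ _).trans (min_le_right _ _)⟩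
  obtain ⟨δ₀, hδ₀, hsup⟩ := hS ε ρ hε he3 hρ hr3
  obtain ⟨c, _, hc, _, hnorm⟩ := hN ε ρ hε he4 hρ hr4
  obtain ⟨CW, hCW, hwgt⟩ := hW ε ρ hε he2 hρ hr2 j hj hj0 hj1 (fun R hR => (hP ε ρ hε he1 hρ hr1 R hR).1)
  refine ⟨δ₀, hδ₀, fun δ hδ hδδ Om hOm hOc => ?_⟩
  obtain ⟨hNc, hM⟩ := hMom r dm S.κ z₀ (2 * δ) (S.Dz φ ψ) Om S.κ_pos (by linarith) hOm hOc
  obtain ⟨CM, L, hCM, hL, hmom⟩ := hM 1 one_pos
  refine ⟨CW * CM / c, by positivity, fun a ha hsa R χ u hR hχm hχb hχs hu => ?_⟩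
  have hR0 : 0 < R := by linarith
  -- strongly measurable version of the section
  set B : Set (Cfg r × Cfg ds) := {q | ‖q.1 - z₀‖ ≤ δ} with hB
  have hBm : MeasurableSet B := (isClosed_le (by fun_prop) continuous_const).measurableSet
  set a' : Cfg r × Cfg ds → F := B.indicator (ha.1.mk _) with ha'
  have ha'm : StronglyMeasurable a' := ha.1.stronglyMeasurable_mk.indicator hBm
  have haa : (fun q : Cfg r × Cfg ds => a q.1 q.2) =ᵐ[(volume : Measure (Cfg r)).prod (volume : Measure (Cfg ds))]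
      a' := by
    filter_upwards [ha.1.ae_eq_mk] with q hq
    by_cases hqB : q ∈ B
    · rw [ha', Set.indicator_of_mem hqB]
      exact hq
    · rw [ha', Set.indicator_of_notMem hqB]
      by_contra h
      exact hqB (hsa q.1 q.2 h)
  have hsa' : ∀ η s, a' (η, s) ≠ 0 → ‖η - z₀‖ ≤ δ := by
    intro η s h
    by_contra h2
    exact h (Set.indicator_of_notMem (s := B) (a := ((η, s) : Cfg r × Cfg ds)) h2 _)
  have hZL : ZL S φ ψ Om χ R a u = ZL S φ ψ Om χ R (fun η s => a' (η, s)) u := by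
    unfold ZL
    refine integral_congr_ae ?_
    filter_upwards [gbu_ae φ ψ hR0 haa] with x hx
    simp only [AN.Zb, AN.bG, hx]
  rw [hZL]
  -- the profile
  set s : Set (Cfg r) := {η | ‖η - z₀‖ ≤ 2 * δ} with hs
  have hsm : MeasurableSet s := (isClosed_le (by fun_prop) continuous_const).measurableSet
  set kk : Cfg r × Cfg dm → ℝ := gbu_kk S.κ Om s with hkk
  have hkkm : Measurable kk := gbu_kk_meas S.κ Om s hsm hOc hNc
  have hkC : ∀ η, ∫⁻ X : Cfg dm, ENNReal.ofReal ((1 + ‖X‖ ^ 2) ^ (dm + 1) * kk (η, X) ^ 2) ≤ ENNReal.ofReal CM := by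
    intro η
    by_cases hη : η ∈ s
    · refine le_trans (le_of_eq ?_) (hmom η hη).1
      refine lintegral_congr fun X => ?_
      have : kk (η, X) = gbu_k S.κ Om (η, X) :=
        Set.indicator_of_mem (s := {p : Cfg r × Cfg dm | p.1 ∈ s}) (a := ((η, X) : Cfg r × Cfg dm)) hη _
      rw [this, gbu_k]
    · have h0 : ∀ X : Cfg dm, kk (η, X) = 0 := fun X =>
        Set.indicator_of_notMem (s := {p : Cfg r × Cfg dm | p.1 ∈ s}) (a := ((η, X) : Cfg r × Cfg dm)) hη _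
      simp [h0]
  set b : Cfg r × Cfg ds × Cfg dm → F := fun q => ((χ q : ℝ) : ℂ) • AN.bG S.κ Om (fun η s => a' (η, s)) q with hb
  have hbe : b = fun q => ((χ q * kk (q.1, q.2.2) : ℝ) : ℂ) • a' (q.1, q.2.1) := by
    funext q
    by_cases h0 : a' (q.1, q.2.1) = 0
    · simp [hb, AN.bG, h0]
    · have h1 := hsa' _ _ h0
      have h2 : q.1 ∈ s := by
        show ‖q.1 - z₀‖ ≤ 2 * δ
        linarith
      have h3 : kk (q.1, q.2.2) = gbu_k S.κ Om (q.1, q.2.2) :=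
        Set.indicator_of_mem (s := {p : Cfg r × Cfg dm | p.1 ∈ s}) (a := ((q.1, q.2.2) : Cfg r × Cfg dm)) h2 _
      rw [h3]
      simp only [hb, AN.bG, gbu_k]
      rw [smul_smul, ← Complex.ofReal_mul]
  have hbm : StronglyMeasurable b := by
    rw [hbe]
    have m1 : Measurable fun q : Cfg r × Cfg ds × Cfg dm => χ q * kk (q.1, q.2.2) := by fun_prop
    have m2 : StronglyMeasurable fun q : Cfg r × Cfg ds × Cfg dm => a' (q.1, q.2.1) :=
      ha'm.comp_measurable (by fun_prop)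
    exact (Complex.measurable_ofReal.comp m1).stronglyMeasurable.smul m2
  have hbb : ∀ q, ‖b q‖ₑ ^ 2 ≤ ENNReal.ofReal (kk (q.1, q.2.2) ^ 2) * ‖a' (q.1, q.2.1)‖ₑ ^ 2 := by
    intro q
    rw [hbe]
    simp only
    rw [enorm_smul, mul_pow]
    refine mul_le_mul' ?_ le_rfl
    rw [← ofReal_norm, Complex.norm_real, ← ENNReal.ofReal_pow (norm_nonneg _)]
    refine ENNReal.ofReal_le_ofReal ?_
    rw [Real.norm_eq_abs, sq_abs, mul_pow]
    have h1 := (hχb q).1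
    have h2 := (hχb q).2
    have h3 : χ q ^ 2 ≤ 1 := pow_le_one₀ h1 h2
    exact mul_le_of_le_one_left (sq_nonneg _) h3
  have hton := gbu_ton (fun η s => a' (η, s)) ha'm kk hkkm (ENNReal.ofReal CM) hkC b hbb
  have hAe : ∫⁻ q, ‖a' (q.1, q.2)‖ₑ ^ 2 ∂((volume : Measure (Cfg r)).prod (volume : Measure (Cfg ds))) =
      ENNReal.ofReal (∫ q, ‖a q.1 q.2‖ ^ 2 ∂((volume : Measure (Cfg r)).prod (volume : Measure (Cfg ds)))) := by
    rw [ofReal_integral_eq_lintegral_ofReal ((memLp_two_iff_integrable_sq_norm ha.1).1 ha)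
      (ae_of_all _ fun q => by positivity)]
    refine lintegral_congr_ae ?_
    filter_upwards [haa] with q hq
    have hq' : a q.1 q.2 = a' (q.1, q.2) := hq
    rw [hq', ENNReal.ofReal_pow (norm_nonneg _), ofReal_norm]
  set A : ℝ := ∫ q, ‖a q.1 q.2‖ ^ 2 ∂((volume : Measure (Cfg r)).prod (volume : Measure (Cfg ds))) with hA
  have hA0 : 0 ≤ A := integral_nonneg fun q => by positivity
  rw [hAe] at hton
  have hfin := lt_of_le_of_lt hton (ENNReal.mul_lt_top ENNReal.ofReal_lt_top ENNReal.ofReal_lt_top)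
  have hZm : StronglyMeasurable (AN.Zb φ ψ b R) := ((hMea hF dh dm r ds φ ψ hstd.sub).2.1 R b hbm).1
  have hZ2 := gbu_mem φ ψ hR0 hbm hZm hfin
  have hbs : ∀ q, b q ≠ 0 → ‖q.1 - z₀‖ ≤ δ₀ ∧ ‖q.2.1‖ ≤ δ₀ * R ∧ ‖q.2.2‖ ≤ δ₀ * (R * Real.sqrt R) := by
    intro q hq
    have h1 : χ q ≠ 0 := by
      intro h
      apply hq
      simp [hb, h]
    have h2 : a' (q.1, q.2.1) ≠ 0 := by
      intro h
      apply hq
      simp [hb, AN.bG, h]
    have h3 := hχs q h1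
    refine ⟨(hsa' _ _ h2).trans hδδ, h3.1.trans ?_, h3.2.trans ?_⟩
    · exact mul_le_mul_of_nonneg_right hδδ hR0.le
    · exact mul_le_mul_of_nonneg_right hδδ (mul_nonneg hR0.le (Real.sqrt_nonneg R))
  have hpair := (hP ε ρ hε he1 hρ hr1 R hR0).2 (AN.Zb φ ψ b R) u hZm hZ2 (hsup R hR0 b hbs) hu.tst hu.inv
  have hZe : ZL S φ ψ Om χ R (fun η s => a' (η, s)) u = ∫ x, inner ℂ (AN.Zb φ ψ b R x) (u x) := rfl
  rw [hZe, hpair]
  obtain ⟨hrc, hri⟩ := gbu_res S φ (cmb ψ z₀ 0) R ε hu.tst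
  have hZtm : StronglyMeasurable (AN.Zt S φ j ρ (AN.Zb φ ψ b R)) :=
    (hMea hF dh dm r ds φ ψ hstd.sub).1 j ρ _ hj hZm
  have hcs := gbu_cs (((volume : Measure (Cfg dh)).prod (volume : Measure (Wsp dm))).restrict
    (AN.Nb (cmb ψ z₀ 0) dm R ε)) (AN.Zt S φ j ρ (AN.Zb φ ψ b R)) (fun p => S.res φ u p.1 p.2)
    hZtm.aestronglyMeasurable hrc.aestronglyMeasurable
  have hw := hwgt R hR b hbm
  have hres : ∫⁻ p in AN.Nb (cmb ψ z₀ 0) dm R ε, ‖S.res φ u p.1 p.2‖ₑ ^ 2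
      ∂((volume : Measure (Cfg dh)).prod (volume : Measure (Wsp dm))) ≤ ENNReal.ofReal (nsq u / c) := by
    have e1 : ∫⁻ p in AN.Nb (cmb ψ z₀ 0) dm R ε, ‖S.res φ u p.1 p.2‖ₑ ^ 2
      ∂((volume : Measure (Cfg dh)).prod (volume : Measure (Wsp dm))) =
      ENNReal.ofReal (∫ p in AN.Nb (cmb ψ z₀ 0) dm R ε, ‖S.res φ u p.1 p.2‖ ^ 2
        ∂((volume : Measure (Cfg dh)).prod (volume : Measure (Wsp dm)))) := by
      rw [ofReal_integral_eq_lintegral_ofReal hri (ae_of_all _ fun q => by positivity)]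
      refine lintegral_congr fun p => ?_
      rw [ENNReal.ofReal_pow (norm_nonneg _), ofReal_norm]
    rw [e1]
    refine ENNReal.ofReal_le_ofReal ?_
    have e2 := ((hnorm R hR0).2 u hu.tst hu.inv).1
    rw [le_div_iff₀ hc, mul_comm, ← e2]
    have hui : Integrable (fun x => ‖u x‖ ^ 2) := by
      refine Continuous.integrable_of_hasCompactSupport (hu.tst.1.continuous.norm.pow 2) ?_
      refine hu.tst.2.mono ?_
      intro x hx h
      apply hx
      simp [h]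
    exact setIntegral_le_integral hui (ae_of_all _ fun x => by positivity)
  have hfinal := hcs.trans (mul_le_mul' (hw.trans (mul_le_mul' le_rfl hton)) hres)
  have hn0 : 0 ≤ nsq u := integral_nonneg fun x => by positivity
  rw [← ofReal_norm, ← ENNReal.ofReal_pow (norm_nonneg _), ← ENNReal.ofReal_mul hCM.le,
    ← ENNReal.ofReal_mul hCW.le, ← ENNReal.ofReal_mul (by positivity),
    ENNReal.ofReal_le_ofReal_iff (by positivity)] at hfinal
  refine hfinal.trans (le_of_eq ?_)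
  ring

end Vale.Agent.P353.Z.AE
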