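import Vale.Agent.P353.AN.E.StmtL

/-! # P353, all `N`, block E: limit equation in coefficient form (helper916) -/

open MeasureTheory Filter Topology Matrix
open scoped ContDiff

namespace Vale.Agent.P353.Z.AE

variable {d dh dm r ds n : ℕ} {F : Type*} [NormedAddCommGroup F] [InnerProductSpace ℂ F]

/-- components of a vector valued profile -/
private noncomputable def ld916c (b : Cfg r → AL.Ek n) (j : Fin n) (η : Cfg r) : ℂ := b η j

private lemma ld916_sm {b : Cfg r → AL.Ek n} (hb : ContDiff ℝ ∞ b) (j : Fin n) : ContDiff ℝ ∞ (ld916c b j) :=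
  ((EuclideanSpace.proj j : AL.Ek n →L[ℂ] ℂ).restrictScalars ℝ).contDiff.comp hb

private lemma ld916_ts (b : Cfg r → AL.Ek n) (j : Fin n) : tsupport (ld916c b j) ⊆ tsupport b := by
  refine closure_mono fun x hx h => hx ?_
  show b x j = 0
  rw [h]
  rfl

private lemma ld916_cs {b : Cfg r → AL.Ek n} (hb : HasCompactSupport b) (j : Fin n) : HasCompactSupport (ld916c b j) :=
  hb.of_isClosed_subset (isClosed_tsupport _) (ld916_ts b j)

/-- the value of a coefficient vector at the internal point `s` -/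
private noncomputable def ld916i (o : Fin n → Cfg ds → F) (s : Cfg ds) : AL.Ek n →ₗ[ℂ] F where
  toFun v := ∑ j, v j • o j s
  map_add' := by
    intro v w
    simp only [PiLp.add_apply, add_smul, Finset.sum_add_distrib]
  map_smul' := by
    intro c v
    simp only [PiLp.smul_apply, smul_eq_mul, mul_smul, Finset.smul_sum, RingHom.id_apply]

private lemma ld916i_apply (o : Fin n → Cfg ds → F) (s : Cfg ds) (v : AL.Ek n) : ld916i o s v = ∑ j, v j • o j s := rfl

private lemma ld916_th (S : Setup d F) (φ : Spl dh dm d) (ψ : Spl r ds dh) (o : Fin n → Cfg ds → F)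
    (T : Setup r (AL.Ek n)) (s : Cfg ds)
    (hs : ∀ α A k, S.th α (φ (Sum.inl (ψ (Sum.inl A)))) (o k s) = ∑ j, T.th α A (EuclideanSpace.single k 1) j • o j s)
    (α : Fin 16) (A : Fin r) (v : AL.Ek n) :
    S.th α (φ (Sum.inl (ψ (Sum.inl A)))) (ld916i o s v) = ld916i o s (T.th α A v) := by
  have h : (S.th α (φ (Sum.inl (ψ (Sum.inl A)))) : F →ₗ[ℂ] F) ∘ₗ ld916i o s =
      ld916i o s ∘ₗ (T.th α A : AL.Ek n →ₗ[ℂ] AL.Ek n) := by
    refine (EuclideanSpace.basisFun (Fin n) ℂ).toBasis.ext fun k => ?_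
    rw [OrthonormalBasis.coe_toBasis, EuclideanSpace.basisFun_apply]
    simp only [LinearMap.comp_apply, ContinuousLinearMap.coe_coe]
    rw [ld916i_apply, ld916i_apply, ← hs α A k]
    congr 1
    rw [Finset.sum_eq_single k]
    · simp
    · intro j _ hj
      simp [hj]
    · intro h
      exact absurd (Finset.mem_univ k) h
  exact LinearMap.congr_fun h v

private lemma ld916_vec (S : Setup d F) (φ : Spl dh dm d) (ψ : Spl r ds dh) (o : Fin n → Cfg ds → F)
    (T : Setup r (AL.Ek n)) (s : Cfg ds)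
    (hs : ∀ α A k, S.th α (φ (Sum.inl (ψ (Sum.inl A)))) (o k s) = ∑ j, T.th α A (EuclideanSpace.single k 1) j • o j s)
    (N : Matrix (Fin 16) (Fin 16) ℂ) (A : Fin r) (β : Fin 16) (v : AL.Ek n) :
    S.vec N (φ (Sum.inl (ψ (Sum.inl A)))) β (ld916i o s v) = ld916i o s (T.vec N A β v) := by
  simp only [CS.vec, _root_.sum_apply, _root_.smul_apply, map_sum, map_smul,
    ld916_th S φ ψ o T s hs]

private lemma ld916_pd (o : Cfg ds → F) (ζ : Cfg r → ℂ) (hζ : ContDiff ℝ ∞ ζ) (i : Fin 9) (A : Fin r) (η : Cfg r) (s : Cfg ds) :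
    pd i A (fun y' => ζ y' • o s) η = pd i A ζ η • o s := by
  have h1 : HasFDerivAt ζ (fderiv ℝ ζ η) η := (hζ.differentiable (by simp) η).hasFDerivAt
  have h2 := h1.smul_const (o s)
  rw [pd, h2.fderiv]
  rfl

private lemma ld916_pdc {b : Cfg r → AL.Ek n} (hb : ContDiff ℝ ∞ b) (j : Fin n) (i : Fin 9) (A : Fin r) (η : Cfg r) :
    pd i A (ld916c b j) η = (pd i A b η) j := by
  have h1 : HasFDerivAt b (fderiv ℝ b η) η := (hb.differentiable (by simp) η).hasFDerivAt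
  have h2 := ((EuclideanSpace.proj j : AL.Ek n →L[ℂ] ℂ).restrictScalars ℝ).hasFDerivAt.comp η h1
  have h3 : HasFDerivAt (ld916c b j)
      (((EuclideanSpace.proj j : AL.Ek n →L[ℂ] ℂ).restrictScalars ℝ).comp (fderiv ℝ b η)) η := h2
  rw [pd, h3.fderiv]
  rfl

private lemma ld916_sum3 {M : Type*} [AddCommMonoid M] (f : Fin 9 → Fin r → Fin n → M) :
    ∑ i, ∑ A, ∑ j, f i A j = ∑ j, ∑ i, ∑ A, f i A j :=
  (Finset.sum_congr rfl fun _ _ => Finset.sum_comm).trans Finset.sum_comm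

/-- the free supercharge in coefficients -/
private lemma ld916_FD (S : Setup d F) (φ : Spl dh dm d) (ψ : Spl r ds dh) (o : Fin n → Cfg ds → F)
    (T : Setup r (AL.Ek n)) (hT : T.g = S.g) (s : Cfg ds)
    (hs : ∀ α A k, S.th α (φ (Sum.inl (ψ (Sum.inl A)))) (o k s) = ∑ j, T.th α A (EuclideanSpace.single k 1) j • o j s)
    {b : Cfg r → AL.Ek n} (hb : ContDiff ℝ ∞ b) (β : Fin 16) (η : Cfg r) :
    ld916i o s (T.FD β b η) = ∑ j, S.DF φ ψ (AN.N0 S) 1 β (pp (ld916c b j) (o j)) η s := by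
  have hG : T.Gam = S.Gam := by simp only [Setup.Gam, hT]
  have e1 : ∀ i A, ld916i o s (T.vec (T.g i) A β (pd i A b η)) =
      ∑ j, S.vec (S.g i) (φ (Sum.inl (ψ (Sum.inl A)))) β (pd i A (fun y' => pp (ld916c b j) (o j) y' s) η) := by
    intro i A
    rw [← ld916_vec S φ ψ o T s hs, hT, ← map_sum]
    congr 1
    rw [ld916i_apply]
    refine Finset.sum_congr rfl fun j _ => ?_
    simp only [pp]
    rw [ld916_pd (o j) (ld916c b j) (ld916_sm hb j), ld916_pdc hb]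
  have e2 : ∀ i A, ld916i o s (T.vec (T.g i * T.Gam) A β (b η)) =
      ∑ j, S.vec (S.g i * S.Gam) (φ (Sum.inl (ψ (Sum.inl A)))) β (pp (ld916c b j) (o j) η s) := by
    intro i A
    rw [← ld916_vec S φ ψ o T s hs, hT, hG, ← map_sum]
    rfl
  have e3 : T.MM β η (b η) = ∑ i, ∑ A, ((aw i * η (i, A) : ℝ) : ℂ) • T.vec (T.g i * T.Gam) A β (b η) := by
    simp only [Setup.MM, _root_.sum_apply, _root_.smul_apply]
  have e4 : ∀ (i : Fin 9) (A : Fin r) (j : Fin n), S.vec (AN.N0 S i) (φ (Sum.inl (ψ (Sum.inl A)))) β (pp (ld916c b j) (o j) η s) =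
      ((aw i : ℝ) : ℂ) • S.vec (S.g i * S.Gam) (φ (Sum.inl (ψ (Sum.inl A)))) β (pp (ld916c b j) (o j) η s) := by
    intro i A j
    rw [AN.N0, CS.vec_smul]
    rfl
  rw [Setup.FD, Setup.Q0, e3, map_add, map_smul]
  simp only [Setup.DF, Finset.sum_add_distrib, map_sum, map_smul, e1, e2, e4]
  congr 1
  · rw [ld916_sum3, Finset.smul_sum]
  · simp only [Complex.ofReal_one, Finset.smul_sum, smul_smul]
    rw [ld916_sum3]
    refine Finset.sum_congr rfl fun j _ => Finset.sum_congr rfl fun i _ => Finset.sum_congr rfl fun A _ => ?_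
    congr 1
    push_cast
    ring

private lemma ld916_mem (U : Cfg r → F →L[ℂ] F) (hUn : ∀ η v w, inner ℂ (U η v) (U η w) = inner ℂ v w)
    {A : Set (Cfg r)} (hA : IsCompact A) (hU : ContinuousOn U A) {ζ : Cfg r → ℂ} (hζ : Continuous ζ)
    (hz : ∀ η, η ∉ A → ζ η = 0) {o : Cfg ds → F} (ho : MemLp o 2 (volume : Measure (Cfg ds))) (X : F →L[ℂ] F) :
    MemLp (fun q : Cfg r × Cfg ds => U q.1 (ζ q.1 • X (o q.2))) 2 (volume.prod volume) := by
  have hAm : MeasurableSet A := hA.measurableSet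
  have hUm : AEStronglyMeasurable (A.indicator U) (volume : Measure (Cfg r)) :=
    (aestronglyMeasurable_indicator_iff hAm).2 (hU.aestronglyMeasurable hAm)
  have hXo : MemLp (fun s => X (o s)) 2 (volume : Measure (Cfg ds)) := X.comp_memLp' ho
  have hg1 : AEStronglyMeasurable (fun q : Cfg r × Cfg ds => ζ q.1 • X (o q.2)) (volume.prod volume) :=
    (hζ.aestronglyMeasurable.comp_fst).smul hXo.1.comp_snd
  have hg : MemLp (fun q : Cfg r × Cfg ds => ζ q.1 • X (o q.2)) 2 (volume.prod volume) := by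
    rw [memLp_two_iff_integrable_sq_norm hg1]
    have h1 : Integrable (fun η => ‖ζ η‖ ^ 2) (volume : Measure (Cfg r)) :=
      (hζ.norm.pow 2).integrable_of_hasCompactSupport (HasCompactSupport.intro hA fun x hx => by
        simp [hz x hx])
    have h2 : Integrable (fun s => ‖X (o s)‖ ^ 2) (volume : Measure (Cfg ds)) :=
      (memLp_two_iff_integrable_sq_norm hXo.1).1 hXo
    refine (h1.mul_prod h2).congr (Eventually.of_forall fun q => ?_)
    simp only [norm_smul, mul_pow]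
  have he : (fun q : Cfg r × Cfg ds => U q.1 (ζ q.1 • X (o q.2))) =
      fun q => (A.indicator U q.1) (ζ q.1 • X (o q.2)) := by
    funext q
    by_cases h : q.1 ∈ A
    · rw [Set.indicator_of_mem h]
    · rw [Set.indicator_of_notMem h, hz _ h, zero_smul, map_zero]
      rfl
  have hm : AEStronglyMeasurable (fun q : Cfg r × Cfg ds => U q.1 (ζ q.1 • X (o q.2))) (volume.prod volume) := by
    rw [he]
    exact (ContinuousLinearMap.id ℂ (F →L[ℂ] F)).aestronglyMeasurable_comp₂ hUm.comp_fst hg1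
  refine hg.mono hm (Eventually.of_forall fun q => le_of_eq ?_)
  have h1 := congrArg Complex.re (hUn q.1 (ζ q.1 • X (o q.2)) (ζ q.1 • X (o q.2)))
  have h2 : ∀ v : F, (inner ℂ v v : ℂ).re = ‖v‖ ^ 2 := fun v => inner_self_eq_norm_sq (𝕜 := ℂ) v
  rw [h2, h2] at h1
  exact (sq_eq_sq₀ (norm_nonneg _) (norm_nonneg _)).1 h1

private lemma ld916_DF (S : Setup d F) (φ : Spl dh dm d) (ψ : Spl r ds dh) (N : Fin 9 → Matrix (Fin 16) (Fin 16) ℂ)
    (β : Fin 16) {ζ : Cfg r → ℂ} (hζ : ContDiff ℝ ∞ ζ) (o : Cfg ds → F) (η : Cfg r) (s : Cfg ds) :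
    S.DF φ ψ N 1 β (pp ζ o) η s =
      (∑ i, ∑ A, (-Complex.I * pd i A ζ η) • S.vec (S.g i) (φ (Sum.inl (ψ (Sum.inl A)))) β (o s)) +
      ∑ i, ∑ A, (((η (i, A) : ℝ) : ℂ) * ζ η) • S.vec (N i) (φ (Sum.inl (ψ (Sum.inl A)))) β (o s) := by
  simp only [Setup.DF, pp, ld916_pd o ζ hζ, map_smul, Complex.ofReal_one, one_mul, Finset.smul_sum, smul_smul]

private lemma ld916_memDF [FiniteDimensional ℂ F] (S : Setup d F) (φ : Spl dh dm d) (ψ : Spl r ds dh)
    (N : Fin 9 → Matrix (Fin 16) (Fin 16) ℂ) (β : Fin 16) {ζ : Cfg r → ℂ} (hζ : ContDiff ℝ ∞ ζ)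
    (hc : HasCompactSupport ζ) (U : Cfg r → F →L[ℂ] F) (hUn : ∀ η v w, inner ℂ (U η v) (U η w) = inner ℂ v w)
    (hU : ContinuousOn U (tsupport ζ)) {o : Cfg ds → F} (ho : MemLp o 2 (volume : Measure (Cfg ds))) :
    MemLp (fun q : Cfg r × Cfg ds => U q.1 (S.DF φ ψ N 1 β (pp ζ o) q.1 q.2)) 2 (volume.prod volume) := by
  have h0 : ∀ η, η ∉ tsupport ζ → ζ η = 0 := fun η h => image_eq_zero_of_notMem_tsupport h
  have h1 : ∀ i A η, η ∉ tsupport ζ → pd i A ζ η = 0 := by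
    intro i A η h
    rw [pd, fderiv_of_notMem_tsupport ℝ h]
    rfl
  have hcp : ∀ (i : Fin 9) (A : Fin r), Continuous (pd i A ζ) := fun i A =>
    (hζ.continuous_fderiv (by simp)).clm_apply continuous_const
  simp only [ld916_DF S φ ψ N β hζ, map_add, map_sum]
  refine MemLp.add (memLp_finsetSum _ fun i _ => memLp_finsetSum _ fun A _ => ?_)
    (memLp_finsetSum _ fun i _ => memLp_finsetSum _ fun A _ => ?_)
  · exact ld916_mem U hUn hc hU (ζ := fun η => -Complex.I * pd i A ζ η) (continuous_const.mul (hcp i A))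
      (fun η h => by simp only [h1 i A η h, mul_zero]) ho _
  · refine ld916_mem U hUn hc hU (ζ := fun η => ((η (i, A) : ℝ) : ℂ) * ζ η) ?_ (fun η h => by
      simp only [h0 η h, mul_zero]) ho _
    exact (Complex.continuous_ofReal.comp (by fun_prop)).mul hζ.continuous

private lemma ld916_supDF (S : Setup d F) (φ : Spl dh dm d) (ψ : Spl r ds dh)
    (N : Fin 9 → Matrix (Fin 16) (Fin 16) ℂ) (β : Fin 16) {ζ : Cfg r → ℂ} (hζ : ContDiff ℝ ∞ ζ)
    (o : Cfg ds → F) (η : Cfg r) (s : Cfg ds) (h : η ∉ tsupport ζ) : S.DF φ ψ N 1 β (pp ζ o) η s = 0 := by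
  have h1 : ∀ i A, pd i A ζ η = 0 := by
    intro i A
    rw [pd, fderiv_of_notMem_tsupport ℝ h]
    rfl
  rw [ld916_DF S φ ψ N β hζ]
  simp only [h1, image_eq_zero_of_notMem_tsupport h, mul_zero, zero_smul, Finset.sum_const_zero, add_zero]

private lemma ld916_ZLsum (S : Setup d F) (φ : Spl dh dm d) (ψ : Spl r ds dh) (Om : Cfg r → Matrix (Fin dm) (Fin dm) ℝ)
    (χ : Cfg r × Cfg ds × Cfg dm → ℝ) (R : ℝ) (a : Fin n → Cfg r → Cfg ds → F) (u : Cfg d → F)
    (hI : ∀ j, Integrable (fun x => inner ℂ (AN.Zb φ ψ (fun q => ((χ q : ℝ) : ℂ) • AN.bG S.κ Om (a j) q) R x) (u x))) :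
    ZL S φ ψ Om χ R (fun η s => ∑ j, a j η s) u = ∑ j, ZL S φ ψ Om χ R (a j) u := by
  simp only [ZL]
  rw [← integral_finsetSum _ fun j _ => hI j]
  refine integral_congr_ae (Eventually.of_forall fun x => ?_)
  simp only [AN.Zb, AN.bG, Finset.smul_sum, sum_inner]

/-- projection on the internal coordinates -/
private noncomputable def ld916p (φ : Spl dh dm d) (ψ : Spl r ds dh) : Cfg d →ₗ[ℝ] Cfg ds where
  toFun x := AN.hs ψ (AN.zy φ x)
  map_add' := by
    intro x y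
    ext p
    rfl
  map_smul' := by
    intro c x
    ext p
    rfl

private lemma ld916p_surj (φ : Spl dh dm d) (ψ : Spl r ds dh) : Function.Surjective (ld916p (r := r) (ds := ds) φ ψ) := by
  intro s
  refine ⟨WithLp.toLp 2 fun p => Sum.elim (fun A => Sum.elim (fun _ => 0) (fun B => s (p.1, B)) (ψ.symm A))
    (fun _ => 0) (φ.symm p.2), ?_⟩
  ext p
  show Sum.elim (fun A => Sum.elim (fun _ => 0) (fun B => s (p.1, B)) (ψ.symm A))
    (fun _ => 0) (φ.symm (φ (Sum.inl (ψ (Sum.inr p.2))))) = s p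
  rw [Equiv.symm_apply_apply, Sum.elim_inl, Equiv.symm_apply_apply, Sum.elim_inr]

private lemma ld916_ZLcongr (S : Setup d F) (φ : Spl dh dm d) (ψ : Spl r ds dh) (Om : Cfg r → Matrix (Fin dm) (Fin dm) ℝ)
    (χ : Cfg r × Cfg ds × Cfg dm → ℝ) (R : ℝ) (a a' : Cfg r → Cfg ds → F) (u : Cfg d → F) (P : Cfg ds → Prop)
    (hP : ∀ᵐ s ∂(volume : Measure (Cfg ds)), P s) (h : ∀ s, P s → ∀ η, a η s = a' η s) :
    ZL S φ ψ Om χ R a u = ZL S φ ψ Om χ R a' u := by
  obtain ⟨t, ht, htm, htp⟩ := hP.exists_measurable_mem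
  have hx := (MeasureTheory.ae_comp_linearMap_mem_iff (ld916p (r := r) (ds := ds) φ ψ) (volume : Measure (Cfg d))
    (volume : Measure (Cfg ds)) (ld916p_surj φ ψ) htm).2 ht
  refine integral_congr_ae ?_
  filter_upwards [hx] with x hx
  have h1 : ∀ η, a η (AN.hs ψ (AN.zy φ x)) = a' η (AN.hs ψ (AN.zy φ x)) := h _ (htp _ hx)
  simp only [AN.Zb, AN.bG, h1]

/-- **EG-LimD** -/
theorem limD (S : Setup d F)
    (hG : ∀ (dh dm r ds : ℕ) (φ : Spl dh dm d) (ψ : Spl r ds dh), GLimStmt S φ ψ ∧ ZIntStmt S φ ψ)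
    (hZ : ∀ (e : ℕ) (T : Setup e F), ZmStmt T) (hF : AN.FrameStmt S) : LimDStmt S := by
  intro fin dh dm r ds n φ ψ L Om K U o T hD χ hχ R Ψ C hB β b hb
  have := fin
  have hQ : ∀ (m : ℝ) (β : Fin 16) (u : Cfg d → F), QN S (AN.N0 S) m β u = S.Qm m β u := by
    intro m β u
    funext x
    rw [QN, Setup.Qm, hF.2.1]
  have hj := fun j => (hG dh dm r ds φ ψ).1 fin hD.sub hD.cen (AN.N0 S) hF.1 L Om K U hD.bun (ld916c b j)
    (ld916_sm hb.1.1 j) (ld916_cs hb.1.2 j) (hb.2.mono_left (ld916_ts b j))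
  choose δ hδ hlim using hj
  have hIz : ∀ j, IZm (S.int φ ψ hD.sub hD.cen) K (o j) := fun j =>
    hZ ds _ fin K (fun α A v hv => hD.bun.K_th α (spsw ψ (Sum.inl A)) v hv) (o j) (hD.zm j) (hD.mem j) (hD.val j)
  have hk : ∀ᶠ k in atTop, 1 ≤ R k ∧ ∀ j, ∀ q, χ (R k) q ≠ 0 →
      ‖q.2.1‖ ≤ δ j * R k ∧ ‖q.2.2‖ ≤ δ j * (R k * Real.sqrt (R k)) := by
    refine (hB.R_lim.eventually_ge_atTop 1).and ?_
    rw [eventually_all]
    intro j
    exact hB.R_lim.eventually (hχ.sup (δ j) (hδ j))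
  obtain ⟨k0, hk0⟩ := eventually_atTop.1 hk
  rw [← tendsto_add_atTop_iff_nat k0]
  have hR' : Tendsto (fun k => R (k + k0)) atTop atTop := (tendsto_add_atTop_iff_nat k0).2 hB.R_lim
  have hm : ∀ k, (1 : ℝ) / R (k + k0) ^ 2 = (R (k + k0))⁻¹ ^ 2 := by
    intro k
    rw [one_div, inv_pow]
  have hS : SqN S (AN.N0 S) 1 C (fun k => R (k + k0)) (fun k => Ψ (k + k0)) := by
    refine ⟨fun k => (hk0 (k + k0) (by omega)).1, hR', fun k => ⟨(hB.inv _).1, (hB.inv _).2⟩,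
      fun k => hB.norm _, fun k => ?_⟩
    simp only [hm, hQ]
    exact hB.energy (k + k0)
  have hC : ∀ j, CutA (δ j) (fun k => R (k + k0)) (fun k => χ (R (k + k0))) := fun j =>
    ⟨fun k => hχ.meas _, fun k q => hχ.bd _ q, fun q => (hχ.lim q).comp hR', fun k => (hk0 (k + k0) (by omega)).2 j⟩
  have hsum := tendsto_finsetSum Finset.univ fun j _ => hlim j 1 zero_le_one (o j) (hIz j) (fun k => R (k + k0))
    (fun k => Ψ (k + k0)) C hS (fun k => χ (R (k + k0))) (hC j) β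
  rw [Finset.sum_const_zero] at hsum
  -- integrability
  have hUc : ∀ j, ContinuousOn U (tsupport (ld916c b j)) := fun j =>
    hD.bun.U_smooth.continuousOn.mono fun η hη => Set.disjoint_left.1 hb.2 (ld916_ts b j hη)
  obtain ⟨-, hint⟩ := (hG dh dm r ds φ ψ).2 fin hD.sub hD.cen L Om K U hD.bun (tsupport b) hb.1.2 hb.2
  have hI1 : ∀ k j, ∀ u : Cfg d → F, Setup.Tst u → Integrable (fun x => inner ℂ (AN.Zb φ ψ (fun q =>
      ((χ (R (k + k0)) q : ℝ) : ℂ) • AN.bG S.κ Om (fun η s => U η (pp (ld916c b j) (o j) η s)) q) (R (k + k0)) x) (u x)) := by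
    intro k j u hu
    refine hint _ ?_ ?_ _ _ u (hk0 (k + k0) (by omega)).1 (hχ.meas _) (hχ.bd _) hu
    · exact ld916_mem U hD.bun.U_inner (ld916_cs hb.1.2 j) (hUc j) (ld916_sm hb.1.1 j).continuous
        (fun η h => image_eq_zero_of_notMem_tsupport h) (hD.mem j) (ContinuousLinearMap.id ℂ F)
    · intro η s h
      by_contra h1
      refine h ?_
      have h2 : ld916c b j η = 0 := image_eq_zero_of_notMem_tsupport fun h3 => h1 (ld916_ts b j h3)
      rw [pp, h2, zero_smul, map_zero]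
  have hI2 : ∀ k j, ∀ u : Cfg d → F, Setup.Tst u → Integrable (fun x => inner ℂ (AN.Zb φ ψ (fun q =>
      ((χ (R (k + k0)) q : ℝ) : ℂ) • AN.bG S.κ Om
        (fun η s => U η (S.DF φ ψ (AN.N0 S) 1 β (pp (ld916c b j) (o j)) η s)) q) (R (k + k0)) x) (u x)) := by
    intro k j u hu
    refine hint _ ?_ ?_ _ _ u (hk0 (k + k0) (by omega)).1 (hχ.meas _) (hχ.bd _) hu
    · exact ld916_memDF S φ ψ (AN.N0 S) β (ld916_sm hb.1.1 j) (ld916_cs hb.1.2 j) U hD.bun.U_inner (hUc j) (hD.mem j)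
    · intro η s h
      by_contra h1
      refine h ?_
      rw [ld916_supDF S φ ψ (AN.N0 S) β (ld916_sm hb.1.1 j) (o j) η s fun h3 => h1 (ld916_ts b j h3), map_zero]
  have hae : ∀ᵐ s ∂(volume : Measure (Cfg ds)), ∀ α A k,
      S.th α (φ (Sum.inl (ψ (Sum.inl A)))) (o k s) = ∑ j, T.th α A (EuclideanSpace.single k 1) j • o j s := by
    simp only [ae_all_iff]
    exact hD.thT
  refine hsum.congr fun k => ?_
  simp only [hm, hQ]
  rw [Finset.sum_sub_distrib, ← Finset.mul_sum,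
    ← ld916_ZLsum S φ ψ Om (χ (R (k + k0))) (R (k + k0)) (fun j η s => U η (pp (ld916c b j) (o j) η s)) _
      (fun j => hI1 k j _ (Vale.Agent.P353.Z.U.HB.Tst_Qm S _ β (hB.inv _).1)),
    ← ld916_ZLsum S φ ψ Om (χ (R (k + k0))) (R (k + k0))
      (fun j η s => U η (S.DF φ ψ (AN.N0 S) 1 β (pp (ld916c b j) (o j)) η s)) _
      (fun j => hI2 k j _ (hB.inv _).1)]
  have e1 : (fun (η : Cfg r) (s : Cfg ds) => ∑ j, U η (pp (ld916c b j) (o j) η s)) = AL.sc U o b := by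
    funext η s
    simp only [AL.sc, pp, map_smul]
    rfl
  have e2 := ld916_ZLcongr S φ ψ Om (χ (R (k + k0))) (R (k + k0))
    (fun (η : Cfg r) (s : Cfg ds) => ∑ j, U η (S.DF φ ψ (AN.N0 S) 1 β (pp (ld916c b j) (o j)) η s))
    (AL.sc U o (T.FD β b)) (Ψ (k + k0)) _ hae (fun s hs η => by
      rw [← map_sum, ← ld916_FD S φ ψ o T hD.gam s hs hb.1.1 β η, ld916i_apply, map_sum]
      simp only [AL.sc, map_smul])
  rw [e1, e2]
  rfl

end Vale.Agent.P353.Z.AE
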