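import Vale.Agent.P353.AN.E.Defs
import Vale.Agent.P353.AN.C.Stmt

/-! # P353, all `N`, block E: limit equation on one slice — statements (helper725)

A prover delivers `theorem <name> (S : Setup d F) … : XStmt S φ ψ` in `Vale/Agent/P353/AN/E/<File>.lean`, importing this file and landed
files of `Z`, `Z/U`, `AN`, with other statements (also of blocks A, B, C: `CalcA`, `CalcB`, `BdStmt`, `FibStmt`, …) as hypotheses.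
`y = zpt ψ x`, `s = spt ψ x`, `D = Dz y` (commuting: `y` is central). Private lemmas: distinctive names. -/

open MeasureTheory Filter Topology Matrix
open scoped ContDiff

namespace Vale.Agent.P353.Z.AE

variable {d dh dm r ds : ℕ} {F : Type*} [NormedAddCommGroup F] [InnerProductSpace ℂ F]

/-- facts about the Gaussian near the ray through `y₀`, uniform in the scale -/
structure BzFacts (S : Setup d F) (φ : Spl dh dm d) (ψ : Spl r ds dh) (U : Set (Cfg r))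
    (Om : Cfg r → Matrix (Fin dm) (Fin dm) ℝ) (y₀ : Cfg r) (ε C : ℝ) : Prop where
  inU : ∀ R : ℝ, 0 < R → ∀ y : Cfg r, ‖y - R • y₀‖ ≤ ε * R → y ∈ U
  sm : ContDiffOn ℝ ∞ (fun p : Cfg r × Wsp dm => S.bz φ ψ Om p.1 p.2) (U ×ˢ Set.univ)
  pos : ∀ y ∈ U, ∀ w, 0 < S.bz φ ψ Om y w
  ev : ∀ y w, S.bz φ ψ Om y (-w) = S.bz φ ψ Om y w
  int : ∀ y ∈ U, ∀ k : ℕ, Integrable fun w : Wsp dm => (‖w‖ ^ k * S.bz φ ψ Om y w) ^ 2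
  norm : ∀ y ∈ U, ∫ w, S.bz φ ψ Om y w ^ 2 = 1
  up : ∀ R : ℝ, 0 < R → ∀ y : Cfg r, ‖y - R • y₀‖ ≤ ε * R → ∀ w,
    S.bz φ ψ Om y w ≤ C * Real.sqrt R ^ (4 * dm) * Real.exp (-(R * ‖w‖ ^ 2 / C))
  dw : ∀ R : ℝ, 0 < R → ∀ y : Cfg r, ‖y - R • y₀‖ ≤ ε * R → ∀ (w : Wsp dm) (j : Fin 8) (B : Fin dm),
    |fderiv ℝ (fun w' => S.bz φ ψ Om y w') w (EuclideanSpace.single (j, B) 1)| ≤ C * R * ‖w‖ * S.bz φ ψ Om y w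
  dy : ∀ R : ℝ, 0 < R → ∀ y : Cfg r, ‖y - R • y₀‖ ≤ ε * R → ∀ (w : Wsp dm) (i : Fin 9) (A : Fin r),
    |fderiv ℝ (fun y' => S.bz φ ψ Om y' w) y (EuclideanSpace.single (i, A) 1)| ≤
      C * (1 / R + ‖w‖ ^ 2) * S.bz φ ψ Om y w
  mom : ∀ R : ℝ, 0 < R → ∀ y : Cfg r, ‖y - R • y₀‖ ≤ ε * R → ∀ k : ℕ, k ≤ 8 →
    ∫ w, (‖w‖ ^ k * S.bz φ ψ Om y w) ^ 2 ≤ C * (1 / R) ^ k
  tail : ∀ δ : ℝ, 0 < δ → ∃ C' : ℝ, ∀ R : ℝ, 1 ≤ R → ∀ y : Cfg r, ‖y - R • y₀‖ ≤ ε * R → ∀ k : ℕ, k ≤ 8 →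
    ∫ w, (if δ * R ≤ ‖w‖ then (‖w‖ ^ k * S.bz φ ψ Om y w) ^ 2 else 0) ≤ C' * (1 / R) ^ 8
  orth : ∀ y ∈ U, ∀ (i : Fin 9) (A : Fin r),
    ∫ w, S.bz φ ψ Om y w * fderiv ℝ (fun y' => S.bz φ ψ Om y' w) y (EuclideanSpace.single (i, A) 1) = 0

/-- **E-Mz** the quadratic form as a smooth function of the central point. PROOF: `QFStmt` (`M` is determined by `(M w)_{jB} = (Ω V_j)_B`); `VV` is
rational in `Dz y` (linear in `y`, `det D_8 ≠ 0`, `det t2 ≠ 0`), so the entries of `M` are smooth on `U`; `T_i` is homogeneous of degree `0`,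
`Om` of degree `1` (`om_h`). `Frz (Dz y)` for `y ∈ U`: antisymmetric by `f_swap`, `f_cyc`; commuting by Jacobi, `IsCen`. -/
def MzStmt (S : Setup d F) (φ : Spl dh dm d) (ψ : Spl r ds dh) : Prop := S.IsSub φ → S.IsCen φ ψ →
  ∀ (U : Set (Cfg r)) (Om : Cfg r → Matrix (Fin dm) (Fin dm) ℝ) (V : Cfg r → F →L[ℂ] F) (K : Submodule ℂ F),
  S.VFr φ ψ U Om V K → (∀ y ∈ U, Frz (S.Dz φ ψ y)) ∧ ∃ M : Cfg r → (Wsp dm →L[ℝ] Wsp dm), ContDiffOn ℝ ∞ M U ∧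
    (∀ y ∈ U, ∀ v w, inner ℝ (M y v) w = inner ℝ v (M y w)) ∧
    (∀ y ∈ U, ∀ w, qf (S.Dz φ ψ y) (Om y) w = inner ℝ w (M y w)) ∧ (∀ y ∈ U, ∀ t : ℝ, 0 < t → M (t • y) = t • M y) ∧
    (∀ y ∈ U, ∀ (w : Wsp dm) (j : Fin 8) (B : Fin dm), M y w (j, B) = (Om y *ᵥ VV (S.Dz φ ψ y) w j.castSucc) B) ∧
    ∀ y ∈ U, ∃ c : ℝ, 0 < c ∧ ∀ w, c * ‖w‖ ^ 2 ≤ inner ℝ w (M y w)

/-- **E-Bz** PROOF (with E-Mz as hypothesis). On the compact ball `|y - y₀| ≤ ε` (`ε` small: inside `U`)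
`c ≤ M ≤ C`, `|∂M| ≤ C`, and `M(Ry) = R M(y)`. `bz = n(y) exp(-½⟨w,Mw⟩)`, `n(y) = (∫exp(-⟨w,Mw⟩))^{-1/2}`, smooth (dominated differentiation), `n(Ry) = R^{2dm}n(y)`
(`8 dm` variables), so `|∂n| ≤ C n/R` at scale `R`. `orth`: derivative of `∫bz² = 1`. Moments and tails: substitution `w = R^{-1/2}w'`. -/
def BzStmt (S : Setup d F) (φ : Spl dh dm d) (ψ : Spl r ds dh) : Prop := S.IsSub φ → S.IsCen φ ψ →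
  ∀ (U : Set (Cfg r)) (Om : Cfg r → Matrix (Fin dm) (Fin dm) ℝ) (V : Cfg r → F →L[ℂ] F) (K : Submodule ℂ F),
  S.VFr φ ψ U Om V K → ∀ y₀ ∈ U, ∃ ε C : ℝ, 0 < ε ∧ 0 < C ∧ BzFacts S φ ψ U Om y₀ ε C

/-- **E-VacQ1** `q1` at a frozen point kills the vacuum. PROOF. `∂_{jB}bz = -(ΩV_j)_B bz` (`j < 8`), `∑_{j<8}T_jV_j = -V_8`, hence the first two
terms of `q1` give `i∑_{i<9,B}(ΩV_i)_B(γ^iθ^B)_β`; the potential is `κ∑_{ij}(D_iV_j)_B(γ^iγ^jθ^B)_β` (`AlgStmt`, `∑D_iV_i = 0`); the vacuum condition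
`Ω_{AB}θ_α^Bv = iκ∑γ^i_{αγ}(D_i)_{AB}θ_γ^Bv` turns the first into `κ∑(γ^jγ^iθ^B)_β(D_iV_j)_B`; the sum is `2κ∑_iθ^B_β(D_iV_i)_B = 0`. -/
def VacQ1Stmt (S : Setup d F) (φ : Spl dh dm d) : Prop :=
  ∀ (D : Fin 9 → Matrix (Fin dm) (Fin dm) ℝ) (Om : Matrix (Fin dm) (Fin dm) ℝ), Frz D → IsOm S.κ D Om →
  ∀ v ∈ S.F0 φ D Om, ∀ (c : ℝ) (β : Fin 16) (w : Wsp dm),
    S.q1 φ D β (fun w => ((c * gR D Om 1 w : ℝ) : ℂ) • v) w = 0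

/-- **E-Cov** second moments of the Gaussian are symmetric in the colour indices. PROOF. Gaussian integral with the form `M`
(`QFStmt`): `∫w_aw_b g² = ½(M⁻¹)_{ab}∫g²` (integrate `∂_a(w_b g²)` by parts: `∂_ag² = -2(Mw)_ag²`), and `M⁻¹` is explicit:
`(M⁻¹u)_j = Ω⁻¹u_j + T_j∑_kT_kΩ⁻¹u_k` (`w_j = V_j - T_jV_8`, `V_8 = -∑T_kV_k`), a symmetric matrix for each pair `(j,k)` (commuting symmetric
factors). -/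
def CovStmt (S : Setup d F) (φ : Spl dh dm d) : Prop :=
  ∀ (D : Fin 9 → Matrix (Fin dm) (Fin dm) ℝ) (Om : Matrix (Fin dm) (Fin dm) ℝ), Frz D → IsOm S.κ D Om →
  ∀ (i j : Fin 9) (B C : Fin dm), ∫ w, wt w i B * wt w j C * gR D Om 1 w ^ 2 =
    ∫ w, wt w i C * wt w j B * gR D Om 1 w ^ 2

/-- **E-Wick** expectation values in the fermionic vacuum. PROOF. `(Λθ)_pv = 0` and `⟨v', (Λ̄θ)_p u⟩ = ⟨(Λθ)_pv', u⟩ = 0`, `Λ + Λ̄ = Ω`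
invertible, `{(Λθ)_p, θ_q} = Λ_{pq}`. Three-point: move `(Λθ)_p` to the right. -/
def WickStmt (S : Setup d F) (φ : Spl dh dm d) : Prop :=
  ∀ (D : Fin 9 → Matrix (Fin dm) (Fin dm) ℝ) (Om : Matrix (Fin dm) (Fin dm) ℝ), Frz D → IsOm S.κ D Om →
  ∀ v ∈ S.F0 φ D Om, ∀ v' ∈ S.F0 φ D Om, ∀ p q t : Fin 16 × Fin dm,
    inner ℂ v' (S.th p.1 (φ (Sum.inr p.2)) v) = 0 ∧
    inner ℂ v' (S.th p.1 (φ (Sum.inr p.2)) (S.th q.1 (φ (Sum.inr q.2)) v)) =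
      (1 / 2 : ℂ) * ((if p = q then 1 else 0) - Complex.I * ∑ B, ((Om⁻¹ p.2 B : ℝ) : ℂ) * S.PP D (p.1, B) q) *
        inner ℂ v' v ∧
    inner ℂ v' (S.th p.1 (φ (Sum.inr p.2)) (S.th q.1 (φ (Sum.inr q.2)) (S.th t.1 (φ (Sum.inr t.2)) v))) = 0

/-- **E-QrVac** the remainder at a central point has no vacuum-vacuum part. PROOF. The term with `∂_y` vanishes (no `y` dependence).
`θ^m w∂_w` and `w w θ^m`: one-point functions `0` (E-Wick). `w w θ^h`: `∑_{BC}f_{ABC}∫w_i^Bw_j^Cg² = 0` by E-Cov and antisymmetry of `f`.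
Spin term `-γ^8_{βα}(D_8⁻¹)_{BC}θ_α^B𝒮_C`: `𝒮_C` contains `θ^mθ^m` (three-point function, `0`) and `θ^hθ^m`; with E-Wick the part `½δ_{pq}` gives
`i·const·tr(D_8⁻¹ ad_A)γ^8θ^A`, which cancels the term with `∂_A log J = tr(D_8⁻¹ad_A)` (same computation as in `SymStmt`), and the part with
`Ω⁻¹P` gives `∑_kγ^8γ^kθ^A tr(D_8⁻¹·ad_A·Ω⁻¹D_k)`, `= 0`: `D_8⁻¹`, `D_k`, `ad_A` (`A ∈ h`; `y` is central in `h`) are antisymmetric and commute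
up to order inside the trace: `X = D_8⁻¹Ω⁻¹D_k` is symmetric (`D_8⁻¹`, `D_k`, `Ω` commute) and `tr(X ad_A) = 0`. -/
def QrVacStmt (S : Setup d F) (φ : Spl dh dm d) (ψ : Spl r ds dh) : Prop := S.IsSub φ → S.IsCen φ ψ →
  ∀ (y : Cfg r) (Om : Matrix (Fin dm) (Fin dm) ℝ), (S.Dz φ ψ y 8).det ≠ 0 → IsOm S.κ (S.Dz φ ψ y) Om →
  ∀ v ∈ S.F0 φ (S.Dz φ ψ y) Om, ∀ v' ∈ S.F0 φ (S.Dz φ ψ y) Om, ∀ β : Fin 16,
    ∫ w, inner ℂ (((gR (S.Dz φ ψ y) Om 1 w : ℝ) : ℂ) • v')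
      (S.Qr φ β (fun _ w' => ((gR (S.Dz φ ψ y) Om 1 w' : ℝ) : ℂ) • v) (cmb ψ y 0) w) = 0

/-- **E-PrC** the vacuum projection depends continuously on the central point. PROOF: scaling (`w → R^{-1/2}w`, `gR (Dz (Ry)) (Om (Ry)) 1 =
gR (Dz y) (Om y) R`, `F0` is homogeneous) reduces to `R = 1`; `bz(y,·) → bz(y₀,·)` in `L²` (BzFacts / dominated convergence), the projection onto
`F0(y) = V(y)K` is `V(y)Π_KV(y)⁻¹`, continuous in `y`. -/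
def PrCStmt (S : Setup d F) (φ : Spl dh dm d) (ψ : Spl r ds dh) : Prop := ∀ _ : FiniteDimensional ℂ F,
  S.IsSub φ → S.IsCen φ ψ →
  ∀ (U : Set (Cfg r)) (Om : Cfg r → Matrix (Fin dm) (Fin dm) ℝ) (V : Cfg r → F →L[ℂ] F) (K : Submodule ℂ F),
  S.VFr φ ψ U Om V K → ∀ y₀ ∈ U, ∀ δ : ℝ, 0 < δ → ∃ ε : ℝ, 0 < ε ∧ ∀ R : ℝ, 0 < R → ∀ y : Cfg r, ‖y - R • y₀‖ ≤ ε * R →
    ∀ f : Wsp dm → F, FT f →
      nsf (fun w => S.PR φ (S.Dz φ ψ y) (Om y) 1 f w - S.PR φ (S.Dz φ ψ y₀) (Om y₀) R f w) ≤ δ * nsf f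

/-- **E-Pert2** difference of the fibre supercharges at `x` and at its central part. PROOF: the coefficients of the potential are linear:
`|D_i(x) - D_i(y)| ≤ C‖s‖`; `|(D_8⁻¹D_j)(x) - (D_8⁻¹D_j)(y)| ≤ C‖s‖/R` near the ray (`CoefBd`: `inv`, `dy`, resolvent identity). Pointwise. -/
def Pert2Stmt (S : Setup d F) (φ : Spl dh dm d) (ψ : Spl r ds dh) : Prop := S.IsSub φ → S.IsCen φ ψ →
  ∀ (y₀ : Cfg r) (ε0 C0 : ℝ), 0 < ε0 → 0 ≤ C0 → S.CoefBd φ (cmb ψ y₀ 0) ε0 C0 → ∃ C : ℝ, 0 ≤ C ∧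
    ∀ R : ℝ, 0 < R → ∀ x : Cfg dh, ‖x - R • cmb ψ y₀ 0‖ ≤ ε0 * R → ∀ (f : Wsp dm → F) (β : Fin 16) (w : Wsp dm),
      ‖S.q1 φ (S.DY φ x) β f w - S.q1 φ (S.Dz φ ψ (zpt ψ x)) β f w‖ ≤
        C * (‖spt ψ x‖ / R) * ((∑ j, ∑ B, ‖pf j B f w‖) + R * ‖w‖ * ‖f w‖)

/-- **E-UGapC** gap at central points. PROOF: steps (i)–(iii) of E-UGap below (hypotheses: `FibStmt`, E-PrC, E-VacQ1, E-Bz, `ScaleFStmt`). -/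
def UGapCStmt (S : Setup d F) (φ : Spl dh dm d) (ψ : Spl r ds dh) : Prop := ∀ _ : FiniteDimensional ℂ F,
  S.IsSub φ → S.IsCen φ ψ →
  ∀ (U : Set (Cfg r)) (Om : Cfg r → Matrix (Fin dm) (Fin dm) ℝ) (V : Cfg r → F →L[ℂ] F) (K : Submodule ℂ F),
  S.VFr φ ψ U Om V K → ∀ y₀ ∈ U, ∃ ε C : ℝ, 0 < ε ∧ 0 < C ∧
    ∀ R : ℝ, 0 < R → ∀ y : Cfg r, ‖y - R • y₀‖ ≤ ε * R → ∀ f : Wsp dm → F, FT f →
      R * nsf (fun w => f w - S.PR φ (S.Dz φ ψ y) (Om y) 1 f w) ≤ C * S.e1 φ (S.Dz φ ψ y) f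

/-- **E-UGap** gap of the fibre operator above the vacuum at the scalar point `y = zpt x`, uniformly near the ray.
PROOF. By scaling (`ScaleFStmt`; `PR D Om R = PR (RD) (R Om) 1`) and `FibStmt` (2) at `D0 = Dz y₀`: (i) `‖PR_y f - PR_{y₀} f‖ ≤ δ(ε)‖f‖`, `δ → 0`
(continuity of the Gaussian and of `F0(y) = V(y)K`: the projection is `V(y)Π_KV(y)⁻¹`); (ii) hence for `f ∈ FT` and `D = Dz y`:
`c R nsf f ≤ e1 D f + C R nsf (PR_y f)`; (iii) apply this to `f - χ_k PR_yf`, `χ_k → 1` cutoffs (`q1 D` kills `PR_yf`: E-VacQ1), `k → ∞`: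
`c R nsf (f - PR_yf) ≤ e1 D f`; (iv) `|q1 (DY x) f - q1 (Dz y) f|² ≤ C(‖s‖/R)²(|∂f|² + R²||w|f|²)` (coefficients: `D_i(x) - D_i(y)` linear in `s`,
`D_8⁻¹D_j` Lipschitz) and FibFacts F1. -/
def UGapStmt (S : Setup d F) (φ : Spl dh dm d) (ψ : Spl r ds dh) : Prop := ∀ _ : FiniteDimensional ℂ F,
  S.IsSub φ → S.IsCen φ ψ →
  ∀ (U : Set (Cfg r)) (Om : Cfg r → Matrix (Fin dm) (Fin dm) ℝ) (V : Cfg r → F →L[ℂ] F) (K : Submodule ℂ F),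
  S.VFr φ ψ U Om V K → ∀ y₀ ∈ U, AN.Std S φ (cmb ψ y₀ 0) → ∃ ε C : ℝ, 0 < ε ∧ 0 < C ∧
    ∀ R : ℝ, 1 ≤ R → ∀ x : Cfg dh, ‖x - R • cmb ψ y₀ 0‖ ≤ ε * R → ∀ f : Wsp dm → F, FT f →
      R * nsf (fun w => f w - S.PR φ (S.Dz φ ψ (zpt ψ x)) (Om (zpt ψ x)) 1 f w) ≤
        C * (S.e1 φ (S.DY φ x) f + (‖spt ψ x‖ / R) ^ 2 * R * nsf f)

/-- vacuum component of a slice function at `x` -/
noncomputable def vc [FiniteDimensional ℂ F] (S : Setup d F) (φ : Spl dh dm d) (ψ : Spl r ds dh)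
    (Om : Cfg r → Matrix (Fin dm) (Fin dm) ℝ) (E : Cfg dh → Wsp dm → F) (x : Cfg dh) : F :=
  (S.F0 φ (S.Dz φ ψ (zpt ψ x)) (Om (zpt ψ x))).starProjection (∫ w, ((S.bz φ ψ Om (zpt ψ x) w : ℝ) : ℂ) • E x w)

/-- **E-Neg** negligible errors: three sufficient conditions for `R_n ⟨E_n, v_n⟩ → 0`.
PROOF. (1) Cauchy–Schwarz. (2) Let `χ_n(x) = c(‖s‖²/(2η_nR_n)²)` (`= 1` on the support of `E_n`), `v' = χ_nv_n`; `E1 v' ≤ E1 v_n` (`Q1` acts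
fibrewise); integrate E-UGap: `ns2 (v' - PR v') ≤ CR⁻¹(E1 v' + η_n²R ns2 v') → 0`; `ip2 E v = ip2 E v' = ip2 E (v' - PR v') + ip2 E (PR v')`, and
`|ip2 E (PR v')| ≤ (∫‖vc E x‖²)^{1/2}(ns2 v')^{1/2}`. (3) `ip2 E v = ip2 E (odp v)`, `R ns2 (odp v) ≤ C E1 (odp v) ≤ C E1 v ≤ CR⁻²` (`ParStmt`, `FIntStmt`). -/
def NegStmt (S : Setup d F) (φ : Spl dh dm d) (ψ : Spl r ds dh) : Prop := ∀ _ : FiniteDimensional ℂ F,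
  S.IsSub φ → S.IsCen φ ψ →
  ∀ (U : Set (Cfg r)) (Om : Cfg r → Matrix (Fin dm) (Fin dm) ℝ) (V : Cfg r → F →L[ℂ] F) (K : Submodule ℂ F),
  S.VFr φ ψ U Om V K → ∀ y₀ ∈ U, AN.Std S φ (cmb ψ y₀ 0) → ∃ ε : ℝ, 0 < ε ∧
    ∀ (R η : ℕ → ℝ) (E v : ℕ → Cfg dh → Wsp dm → F) (C : ℝ), Tendsto R atTop atTop → (∀ n, 0 < η n) → Tendsto η atTop (𝓝 0) →
    (∀ n, 1 ≤ R n) → (∀ n, Tst2 (E n)) → (∀ n, Sup2 (cmb ψ y₀ 0) ε (R n) (E n)) →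
    (∀ n, Tst2 (v n)) → (∀ n, Sup2 (cmb ψ y₀ 0) ε (R n) (v n)) → (∀ n, ns2 (v n) ≤ C) →
    (∀ n, R n ^ 2 * S.E1 φ (v n) ≤ C) →
    (Tendsto (fun n => R n ^ 2 * ns2 (E n)) atTop (𝓝 0) ∨
      ((∀ n, R n ^ 2 * ns2 (E n) ≤ C) ∧ (∀ n x w, E n x w ≠ 0 → ‖spt ψ x‖ ≤ η n * R n) ∧
        Tendsto (fun n => R n ^ 2 * ∫ x, ‖vc S φ ψ Om (E n) x‖ ^ 2) atTop (𝓝 0)) ∨
      ((∀ n x w, E n x (-w) = -E n x w) ∧ Tendsto (fun n => ns2 (E n) / R n) atTop (𝓝 0))) →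
    Tendsto (fun n => (R n : ℂ) * ip2 (E n) (v n)) atTop (𝓝 0)

/-- hypotheses on the internal function -/
structure IntF (K : Submodule ℂ F) (η R : ℝ) (Φ : Cfg ds → F) : Prop where
  tst : Setup.Tst Φ
  val : ∀ s, Φ s ∈ K
  sup : ∀ s, Φ s ≠ 0 → ‖s‖ ≤ η * R

/-- **E-TR** basic facts on the trial functions. PROOF: smoothness from `VFr`, `BzFacts.sm` (the support lies over `U`), supports; norm by
Fubini (`Cfg dh ≅ Cfg r × Cfg ds`, measure preserving), `∫bz² = 1`, `‖V v‖ = ‖v‖`, substitution `y → Ry` (`9r` variables). -/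
def TRStmt (S : Setup d F) (φ : Spl dh dm d) (ψ : Spl r ds dh) : Prop := S.IsSub φ → S.IsCen φ ψ →
  ∀ (U : Set (Cfg r)) (Om : Cfg r → Matrix (Fin dm) (Fin dm) ℝ) (V : Cfg r → F →L[ℂ] F) (K : Submodule ℂ F),
  S.VFr φ ψ U Om V K → ∀ (y₀ : Cfg r) (ε0 C0 : ℝ), 0 < ε0 → BzFacts S φ ψ U Om y₀ ε0 C0 →
  ∀ (c : ℝ → ℝ), IsCt c → ∀ ε : ℝ, 0 < ε → ε ≤ ε0 → ∀ ζ : Cfg r → ℂ, ContDiff ℝ ∞ ζ → tsupport ζ ⊆ Metric.ball y₀ (ε / 2) →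
  ∀ (R η : ℝ), 1 ≤ R → 0 ≤ η → η ≤ ε / 2 → ∀ Φ : Cfg ds → F, IntF K η R Φ →
    Tst2 (S.TR φ ψ Om V c ε R (pp ζ Φ)) ∧ Sup2 (cmb ψ y₀ 0) ε R (S.TR φ ψ Om V c ε R (pp ζ Φ)) ∧
    (∀ x w, S.TR φ ψ Om V c ε R (pp ζ Φ) x w ≠ 0 → ‖spt ψ x‖ ≤ η * R) ∧
    ns2 (S.TR φ ψ Om V c ε R (pp ζ Φ)) ≤ (∫ y, ‖ζ y‖ ^ 2) * nsq Φ

/-- common shape of the decomposition statements: `T` = operator applied to the trial function, `M` = main term; the error splits into a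
small part `X1`, an excited part `X2` and an odd part `X3`. `C` may depend on `ζ` but not on `R, η, Φ`. -/
def DecE [FiniteDimensional ℂ F] (S : Setup d F) (φ : Spl dh dm d) (ψ : Spl r ds dh)
    (Om : Cfg r → Matrix (Fin dm) (Fin dm) ℝ) (y₀ : Cfg r) (ε : ℝ) (T M : Cfg dh → Wsp dm → F) (C η R : ℝ)
    (Φ : Cfg ds → F) : Prop :=
  ∃ X1 X2 X3 : Cfg dh → Wsp dm → F, Tst2 X1 ∧ Tst2 X2 ∧ Tst2 X3 ∧ Sup2 (cmb ψ y₀ 0) ε R X1 ∧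
    Sup2 (cmb ψ y₀ 0) ε R X2 ∧ Sup2 (cmb ψ y₀ 0) ε R X3 ∧ (∀ x w, T x w = M x w + X1 x w + X2 x w + X3 x w) ∧
    R ^ 2 * ns2 X1 ≤ C * ((η ^ 2 + 1 / R) * nsq Φ + 1 / R * ∑ i, ∑ A, nsq (pd i A Φ)) ∧
    R ^ 2 * ns2 X2 ≤ C * nsq Φ ∧ (∀ x w, X2 x w ≠ 0 → ‖spt ψ x‖ ≤ η * R) ∧
    R ^ 2 * (∫ x, ‖vc S φ ψ Om X2 x‖ ^ 2) ≤ C / R * nsq Φ ∧
    (∀ x w, X3 x (-w) = -X3 x w) ∧ ns2 X3 ≤ C * η ^ 2 * R * nsq Φ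

/-- common hypotheses of the decomposition statements -/
def DecCtx (S : Setup d F) (φ : Spl dh dm d) (ψ : Spl r ds dh)
    (P : ∀ (_ : FiniteDimensional ℂ F) (_ : S.IsSub φ) (_ : S.IsCen φ ψ) (_ : Cfg r → Matrix (Fin dm) (Fin dm) ℝ)
      (_ : Cfg r → F →L[ℂ] F) (_ : Cfg r) (_ : ℝ → ℝ) (_ : ℝ) (_ : Cfg r → ℂ) (_ : ℝ) (_ : ℝ) (_ : ℝ) (_ : Cfg ds → F), Prop) : Prop :=
  ∀ (hF : FiniteDimensional ℂ F) (hφ : S.IsSub φ) (hc : S.IsCen φ ψ) (U : Set (Cfg r))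
    (Om : Cfg r → Matrix (Fin dm) (Fin dm) ℝ) (V : Cfg r → F →L[ℂ] F) (K : Submodule ℂ F),
  S.VFr φ ψ U Om V K → ∀ (y₀ : Cfg r) (ε0 C0 : ℝ), y₀ ∈ U → 0 < ε0 → 0 < C0 → BzFacts S φ ψ U Om y₀ ε0 C0 →
  S.CoefBd φ (cmb ψ y₀ 0) ε0 C0 → ∀ (c : ℝ → ℝ), IsCt c → ∀ ε : ℝ, 0 < ε → ε ≤ ε0 → ∀ ζ : Cfg r → ℂ, ContDiff ℝ ∞ ζ →
  tsupport ζ ⊆ Metric.ball y₀ (ε / 2) → ∃ C : ℝ, 0 ≤ C ∧ ∀ (R η : ℝ), 1 ≤ R → 0 ≤ η → η ≤ ε / 2 →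
    ∀ Φ : Cfg ds → F, IntF K η R Φ → P hF hφ hc Om V y₀ c ε ζ C R η Φ

/-- **E-DecH** the block diagonal supercharge. PROOF. `W` of `h` at `cmb y s` only involves `s` (centre), so `Q^h T` is `TR` with `Φ` replaced by
`Q^{int}Φ` (second summand of the main term) plus the `y`-derivatives: of `ζ(y/R)` (main term, factor `1/R`; `V` commutes with `θ^h`), and of
`c·bz·V` (cutoff does not depend on `y`): `X2`, norm `≤ C/R` (BzFacts `dy`, `mom`; `‖∂V‖ ≤ C/R` by homogeneity), vacuum part: `∫bz∂bz = 0`,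
`VFr.par`, up to the cutoff (BzFacts `tail`). -/
def DecHStmt (S : Setup d F) (φ : Spl dh dm d) (ψ : Spl r ds dh) : Prop :=
  DecCtx S φ ψ fun _ hφ hc Om V y₀ c ε ζ C R η Φ => ∀ β, DecE S φ ψ Om y₀ ε (S.Qh φ β (S.TR φ ψ Om V c ε R (pp ζ Φ)))
    (fun x w => ((R⁻¹ : ℝ) : ℂ) • S.TR φ ψ Om V c ε R (S.DF φ ψ (fun _ => 0) 0 β (pp ζ Φ)) x w +
      S.TR φ ψ Om V c ε R (pp ζ ((S.int φ ψ hφ hc).Q β Φ)) x w) C η R Φ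

/-- **E-Dec1** the off-diagonal supercharge. PROOF. `Q1` at `x` minus `q1` at `y = zpt x` has coefficients `O(‖s‖/R)` (for `∂_w`) and `O(‖s‖)` (for
`w`): applied to `T` it is odd in `w` with norm² `≤ C(η²)(R)` (BzFacts `dw`, `mom`; `‖s‖ ≤ ηR`): `X3`. `q1` at `y` kills the vacuum (E-VacQ1), up to
the derivative of the cutoff (`tail`): `X1`. -/
def Dec1Stmt (S : Setup d F) (φ : Spl dh dm d) (ψ : Spl r ds dh) : Prop :=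
  DecCtx S φ ψ fun _ _ _ Om V y₀ c ε ζ C R η Φ => ∀ β, DecE S φ ψ Om y₀ ε (S.Q1 φ β (S.TR φ ψ Om V c ε R (pp ζ Φ)))
    (fun _ _ => 0) C η R Φ

/-- **E-DecR** the remainder. PROOF. The term with `∂^h`: `≤ (C/R)|w||∂_xT|`, `∂_yT = O(1/R)`, `∂_sT = T(∂Φ)`: `X1`. In the other terms replace
`D_8⁻¹(x)`, `∂log J(x)` by their values at `y` (difference `C‖s‖/R²`: `X1`); what remains is `Q^r` at `cmb y 0` applied to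
`c·bz·V(y)Φ(s)` in the fibre: `X2`, norm `≤ C/R`, vacuum part `0` by E-QrVac up to the cutoff (`tail`). -/
def DecRStmt (S : Setup d F) (φ : Spl dh dm d) (ψ : Spl r ds dh) : Prop :=
  DecCtx S φ ψ fun _ _ _ Om V y₀ c ε ζ C R η Φ => ∀ β, DecE S φ ψ Om y₀ ε (S.Qr φ β (S.TR φ ψ Om V c ε R (pp ζ Φ)))
    (fun _ _ => 0) C η R Φ

/-- **E-DecM** the mass term, `m = μ/R²`. PROOF: centre part of `M^h` = main term; internal part `≤ CμR⁻²ηR`, `M^w` part `≤ CμR⁻²|w|`: `X1`. -/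
def DecMStmt (S : Setup d F) (φ : Spl dh dm d) (ψ : Spl r ds dh) : Prop :=
  ∀ (N : Fin 9 → Matrix (Fin 16) (Fin 16) ℂ) (μ : ℝ), 0 ≤ μ →
  DecCtx S φ ψ fun _ _ _ Om V y₀ c ε ζ C R η Φ => ∀ β, DecE S φ ψ Om y₀ ε
    (fun x w => ((μ / R ^ 2 : ℝ) : ℂ) • (S.Mh φ N β x (S.TR φ ψ Om V c ε R (pp ζ Φ) x w) +
      S.Mw φ N β w (S.TR φ ψ Om V c ε R (pp ζ Φ) x w)))
    (fun x w => ((R⁻¹ : ℝ) : ℂ) • (S.TR φ ψ Om V c ε R (S.DF φ ψ N μ β (pp ζ Φ)) x w -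
      S.TR φ ψ Om V c ε R (S.DF φ ψ (fun _ => 0) 0 β (pp ζ Φ)) x w)) C η R Φ

/-- **E-Loc** OUTPUT: limit equation on the slice. PROOF. `ip2 T (QS v) = ip2 (QS T) v` (`SymStmt`; mass terms symmetric); add the four
decompositions; `ns2 (TR (pp ζ (Q^{int}Φ_n))) ≤ C Σ nsq (Q^{int}Φ_n) = o(R⁻²)`; `R² E1 v ≤ C` by `OutStmt` of block C (`m = μ/R² ≤ 1` eventually); E-Neg for
all errors. -/
def LocStmt (S : Setup d F) (φ : Spl dh dm d) (ψ : Spl r ds dh) : Prop := ∀ (_ : FiniteDimensional ℂ F) (hφ : S.IsSub φ)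
  (hc : S.IsCen φ ψ) (N : Fin 9 → Matrix (Fin 16) (Fin 16) ℂ), S.IsMass N →
  ∀ (U : Set (Cfg r)) (Om : Cfg r → Matrix (Fin dm) (Fin dm) ℝ) (V : Cfg r → F →L[ℂ] F) (K : Submodule ℂ F),
  S.VFr φ ψ U Om V K → ∀ y₀ ∈ U, AN.Std S φ (cmb ψ y₀ 0) → ∀ c : ℝ → ℝ, IsCt c → ∃ ε0 : ℝ, 0 < ε0 ∧
    ∀ ε : ℝ, 0 < ε → ε ≤ ε0 → ∀ ζ : Cfg r → ℂ, ContDiff ℝ ∞ ζ → tsupport ζ ⊆ Metric.ball y₀ (ε / 2) →
    ∀ (μ : ℝ), 0 ≤ μ → ∀ (R η : ℕ → ℝ) (Φ : ℕ → Cfg ds → F) (v : ℕ → Cfg dh → Wsp dm → F) (C : ℝ),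
      Tendsto R atTop atTop → (∀ n, 1 ≤ R n) → (∀ n, 0 < η n ∧ η n ≤ ε / 2) → Tendsto η atTop (𝓝 0) →
      (∀ n, IntF K (η n) (R n) (Φ n)) → (∀ n, nsq (Φ n) ≤ C) →
      Tendsto (fun n => (∑ i, ∑ A, nsq (pd i A (Φ n))) / R n) atTop (𝓝 0) →
      Tendsto (fun n => R n ^ 2 * ∑ β, nsq ((S.int φ ψ hφ hc).Q β (Φ n))) atTop (𝓝 0) →
      (∀ n, Tst2 (v n)) → (∀ n, Sup2 (cmb ψ y₀ 0) ε (R n) (v n)) → (∀ n, ns2 (v n) ≤ C) →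
      (∀ n, R n ^ 2 * S.ES φ N (μ / R n ^ 2) (v n) ≤ C) →
      ∀ β, Tendsto (fun n => (R n : ℂ) * ip2 (S.TR φ ψ Om V c ε (R n) (pp ζ (Φ n))) (S.QS φ N (μ / R n ^ 2) β (v n)) -
        ip2 (S.TR φ ψ Om V c ε (R n) (S.DF φ ψ N μ β (pp ζ (Φ n)))) (v n)) atTop (𝓝 0)

end Vale.Agent.P353.Z.AE
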