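import Vale.Agent.P353.AN.E.Stmt
import Vale.Agent.P353.AN.X.VFr
import Vale.Agent.P353.AN.GL.Stmt

/-! # P353, all `N`, block E: GLOBAL limit equation (helper725)

Output `GLimStmt`: for the frame independent functional `Zb` of block GL, `R⟨Z(a), Q^m_β u⟩ - ⟨Z(DF_β a), u⟩ → 0`, mass `m = μ/R²`, `μ ≥ 0`.
`ψ : Spl r ds dh` (centre first; `AN.cmb ψ = cmb ψ`, `AN.IsZ = IsCen` definitionally). A prover delivers one file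
`Vale/Agent/P353/AN/E/<File>.lean`, with other statements as hypotheses. -/

open MeasureTheory Filter Topology Matrix
open scoped ContDiff

namespace Vale.Agent.P353.Z.AE

variable {d dh dm r ds : ℕ} {F : Type*} [NormedAddCommGroup F] [InnerProductSpace ℂ F]

/-- supercharge with mass on `Cfg d` in the frame with mass matrices `N`; `Qm m β = QN (N0 S) m β` (`FrameStmt`) -/
noncomputable def QN (S : Setup d F) (N : Fin 9 → Matrix (Fin 16) (Fin 16) ℂ) (m : ℝ) (β : Fin 16) (u : Cfg d → F)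
    (x : Cfg d) : F := S.Q β u x + (m : ℂ) • S.Mx N β x (u x)

/-- gauge invariant test functions -/
structure GI (S : Setup d F) (u : Cfg d → F) : Prop where
  tst : Setup.Tst u
  inv : ∀ C x, S.G C u x = 0

/-- bounded sequences at scale `R`, mass `μ/R²` -/
structure SqN (S : Setup d F) (N : Fin 9 → Matrix (Fin 16) (Fin 16) ℂ) (μ C : ℝ) (R : ℕ → ℝ) (u : ℕ → Cfg d → F) : Prop where
  one : ∀ n, 1 ≤ R n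
  lim : Tendsto R atTop atTop
  gi : ∀ n, GI S (u n)
  nrm : ∀ n, nsq (u n) ≤ C
  en : ∀ n, R n ^ 2 * ∑ β, nsq (QN S N (μ / R n ^ 2) β (u n)) ≤ C

/-- approximants of the internal function `o` for the scales `R n` -/
structure IApp (T : Setup ds F) (K : Submodule ℂ F) (R η : ℕ → ℝ) (Φ : ℕ → Cfg ds → F) (o : Cfg ds → F) : Prop where
  eta : ∀ n, 0 < η n
  eta_lim : Tendsto η atTop (𝓝 0)
  intf : ∀ n, IntF K (η n) (R n) (Φ n)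
  lim : Tendsto (fun n => nsq (fun s => Φ n s - o s)) atTop (𝓝 0)
  grad : Tendsto (fun n => (∑ i, ∑ A, nsq (pd i A (Φ n))) / R n) atTop (𝓝 0)
  en : Tendsto (fun n => R n ^ 2 * ∑ β, nsq (T.Q β (Φ n))) atTop (𝓝 0)

/-- internal zero mode with values in `K` -/
structure IZm (T : Setup ds F) (K : Submodule ℂ F) (o : Cfg ds → F) : Prop where
  mem : MemLp o 2 (volume : Measure (Cfg ds))
  app : ∀ R : ℕ → ℝ, (∀ n, 1 ≤ R n) → Tendsto R atTop atTop → ∃ (η : ℕ → ℝ) (Φ : ℕ → Cfg ds → F), IApp T K R η Φ o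

/-- admissible cutoffs for the global functional, with parameter `δ` -/
structure CutA (δ : ℝ) (R : ℕ → ℝ) (χ : ℕ → Cfg r × Cfg ds × Cfg dm → ℝ) : Prop where
  meas : ∀ n, Measurable (χ n)
  bd : ∀ n q, 0 ≤ χ n q ∧ χ n q ≤ 1
  lim : ∀ q, Tendsto (fun n => χ n q) atTop (𝓝 1)
  sup : ∀ n q, χ n q ≠ 0 → ‖q.2.1‖ ≤ δ * R n ∧ ‖q.2.2‖ ≤ δ * (R n * Real.sqrt (R n))

/-- global functional of the section `a`, cut off with `χ` -/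
noncomputable def ZL (S : Setup d F) (φ : Spl dh dm d) (ψ : Spl r ds dh) (Om : Cfg r → Matrix (Fin dm) (Fin dm) ℝ)
    (χ : Cfg r × Cfg ds × Cfg dm → ℝ) (R : ℝ) (a : Cfg r → Cfg ds → F) (u : Cfg d → F) : ℂ :=
  ∫ x, inner ℂ (AN.Zb φ ψ (fun q => ((χ q : ℝ) : ℂ) • AN.bG S.κ Om a q) R x) (u x)

/-- slice functional of the section `a` on `Nb (R y₀, ε)` -/
noncomputable def SL (S : Setup d F) (φ : Spl dh dm d) (ψ : Spl r ds dh) (Om : Cfg r → Matrix (Fin dm) (Fin dm) ℝ)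
    (y₀ : Cfg r) (ε R : ℝ) (a : Cfg r → Cfg ds → F) (u : Cfg d → F) : ℂ :=
  ∫ p in AN.Nb (cmb ψ y₀ 0) dm R ε, inner ℂ (AN.Ts0 ψ (AN.vG S φ ψ Om a) R p.1 p.2) (S.res φ u p.1 p.2)
    ∂((volume : Measure (Cfg dh)).prod (volume : Measure (Wsp dm)))

/-- `GluStmt` with arbitrarily small `δ` (form used here) -/
def GluDStmt (S : Setup d F) : Prop := ∀ _ : FiniteDimensional ℂ F, ∀ (dh dm r ds : ℕ) (φ : Spl dh dm d) (ψ : Spl r ds dh)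
  (z₀ : Cfg r), S.IsCen φ ψ → AN.Std S φ (cmb ψ z₀ 0) → ∃ ε₀ : ℝ, 0 < ε₀ ∧ ∀ ε : ℝ, 0 < ε → ε ≤ ε₀ → ∃ δ₀ : ℝ, 0 < δ₀ ∧
  ∀ δ : ℝ, 0 < δ → δ ≤ δ₀ → ∀ (Om : Cfg r → Matrix (Fin dm) (Fin dm) ℝ),
  (∀ η, ‖η - z₀‖ ≤ 2 * δ → Frz (S.Dz φ ψ η) ∧ IsOm S.κ (S.Dz φ ψ η) (Om η)) →
  ContinuousOn Om {η | ‖η - z₀‖ ≤ 2 * δ} →
  ∀ a : Cfg r → Cfg ds → F, MemLp (fun q : Cfg r × Cfg ds => a q.1 q.2) 2 (volume.prod volume) →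
  (∀ η s, a η s ≠ 0 → ‖η - z₀‖ ≤ δ) →
  ∀ (R : ℕ → ℝ) (χ : ℕ → Cfg r × Cfg ds × Cfg dm → ℝ) (u : ℕ → Cfg d → F) (C : ℝ), Tendsto R atTop atTop →
  CutA δ R χ → (∀ n, GI S (u n)) → (∀ n, nsq (u n) ≤ C) →
  Tendsto (fun n => ZL S φ ψ Om (χ n) (R n) a (u n) - SL S φ ψ Om z₀ ε (R n) a (u n)) atTop (𝓝 0)

/-- **EG-Qinv** `QN` preserves gauge invariant test functions. PROOF: `[G_C, Q_β] = 0` (`Z/U/A2`, `A3`), `[G_C, Mx N β] = 0`: rotation of the colour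
index, `f` antisymmetric (as for `MM`, `Z/U/QmBase`), smooth with compact support. -/
def QInvStmt (S : Setup d F) : Prop := ∀ (N : Fin 9 → Matrix (Fin 16) (Fin 16) ℂ) (m : ℝ) (β : Fin 16) (u : Cfg d → F),
  GI S u → GI S (QN S N m β u)

/-- **EG-Zm** approximants for `K`-valued zero modes. PROOF. `u_k ∈ GInv`, `u_k → o` in `L²`, `En u_k → 0`; `Π_K u_k` (`Π_K` commutes with the `θ`'s: `K`
invariant, `θ` self-adjoint, hence with `Q`), `Π_K o = o`. With `τ(ρ) = ∫_{|s|>ρ}|o|²` put `η_n = max(R_n^{-1/2}, τ(√R_n/2)^{1/4})` (plus `1/R_n`), so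
`τ(η_nR_n/2)/η_n² → 0`; choose `k(n)` with `‖u_{k(n)} - o‖² + En u_{k(n)} ≤ R_n^{-4}`; `Φ_n = χ(|s|²/(η_nR_n)²)Π_Ku_{k(n)}`:
`‖Q(Φ_n)‖ ≤ ‖Qu_{k(n)}‖ + C/(η_nR_n)‖u_{k(n)}1_{|s|>η_nR_n/2}‖`. Gradient: `energy_formula` (`Z/Energy`): `8‖∇Φ‖² ≤ En Φ + C∫|s||Φ|² ≤ C(1 + η_nR_n)`. -/
def ZmStmt (T : Setup ds F) : Prop := ∀ _ : FiniteDimensional ℂ F, ∀ K : Submodule ℂ F, (∀ α A, ∀ v ∈ K, T.th α A v ∈ K) →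
  ∀ o : Cfg ds → F, AD.ZM T o → MemLp o 2 (volume : Measure (Cfg ds)) → (∀ᵐ s ∂(volume : Measure (Cfg ds)), o s ∈ K) → IZm T K o

/-- **EG-Cut** cut-off of `res u` near `R Y`, with mass. PROOF: `Θ = θ(|y - RY|²/(εR)²)θ(|w|²/(εR)²)`, `θ = 1` on `(-∞, 9/16]`, `θ = 0` on `[1,∞)`; as in
`AD.CutLocStmt` (block D): `GhStmt` (smoothness), `BdStmt` (`det D_8 ≠ 0`), `NormStmt` for `u` and for `QN u` (`QInvStmt`; `FrameStmt`, `DecStmt`: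
`res (QN u) = QS (res u)`), `CutStmt`: `|Qs(Θ v) - ΘQs v| ≤ (C/R)|v|`, the mass terms commute with `Θ`. -/
def CutGStmt (S : Setup d F) (φ : Spl dh dm d) : Prop := ∀ _ : FiniteDimensional ℂ F, ∀ N : Fin 9 → Matrix (Fin 16) (Fin 16) ℂ,
  (∀ i α β, (N i α β).im = 0) → ∀ Y : Cfg dh, AN.Std S φ Y → ∃ ε0 : ℝ, 0 < ε0 ∧ ∀ ε : ℝ, 0 < ε → ε ≤ ε0 → ∃ C : ℝ, 0 ≤ C ∧
    ∀ R : ℝ, 1 ≤ R → (∀ u, GI S u → (∫ p in AN.Nb Y dm R ε, ‖S.res φ u p.1 p.2‖ ^ 2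
        ∂((volume : Measure (Cfg dh)).prod (volume : Measure (Wsp dm)))) ≤ C * nsq u) ∧
      ∃ Θ : Cfg dh → Wsp dm → ℝ, ContDiff ℝ ∞ (fun p : Cfg dh × Wsp dm => Θ p.1 p.2) ∧ (∀ y w, 0 ≤ Θ y w ∧ Θ y w ≤ 1) ∧
      (∀ y w, Θ y w ≠ 0 → ‖y - R • Y‖ < ε * R ∧ ‖w‖ < ε * R) ∧
      (∀ y w, ‖y - R • Y‖ < 3 / 4 * ε * R → ‖w‖ < 3 / 4 * ε * R → Θ y w = 1) ∧
      ∀ (m : ℝ) (u : Cfg d → F), GI S u → Tst2 (mul2 Θ (S.res φ u)) ∧ Sup2 Y ε R (mul2 Θ (S.res φ u)) ∧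
        ns2 (mul2 Θ (S.res φ u)) ≤ C * nsq u ∧
        S.ES φ N m (mul2 Θ (S.res φ u)) ≤ C * ((∑ β, nsq (QN S N m β u)) + 1 / R ^ 2 * nsq u) ∧
        (∀ β y w, ‖y - R • Y‖ < 3 / 4 * ε * R → ‖w‖ < 3 / 4 * ε * R →
          S.QS φ N m β (mul2 Θ (S.res φ u)) y w = S.res φ (QN S N m β u) y w) ∧
        ∀ β y w, ‖y - R • Y‖ < ε * R → ‖w‖ < ε * R →
          ‖S.QS φ N m β (mul2 Θ (S.res φ u)) y w‖ ≤ ‖S.res φ (QN S N m β u) y w‖ + C / R * ‖S.res φ u y w‖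

/-- **EG-TL** trial functions and slice sections. `TR(pp ζ Φ)` is close to `Ts0 (vG (V pp ζ o))`. PROOF. `bz(y,w) = R^{2dm}bz(y/R,√R w)` (`gR` homogeneous:
`gR (Dz (Rη)) (R Om η) 1 w = gR (Dz η) (Om η) 1 (√R w)`, substitution in the normalisation), `V(Rη) = V(η)`; so
`Ts0 (vG (V a)) R - TR a = (1 - c(|w|²/(εR)²))·Ts0`, `‖Ts0 (vG (V a))‖_{L²} = ‖a‖_{L²}` over `U`, `|V v| = |v|`, `tail` of BzFacts. Same for `DF`: the profile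
`DF N μ β (pp ζ Φ)` is a finite sum of products `ζ'(y)·TΦ(s)` with `T` in the algebra of the `θ^h`. The last bound: `TR` over `|w| ≥ ½εR`. -/
def TLStmt (S : Setup d F) (φ : Spl dh dm d) (ψ : Spl r ds dh) : Prop := ∀ _ : FiniteDimensional ℂ F,
  S.IsSub φ → S.IsCen φ ψ → ∀ N : Fin 9 → Matrix (Fin 16) (Fin 16) ℂ,
  ∀ (U : Set (Cfg r)) (Om : Cfg r → Matrix (Fin dm) (Fin dm) ℝ) (V : Cfg r → F →L[ℂ] F) (K : Submodule ℂ F),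
  S.VFr φ ψ U Om V K → ∀ (y₀ : Cfg r) (ε0 C0 : ℝ), 0 < ε0 → BzFacts S φ ψ U Om y₀ ε0 C0 →
  ∀ (c : ℝ → ℝ), IsCt c → ∀ ε : ℝ, 0 < ε → ε ≤ ε0 → ∀ ζ : Cfg r → ℂ, ContDiff ℝ ∞ ζ → tsupport ζ ⊆ Metric.ball y₀ (ε / 2) →
  ∀ (μ : ℝ) (R : ℕ → ℝ) (Φ : ℕ → Cfg ds → F) (o : Cfg ds → F), (∀ n, 1 ≤ R n) → Tendsto R atTop atTop →
  MemLp o 2 (volume : Measure (Cfg ds)) → (∀ n, Setup.Tst (Φ n)) → Tendsto (fun n => nsq (fun s => Φ n s - o s)) atTop (𝓝 0) →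
    Tendsto (fun n => ∫ p, ‖AN.Ts0 ψ (AN.vG S φ ψ Om (fun η s => V η (pp ζ o η s))) (R n) p.1 p.2 -
      S.TR φ ψ Om V c ε (R n) (pp ζ (Φ n)) p.1 p.2‖ ^ 2 ∂((volume : Measure (Cfg dh)).prod (volume : Measure (Wsp dm))))
      atTop (𝓝 0) ∧
    (∀ β, Tendsto (fun n => ∫ p, ‖AN.Ts0 ψ (AN.vG S φ ψ Om (fun η s => V η (S.DF φ ψ N μ β (pp ζ o) η s))) (R n) p.1 p.2 -
      S.TR φ ψ Om V c ε (R n) (S.DF φ ψ N μ β (pp ζ (Φ n))) p.1 p.2‖ ^ 2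
      ∂((volume : Measure (Cfg dh)).prod (volume : Measure (Wsp dm)))) atTop (𝓝 0)) ∧
    Tendsto (fun n => R n ^ 2 * ∫ p in {p : Cfg dh × Wsp dm | 1 / 2 * ε * R n ≤ ‖p.2‖},
      ‖S.TR φ ψ Om V c ε (R n) (pp ζ (Φ n)) p.1 p.2‖ ^ 2 ∂((volume : Measure (Cfg dh)).prod (volume : Measure (Wsp dm))))
      atTop (𝓝 0) ∧
    MemLp (fun q : Cfg r × Cfg ds => V q.1 (pp ζ o q.1 q.2)) 2 (volume.prod volume) ∧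
    ∀ β, MemLp (fun q : Cfg r × Cfg ds => V q.1 (S.DF φ ψ N μ β (pp ζ o) q.1 q.2)) 2 (volume.prod volume)

/-- **EG-LocG** limit equation for the slice functional. PROOF. `v_n = Θ_n·res u_n` (EG-Cut with `Y = cmb ψ y₀ 0`), `LocStmt` with the approximants of `o`
(`IZm.app`; shift the sequences so that `η_n ≤ ε/2`): `R ip2 (TR pp ζ Φ_n) (QS v_n) - ip2 (TR DF…) v_n → 0`. Replace `QS v_n` by `res (QN u_n)`: equal for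
`|y - RY| < ¾εR` (true on the support of `TR`: `|y_z - Ry₀| ≤ ½εR`, `|s| ≤ ½εR`), `|w| < ¾εR`; the rest by the third part of EG-TL. Replace `TR` by `Ts0 (vG …)` on `Nb`:
EG-TL and `‖res (R QN u_n)‖_{L²(Nb)} ≤ C` (EG-Cut, `QInvStmt`). -/
def LocGStmt (S : Setup d F) (φ : Spl dh dm d) (ψ : Spl r ds dh) : Prop := ∀ (_ : FiniteDimensional ℂ F) (hφ : S.IsSub φ)
  (hc : S.IsCen φ ψ) (N : Fin 9 → Matrix (Fin 16) (Fin 16) ℂ), S.IsMass N →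
  ∀ (U : Set (Cfg r)) (Om : Cfg r → Matrix (Fin dm) (Fin dm) ℝ) (V : Cfg r → F →L[ℂ] F) (K : Submodule ℂ F),
  S.VFr φ ψ U Om V K → ∀ y₀ ∈ U, AN.Std S φ (cmb ψ y₀ 0) → ∃ ε0 : ℝ, 0 < ε0 ∧ ∀ ε : ℝ, 0 < ε → ε ≤ ε0 →
    ∀ ζ : Cfg r → ℂ, ContDiff ℝ ∞ ζ → tsupport ζ ⊆ Metric.ball y₀ (ε / 2) → ∀ μ : ℝ, 0 ≤ μ →
    ∀ o : Cfg ds → F, IZm (S.int φ ψ hφ hc) K o → ∀ (R : ℕ → ℝ) (u : ℕ → Cfg d → F) (C : ℝ), SqN S N μ C R u → ∀ β,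
      Tendsto (fun n => (R n : ℂ) * SL S φ ψ Om y₀ ε (R n) (fun η s => V η (pp ζ o η s)) (QN S N (μ / R n ^ 2) β (u n)) -
        SL S φ ψ Om y₀ ε (R n) (fun η s => V η (S.DF φ ψ N μ β (pp ζ o) η s)) (u n)) atTop (𝓝 0)

/-- **EG-LocZ** limit equation for the global functional near a point, in a frame where `D_8(y₀)` is invertible. PROOF: `GluDStmt` for `u_n` and for
`R_n QN u_n` (gauge invariant and bounded), EG-LocG; `δ` small: `2δ`-ball inside `U`, `δ ≤ ε/2`. -/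
def LocZStmt (S : Setup d F) (φ : Spl dh dm d) (ψ : Spl r ds dh) : Prop := ∀ (_ : FiniteDimensional ℂ F) (hφ : S.IsSub φ)
  (hc : S.IsCen φ ψ) (N : Fin 9 → Matrix (Fin 16) (Fin 16) ℂ), S.IsMass N →
  ∀ (U : Set (Cfg r)) (Om : Cfg r → Matrix (Fin dm) (Fin dm) ℝ) (V : Cfg r → F →L[ℂ] F) (K : Submodule ℂ F),
  S.VFr φ ψ U Om V K → ∀ y₀ ∈ U, ∃ δ : ℝ, 0 < δ ∧
    ∀ ζ : Cfg r → ℂ, ContDiff ℝ ∞ ζ → tsupport ζ ⊆ Metric.ball y₀ δ → ∀ μ : ℝ, 0 ≤ μ →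
    ∀ o : Cfg ds → F, IZm (S.int φ ψ hφ hc) K o → ∀ (R : ℕ → ℝ) (u : ℕ → Cfg d → F) (C : ℝ), SqN S N μ C R u →
    ∀ χ : ℕ → Cfg r × Cfg ds × Cfg dm → ℝ, CutA δ R χ → ∀ β,
      Tendsto (fun n => (R n : ℂ) * ZL S φ ψ Om (χ n) (R n) (fun η s => V η (pp ζ o η s)) (QN S N (μ / R n ^ 2) β (u n)) -
        ZL S φ ψ Om (χ n) (R n) (fun η s => V η (S.DF φ ψ N μ β (pp ζ o) η s)) (u n)) atTop (𝓝 0)

/-- **EG-Rot** covariance under `S' = S.rot R₀ 1`, `y' = rz R₀ y`, `u' = u ∘ rox R₀ᵀ 1`. PROOF: `RotStmt`, `FrameStmt`, `AX.rot_f`, `AX.rot_Dz`; `qX`, norms and `Nf` are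
invariant under rotations of the vector index; change of variables `x = rox R₀ᵀ 1 x'` (measure preserving). -/
def RotGStmt (S : Setup d F) (φ : Spl dh dm d) (ψ : Spl r ds dh) : Prop := ∀ (hφ : S.IsSub φ) (hc : S.IsCen φ ψ)
  (R₀ : Matrix (Fin 9) (Fin 9) ℝ) (hR : R₀ * R₀ᵀ = 1) (h1 : (1 : Matrix (Fin d) (Fin d) ℝ) * (1 : Matrix (Fin d) (Fin d) ℝ)ᵀ = 1),
  ∃ (hφ' : (S.rot R₀ hR 1 h1).IsSub φ) (hc' : (S.rot R₀ hR 1 h1).IsCen φ ψ),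
  (∀ y₀ : Cfg r, (S.Dz φ ψ y₀ 8).det ≠ 0 → AN.Std (S.rot R₀ hR 1 h1) φ (cmb ψ y₀ 0)) ∧
  (∀ N : Fin 9 → Matrix (Fin 16) (Fin 16) ℂ, S.IsMass N → (S.rot R₀ hR 1 h1).IsMass (AN.rotN R₀ N)) ∧
  (∀ (N : Fin 9 → Matrix (Fin 16) (Fin 16) ℂ) (m : ℝ) (β : Fin 16) (u : Cfg d → F), GI S u →
    GI (S.rot R₀ hR 1 h1) (fun x => u (rox R₀ᵀ 1 x)) ∧ nsq (fun x => u (rox R₀ᵀ 1 x)) = nsq u ∧
    QN (S.rot R₀ hR 1 h1) (AN.rotN R₀ N) m β (fun x => u (rox R₀ᵀ 1 x)) = fun x => QN S N m β u (rox R₀ᵀ 1 x)) ∧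
  (∀ (K : Submodule ℂ F) (o : Cfg ds → F), IZm (S.int φ ψ hφ hc) K o →
    IZm ((S.rot R₀ hR 1 h1).int φ ψ hφ' hc') K (fun s => o (AX.rz R₀ᵀ s))) ∧
  (∀ (N : Fin 9 → Matrix (Fin 16) (Fin 16) ℂ) (μ : ℝ) (β : Fin 16) (ζ : Cfg r → ℂ) (o : Cfg ds → F), ContDiff ℝ ∞ ζ → ∀ y s,
    (S.rot R₀ hR 1 h1).DF φ ψ (AN.rotN R₀ N) μ β (pp (fun y' => ζ (AX.rz R₀ᵀ y')) (fun s' => o (AX.rz R₀ᵀ s'))) y s =
      S.DF φ ψ N μ β (pp ζ o) (AX.rz R₀ᵀ y) (AX.rz R₀ᵀ s)) ∧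
  ∀ (Om : Cfg r → Matrix (Fin dm) (Fin dm) ℝ) (χ : Cfg r × Cfg ds × Cfg dm → ℝ) (R : ℝ) (a : Cfg r → Cfg ds → F)
    (u : Cfg d → F),
    ZL (S.rot R₀ hR 1 h1) φ ψ (fun y => Om (AX.rz R₀ᵀ y)) (fun q => χ (AX.rz R₀ᵀ q.1, AX.rz R₀ᵀ q.2.1, AX.rz R₀ᵀ q.2.2)) R
      (fun y s => a (AX.rz R₀ᵀ y) (AX.rz R₀ᵀ s)) (fun x => u (rox R₀ᵀ 1 x)) = ZL S φ ψ Om χ R a u

/-- **EG-Dir** a good direction. PROOF: `AN/A/StdA.lean` (core lemma of `StdStmt`: commuting antisymmetric matrices without common kernel have an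
invertible combination `∑e_iD_i`, `|e| = 1`; `(∑D_i²).det ≠ 0` excludes a common kernel), and a matrix `R₀ ∈ O(9)` with last row `e`. -/
def DirStmt : Prop := ∀ (n : ℕ) (D : Fin 9 → Matrix (Fin n) (Fin n) ℝ), (∀ i, (D i)ᵀ = -D i) → (∀ i j, D i * D j = D j * D i) →
  (∑ i, D i * D i).det ≠ 0 → ∃ R₀ : Matrix (Fin 9) (Fin 9) ℝ, R₀ * R₀ᵀ = 1 ∧ (∑ j, R₀ 8 j • D j).det ≠ 0

/-- **EG-Int** integrability. PROOF: linear change of variables `x ↔ (η, s, X)`; `|bG a| ≤ C‖a(η,s)‖` (`Nf κ (Om η)` is continuous off `Coll L`: GL9 `MomStmt` in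
rotated frames, or the explicit Gaussian integrals; the exponential is `≤ 1` since `Om η > 0`); `u` is bounded with compact support, `a ∈ L² ⊂ L¹_loc`. -/
def ZIntStmt (S : Setup d F) (φ : Spl dh dm d) (ψ : Spl r ds dh) : Prop := ∀ (_ : FiniteDimensional ℂ F), S.IsSub φ → S.IsCen φ ψ →
  ∀ (L : Finset (Fin r → ℝ)) (Om : Cfg r → Matrix (Fin dm) (Fin dm) ℝ) (K : Submodule ℂ F) (U : Cfg r → F →L[ℂ] F),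
  AX.Bun S φ (AX.Mz S φ (spsw ψ)) L Om K U → ∀ 𝒞 : Set (Cfg r), IsCompact 𝒞 → Disjoint 𝒞 (Coll L) →
  ContinuousOn (fun η => AN.Nf S.κ (Om η)) 𝒞 ∧
  ∀ a : Cfg r → Cfg ds → F, MemLp (fun q : Cfg r × Cfg ds => a q.1 q.2) 2 (volume.prod volume) →
  (∀ η s, a η s ≠ 0 → η ∈ 𝒞) → ∀ (R : ℝ) (χ : Cfg r × Cfg ds × Cfg dm → ℝ) (u : Cfg d → F), 1 ≤ R →
  Measurable χ → (∀ q, 0 ≤ χ q ∧ χ q ≤ 1) → Setup.Tst u →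
    Integrable (fun x => inner ℂ (AN.Zb φ ψ (fun q => ((χ q : ℝ) : ℂ) • AN.bG S.κ Om a q) R x) (u x))

/-- **EG-GLim** OUTPUT: global limit equation. PROOF. For `z ∈ tsupport ζ` (compact, off `Coll L`): EG-Dir for `D_i(z)` (`Bun.det`; antisymmetric and commuting:
`AX.tor_Dz` or `AX.Mz_anti`, `Mz_comm`) gives `R₀`; `AX.vfr` gives the vacuum frame of `S.rot R₀ 1` near `rz R₀ z`; `LocZStmt` and EG-Rot give `δ(z)` such that the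
claim holds for all `ζ'` supported in `ball z δ(z)`; finite subcover, smooth partition of unity, linearity of `ZL`, `DF`, `pp` in `ζ` (EG-Int); `δ = min`. -/
def GLimStmt (S : Setup d F) (φ : Spl dh dm d) (ψ : Spl r ds dh) : Prop := ∀ (_ : FiniteDimensional ℂ F) (hφ : S.IsSub φ)
  (hc : S.IsCen φ ψ) (N : Fin 9 → Matrix (Fin 16) (Fin 16) ℂ), S.IsMass N →
  ∀ (L : Finset (Fin r → ℝ)) (Om : Cfg r → Matrix (Fin dm) (Fin dm) ℝ) (K : Submodule ℂ F) (U : Cfg r → F →L[ℂ] F),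
  AX.Bun S φ (AX.Mz S φ (spsw ψ)) L Om K U → ∀ ζ : Cfg r → ℂ, ContDiff ℝ ∞ ζ → HasCompactSupport ζ →
  Disjoint (tsupport ζ) (Coll L) → ∃ δ : ℝ, 0 < δ ∧ ∀ μ : ℝ, 0 ≤ μ → ∀ o : Cfg ds → F, IZm (S.int φ ψ hφ hc) K o →
    ∀ (R : ℕ → ℝ) (u : ℕ → Cfg d → F) (C : ℝ), SqN S N μ C R u →
    ∀ χ : ℕ → Cfg r × Cfg ds × Cfg dm → ℝ, CutA δ R χ → ∀ β,
      Tendsto (fun n => (R n : ℂ) * ZL S φ ψ Om (χ n) (R n) (fun η s => U η (pp ζ o η s)) (QN S N (μ / R n ^ 2) β (u n)) -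
        ZL S φ ψ Om (χ n) (R n) (fun η s => U η (S.DF φ ψ N μ β (pp ζ o) η s)) (u n)) atTop (𝓝 0)

/-- **EG-GLimL** the same for sequences bounded in shells at scale `R` only (`0 ∉ tsupport ζ`). PROOF: `ρ_n(x) = ρ(|x|²/R_n²)` with `ρ ∈ C_c^∞((0,∞))`, `ρ = 1` near
`{|x|² : x = (η,s,X) , η ∈ tsupport ζ, |s| ≤ δ, |X| ≤ δ}` (`|x|² = |x^z|² + |x^s|² + |x^m|²`); `ρ_nu_n` is gauge invariant (`|x|` invariant), `SqN`; on the support of the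
trial function `ρ_n = 1` near `x`, so `ZL … (QN (ρ_nu_n)) = ZL … (QN u_n)`. -/
def GLimLStmt (S : Setup d F) (φ : Spl dh dm d) (ψ : Spl r ds dh) : Prop := ∀ (_ : FiniteDimensional ℂ F) (hφ : S.IsSub φ)
  (hc : S.IsCen φ ψ) (N : Fin 9 → Matrix (Fin 16) (Fin 16) ℂ), S.IsMass N →
  ∀ (L : Finset (Fin r → ℝ)) (Om : Cfg r → Matrix (Fin dm) (Fin dm) ℝ) (K : Submodule ℂ F) (U : Cfg r → F →L[ℂ] F),
  AX.Bun S φ (AX.Mz S φ (spsw ψ)) L Om K U → ∀ ζ : Cfg r → ℂ, ContDiff ℝ ∞ ζ → HasCompactSupport ζ →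
  Disjoint (tsupport ζ) (Coll L) → (0 : Cfg r) ∉ tsupport ζ → ∃ δ : ℝ, 0 < δ ∧ ∀ μ : ℝ, 0 ≤ μ →
    ∀ o : Cfg ds → F, IZm (S.int φ ψ hφ hc) K o →
    ∀ (R : ℕ → ℝ) (u : ℕ → Cfg d → F), (∀ n, 1 ≤ R n) → Tendsto R atTop atTop → (∀ n, GI S (u n)) →
    (∀ s t : ℝ, 0 < s → s < t → ∃ C : ℝ, ∀ n, AD.mas (u n) (AD.shl d (s * R n) (t * R n)) +
      R n ^ 2 * ∑ β, (∫ x in AD.shl d (s * R n) (t * R n), ‖QN S N (μ / R n ^ 2) β (u n) x‖ ^ 2) ≤ C) →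
    ∀ χ : ℕ → Cfg r × Cfg ds × Cfg dm → ℝ, CutA δ R χ → ∀ β,
      Tendsto (fun n => (R n : ℂ) * ZL S φ ψ Om (χ n) (R n) (fun η s => U η (pp ζ o η s)) (QN S N (μ / R n ^ 2) β (u n)) -
        ZL S φ ψ Om (χ n) (R n) (fun η s => U η (S.DF φ ψ N μ β (pp ζ o) η s)) (u n)) atTop (𝓝 0)

/-- **EG-GluB** uniform bound for the global functional near a point. PROOF: GL4 (`PairStmt`), GL5 (`WgtStmt`), GL7, GL9 (`MomStmt`), `NormStmt`: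
`|ZL| ≤ ‖Z̃‖_{L²(Nb)}‖res u‖_{L²(Nb)} ≤ C(∫(1+|X|²)^{dm+1}|bG a|²)^{1/2}‖u‖ ≤ C'‖a‖‖u‖`. -/
def GluBStmt (S : Setup d F) : Prop := ∀ _ : FiniteDimensional ℂ F, ∀ (dh dm r ds : ℕ) (φ : Spl dh dm d) (ψ : Spl r ds dh)
  (z₀ : Cfg r), S.IsCen φ ψ → AN.Std S φ (cmb ψ z₀ 0) → ∃ δ₀ : ℝ, 0 < δ₀ ∧ ∀ δ : ℝ, 0 < δ → δ ≤ δ₀ →
  ∀ (Om : Cfg r → Matrix (Fin dm) (Fin dm) ℝ),
  (∀ η, ‖η - z₀‖ ≤ 2 * δ → Frz (S.Dz φ ψ η) ∧ IsOm S.κ (S.Dz φ ψ η) (Om η)) → ContinuousOn Om {η | ‖η - z₀‖ ≤ 2 * δ} →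
  ∃ C : ℝ, 0 ≤ C ∧ ∀ a : Cfg r → Cfg ds → F, MemLp (fun q : Cfg r × Cfg ds => a q.1 q.2) 2 (volume.prod volume) →
  (∀ η s, a η s ≠ 0 → ‖η - z₀‖ ≤ δ) → ∀ (R : ℝ) (χ : Cfg r × Cfg ds × Cfg dm → ℝ) (u : Cfg d → F), 1 ≤ R →
  Measurable χ → (∀ q, 0 ≤ χ q ∧ χ q ≤ 1) → (∀ q, χ q ≠ 0 → ‖q.2.1‖ ≤ δ * R ∧ ‖q.2.2‖ ≤ δ * (R * Real.sqrt R)) → GI S u →
    ‖ZL S φ ψ Om χ R a u‖ ^ 2 ≤ C * (∫ q, ‖a q.1 q.2‖ ^ 2 ∂((volume : Measure (Cfg r)).prod (volume : Measure (Cfg ds)))) * nsq u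

/-- **EG-GBd** uniform bound for sections supported over a compact set off the collisions. PROOF: EG-GluB in rotated frames (EG-Rot, EG-Dir), finite
cover (measurable partition of `𝒞`: `a = ∑1_{B_k}a`). -/
def GBdStmt (S : Setup d F) (φ : Spl dh dm d) (ψ : Spl r ds dh) : Prop := ∀ (_ : FiniteDimensional ℂ F), S.IsSub φ → S.IsCen φ ψ →
  ∀ (L : Finset (Fin r → ℝ)) (Om : Cfg r → Matrix (Fin dm) (Fin dm) ℝ) (K : Submodule ℂ F) (U : Cfg r → F →L[ℂ] F),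
  AX.Bun S φ (AX.Mz S φ (spsw ψ)) L Om K U → ∀ 𝒞 : Set (Cfg r), IsCompact 𝒞 → Disjoint 𝒞 (Coll L) →
  ∃ δ C : ℝ, 0 < δ ∧ 0 ≤ C ∧ ∀ a : Cfg r → Cfg ds → F, MemLp (fun q : Cfg r × Cfg ds => a q.1 q.2) 2 (volume.prod volume) →
  (∀ η s, a η s ≠ 0 → η ∈ 𝒞) → ∀ (R : ℝ) (χ : Cfg r × Cfg ds × Cfg dm → ℝ) (u : Cfg d → F), 1 ≤ R →
  Measurable χ → (∀ q, 0 ≤ χ q ∧ χ q ≤ 1) → (∀ q, χ q ≠ 0 → ‖q.2.1‖ ≤ δ * R ∧ ‖q.2.2‖ ≤ δ * (R * Real.sqrt R)) → GI S u →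
    ‖ZL S φ ψ Om χ R a u‖ ^ 2 ≤ C * (∫ q, ‖a q.1 q.2‖ ^ 2 ∂((volume : Measure (Cfg r)).prod (volume : Measure (Cfg ds)))) * nsq u

end Vale.Agent.P353.Z.AE
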