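import Vale.Agent.P353.AN.E.StmtG
import Vale.Agent.P353.AN.L.Defs
import Vale.Agent.P353.AN.REP.Stmt

/-! # P353, all `N`, block E: limit equation in coefficient form (input of `PW.LimEq`) (helper725) -/

open MeasureTheory Filter Topology Matrix
open scoped ContDiff

namespace Vale.Agent.P353.Z.AE

variable {d : ℕ} {F : Type*} [NormedAddCommGroup F] [InnerProductSpace ℂ F]

/-- **EG-LimD** limit equation for `Z = Zb(χ_R bG(sc U o b))`, mass `R^{-2}`. PROOF. `GLimStmt S φ ψ` with `N = N0 S`, `μ = 1` for each pair `(b_j, o_j)` (`ZmStmt` gives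
`IZm`; `K` is `θ^h`-invariant: `Bun.K_th`); `S.Qm m β u = QN S (N0 S) m β u` (`FrameStmt`). `sc U o b = ∑_j U(pp b_j o_j)`; `sc U o (T.FD β b) = ∑_jU(DF (N0 S) 1 β (pp b_j o_j))` for almost every
`s` (`Dat.thT`, `Dat.gam`; `MM`: `N0 S i = a_i γ^iΓ`), hence a.e. on `Cfg d`; linearity by `ZIntStmt`. The cutoffs `χ (R k)` satisfy `CutA δ` for large `k` (change finitely many terms;
also `R k ≥ 1` only for large `k`: pass to the tail of the sequence). -/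
def LimDStmt (S : Setup d F) : Prop := ∀ _ : FiniteDimensional ℂ F, ∀ (dh dm r ds n : ℕ) (φ : Spl dh dm d) (ψ : Spl r ds dh)
  (L : Finset (Fin r → ℝ)) (Om : Cfg r → Matrix (Fin dm) (Fin dm) ℝ) (K : Submodule ℂ F) (U : Cfg r → F →L[ℂ] F)
  (o : Fin n → Cfg ds → F) (T : Setup r (AL.Ek n)), AL.Dat S φ ψ L Om K U o T →
  ∀ χ : ℝ → Cfg r × Cfg ds × Cfg dm → ℝ, AN.REP.IsCo χ → ∀ (R : ℕ → ℝ) (Ψ : ℕ → Cfg d → F) (C : ℝ), Prof.Bdd S R Ψ C →
  ∀ β, ∀ b : Cfg r → AL.Ek n, TstOff L b →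
    Tendsto (fun k => (R k : ℂ) * ipr (AN.Zb φ ψ (fun q => ((χ (R k) q : ℝ) : ℂ) • AN.bG S.κ Om (AL.sc U o b) q) (R k))
        (S.Qm ((R k)⁻¹ ^ 2) β (Ψ k)) -
      ipr (AN.Zb φ ψ (fun q => ((χ (R k) q : ℝ) : ℂ) • AN.bG S.κ Om (AL.sc U o (T.FD β b)) q) (R k)) (Ψ k)) atTop (𝓝 0)

/-- **EG-Chi** the sharp cutoffs of block L are admissible. PROOF: `√R ≤ δR`, `R ≤ δR√R` for large `R`. -/
def ChiStmt : Prop := ∀ r ds dm : ℕ, AN.REP.IsCo (fun (R : ℝ) (q : Cfg r × Cfg ds × Cfg dm) => AL.chi R q)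

end Vale.Agent.P353.Z.AE
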