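import Vale.Agent.P353.AN.E.StmtL

/-! # P353, all `N`, block E: limit equation for types given in a rotated colour frame (helper725) -/

open MeasureTheory Filter Topology Matrix
open scoped ContDiff

namespace Vale.Agent.P353.Z.AE

variable {d : ℕ} {F : Type*} [NormedAddCommGroup F] [InnerProductSpace ℂ F]

/-- **EG-RotO** transport by a colour rotation `O`: `S'' = S.rot 1 O`, `u''(x) = u(rox 1 Oᵀ x)`. PROOF: `RotStmt S` (`R = 1`), `FrameStmt S`; `S''.g i = ∑_j 1_{ij} S.g j = S.g i`,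
hence `S''.Gam = S.Gam`, `N0 S'' = N0 S`, `rotN 1 N = N`; change of variables `x = rox 1 O z` (measure preserving homeomorphism). -/
def RotOStmt (S : Setup d F) : Prop := ∀ (h9 : (1 : Matrix (Fin 9) (Fin 9) ℝ) * (1 : Matrix (Fin 9) (Fin 9) ℝ)ᵀ = 1)
  (O : Matrix (Fin d) (Fin d) ℝ) (hO : O * Oᵀ = 1),
  (∀ u : Cfg d → F, S.GInv u → (S.rot 1 h9 O hO).GInv (fun x => u (rox 1 Oᵀ x)) ∧ nsq (fun x => u (rox 1 Oᵀ x)) = nsq u ∧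
    ∀ (m : ℝ) (β : Fin 16), (S.rot 1 h9 O hO).Qm m β (fun x => u (rox 1 Oᵀ x)) = fun x => S.Qm m β u (rox 1 Oᵀ x)) ∧
  (∀ (R : ℕ → ℝ) (Ψ : ℕ → Cfg d → F) (C : ℝ), Prof.Bdd S R Ψ C → Prof.Bdd (S.rot 1 h9 O hO) R (fun n x => Ψ n (rox 1 Oᵀ x)) C) ∧
  ∀ Z u : Cfg d → F, ipr (fun x => Z (rox 1 O x)) u = ipr Z (fun x => u (rox 1 Oᵀ x))

/-- **EG-LimO** limit equation for a type in the colour frame `O`. PROOF: `LimDStmt` for `S.rot 1 O` and EG-RotO. -/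
def LimOStmt (S : Setup d F) : Prop := ∀ _ : FiniteDimensional ℂ F,
  ∀ (h9 : (1 : Matrix (Fin 9) (Fin 9) ℝ) * (1 : Matrix (Fin 9) (Fin 9) ℝ)ᵀ = 1)
  (O : Matrix (Fin d) (Fin d) ℝ) (hO : O * Oᵀ = 1) (dh dm r ds n : ℕ) (φ : Spl dh dm d) (ψ : Spl r ds dh)
  (L : Finset (Fin r → ℝ)) (Om : Cfg r → Matrix (Fin dm) (Fin dm) ℝ) (K : Submodule ℂ F) (U : Cfg r → F →L[ℂ] F)
  (o : Fin n → Cfg ds → F) (T : Setup r (AL.Ek n)), AL.Dat (S.rot 1 h9 O hO) φ ψ L Om K U o T →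
  ∀ χ : ℝ → Cfg r × Cfg ds × Cfg dm → ℝ, AN.REP.IsCo χ → ∀ (R : ℕ → ℝ) (Ψ : ℕ → Cfg d → F) (C : ℝ), Prof.Bdd S R Ψ C →
  ∀ β, ∀ b : Cfg r → AL.Ek n, TstOff L b →
    Tendsto (fun k => (R k : ℂ) *
        ipr (fun x => AN.Zb φ ψ (fun q => ((χ (R k) q : ℝ) : ℂ) • AN.bG S.κ Om (AL.sc U o b) q) (R k) (rox 1 O x))
        (S.Qm ((R k)⁻¹ ^ 2) β (Ψ k)) -
      ipr (fun x => AN.Zb φ ψ (fun q => ((χ (R k) q : ℝ) : ℂ) • AN.bG S.κ Om (AL.sc U o (T.FD β b)) q) (R k) (rox 1 O x))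
        (Ψ k)) atTop (𝓝 0)

end Vale.Agent.P353.Z.AE
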