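import Vale.Agent.P353.AN.E.StmtG

/-! # P353, all `N`, block E: the global limit equation in two parts (helper725) -/

open MeasureTheory Filter Topology Matrix
open scoped ContDiff

namespace Vale.Agent.P353.Z.AE

variable {d dh dm r ds : ℕ} {F : Type*} [NormedAddCommGroup F] [InnerProductSpace ℂ F]

/-- **EG-GLimA** the global limit equation for cutoffs `ζ` supported near a point `z` off the collisions. PROOF. EG-Dir for `D_i(z)` (`Bun.det`; antisymmetric and commuting: `AX.tor_Dz` or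
`AX.Mz_anti`, `Mz_comm`) gives `R₀`; `AX.vfr` gives the vacuum frame of `S.rot R₀ 1` near `rz R₀ z`; `LocZStmt` for `S.rot R₀ 1` and EG-Rot give `δ`. -/
def GLimAStmt (S : Setup d F) (φ : Spl dh dm d) (ψ : Spl r ds dh) : Prop := ∀ (_ : FiniteDimensional ℂ F) (hφ : S.IsSub φ)
  (hc : S.IsCen φ ψ) (N : Fin 9 → Matrix (Fin 16) (Fin 16) ℂ), S.IsMass N →
  ∀ (L : Finset (Fin r → ℝ)) (Om : Cfg r → Matrix (Fin dm) (Fin dm) ℝ) (K : Submodule ℂ F) (U : Cfg r → F →L[ℂ] F),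
  AX.Bun S φ (AX.Mz S φ (spsw ψ)) L Om K U → ∀ z : Cfg r, z ∉ Coll L → ∃ δ : ℝ, 0 < δ ∧
  ∀ ζ : Cfg r → ℂ, ContDiff ℝ ∞ ζ → HasCompactSupport ζ → tsupport ζ ⊆ Metric.ball z δ →
    ∀ μ : ℝ, 0 ≤ μ → ∀ o : Cfg ds → F, IZm (S.int φ ψ hφ hc) K o →
    ∀ (R : ℕ → ℝ) (u : ℕ → Cfg d → F) (C : ℝ), SqN S N μ C R u →
    ∀ χ : ℕ → Cfg r × Cfg ds × Cfg dm → ℝ, CutA δ R χ → ∀ β,
      Tendsto (fun n => (R n : ℂ) * ZL S φ ψ Om (χ n) (R n) (fun η s => U η (pp ζ o η s)) (QN S N (μ / R n ^ 2) β (u n)) -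
        ZL S φ ψ Om (χ n) (R n) (fun η s => U η (S.DF φ ψ N μ β (pp ζ o) η s)) (u n)) atTop (𝓝 0)

/-- **EG-GLimB** PROOF: finite subcover of `tsupport ζ` by the balls of EG-GLimA, smooth partition of unity (`SmoothBumpCovering` / `exists_contDiff...`), `ζ = ∑ρ_jζ`, linearity of `pp`, `DF`, `ZL` in `ζ`
(integrability: EG-Int, `ZIntStmt`; `U η (pp ζ_j o)` and `U η (DF (pp ζ_j o))` are `L²` with compact support in `η`), `δ = min`. -/
def GLimBStmt (S : Setup d F) (φ : Spl dh dm d) (ψ : Spl r ds dh) : Prop := GLimAStmt S φ ψ → ZIntStmt S φ ψ → GLimStmt S φ ψ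

end Vale.Agent.P353.Z.AE
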