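import Vale.Agent.P353.AN.E.Stmt

/-! # P353, all `N`, block E: `q1` kills Gaussian times fermionic vacuum -/

open MeasureTheory Filter Topology Matrix
open scoped ContDiff

namespace Vale.Agent.P353.Z.AE

section vq

variable {dm : ℕ} {F : Type*} [NormedAddCommGroup F] [InnerProductSpace ℂ F]

/-- `(N θ^B)_β` applied to the vacuum vector -/
private noncomputable def vqE (θ : Fin 16 → Fin dm → F) (N : Matrix (Fin 16) (Fin 16) ℂ) (B : Fin dm)
    (β : Fin 16) : F := ∑ γ, N β γ • θ γ B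

private theorem vqE_add (θ : Fin 16 → Fin dm → F) (N M : Matrix (Fin 16) (Fin 16) ℂ) (B : Fin dm)
    (β : Fin 16) : vqE θ (N + M) B β = vqE θ N B β + vqE θ M B β := by
  simp [vqE, add_smul, Finset.sum_add_distrib]

private theorem vqE_sub (θ : Fin 16 → Fin dm → F) (N M : Matrix (Fin 16) (Fin 16) ℂ) (B : Fin dm)
    (β : Fin 16) : vqE θ (N - M) B β = vqE θ N B β - vqE θ M B β := by
  simp [vqE, sub_smul, Finset.sum_sub_distrib]

private theorem vqE_smul (θ : Fin 16 → Fin dm → F) (c : ℂ) (N : Matrix (Fin 16) (Fin 16) ℂ)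
    (B : Fin dm) (β : Fin 16) : vqE θ (c • N) B β = c • vqE θ N B β := by
  simp [vqE, Finset.smul_sum, mul_smul]

private theorem vqE_zero (θ : Fin 16 → Fin dm → F) (B : Fin dm) (β : Fin 16) :
    vqE θ 0 B β = 0 := by
  simp [vqE]

private theorem vqE_one (θ : Fin 16 → Fin dm → F) (B : Fin dm) (β : Fin 16) :
    vqE θ 1 B β = θ β B := by
  simp [vqE, Matrix.one_apply]

private theorem vqE_mul (θ : Fin 16 → Fin dm → F) (N M : Matrix (Fin 16) (Fin 16) ℂ) (B : Fin dm)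
    (β : Fin 16) : vqE θ (N * M) B β = ∑ γ, N β γ • vqE θ M B γ := by
  simp only [vqE, Matrix.mul_apply, Finset.sum_smul, Finset.smul_sum, mul_smul]
  rw [Finset.sum_comm]

/-- the first two terms of `q1` -/
private theorem vq_one {g : Fin 9 → Matrix (Fin 16) (Fin 16) ℂ} {θ : Fin 16 → Fin dm → F} {κ : ℝ}
    {D : Fin 9 → Matrix (Fin dm) (Fin dm) ℝ} {Om : Matrix (Fin dm) (Fin dm) ℝ}
    (hD : ∀ i, (D i)ᵀ = -D i) (hOm : Omᵀ = Om)
    (hv : ∀ α A, ∑ B, ((Om A B : ℝ) : ℂ) • θ α B =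
      (Complex.I * (κ : ℂ)) • ∑ B, ∑ k, ((D k A B : ℝ) : ℂ) • vqE θ (g k) B α)
    (V : Fin dm → ℝ) (i : Fin 9) (β : Fin 16) :
    ∑ B, (((Om *ᵥ V) B : ℝ) : ℂ) • vqE θ (g i) B β =
      -((Complex.I * (κ : ℂ)) • ∑ B, ∑ k, (((D k *ᵥ V) B : ℝ) : ℂ) • vqE θ (g i * g k) B β) := by
  have h1 : ∀ γ, ∑ B, (((Om *ᵥ V) B : ℝ) : ℂ) • θ γ B =
      -((Complex.I * (κ : ℂ)) • ∑ B, ∑ k, (((D k *ᵥ V) B : ℝ) : ℂ) • vqE θ (g k) B γ) := by
    intro γ
    have e1 : ∑ B, (((Om *ᵥ V) B : ℝ) : ℂ) • θ γ B =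
        ∑ A, ((V A : ℝ) : ℂ) • ∑ B, ((Om A B : ℝ) : ℂ) • θ γ B := by
      simp only [Matrix.mulVec, dotProduct, Complex.ofReal_sum, Complex.ofReal_mul, Finset.sum_smul,
        Finset.smul_sum, smul_smul]
      rw [Finset.sum_comm]
      refine Finset.sum_congr rfl fun A _ => Finset.sum_congr rfl fun B _ => ?_
      have : Om B A = Om A B := by
        have := congrFun (congrFun hOm A) B
        simpa [Matrix.transpose_apply] using this
      rw [this, mul_comm]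
    rw [e1]
    simp only [hv]
    have e2 : ∀ (k : Fin 9) (B : Fin dm), (D k *ᵥ V) B = -∑ A, V A * D k A B := by
      intro k B
      simp only [Matrix.mulVec, dotProduct]
      rw [← Finset.sum_neg_distrib]
      refine Finset.sum_congr rfl fun A _ => ?_
      have := congrFun (congrFun (hD k) A) B
      simp only [Matrix.transpose_apply, Matrix.neg_apply] at this
      rw [this]
      ring
    simp only [e2, Complex.ofReal_neg, neg_smul, Finset.sum_neg_distrib, smul_neg, neg_neg]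
    simp only [Complex.ofReal_sum, Complex.ofReal_mul, Finset.sum_smul, Finset.smul_sum, smul_smul]
    rw [Finset.sum_comm]
    refine Finset.sum_congr rfl fun B _ => ?_
    rw [Finset.sum_comm]
    refine Finset.sum_congr rfl fun k _ => Finset.sum_congr rfl fun A _ => ?_
    congr 1
    ring
  calc ∑ B, (((Om *ᵥ V) B : ℝ) : ℂ) • vqE θ (g i) B β
      = ∑ γ, g i β γ • ∑ B, (((Om *ᵥ V) B : ℝ) : ℂ) • θ γ B := by
        simp only [vqE, Finset.smul_sum]
        rw [Finset.sum_comm]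
        refine Finset.sum_congr rfl fun γ _ => Finset.sum_congr rfl fun B _ => ?_
        rw [smul_comm]
    _ = _ := by
        simp only [h1, vqE_mul, smul_neg, Finset.sum_neg_distrib, Finset.smul_sum]
        congr 1
        rw [Finset.sum_comm]
        refine Finset.sum_congr rfl fun B _ => ?_
        rw [Finset.sum_comm]
        refine Finset.sum_congr rfl fun k _ => Finset.sum_congr rfl fun γ _ => ?_
        simp only [smul_smul]
        congr 1
        ring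

/-- the potential term of `q1` -/
private theorem vq_two {g : Fin 9 → Matrix (Fin 16) (Fin 16) ℂ} {θ : Fin 16 → Fin dm → F}
    (hg : ∀ i j, g i * g j + g j * g i = if i = j then 2 else 0)
    {a : Fin 9 → Fin 9 → ℝ} (ha : ∑ i, a i i = 0) (B : Fin dm) (β : Fin 16) :
    ∑ i, ∑ j, (((a i j - a j i : ℝ)) : ℂ) •
        vqE θ ((1 / 2 : ℂ) • (g i * g j - g j * g i)) B β =
      (2 : ℂ) • ∑ i, ∑ j, ((a i j : ℝ) : ℂ) • vqE θ (g i * g j) B β := by
  have e1 : ∀ i j, vqE θ ((1 / 2 : ℂ) • (g i * g j - g j * g i)) B β =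
      vqE θ (g i * g j) B β - if i = j then θ β B else 0 := by
    intro i j
    have e2 : (1 / 2 : ℂ) • (g i * g j - g j * g i) =
        g i * g j - (1 / 2 : ℂ) • (g i * g j + g j * g i) := by
      module
    rw [e2, hg, vqE_sub, vqE_smul]
    congr 1
    by_cases hij : i = j
    · simp only [hij, if_true]
      have : (2 : Matrix (Fin 16) (Fin 16) ℂ) = (2 : ℂ) • 1 := by
        rw [two_smul, one_add_one_eq_two]
      rw [this, vqE_smul, vqE_one, smul_smul]
      norm_num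
    · simp only [hij, if_false]
      rw [vqE_zero, smul_zero]
  have e3 : ∀ i j, vqE θ (g j * g i) B β = -vqE θ (g i * g j) B β +
      (2 : ℂ) • if i = j then θ β B else 0 := by
    intro i j
    have h1 : g j * g i = (if i = j then (2 : Matrix (Fin 16) (Fin 16) ℂ) else 0) - g i * g j := by
      rw [← hg i j]
      abel
    rw [h1, vqE_sub]
    by_cases hij : i = j
    · simp only [hij, if_true]
      have : (2 : Matrix (Fin 16) (Fin 16) ℂ) = (2 : ℂ) • 1 := by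
        rw [two_smul, one_add_one_eq_two]
      rw [this, vqE_smul, vqE_one]
      abel
    · simp only [hij, if_false]
      rw [vqE_zero, smul_zero]
      abel
  have e4 : ∑ i, ∑ j, ((a i j : ℝ) : ℂ) • (if i = j then θ β B else 0) = 0 := by
    simp only [smul_ite, smul_zero, Finset.sum_ite_eq, Finset.mem_univ, if_true]
    rw [← Finset.sum_smul, ← Complex.ofReal_sum, ha]
    simp
  simp only [e1]
  simp only [Complex.ofReal_sub, sub_smul, smul_sub, Finset.sum_sub_distrib]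
  have e5 : ∑ i, ∑ j, ((a j i : ℝ) : ℂ) • vqE θ (g i * g j) B β =
      -∑ i, ∑ j, ((a i j : ℝ) : ℂ) • vqE θ (g i * g j) B β := by
    rw [Finset.sum_comm]
    have e7 : ∀ i j, ((a i j : ℝ) : ℂ) • vqE θ (g j * g i) B β =
        -(((a i j : ℝ) : ℂ) • vqE θ (g i * g j) B β) +
          (2 : ℂ) • (((a i j : ℝ) : ℂ) • if i = j then θ β B else 0) := by
      intro i j
      rw [e3 i j]
      module
    rw [Finset.sum_congr rfl fun i _ => Finset.sum_congr rfl fun j _ => e7 i j]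
    simp only [Finset.sum_add_distrib, Finset.sum_neg_distrib, ← Finset.smul_sum]
    rw [e4, smul_zero, add_zero]
  have e6 : ∑ i, ∑ j, ((a j i : ℝ) : ℂ) • (if i = j then θ β B else 0) = 0 := by
    simp only [smul_ite, smul_zero, Finset.sum_ite_eq, Finset.mem_univ, if_true]
    rw [← Finset.sum_smul, ← Complex.ofReal_sum, ha]
    simp
  rw [e4, e5, e6, two_smul]
  abel

/-- derivative of the Gaussian -/
private theorem vq_pf {D : Fin 9 → Matrix (Fin dm) (Fin dm) ℝ}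
    {Om : Matrix (Fin dm) (Fin dm) ℝ} {M : Wsp dm →L[ℝ] Wsp dm}
    (hMs : ∀ v w, inner ℝ (M v) w = inner ℝ v (M w)) (hqf : ∀ w, qf D Om w = inner ℝ w (M w))
    (hMV : ∀ (w : Wsp dm) (j : Fin 8) (B : Fin dm), M w (j, B) = (Om *ᵥ VV D w j.castSucc) B)
    (c : ℝ) (v : F) (w : Wsp dm) (j : Fin 8) (B : Fin dm) :
    pf j B (fun w => ((c * gR D Om 1 w : ℝ) : ℂ) • v) w =
      ((-(c * gR D Om 1 w) * (Om *ᵥ VV D w j.castSucc) B : ℝ) : ℂ) • v := by
  have h1 : HasFDerivAt (fun w : Wsp dm => inner ℝ w (M w))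
      ((fderivInnerCLM ℝ (w, M w)).comp ((ContinuousLinearMap.id ℝ (Wsp dm)).prod M)) w :=
    (hasFDerivAt_id w).inner ℝ (M.hasFDerivAt)
  have h2 : HasFDerivAt (fun w : Wsp dm => c * gR D Om 1 w)
      (c • (Real.exp (-(1 / 2) * inner ℝ w (M w)) • (-(1 / 2) : ℝ) •
        ((fderivInnerCLM ℝ (w, M w)).comp ((ContinuousLinearMap.id ℝ (Wsp dm)).prod M)))) w := by
    have h3 : (fun w : Wsp dm => c * gR D Om 1 w) =
        fun w => c * Real.exp (-(1 / 2) * inner ℝ w (M w)) := by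
      funext w
      rw [gR, hqf]
    rw [h3]
    exact ((h1.const_mul (-(1 / 2))).exp).const_mul c
  have h4 : (fun w : Wsp dm => ((c * gR D Om 1 w : ℝ) : ℂ) • v) =
      fun w => (c * gR D Om 1 w) • v := by
    funext w
    rw [Complex.coe_smul]
  unfold pf
  rw [h4, (h2.smul_const v).fderiv]
  simp only [ContinuousLinearMap.smulRight_apply, _root_.smul_apply, ContinuousLinearMap.comp_apply,
    ContinuousLinearMap.prod_apply, ContinuousLinearMap.id_apply, fderivInnerCLM_apply, smul_eq_mul]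
  have h5 : inner ℝ (M w) (EuclideanSpace.single (j, B) (1 : ℝ)) = M w (j, B) := by
    rw [EuclideanSpace.inner_single_right]
    simp
  have h6 : inner ℝ w (M (EuclideanSpace.single (j, B) (1 : ℝ))) = M w (j, B) := by
    rw [← hMs, h5]
  have h7 : inner ℝ (EuclideanSpace.single (j, B) (1 : ℝ)) (M w) = M w (j, B) := by
    rw [real_inner_comm, h5]
  rw [h6, h7, hMV, Complex.coe_smul]
  congr 1
  rw [gR, hqf]
  ring

end vq

/-- **E-VacQ1** -/
theorem vacQ1 {d dh dm : ℕ} {F : Type*} [NormedAddCommGroup F] [InnerProductSpace ℂ F]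
    (S : Setup d F) (φ : Spl dh dm d) : AlgStmt → QFStmt → VacQ1Stmt S φ := by
  intro hAlg hQF D Om hD hOm v hv c β w
  obtain ⟨-, -, hT8, hTO, -, -, -, hTV, hDV, hFL, -⟩ := hAlg dm S.κ D Om S.κ_pos hD hOm
  obtain ⟨M, hMs, hqf, hMV, -⟩ := hQF dm S.κ D Om S.κ_pos hD hOm
  set θ : Fin 16 → Fin dm → F := fun γ B => S.th γ (φ (Sum.inr B)) v with hθ
  set G : ℝ := c * gR D Om 1 w with hG
  have hvec : ∀ (N : Matrix (Fin 16) (Fin 16) ℂ) (B : Fin dm) (γ : Fin 16),
      S.vec N (φ (Sum.inr B)) γ v = vqE θ N B γ := by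
    intro N B γ
    simp [CS.vec, vqE, hθ]
  have hpf : ∀ (j : Fin 8) (B : Fin dm), pf j B (fun w => ((c * gR D Om 1 w : ℝ) : ℂ) • v) w =
      ((-G * (Om *ᵥ VV D w j.castSucc) B : ℝ) : ℂ) • v := fun j B =>
    vq_pf hMs hqf hMV c v w j B
  have hvac : ∀ α A, ∑ B, ((Om A B : ℝ) : ℂ) • θ α B =
      (Complex.I * (S.κ : ℂ)) • ∑ B, ∑ k, ((D k A B : ℝ) : ℂ) • vqE θ (S.g k) B α := by
    intro α A
    have h : S.Lth φ D Om (α, A) v = 0 := hv (α, A)
    have h1 : S.Lth φ D Om (α, A) v = (1 / 2 : ℂ) • (∑ B, ((Om A B : ℝ) : ℂ) • θ α B -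
        (Complex.I * (S.κ : ℂ)) • ∑ B, ∑ k, ((D k A B : ℝ) : ℂ) • vqE θ (S.g k) B α) := by
      have e1 : S.Lth φ D Om (α, A) v = ∑ γ, ∑ B, ((1 / 2 : ℂ) *
          ((if α = γ then ((Om A B : ℝ) : ℂ) else 0) - Complex.I * ((S.κ : ℂ) *
            ∑ i, S.g i α γ * ((D i A B : ℝ) : ℂ)))) • θ γ B := by
        simp only [Setup.Lth, _root_.sum_apply, _root_.smul_apply, Fintype.sum_prod_type]
        rfl
      rw [e1]
      simp only [mul_sub, sub_smul, Finset.sum_sub_distrib, smul_sub]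
      congr 1
      · rw [Finset.sum_comm, Finset.smul_sum]
        refine Finset.sum_congr rfl fun B _ => ?_
        simp only [mul_ite, mul_zero, ite_smul, zero_smul, Finset.sum_ite_eq, Finset.mem_univ, if_true]
        rw [mul_smul]
      · simp only [vqE, Finset.mul_sum, Finset.sum_smul, Finset.smul_sum, smul_smul]
        rw [Finset.sum_comm]
        refine Finset.sum_congr rfl fun B _ => ?_
        rw [Finset.sum_comm]
        refine Finset.sum_congr rfl fun k _ => Finset.sum_congr rfl fun γ _ => ?_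
        congr 1
        ring
    rw [h1] at h
    exact sub_eq_zero.1 ((smul_eq_zero.1 h).resolve_left (by norm_num))
  have h2 : ∀ B, ∑ C, (((D 8)⁻¹ B C : ℝ) : ℂ) • ∑ j : Fin 8, ∑ E, ((D j.castSucc C E : ℝ) : ℂ) •
      ((-G * (Om *ᵥ VV D w j.castSucc) E : ℝ) : ℂ) • v =
      ((G * (Om *ᵥ VV D w 8) B : ℝ) : ℂ) • v := by
    intro B
    have k1 : ∑ j : Fin 8, tI D j.castSucc *ᵥ (Om *ᵥ VV D w j.castSucc) =
        -(Om *ᵥ VV D w 8) := by
      have h3 := hTV w
      rw [Fin.sum_univ_castSucc] at h3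
      have h8 : (Fin.last 8 : Fin 9) = 8 := rfl
      rw [h8, hT8, Matrix.one_mulVec] at h3
      have e : ∀ j : Fin 8, tI D j.castSucc *ᵥ (Om *ᵥ VV D w j.castSucc) =
          Om *ᵥ (tI D j.castSucc *ᵥ VV D w j.castSucc) := by
        intro j
        rw [Matrix.mulVec_mulVec, hTO, ← Matrix.mulVec_mulVec]
      simp only [e]
      rw [← Matrix.mulVec_sum, eq_neg_of_add_eq_zero_left h3, Matrix.mulVec_neg]
    have k2 : ∑ C, (D 8)⁻¹ B C * ∑ j : Fin 8, ∑ E, D j.castSucc C E *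
        (-G * (Om *ᵥ VV D w j.castSucc) E) = G * (Om *ᵥ VV D w 8) B := by
      have h3 := congrFun k1 B
      have e : (∑ j : Fin 8, tI D j.castSucc *ᵥ (Om *ᵥ VV D w j.castSucc)) B =
          ∑ j : Fin 8, ∑ E, ∑ C, (D 8)⁻¹ B C * D j.castSucc C E * (Om *ᵥ VV D w j.castSucc) E := by
        rw [Finset.sum_apply]
        refine Finset.sum_congr rfl fun j _ => ?_
        rw [Matrix.mulVec, dotProduct]
        refine Finset.sum_congr rfl fun E _ => ?_
        rw [tI, Matrix.mul_apply, Finset.sum_mul]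
      rw [e, Pi.neg_apply] at h3
      have e2 : ∑ C, (D 8)⁻¹ B C * ∑ j : Fin 8, ∑ E, D j.castSucc C E *
          (-G * (Om *ᵥ VV D w j.castSucc) E) =
          -G * ∑ j : Fin 8, ∑ E, ∑ C, (D 8)⁻¹ B C * D j.castSucc C E *
            (Om *ᵥ VV D w j.castSucc) E := by
        simp only [Finset.mul_sum]
        rw [Finset.sum_comm]
        refine Finset.sum_congr rfl fun j _ => ?_
        rw [Finset.sum_comm]
        refine Finset.sum_congr rfl fun E _ => Finset.sum_congr rfl fun C _ => ?_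
        ring
      rw [e2, h3]
      ring
    rw [← k2]
    simp only [Complex.ofReal_sum, Complex.ofReal_mul, Finset.sum_smul, Finset.smul_sum, smul_smul,
      Finset.mul_sum]
  have hpot : ∀ B, ∑ i, ∑ j, ((S.κ * ((∑ C, D i B C * wt w j C) - ∑ C, D j B C * wt w i C) : ℝ) : ℂ) •
      S.vec (S.g2 i j) (φ (Sum.inr B)) β (((G : ℝ) : ℂ) • v) =
      (2 * (S.κ : ℂ) * (G : ℂ)) • ∑ i, ∑ j, (((D i *ᵥ VV D w j) B : ℝ) : ℂ) •
        vqE θ (S.g i * S.g j) B β := by
    intro B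
    have ha : ∑ i, (D i *ᵥ VV D w i) B = 0 := by
      have := congrFun (hDV w) B
      rwa [Finset.sum_apply] at this
    have h3 := vq_two (θ := θ) S.g_anti (a := fun i j => (D i *ᵥ VV D w j) B) ha B β
    have e : ∀ i j, ((S.κ * ((∑ C, D i B C * wt w j C) - ∑ C, D j B C * wt w i C) : ℝ) : ℂ) •
        S.vec (S.g2 i j) (φ (Sum.inr B)) β (((G : ℝ) : ℂ) • v) =
        ((S.κ : ℂ) * (G : ℂ)) • (((((D i *ᵥ VV D w j) B - (D j *ᵥ VV D w i) B : ℝ)) : ℂ) •
          vqE θ ((1 / 2 : ℂ) • (S.g i * S.g j - S.g j * S.g i)) B β) := by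
      intro i j
      have h4 := congrFun (hFL w i j) B
      have h5 : (∑ C, D i B C * wt w j C) - ∑ C, D j B C * wt w i C =
          (D i *ᵥ VV D w j) B - (D j *ᵥ VV D w i) B := h4
      rw [h5, map_smul, hvec]
      have h6 : S.g2 i j = (1 / 2 : ℂ) • (S.g i * S.g j - S.g j * S.g i) := rfl
      rw [h6]
      simp only [smul_smul, Complex.ofReal_mul]
      congr 1
      ring
    simp only [e, ← Finset.smul_sum]
    rw [h3]
    simp only [smul_smul]
    congr 1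
    ring
  unfold Setup.q1
  simp only [hpf]
  simp only [h2, ← hG, hpot]
  simp only [map_smul, hvec]
  have hX : ∀ i, ∑ B, (((Om *ᵥ VV D w i) B : ℝ) : ℂ) • vqE θ (S.g i) B β =
      -((Complex.I * (S.κ : ℂ)) • ∑ B, ∑ k, (((D k *ᵥ VV D w i) B : ℝ) : ℂ) •
        vqE θ (S.g i * S.g k) B β) := fun i => vq_one hD.anti hOm.symm hvac _ i β
  have hsum : ∑ i, ∑ B, (((Om *ᵥ VV D w i) B : ℝ) : ℂ) • vqE θ (S.g i) B β =
      ∑ j : Fin 8, ∑ B, (((Om *ᵥ VV D w j.castSucc) B : ℝ) : ℂ) • vqE θ (S.g j.castSucc) B β +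
        ∑ B, (((Om *ᵥ VV D w 8) B : ℝ) : ℂ) • vqE θ (S.g 8) B β := by
    rw [Fin.sum_univ_castSucc]
    rfl
  have t1 : ∑ j : Fin 8, ∑ B, ((-G * (Om *ᵥ VV D w j.castSucc) B : ℝ) : ℂ) •
      vqE θ (S.g j.castSucc) B β = -(G : ℂ) • ∑ j : Fin 8, ∑ B,
        (((Om *ᵥ VV D w j.castSucc) B : ℝ) : ℂ) • vqE θ (S.g j.castSucc) B β := by
    simp only [Finset.smul_sum, smul_smul]
    refine Finset.sum_congr rfl fun j _ => Finset.sum_congr rfl fun B _ => ?_
    congr 1
    push_cast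
    ring
  have t2 : ∑ B, ((G * (Om *ᵥ VV D w 8) B : ℝ) : ℂ) • vqE θ (S.g 8) B β =
      (G : ℂ) • ∑ B, (((Om *ᵥ VV D w 8) B : ℝ) : ℂ) • vqE θ (S.g 8) B β := by
    simp only [Finset.smul_sum, smul_smul]
    refine Finset.sum_congr rfl fun B _ => ?_
    congr 1
    push_cast
    ring
  have hfin : ∑ i, ∑ B, ∑ k, (((D k *ᵥ VV D w i) B : ℝ) : ℂ) • vqE θ (S.g i * S.g k) B β +
      ∑ B, ∑ i, ∑ j, (((D i *ᵥ VV D w j) B : ℝ) : ℂ) • vqE θ (S.g i * S.g j) B β = 0 := by
    have e1 : ∑ i, ∑ B, ∑ k, (((D k *ᵥ VV D w i) B : ℝ) : ℂ) • vqE θ (S.g i * S.g k) B β =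
        ∑ B, ∑ i, ∑ j, (((D i *ᵥ VV D w j) B : ℝ) : ℂ) • vqE θ (S.g j * S.g i) B β := by
      rw [Finset.sum_comm]
      refine Finset.sum_congr rfl fun B _ => ?_
      rw [Finset.sum_comm]
    rw [e1, ← Finset.sum_add_distrib]
    refine Finset.sum_eq_zero fun B _ => ?_
    rw [← Finset.sum_add_distrib]
    have e2 : ∀ i, (∑ j, (((D i *ᵥ VV D w j) B : ℝ) : ℂ) • vqE θ (S.g j * S.g i) B β) +
        (∑ j, (((D i *ᵥ VV D w j) B : ℝ) : ℂ) • vqE θ (S.g i * S.g j) B β) =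
        (((D i *ᵥ VV D w i) B : ℝ) : ℂ) • vqE θ 2 B β := by
      intro i
      rw [← Finset.sum_add_distrib]
      have e3 : ∀ j, (((D i *ᵥ VV D w j) B : ℝ) : ℂ) • vqE θ (S.g j * S.g i) B β +
          (((D i *ᵥ VV D w j) B : ℝ) : ℂ) • vqE θ (S.g i * S.g j) B β =
          if i = j then (((D i *ᵥ VV D w j) B : ℝ) : ℂ) • vqE θ 2 B β else 0 := by
        intro j
        rw [← smul_add, ← vqE_add, add_comm (S.g j * S.g i), S.g_anti]
        by_cases hij : i = j
        · simp only [hij, if_true]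
        · simp only [hij, if_false]
          rw [vqE_zero, smul_zero]
      simp only [e3, Finset.sum_ite_eq, Finset.mem_univ, if_true]
    simp only [e2]
    rw [← Finset.sum_smul, ← Complex.ofReal_sum]
    have := congrFun (hDV w) B
    rw [Finset.sum_apply] at this
    rw [this]
    simp
  have hW : (∑ j : Fin 8, ∑ B, (((Om *ᵥ VV D w j.castSucc) B : ℝ) : ℂ) • vqE θ (S.g j.castSucc) B β) +
        ∑ B, (((Om *ᵥ VV D w 8) B : ℝ) : ℂ) • vqE θ (S.g 8) B β =
      -((Complex.I * (S.κ : ℂ)) • ∑ i, ∑ B, ∑ k, (((D k *ᵥ VV D w i) B : ℝ) : ℂ) •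
        vqE θ (S.g i * S.g k) B β) := by
    rw [← hsum]
    simp only [hX, Finset.sum_neg_distrib, ← Finset.smul_sum]
  rw [t1, t2, ← Finset.smul_sum]
  generalize (∑ j : Fin 8, ∑ B, (((Om *ᵥ VV D w j.castSucc) B : ℝ) : ℂ) •
    vqE θ (S.g j.castSucc) B β) = X1 at hW ⊢
  generalize (∑ B, (((Om *ᵥ VV D w 8) B : ℝ) : ℂ) • vqE θ (S.g 8) B β) = X2 at hW ⊢
  generalize (∑ i, ∑ B, ∑ k, (((D k *ᵥ VV D w i) B : ℝ) : ℂ) •
    vqE θ (S.g i * S.g k) B β) = W at hW hfin
  generalize (∑ B, ∑ i, ∑ j, (((D i *ᵥ VV D w j) B : ℝ) : ℂ) •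
    vqE θ (S.g i * S.g j) B β) = P at hfin ⊢
  have hP : P = -W := by rw [eq_neg_iff_add_eq_zero, add_comm]; exact hfin
  calc -Complex.I • -(G : ℂ) • X1 + Complex.I • (G : ℂ) • X2 +
        (1 / 2 : ℂ) • (2 * (S.κ : ℂ) * (G : ℂ)) • P
      = (Complex.I * (G : ℂ)) • (X1 + X2) + ((S.κ : ℂ) * (G : ℂ)) • P := by module
    _ = (-(Complex.I * Complex.I) - 1) • ((S.κ : ℂ) * (G : ℂ)) • W := by
        rw [hW, hP]
        module
    _ = 0 := by
        rw [Complex.I_mul_I]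
        simp

end Vale.Agent.P353.Z.AE
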